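/- Packed by merge_tool.py (helper293): 6 modules of Claimed.Agent.R258 in one file, same declarations.
   Old modules, in this order: Max.Defs, Defs, Max.Basic, Max.BasicB, Max.Cover, Max.Strong -/
import Mathlib

/- ===== packed: Claimed.Agent.R258.Max.Defs ===== -/
section
/-
Row 258, block [MAX] (architect helper192).  DEFINITIONS.

Uncentered maximal operators on the real line, with respect to an arbitrary Borel measure `μ`
(`mxMax μ`), the Hardy-Littlewood operator `mxM = mxMax volume`, the power version `mxMq`,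
Muckenhoupt classes `MxAp p A v` (constant at most `A`), `MxA1 A v`, and the maximal operator of a
family of sets (`mxLam`, used for dyadic / hull maximal functions).

Everything is `ℝ≥0∞`-valued: no integrability side conditions are needed anywhere.
Conventions: an interval of `μ`-measure `0` or `∞` contributes the average `0`
(`⊤ * 0 = 0`, `⊤⁻¹ = 0`).
-/
set_option autoImplicit false

open MeasureTheory Set
open scoped ENNReal NNReal

namespace Claimed.Agent.R258

/-- Uncentered maximal operator on `ℝ` with respect to `μ` (sup over OPEN intervals containing `x`). -/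
noncomputable def mxMax (μ : Measure ℝ) (f : ℝ → ℝ≥0∞) (x : ℝ) : ℝ≥0∞ :=
  ⨆ (a : ℝ) (b : ℝ) (_ : x ∈ Ioo a b), (μ (Ioo a b))⁻¹ * ∫⁻ y in Ioo a b, f y ∂μ

/-- Uncentered Hardy-Littlewood maximal operator on `ℝ`. -/
noncomputable def mxM (f : ℝ → ℝ≥0∞) (x : ℝ) : ℝ≥0∞ := mxMax volume f x

/-- `M_q f = (M (f^q))^(1/q)` for `ℝ≥0∞`-valued `f`. -/
noncomputable def mxMqE (q : ℝ) (f : ℝ → ℝ≥0∞) (x : ℝ) : ℝ≥0∞ :=
  (mxM (fun y => f y ^ q) x) ^ (1 / q)

/-- `M_q f = (M (‖f‖^q))^(1/q)` for functions with values in a normed group. -/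
noncomputable def mxMq {E : Type*} [ENorm E] (q : ℝ) (f : ℝ → E) (x : ℝ) : ℝ≥0∞ :=
  mxMqE q (fun y => ‖f y‖ₑ) x

/-- The dual weight `σ = v^(-1/(p-1)) = v^(1-p')`. -/
noncomputable def mxDual (p : ℝ) (v : ℝ → ℝ≥0∞) (x : ℝ) : ℝ≥0∞ := v x ^ (-1 / (p - 1))

/-- `v ∈ A_p(ℝ)` with `[v]_{A_p} ≤ A`. -/
structure MxAp (p : ℝ) (A : ℝ≥0) (v : ℝ → ℝ≥0∞) : Prop where
  meas : Measurable v
  pos : ∀ᵐ x, v x ≠ 0
  fin : ∀ᵐ x, v x ≠ ⊤
  bound : ∀ a b : ℝ, a < b →
    (∫⁻ y in Ioo a b, v y) * (∫⁻ y in Ioo a b, mxDual p v y) ^ (p - 1)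
      ≤ A * ENNReal.ofReal (b - a) ^ p

/-- `v ∈ A_1(ℝ)` with `[v]_{A_1} ≤ A`, in the form `M v ≤ A v` almost everywhere. -/
structure MxA1 (A : ℝ≥0) (v : ℝ → ℝ≥0∞) : Prop where
  meas : Measurable v
  pos : ∀ᵐ x, v x ≠ 0
  fin : ∀ᵐ x, v x ≠ ⊤
  bound : ∀ᵐ x, mxM v x ≤ A * v x

/-- Maximal operator of a family `D` of sets (dyadic cells, hull cells, ...) in a measure space. -/
noncomputable def mxLam {α : Type*} [MeasurableSpace α] (μ : Measure α) (D : Set (Set α))
    (f : α → ℝ≥0∞) (x : α) : ℝ≥0∞ :=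
  ⨆ (I : Set α) (_ : I ∈ D) (_ : x ∈ I), (μ I)⁻¹ * ∫⁻ y in I, f y ∂μ

/-- A laminar (nested) family: two members are nested or disjoint. -/
def MxLaminar {α : Type*} (D : Set (Set α)) : Prop :=
  ∀ I ∈ D, ∀ J ∈ D, I ⊆ J ∨ J ⊆ I ∨ Disjoint I J

/-- Strong type constant of `mxMax μ` on `L^p(μ)`: `∫ (M_μ f)^p dμ ≤ mxCp p * ∫ f^p dμ`. -/
noncomputable def mxCp (p : ℝ) : ℝ≥0 := Real.toNNReal (2 ^ (p + 1) * p / (p - 1))

/-- Conjugate exponent `p' = p/(p-1)`. -/
noncomputable def mxConj (p : ℝ) : ℝ := p / (p - 1)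

/-- Constant of the weighted maximal theorem:
`∫ (M f)^p v ≤ mxCw p A * ∫ f^p v` for `MxAp p A v`. -/
noncomputable def mxCw (p : ℝ) (A : ℝ≥0) : ℝ≥0 := A ^ (mxConj p) * mxCp (mxConj p) * mxCp p

end Claimed.Agent.R258
end

/- ===== packed: Claimed.Agent.R258.Defs ===== -/
section
/-
Row 258 (S0498, trilinear Hilbert transform).  CORE DEFINITIONS (captain: helper244).
Paper: An-L3-bound-for-the-trilinear-Hilbert-transform, Sec. 2 (outer.tex) and Sec. 3.2 (compression.tex).

Conventions fixed here (everybody uses them):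
* only the STANDARD dyadic grid `[m 2^{-s}, (m+1) 2^{-s})`, `s m : ℤ`, occurs in Secs. 3-10; a general lattice
  restricted to finitely many depths is an affine image of it, and this transfer is done once, in Sec. 2.
* scalar inputs are bounded measurable compactly supported functions (`BddCS`).
* kernels are functions on `ℝ × ℝ` (first coordinate `x`, second `t`).
* the value Hilbert space is `HV = ℓ²(ℕ)`: coordinate `0` is the physical one, label `v` owns coordinate `v+1`.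
-/
set_option autoImplicit false
open MeasureTheory
open scoped ENNReal ContDiff

namespace Claimed.Agent.R258

/-! ## Dyadic cells -/

/-- The standard dyadic cell `[idx * 2^(-depth), (idx+1) * 2^(-depth))`. Depth increases when the length is halved. -/
@[ext] structure Cell where
  depth : ℤ
  idx : ℤ
deriving DecidableEq

namespace Cell

/-- length `2^(-depth)` -/
noncomputable def len (I : Cell) : ℝ := (2 : ℝ) ^ (-I.depth)
noncomputable def left (I : Cell) : ℝ := (I.idx : ℝ) * I.len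
noncomputable def right (I : Cell) : ℝ := ((I.idx : ℝ) + 1) * I.len
/-- the half-open interval -/
def set (I : Cell) : Set ℝ := Set.Ico I.left I.right
/-- `n`-th ancestor -/
def anc (I : Cell) (n : ℕ) : Cell := ⟨I.depth - n, I.idx / 2 ^ n⟩
/-- the two children, `b = 0, 1` -/
def child (I : Cell) (b : Fin 2) : Cell := ⟨I.depth + 1, 2 * I.idx + (b : ℤ)⟩
/-- `I ≤ J` iff `I ⊆ J` as intervals iff `J` is an ancestor of `I` (or `I` itself). -/
instance : LE Cell := ⟨fun I J => ∃ n : ℕ, I.anc n = J⟩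
instance : LT Cell := ⟨fun I J => ∃ n : ℕ, 0 < n ∧ I.anc n = J⟩
/-- the cell of depth `s` containing the point `y` -/
noncomputable def atPt (s : ℤ) (y : ℝ) : Cell := ⟨s, ⌊y * (2 : ℝ) ^ s⌋⟩

end Cell

/-! ## Kernels, local forms, normalized norms (Sec. 2) -/

/-- Admissible kernel on the cell `I` with the fixed admissibility parameters `c0 > 0`, `C0 ≥ 1`. -/
structure Admissible (c0 C0 : ℝ) (I : Cell) (w : ℝ × ℝ → ℂ) : Prop where
  smooth : ContDiff ℝ ∞ w
  supp : ∀ p : ℝ × ℝ, w p ≠ 0 → ∀ j : Fin 4,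
    I.left + c0 * I.len ≤ p.1 + (j : ℝ) * p.2 ∧ p.1 + (j : ℝ) * p.2 ≤ I.right - c0 * I.len
  marg : ∀ (u : ℝ) (j : Fin 4), ∫ t : ℝ, w (u - (j : ℝ) * t, t) = 0
  deriv : ∀ (n : ℕ) (p : ℝ × ℝ),
    ‖iteratedFDeriv ℝ n w p‖ ≤ (I.len ^ n)⁻¹ * (C0 * ((n : ℝ) + 2)) ^ (C0 * ((n : ℝ) + 2))

/-- The local form `H_I(z_0,z_1,z_2,z_3) = |I|^{-2} ∫∫ w(x,t) ∏_j z_j(x+jt) dx dt`. -/
noncomputable def form (I : Cell) (w : ℝ × ℝ → ℂ) (z : Fin 4 → ℝ → ℂ) : ℂ :=
  ((I.len ^ 2)⁻¹ : ℝ) * ∫ p : ℝ × ℝ, w p * ∏ j : Fin 4, z j (p.1 + (j : ℝ) * p.2)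

/-- Normalized `L^p(I)` norm `(⨍_I ‖f‖^p)^{1/p}` (real `p ≥ 1`). -/
noncomputable def nnorm {E : Type*} [NormedAddCommGroup E] (p : ℝ) (I : Cell) (f : ℝ → E) : ℝ :=
  (I.len⁻¹ * ∫ y in I.set, ‖f y‖ ^ p) ^ (1 / p)

/-- Normalized sup norm on `I` (essential supremum is NOT used: plain supremum bound predicate). -/
def SupLe {E : Type*} [NormedAddCommGroup E] (I : Cell) (f : ℝ → E) (B : ℝ) : Prop :=
  ∀ y ∈ I.set, ‖f y‖ ≤ B

/-- The input class: bounded, measurable, compactly supported. -/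
structure BddCS (f : ℝ → ℂ) : Prop where
  meas : Measurable f
  bdd : ∃ B : ℝ, ∀ x, ‖f x‖ ≤ B
  supp : ∃ R : ℝ, ∀ x, R < |x| → f x = 0

/-- `M_q f = (M |f|^q)^{1/q}`, `M` = uncentered Hardy-Littlewood maximal operator: this is `mxMq` of block [MAX]
(`R258/Max/Defs.lean`, helper192). -/
noncomputable abbrev Mq (q : ℝ) (f : ℝ → ℂ) (x : ℝ) : ℝ≥0∞ := mxMq q f x

/-- `LocalBound c0 C0 q N C` says `C_N(q) ≤ C` (on the standard grid). -/
def LocalBound (c0 C0 q : ℝ) (N : ℕ) (C : ℝ) : Prop :=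
  ∀ (S : Finset Cell) (s0 : ℤ), (∀ I ∈ S, s0 ≤ I.depth ∧ I.depth < s0 + N) →
  ∀ (w : Cell → ℝ × ℝ → ℂ), (∀ I ∈ S, Admissible c0 C0 I (w I)) →
  ∀ (f : Fin 4 → ℝ → ℂ), (∀ j, BddCS (f j)) →
    ENNReal.ofReal (∑ I ∈ S, I.len * ‖form I (w I) f‖) ≤
      ENNReal.ofReal C * ∫⁻ x : ℝ, ∏ j : Fin 4, Mq q (f j) x

/-- A finite rooted subtree: all cells lie in the root and all intermediate ancestors belong to it. -/
structure RootedTree (root : Cell) (T : Finset Cell) : Prop where
  root_mem : root ∈ T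
  le_root : ∀ I ∈ T, I ≤ root
  conv : ∀ I ∈ T, ∀ J : Cell, I ≤ J → J ≤ root → J ∈ T

/-- The conclusion of Proposition 2.3 with constant `X` in place of `A + c C_N`. -/
def NormalizedBound (c0 C0 q : ℝ) (N : ℕ) (X : ℝ) : Prop :=
  ∀ (root : Cell) (T S : Finset Cell), RootedTree root T → S ⊆ T →
  ∀ (s0 : ℤ), (∀ I ∈ S, s0 ≤ I.depth ∧ I.depth < s0 + N) →
  ∀ (w : Cell → ℝ × ℝ → ℂ), (∀ I ∈ S, Admissible c0 C0 I (w I)) →
  ∀ (f : Fin 4 → ℝ → ℂ), (∀ j, BddCS (f j)) → (∀ j, ∀ I ∈ T, nnorm q I (f j) ≤ 1) →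
    ∑ I ∈ S, I.len * ‖form I (w I) f‖ ≤ X * root.len

/-! ## The augmented Hilbert space and columns (Sec. 3.2) -/

/-- value Hilbert space `ℂ ⊕ ℓ²(labels)`: coordinate `0` physical, label `v` ↦ coordinate `v + 1`. -/
abbrev HV : Type := lp (fun _ : ℕ => ℂ) 2
/-- `L²(ℝ; HV)` -/
abbrev XV : Type := Lp HV 2 (volume : Measure ℝ)

/-- physical coordinate -/
def phys (z : HV) : ℂ := z 0
/-- embedding of a scalar as a physical vector -/
noncomputable def ofPhys (c : ℂ) : HV := lp.single 2 0 c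
/-- private unit vector of the label `v` -/
noncomputable def priv (v : ℕ) : HV := lp.single 2 (v + 1) 1

/-- A column: label, birth cell, scalar function, private weight `eps > 0`. -/
structure Col where
  lab : ℕ
  birth : Cell
  phi : ℝ → ℂ
  eps : ℝ

/-- `Φ_v(y) = (φ_v(y), √ε_v e_v)` -/
noncomputable def Col.fn (Φ : Col) (y : ℝ) : HV := ofPhys (Φ.phi y) + (Real.sqrt Φ.eps : ℂ) • priv Φ.lab

open Classical in
/-- a function `ℝ → HV` as an element of `XV` (junk value `0` if it is not in `L²`) -/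
noncomputable def toXV (F : ℝ → HV) : XV := if h : MemLp F 2 volume then h.toLp F else 0

/-- the column restricted to the cell `I`, as an element of `L²(ℝ;HV)` -/
noncomputable def Col.vec (Φ : Col) (I : Cell) : XV := toXV (I.set.indicator Φ.fn)

/-- an actual scalar input `F = (f,0)` -/
noncomputable def ofScalar (f : ℝ → ℂ) : XV := toXV (fun y => ofPhys (f y))

open Classical in
/-- span of the restrictions to `I` of a finite set of columns -/
noncomputable def colSpan (A : Finset Col) (I : Cell) : Submodule ℂ XV :=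
  Submodule.span ℂ ((A.image fun Φ => Φ.vec I : Finset XV) : Set XV)

instance (A : Finset Col) (I : Cell) : FiniteDimensional ℂ (colSpan A I) := by
  unfold colSpan; infer_instance

/-- `P_{I,A}`: the orthogonal projection of `L²(ℝ;HV)` onto the constant-coefficient combinations of the columns of
`A` restricted to `I` (input automatically restricted to `I`, output extended by zero). -/
noncomputable def cproj (A : Finset Col) (I : Cell) : XV →L[ℂ] XV := (colSpan A I).starProjection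

/-- multiplication by the indicator of a measurable set, as an operator on `L²(ℝ;HV)` (orthogonal projection onto
the functions vanishing a.e. off `E`) -/
noncomputable def restr (E : Set ℝ) : XV →L[ℂ] XV :=
  (Submodule.topologicalClosure
    (Submodule.span ℂ {F : XV | ∀ᵐ y ∂(volume : Measure ℝ), y ∉ E → (F : ℝ → HV) y = 0})).starProjection

end Claimed.Agent.R258
end

/- ===== packed: Claimed.Agent.R258.Max.Basic ===== -/
section
/-
Row 258, block [MAX], package P-MAX-BASIC (architect helper192).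

Elementary properties of the uncentered maximal operators `mxMax μ`, `mxM`, `mxMqE`, `mxMq`.
All statements are `ℝ≥0∞`-valued and need no integrability.

PROOF NOTES.
* Everything up to `mxMax_iSup` is `iSup_le` / `le_iSup_of_le` plus the corresponding property of
  `lintegral` on `μ.restrict (Ioo a b)` (`lintegral_mono_ae`, `lintegral_add_left'`,
  `lintegral_const_mul''`, `lintegral_tsum`, `lintegral_iSup'`), and `ENNReal.mul_iSup`,
  `ENNReal.inv_mul_le_one`-type facts for constants.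
* lower semicontinuity: `{x | c < mxMax μ f x}` is the union of the intervals `Ioo a b` whose average
  exceeds `c` (`lt_iSup_iff`).
-/
set_option autoImplicit false

open MeasureTheory Set
open scoped ENNReal NNReal

namespace Claimed.Agent.R258

variable {μ : Measure ℝ} {f g : ℝ → ℝ≥0∞}

theorem mx_avg_le (μ : Measure ℝ) (f : ℝ → ℝ≥0∞) {a b x : ℝ} (hx : x ∈ Ioo a b) :
    (μ (Ioo a b))⁻¹ * ∫⁻ y in Ioo a b, f y ∂μ ≤ mxMax μ f x := by
  unfold mxMax
  exact le_iSup_of_le a (le_iSup_of_le b (le_iSup_of_le hx le_rfl))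

theorem mxMax_le_iff (μ : Measure ℝ) (f : ℝ → ℝ≥0∞) (x : ℝ) (c : ℝ≥0∞) :
    mxMax μ f x ≤ c ↔
      ∀ a b : ℝ, x ∈ Ioo a b → (μ (Ioo a b))⁻¹ * ∫⁻ y in Ioo a b, f y ∂μ ≤ c := by
  unfold mxMax
  simp only [iSup_le_iff]

theorem mx_lt_mxMax_iff (μ : Measure ℝ) (f : ℝ → ℝ≥0∞) (x : ℝ) (c : ℝ≥0∞) :
    c < mxMax μ f x ↔
      ∃ a b : ℝ, x ∈ Ioo a b ∧ c < (μ (Ioo a b))⁻¹ * ∫⁻ y in Ioo a b, f y ∂μ := by
  unfold mxMax
  simp only [lt_iSup_iff, exists_prop]

theorem mxMax_mono_ae (h : f ≤ᵐ[μ] g) (x : ℝ) : mxMax μ f x ≤ mxMax μ g x := by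
  rw [mxMax_le_iff]
  intro a b hx
  refine le_trans ?_ (mx_avg_le μ g hx)
  exact mul_le_mul_right (lintegral_mono_ae (ae_restrict_of_ae h)) _

theorem mxMax_mono (h : ∀ y, f y ≤ g y) (x : ℝ) : mxMax μ f x ≤ mxMax μ g x :=
  mxMax_mono_ae (Filter.Eventually.of_forall h) x

theorem mxMax_congr_ae (h : f =ᵐ[μ] g) : mxMax μ f = mxMax μ g := by
  ext x
  exact le_antisymm (mxMax_mono_ae h.le x) (mxMax_mono_ae h.symm.le x)

theorem mxMax_le_of_ae_le {c : ℝ≥0∞} (h : ∀ᵐ y ∂μ, f y ≤ c) (x : ℝ) : mxMax μ f x ≤ c := by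
  rw [mxMax_le_iff]
  intro a b _
  calc (μ (Ioo a b))⁻¹ * ∫⁻ y in Ioo a b, f y ∂μ
      ≤ (μ (Ioo a b))⁻¹ * ∫⁻ _y in Ioo a b, c ∂μ :=
        mul_le_mul_right (lintegral_mono_ae (ae_restrict_of_ae h)) _
    _ = ((μ (Ioo a b))⁻¹ * μ (Ioo a b)) * c := by
        rw [setLIntegral_const]
        ring
    _ ≤ 1 * c := mul_le_mul_left (ENNReal.inv_mul_le_one _) _
    _ = c := one_mul c

theorem mxMax_zero (x : ℝ) : mxMax μ (fun _ => 0) x = 0 :=
  le_antisymm (mxMax_le_of_ae_le (Filter.Eventually.of_forall fun _ => le_rfl) x) zero_le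

theorem mxMax_add_le (hf : AEMeasurable f μ) (x : ℝ) :
    mxMax μ (fun y => f y + g y) x ≤ mxMax μ f x + mxMax μ g x := by
  rw [mxMax_le_iff]
  intro a b hx
  rw [lintegral_add_left' hf.restrict, mul_add]
  exact add_le_add (mx_avg_le μ f hx) (mx_avg_le μ g hx)

theorem mxMax_const_mul (hf : AEMeasurable f μ) (c : ℝ≥0∞) (x : ℝ) :
    mxMax μ (fun y => c * f y) x = c * mxMax μ f x := by
  unfold mxMax
  simp only [ENNReal.mul_iSup]
  refine iSup_congr fun a => iSup_congr fun b => iSup_congr fun _ => ?_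
  rw [lintegral_const_mul'' _ hf.restrict]
  ring

theorem mxMax_tsum_le (F : ℕ → ℝ → ℝ≥0∞) (hF : ∀ n, AEMeasurable (F n) μ) (x : ℝ) :
    mxMax μ (fun y => ∑' n, F n y) x ≤ ∑' n, mxMax μ (F n) x := by
  rw [mxMax_le_iff]
  intro a b hx
  rw [lintegral_tsum fun n => (hF n).restrict, ← ENNReal.tsum_mul_left]
  exact ENNReal.tsum_le_tsum fun n => mx_avg_le μ (F n) hx

theorem mxMax_iSup (F : ℕ → ℝ → ℝ≥0∞) (hF : ∀ n, AEMeasurable (F n) μ) (hmono : Monotone F)
    (x : ℝ) : mxMax μ (fun y => ⨆ n, F n y) x = ⨆ n, mxMax μ (F n) x := by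
  apply le_antisymm
  · rw [mxMax_le_iff]
    intro a b hx
    rw [lintegral_iSup' (fun n => (hF n).restrict)
      (Filter.Eventually.of_forall fun y => fun i j hij => hmono hij y), ENNReal.mul_iSup]
    exact iSup_mono fun n => mx_avg_le μ (F n) hx
  · exact iSup_le fun n => mxMax_mono (fun y => le_iSup (fun n => F n y) n) x

theorem mxMax_isOpen_lt (μ : Measure ℝ) (f : ℝ → ℝ≥0∞) (c : ℝ≥0∞) :
    IsOpen {x | c < mxMax μ f x} := by
  rw [isOpen_iff_mem_nhds]
  intro x hx
  obtain ⟨a, b, hxab, hc⟩ := (mx_lt_mxMax_iff μ f x c).1 hx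
  refine Filter.mem_of_superset (isOpen_Ioo.mem_nhds hxab) fun y hy => ?_
  exact (mx_lt_mxMax_iff μ f y c).2 ⟨a, b, hy, hc⟩

theorem mxMax_lowerSemicontinuous (μ : Measure ℝ) (f : ℝ → ℝ≥0∞) :
    LowerSemicontinuous (mxMax μ f) := by
  rw [lowerSemicontinuous_iff_isOpen_preimage]
  intro c
  exact mxMax_isOpen_lt μ f c

theorem mxMax_measurable (μ : Measure ℝ) (f : ℝ → ℝ≥0∞) : Measurable (mxMax μ f) :=
  (mxMax_lowerSemicontinuous μ f).measurable

theorem mxM_measurable (f : ℝ → ℝ≥0∞) : Measurable (mxM f) :=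
  mxMax_measurable volume f

end Claimed.Agent.R258
end

/- ===== packed: Claimed.Agent.R258.Max.BasicB ===== -/
section
/-
Row 258, block [MAX], package P-MAX-BASIC-B (architect helper192).

Further elementary properties of `mxM`, `mxMqE`, `mxMq`: rational intervals, joint measurability in parameters, averages over
closed / half-open intervals, positivity, the power versions.

PROOF NOTES.
* `mxM_eq_rat`: for real `a < x < b` pick rational sequences `a_n ↓ a`, `b_n ↑ b` inside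
  (`exists_seq_strictAnti_tendsto`, density of `ℚ`), or simply write `Ioo a b` as the directed union of
  all rational subintervals containing `x`; monotone convergence for the integrals, and
  `(b_n - a_n)⁻¹ ≥ (b - a)⁻¹`: no limit of lengths is needed.
* `mxM_measurable_param`: by `mxM_eq_rat` a countable supremum of functions
  `(x, z) ↦ 1_{Ioo a b}(x) * const * ∫⁻ y in Ioo a b, g y z` (`Measurable.lintegral_prod_left'`...).
* `mx_avg_set_le`: `lintegral_mono_set`, then the intervals `Ioo (a - ε) (b + ε)`, `ε → 0`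
  (`ENNReal.Tendsto.mul_const`, continuity of `⁻¹` and `ENNReal.ofReal`), `le_of_tendsto`.
* `mxM_pos`: some `Ioo (-n) n ∋ x` has `∫⁻ y in Ioo (-n) n, f y ≠ 0` (continuity from below of the measure
  `volume.withDensity f`, valid for arbitrary `f`).
* power versions: `ENNReal.mul_rpow_of_nonneg`, `ENNReal.rpow_le_rpow`, `ENNReal.rpow_mul`, `enorm_smul`.
-/
set_option autoImplicit false

open MeasureTheory Set
open scoped ENNReal NNReal

namespace Claimed.Agent.R258

variable {μ : Measure ℝ} {f g : ℝ → ℝ≥0∞}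

theorem mx_iUnion_Ioo_shrink (a b : ℝ) :
    (⋃ n : ℕ, Ioo (a + 1 / ((n : ℝ) + 1)) (b - 1 / ((n : ℝ) + 1))) = Ioo a b := by
  ext y
  simp only [mem_iUnion, mem_Ioo]
  constructor
  · rintro ⟨n, h1, h2⟩
    have : (0 : ℝ) < 1 / ((n : ℝ) + 1) := by positivity
    constructor <;> linarith
  · rintro ⟨h1, h2⟩
    obtain ⟨n, hn⟩ := exists_nat_one_div_lt (lt_min (sub_pos.mpr h1) (sub_pos.mpr h2))
    have h3 := lt_min_iff.mp hn
    exact ⟨n, by linarith [h3.1], by linarith [h3.2]⟩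

theorem mx_monotone_Ioo_shrink (a b : ℝ) :
    Monotone fun n : ℕ => Ioo (a + 1 / ((n : ℝ) + 1)) (b - 1 / ((n : ℝ) + 1)) := by
  intro n m hnm
  have h : 1 / ((m : ℝ) + 1) ≤ 1 / ((n : ℝ) + 1) := Nat.one_div_le_one_div hnm
  exact Ioo_subset_Ioo (by linarith) (by linarith)

/-- Rational intervals suffice. -/
theorem mxM_eq_rat (f : ℝ → ℝ≥0∞) (x : ℝ) :
    mxM f x = ⨆ (a : ℚ) (b : ℚ) (_ : x ∈ Ioo (a : ℝ) (b : ℝ)),
      (volume (Ioo (a : ℝ) (b : ℝ)))⁻¹ * ∫⁻ y in Ioo (a : ℝ) (b : ℝ), f y := by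
  apply le_antisymm
  · unfold mxM
    rw [mxMax_le_iff]
    intro a b hx
    have hν : ∀ s : Set ℝ, MeasurableSet s → ∫⁻ y in s, f y = (volume.withDensity f) s :=
      fun s hs => (withDensity_apply f hs).symm
    have hsup : (volume.withDensity f) (Ioo a b) =
        ⨆ n : ℕ, (volume.withDensity f) (Ioo (a + 1 / ((n : ℝ) + 1)) (b - 1 / ((n : ℝ) + 1))) := by
      rw [← (mx_monotone_Ioo_shrink a b).measure_iUnion, mx_iUnion_Ioo_shrink a b]
    rw [hν _ measurableSet_Ioo, hsup, ENNReal.mul_iSup]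
    refine iSup_le fun n => ?_
    have hδ : (0 : ℝ) < 1 / ((n : ℝ) + 1) := by positivity
    obtain ⟨p, hp1, hp2⟩ := exists_rat_btwn (lt_min (by linarith : a < a + 1 / ((n : ℝ) + 1)) hx.1)
    obtain ⟨q, hq1, hq2⟩ := exists_rat_btwn (max_lt (by linarith : b - 1 / ((n : ℝ) + 1) < b) hx.2)
    have hp3 := lt_min_iff.mp hp2
    have hq3 := max_lt_iff.mp hq1
    refine le_trans ?_ (le_iSup_of_le p (le_iSup_of_le q (le_iSup_of_le ⟨hp3.2, hq3.2⟩ le_rfl)))
    rw [hν _ measurableSet_Ioo]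
    exact mul_le_mul' (ENNReal.inv_le_inv.mpr (measure_mono (Ioo_subset_Ioo hp1.le hq2.le)))
      (measure_mono (Ioo_subset_Ioo hp3.1.le hq3.1.le))
  · exact iSup_le fun a => iSup_le fun b => iSup_le fun hx => mx_avg_le volume f hx

/-- Joint measurability of the maximal function of a measurable family. -/
theorem mxM_measurable_param {Z : Type*} [MeasurableSpace Z] (g : ℝ → Z → ℝ≥0∞)
    (hg : Measurable (Function.uncurry g)) :
    Measurable (fun p : ℝ × Z => mxM (fun y => g y p.2) p.1) := by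
  simp_rw [mxM_eq_rat]
  refine Measurable.iSup fun a => Measurable.iSup fun b => ?_
  classical
  have h1 : (fun p : ℝ × Z => ⨆ (_ : p.1 ∈ Ioo (a : ℝ) (b : ℝ)),
      (volume (Ioo (a : ℝ) (b : ℝ)))⁻¹ * ∫⁻ y in Ioo (a : ℝ) (b : ℝ), g y p.2) =
      Set.indicator {p : ℝ × Z | p.1 ∈ Ioo (a : ℝ) (b : ℝ)} (fun p : ℝ × Z =>
        (volume (Ioo (a : ℝ) (b : ℝ)))⁻¹ * ∫⁻ y in Ioo (a : ℝ) (b : ℝ), g y p.2) := by
    ext p
    rw [iSup_eq_if, Set.indicator_apply]
    rfl
  rw [h1]
  refine Measurable.indicator ?_ (measurable_fst measurableSet_Ioo)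
  refine Measurable.const_mul ?_ _
  have h2 : Measurable fun z : Z => ∫⁻ y in Ioo (a : ℝ) (b : ℝ), g y z :=
    Measurable.lintegral_prod_left' (μ := volume.restrict (Ioo (a : ℝ) (b : ℝ))) hg
  exact h2.comp measurable_snd

/-- Averages over arbitrary subsets of a closed interval, evaluated at any point of the closed
interval (covers `Ico`, `Ioc`, `Icc`, `Ioo`: dyadic cells of any convention). -/
theorem mx_avg_set_le (f : ℝ → ℝ≥0∞) {a b x : ℝ} (hab : a < b) (hx : x ∈ Icc a b) {S : Set ℝ}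
    (hS : S ⊆ Icc a b) :
    (ENNReal.ofReal (b - a))⁻¹ * ∫⁻ y in S, f y ≤ mxM f x := by
  have hcont : Continuous fun ε : ℝ => (ENNReal.ofReal (b - a + 2 * ε))⁻¹ :=
    continuous_inv.comp (ENNReal.continuous_ofReal.comp (by fun_prop))
  have ht1 : Filter.Tendsto (fun n : ℕ => (ENNReal.ofReal (b - a + 2 * (1 / ((n : ℝ) + 1))))⁻¹) Filter.atTop
      (nhds (ENNReal.ofReal (b - a))⁻¹) := by
    have := (hcont.tendsto 0).comp (tendsto_one_div_add_atTop_nhds_zero_nat (𝕜 := ℝ))
    simp only [mul_zero, add_zero] at this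
    exact this
  have ht2 := ENNReal.Tendsto.mul_const (b := ∫⁻ y in S, f y) ht1
    (Or.inl (ENNReal.inv_ne_zero.mpr ENNReal.ofReal_ne_top))
  refine le_of_tendsto ht2 (Filter.Eventually.of_forall fun n => ?_)
  have hδ : (0 : ℝ) < 1 / ((n : ℝ) + 1) := by positivity
  set δ : ℝ := 1 / ((n : ℝ) + 1) with hδdef
  have hxI : x ∈ Ioo (a - δ) (b + δ) := ⟨by linarith [hx.1], by linarith [hx.2]⟩
  refine le_trans ?_ (mx_avg_le volume f hxI)
  have hvol : volume (Ioo (a - δ) (b + δ)) = ENNReal.ofReal (b - a + 2 * δ) := by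
    rw [Real.volume_Ioo]
    congr 1
    ring
  rw [hvol]
  refine mul_le_mul_right (lintegral_mono_set fun y hy => ?_) _
  have := hS hy
  exact ⟨by linarith [this.1], by linarith [this.2]⟩

theorem mxM_pos (f : ℝ → ℝ≥0∞) (hf : ∫⁻ y, f y ≠ 0) (x : ℝ) : 0 < mxM f x := by
  have hU : (⋃ n : ℕ, Ioo (x - ((n : ℝ) + 1)) (x + ((n : ℝ) + 1))) = univ := by
    ext y
    simp only [mem_iUnion, mem_Ioo, mem_univ, iff_true]
    obtain ⟨n, hn⟩ := exists_nat_gt |y - x|
    have := abs_lt.mp hn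
    exact ⟨n, by linarith [this.1], by linarith [this.2]⟩
  have h1 : (volume.withDensity f) univ ≠ 0 := by
    rw [withDensity_apply f MeasurableSet.univ, Measure.restrict_univ]
    exact hf
  rw [← hU] at h1
  have h2 : ∃ n : ℕ, (volume.withDensity f) (Ioo (x - ((n : ℝ) + 1)) (x + ((n : ℝ) + 1))) ≠ 0 := by
    by_contra hcon
    push Not at hcon
    exact h1 (measure_iUnion_null hcon)
  obtain ⟨n, hn⟩ := h2
  rw [withDensity_apply f measurableSet_Ioo] at hn
  have hn0 : (0 : ℝ) < (n : ℝ) + 1 := by positivity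
  have hxI : x ∈ Ioo (x - ((n : ℝ) + 1)) (x + ((n : ℝ) + 1)) := ⟨by linarith, by linarith⟩
  refine lt_of_lt_of_le ?_ (mx_avg_le volume f hxI)
  refine ENNReal.mul_pos (ENNReal.inv_ne_zero.mpr ?_) hn
  rw [Real.volume_Ioo]
  exact ENNReal.ofReal_ne_top

/-! ### the power versions -/

theorem mxMqE_measurable (q : ℝ) (f : ℝ → ℝ≥0∞) : Measurable (mxMqE q f) :=
  (mxM_measurable _).pow_const _

theorem mxMq_measurable {E : Type*} [ENorm E] (q : ℝ) (f : ℝ → E) : Measurable (mxMq q f) :=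
  mxMqE_measurable q _

theorem mxMqE_mono {q : ℝ} (hq : 0 < q) (h : ∀ᵐ y, f y ≤ g y) (x : ℝ) :
    mxMqE q f x ≤ mxMqE q g x := by
  unfold mxMqE mxM
  refine ENNReal.rpow_le_rpow (mxMax_mono_ae ?_ x) (by positivity)
  filter_upwards [h] with y hy
  exact ENNReal.rpow_le_rpow hy hq.le

theorem mxMqE_const_mul {q : ℝ} (hq : 0 < q) (hf : AEMeasurable f) (c : ℝ≥0∞) (x : ℝ) :
    mxMqE q (fun y => c * f y) x = c * mxMqE q f x := by
  unfold mxMqE mxM
  simp_rw [ENNReal.mul_rpow_of_nonneg _ _ hq.le]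
  rw [mxMax_const_mul (hf.pow_const q), ENNReal.mul_rpow_of_nonneg _ _ (by positivity : 0 ≤ 1 / q),
    ← ENNReal.rpow_mul, mul_one_div_cancel hq.ne', ENNReal.rpow_one]

theorem mxMqE_le_of_ae_le {q : ℝ} (hq : 0 < q) {c : ℝ≥0∞} (h : ∀ᵐ y, f y ≤ c) (x : ℝ) :
    mxMqE q f x ≤ c := by
  unfold mxMqE mxM
  have h1 : mxMax volume (fun y => f y ^ q) x ≤ c ^ q := by
    refine mxMax_le_of_ae_le ?_ x
    filter_upwards [h] with y hy
    exact ENNReal.rpow_le_rpow hy hq.le
  calc mxMax volume (fun y => f y ^ q) x ^ (1 / q) ≤ (c ^ q) ^ (1 / q) :=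
        ENNReal.rpow_le_rpow h1 (by positivity)
    _ = c := by rw [← ENNReal.rpow_mul, mul_one_div_cancel hq.ne', ENNReal.rpow_one]

/-- The normalised local `L^q` norm on (a subset of) an interval is at most `M_q` at each point of the
closed interval. -/
theorem mx_localNorm_le_mxMqE {q : ℝ} (hq : 0 < q) (f : ℝ → ℝ≥0∞) {a b x : ℝ} (hab : a < b)
    (hx : x ∈ Icc a b) {S : Set ℝ} (hS : S ⊆ Icc a b) :
    ((ENNReal.ofReal (b - a))⁻¹ * ∫⁻ y in S, f y ^ q) ^ (1 / q) ≤ mxMqE q f x :=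
  ENNReal.rpow_le_rpow (mx_avg_set_le _ hab hx hS) (by positivity)

/-- Scalar homogeneity of `M_q` for normed-space valued functions. -/
theorem mxMq_const_smul {𝕜 E : Type*} [NormedField 𝕜] [SeminormedAddCommGroup E] [NormedSpace 𝕜 E]
    [MeasurableSpace E] [OpensMeasurableSpace E]
    {q : ℝ} (hq : 0 < q) (f : ℝ → E) (hf : AEMeasurable f) (c : 𝕜) (x : ℝ) :
    mxMq q (fun y => c • f y) x = ‖c‖ₑ * mxMq q f x := by
  unfold mxMq
  simp_rw [enorm_smul]
  exact mxMqE_const_mul hq hf.enorm _ x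

end Claimed.Agent.R258
end

/- ===== packed: Claimed.Agent.R258.Max.Cover ===== -/
section
/-
Row 258, block [MAX], package P-MAX-COVER (architect helper192).

The one-dimensional covering lemma (a finite family of intervals has a subfamily with the same union
and overlap at most 2) and the weak type (1,1) inequality, with constant 2 and in LOCALISED form, of
the uncentered maximal operator of an ARBITRARY Borel measure on `ℝ`.

PROOF NOTES.
* `mx_cover_two`: take `t ⊆ s` of minimal cardinality among the subfamilies with the same union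
  (`Finset.exists_min_image` on `s.powerset.filter ..`, or strong induction on `s.card`).
  If some `x` lies in three different intervals `i, j, k ∈ t`, let `l` have the smallest left endpoint
  and `r` the largest right endpoint among the three: since all three contain `x`,
  `Ioo_l ∪ Ioo_r ⊇` the union of the three, so one of the three indices (one different from `l`, `r`)
  can be erased: contradiction with minimality.
* `mx_sum_measure_le`: `∑ i ∈ t, ν (S i) = ∫⁻ ∑ i ∈ t, 1_{S i} dν ≤ ∫⁻ 2 * 1_{⋃ S i} dν`.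
* `mx_weak`: put `E = {x | c < mxMax μ f x}`, `ν = μ.withDensity f` (so `ν S = ∫⁻ y in S, f y ∂μ` for
  measurable `S`, for ANY `f`: `withDensity_apply`).  `E` is the union of the family `𝓕` of all intervals
  `Ioo a b` with `c < (μ (Ioo a b))⁻¹ * ν (Ioo a b)`, and each of them is contained in `E`
  (`mx_lt_mxMax_iff`).  By Lindelöf (`TopologicalSpace.isOpen_iUnion_countable` /
  `isOpen_sUnion_countable`) countably many suffice: `E = ⋃ n, I n`;
  `μ E = ⨆ N, μ (⋃ n < N, I n)` (`measure_iUnion_eq_iSup` for the monotone partial unions /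
  `Directed`).  For fixed `N`, choose `t` by `mx_cover_two`;
  for `i ∈ t`: `c * μ (I i) ≤ ν (I i)` (from `c < (μ I)⁻¹ * ν I`, where necessarily
  `μ I ≠ 0`, `μ I ≠ ⊤`: `ENNReal.mul_le_of_le_div`-type manipulations);
  sum up and use `mx_sum_measure_le` and `⋃ ⊆ E`.
-/
set_option autoImplicit false

open MeasureTheory Set
open scoped ENNReal NNReal

namespace Claimed.Agent.R258

/-- A finite family of open intervals has a subfamily with the same union and overlap at most 2. -/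
theorem mx_cover_two {ι : Type*} [DecidableEq ι] (s : Finset ι) (a b : ι → ℝ) :
    ∃ t ⊆ s, (⋃ i ∈ t, Ioo (a i) (b i)) = (⋃ i ∈ s, Ioo (a i) (b i)) ∧
      ∀ x : ℝ, (t.filter (fun i => x ∈ Ioo (a i) (b i))).card ≤ 2 := by
  induction s using Finset.strongInduction with
  | H s ih =>
    by_cases h : ∀ x : ℝ, (s.filter (fun i => x ∈ Ioo (a i) (b i))).card ≤ 2
    · exact ⟨s, Finset.Subset.refl s, rfl, h⟩
    · push Not at h
      obtain ⟨x, hx⟩ := h
      set T := s.filter (fun i => x ∈ Ioo (a i) (b i)) with hT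
      have hTne : T.Nonempty := Finset.card_pos.mp (by omega)
      obtain ⟨l, hl, hlmin⟩ := Finset.exists_min_image T a hTne
      obtain ⟨r, hr, hrmax⟩ := Finset.exists_max_image T b hTne
      have hcard : 0 < ((T.erase l).erase r).card := by
        have h1 : T.card - 1 ≤ (T.erase l).card := Finset.pred_card_le_card_erase
        have h2 : (T.erase l).card - 1 ≤ ((T.erase l).erase r).card := Finset.pred_card_le_card_erase
        omega
      obtain ⟨m, hm⟩ := Finset.card_pos.mp hcard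
      have hmr : m ≠ r := (Finset.mem_erase.mp hm).1
      have hml : m ≠ l := (Finset.mem_erase.mp (Finset.mem_erase.mp hm).2).1
      have hmT : m ∈ T := (Finset.mem_erase.mp (Finset.mem_erase.mp hm).2).2
      have hms : m ∈ s := (Finset.mem_filter.mp hmT).1
      have hls : l ∈ s := (Finset.mem_filter.mp hl).1
      have hrs : r ∈ s := (Finset.mem_filter.mp hr).1
      have hxl : x ∈ Ioo (a l) (b l) := (Finset.mem_filter.mp hl).2
      have hxr : x ∈ Ioo (a r) (b r) := (Finset.mem_filter.mp hr).2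
      obtain ⟨t, hts, htU, hov⟩ := ih (s.erase m) (Finset.erase_ssubset hms)
      refine ⟨t, hts.trans (Finset.erase_subset m s), ?_, hov⟩
      rw [htU]
      apply Subset.antisymm
      · exact biUnion_subset_biUnion_left fun i hi => Finset.mem_of_mem_erase hi
      · intro y hy
        simp only [mem_iUnion, exists_prop] at hy ⊢
        obtain ⟨n, hn, hyn⟩ := hy
        by_cases hnm : n = m
        · subst hnm
          by_cases hyl : y < b l
          · exact ⟨l, Finset.mem_erase.mpr ⟨hml.symm, hls⟩, lt_of_le_of_lt (hlmin n hmT) hyn.1, hyl⟩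
          · refine ⟨r, Finset.mem_erase.mpr ⟨hmr.symm, hrs⟩, ?_, lt_of_lt_of_le hyn.2 (hrmax n hmT)⟩
            exact lt_of_lt_of_le (hxr.1.trans hxl.2) (not_lt.mp hyl)
        · exact ⟨n, Finset.mem_erase.mpr ⟨hnm, hn⟩, hyn⟩

/-- Bounded overlap: the measures add up to at most `k` times the measure of the union. -/
theorem mx_sum_measure_le {α ι : Type*} [MeasurableSpace α] (ν : Measure α) (t : Finset ι)
    (S : ι → Set α) (hS : ∀ i ∈ t, MeasurableSet (S i)) (k : ℕ)
    [∀ x : α, DecidablePred (fun i => x ∈ S i)]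
    (hk : ∀ x : α, (t.filter (fun i => x ∈ S i)).card ≤ k) :
    ∑ i ∈ t, ν (S i) ≤ k * ν (⋃ i ∈ t, S i) := by
  have hU : MeasurableSet (⋃ i ∈ t, S i) := Finset.measurableSet_biUnion t hS
  calc ∑ i ∈ t, ν (S i) = ∑ i ∈ t, ∫⁻ x, (S i).indicator 1 x ∂ν :=
        Finset.sum_congr rfl fun i hi => (lintegral_indicator_one (hS i hi)).symm
    _ = ∫⁻ x, ∑ i ∈ t, (S i).indicator 1 x ∂ν :=
        (lintegral_finsetSum t fun i hi => measurable_one.indicator (hS i hi)).symm
    _ ≤ ∫⁻ x, (k : ℝ≥0∞) * (⋃ i ∈ t, S i).indicator 1 x ∂ν := by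
        refine lintegral_mono fun x => ?_
        have h1 : ∑ i ∈ t, (S i).indicator (1 : α → ℝ≥0∞) x = ((t.filter (fun i => x ∈ S i)).card : ℝ≥0∞) := by
          simp only [indicator_apply, Pi.one_apply]
          rw [Finset.sum_boole]
        rw [h1]
        by_cases hx : x ∈ ⋃ i ∈ t, S i
        · rw [indicator_of_mem hx, Pi.one_apply, mul_one]
          exact Nat.cast_le.mpr (hk x)
        · have h2 : t.filter (fun i => x ∈ S i) = ∅ := by
            rw [Finset.filter_eq_empty_iff]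
            intro i hi hxi
            exact hx (mem_biUnion hi hxi)
          rw [h2]
          simp
    _ = k * ν (⋃ i ∈ t, S i) := by
        rw [lintegral_const_mul _ (measurable_one.indicator hU), lintegral_indicator_one hU]

/-- an interval whose average exceeds `c` -/
theorem mx_weak_interval {m n c : ℝ≥0∞} (h : c < m⁻¹ * n) : c * m ≤ n := by
  rcases eq_or_ne m 0 with rfl | h0
  · simp
  rcases eq_or_ne m ⊤ with rfl | ht
  · simp at h
  calc c * m ≤ (m⁻¹ * n) * m := by gcongr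
    _ = n := by
      rw [mul_comm m⁻¹, mul_assoc, ENNReal.inv_mul_cancel h0 ht, mul_one]

/-- finite unions of good intervals -/
theorem mx_weak_fin (μ ν : Measure ℝ) (c : ℝ≥0∞) (a b : ℕ → ℝ)
    (h : ∀ n, c * μ (Ioo (a n) (b n)) ≤ ν (Ioo (a n) (b n))) (s : Finset ℕ) :
    c * μ (⋃ n ∈ s, Ioo (a n) (b n)) ≤ 2 * ν (⋃ n ∈ s, Ioo (a n) (b n)) := by
  obtain ⟨t, _, htU, hov⟩ := mx_cover_two s a b
  rw [← htU]
  calc c * μ (⋃ n ∈ t, Ioo (a n) (b n)) ≤ c * ∑ n ∈ t, μ (Ioo (a n) (b n)) := by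
        gcongr
        exact measure_biUnion_finset_le t _
    _ = ∑ n ∈ t, c * μ (Ioo (a n) (b n)) := Finset.mul_sum _ _ _
    _ ≤ ∑ n ∈ t, ν (Ioo (a n) (b n)) := Finset.sum_le_sum fun n _ => h n
    _ ≤ (2 : ℕ) * ν (⋃ n ∈ t, Ioo (a n) (b n)) :=
        mx_sum_measure_le ν t (fun n => Ioo (a n) (b n)) (fun _ _ => measurableSet_Ioo) 2 hov
    _ = 2 * ν (⋃ n ∈ t, Ioo (a n) (b n)) := by norm_num

/-- Weak type (1,1), localised form, for an arbitrary measure and an arbitrary function. -/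
theorem mx_weak (μ : Measure ℝ) (f : ℝ → ℝ≥0∞) (c : ℝ≥0∞) :
    c * μ {x | c < mxMax μ f x} ≤ 2 * ∫⁻ y in {x | c < mxMax μ f x}, f y ∂μ := by
  set E := {x | c < mxMax μ f x} with hE
  have hEm : MeasurableSet E := (mxMax_isOpen_lt μ f c).measurableSet
  set ν := μ.withDensity f with hν
  have hνE : ∫⁻ y in E, f y ∂μ = ν E := (withDensity_apply f hEm).symm
  rw [hνE]
  let P := {p : ℝ × ℝ // c < (μ (Ioo p.1 p.2))⁻¹ * ∫⁻ y in Ioo p.1 p.2, f y ∂μ}
  have hEU : E = ⋃ p : P, Ioo p.1.1 p.1.2 := by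
    ext x
    simp only [hE, mem_ofPred_eq, mem_iUnion]
    rw [mx_lt_mxMax_iff]
    constructor
    · rintro ⟨a, b, hx, hab⟩
      exact ⟨⟨(a, b), hab⟩, hx⟩
    · rintro ⟨⟨⟨a, b⟩, hab⟩, hx⟩
      exact ⟨a, b, hx, hab⟩
  obtain ⟨T, hTc, hTU⟩ := TopologicalSpace.isOpen_iUnion_countable (fun p : P => Ioo p.1.1 p.1.2)
    (fun _ => isOpen_Ioo)
  rcases T.eq_empty_or_nonempty with rfl | hTne
  · have : E = ∅ := by
      rw [hEU, ← hTU]
      simp
    rw [this]
    simp
  obtain ⟨g, hg⟩ := hTc.exists_eq_range hTne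
  have hEg : E = ⋃ n : ℕ, Ioo (g n).1.1 (g n).1.2 := by
    rw [hEU, ← hTU, hg]
    simp
  have hgood : ∀ n, c * μ (Ioo (g n).1.1 (g n).1.2) ≤ ν (Ioo (g n).1.1 (g n).1.2) := by
    intro n
    rw [hν, withDensity_apply f measurableSet_Ioo]
    exact mx_weak_interval (g n).2
  have hacc : ∀ N : ℕ, accumulate (fun n : ℕ => Ioo (g n).1.1 (g n).1.2) N =
      ⋃ n ∈ Finset.range (N + 1), Ioo (g n).1.1 (g n).1.2 := by
    intro N
    ext x
    simp [accumulate_def]
  conv_lhs => rw [hEg]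
  rw [measure_iUnion_eq_iSup_accumulate, ENNReal.mul_iSup]
  refine iSup_le fun N => ?_
  rw [hacc]
  refine (mx_weak_fin μ ν c (fun n => (g n).1.1) (fun n => (g n).1.2) hgood _).trans ?_
  gcongr
  rw [hEg]
  exact iUnion₂_subset fun n _ => subset_iUnion (fun n : ℕ => Ioo (g n).1.1 (g n).1.2) n

theorem mx_weak' (μ : Measure ℝ) (f : ℝ → ℝ≥0∞) (c : ℝ≥0∞) :
    c * μ {x | c < mxMax μ f x} ≤ 2 * ∫⁻ y, f y ∂μ := by
  refine (mx_weak μ f c).trans ?_
  exact mul_le_mul_right (setLIntegral_le_lintegral _ _) 2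

end Claimed.Agent.R258
end

/- ===== packed: Claimed.Agent.R258.Max.Strong ===== -/
section
/-
Row 258, block [MAX], package P-MAX-STRONG (architect helper192).

Layer cake formula for `ℝ≥0∞`-valued functions and the strong type (p,p) inequality of the uncentered
maximal operator of an arbitrary s-finite measure on `ℝ`, with the constant
`mxCp p = 2^(p+1) p/(p-1)` which does NOT depend on the measure.

PROOF NOTES.
* `mx_layercake`: Tonelli.  For `u : ℝ≥0∞`:
  `u ^ p = ofReal p * ∫⁻ t in Ioi 0, ofReal (t^(p-1)) * 1_{ofReal t < u}` (`mx_rpow_eq_lintegral`; for `u = ⊤` both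
  sides are `⊤`; for finite `u` use `integral_rpow` / `lintegral` of `t^(p-1)` on `Ioc 0 u`,
  e.g. via `MeasureTheory.lintegral_rpow_eq_lintegral_meas_lt_mul` applied to a Dirac measure, or
  `intervalIntegral`).  Then `lintegral_lintegral_swap` (the set `{(x,t) | ofReal t < F x}` is
  measurable; reduce to a measurable `F` by `AEMeasurable.mk`).
  Alternative: apply Mathlib's `lintegral_rpow_eq_lintegral_meas_lt_mul` to `min (F x) n |>.toReal`
  and let `n → ∞`.
* `mx_strong`: for `c = ofReal t`, `t > 0`, split `f = f 1_{f > c/2} + f 1_{f ≤ c/2}`: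
  `mxMax μ f ≤ mxMax μ (f 1_{f > c/2}) + c/2` (`mxMax_add_le`, `mxMax_le_of_ae_le`), hence
  `{c < M f} ⊆ {c/2 < M (f 1_{f>c/2})}` and by `mx_weak'`
  `μ {c < M f} ≤ (4/c) ∫_{f > c/2} f dμ`.  Insert into the layer cake formula and use Tonelli again:
  `p ∫_0^∞ t^(p-1) (4/t) ∫ 1_{f > t/2} f dμ dt = 4 p ∫ f (∫_0^{2f} t^(p-2) dt) dμ
     = 4 p 2^(p-1)/(p-1) ∫ f^p dμ`.
  (The inner integral is `mx_rpow_eq_lintegral` with exponent `p - 1 > 0` at `u = 2 f x`.)
-/
set_option autoImplicit false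

open MeasureTheory Set
open scoped ENNReal NNReal

namespace Claimed.Agent.R258

theorem mx_rpow_eq_lintegral_real {r : ℝ} (hr : 0 ≤ r) {p : ℝ} (hp : 0 < p) :
    ENNReal.ofReal r ^ p = ENNReal.ofReal p *
      ∫⁻ t in Ioi (0 : ℝ), ENNReal.ofReal (t ^ (p - 1)) *
        (Set.indicator {s : ℝ | ENNReal.ofReal s < ENNReal.ofReal r} (fun _ => (1 : ℝ≥0∞)) t) := by
  have h := lintegral_rpow_eq_lintegral_meas_lt_mul (Measure.dirac ()) (f := fun _ : Unit => r)
    (Filter.Eventually.of_forall fun _ => hr) aemeasurable_const hp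
  rw [lintegral_const, measure_univ, mul_one] at h
  rw [ENNReal.ofReal_rpow_of_nonneg hr hp.le, h]
  congr 1
  refine setLIntegral_congr_fun measurableSet_Ioi fun t ht => ?_
  have ht0 : (0 : ℝ) < t := ht
  rw [mul_comm]
  congr 1
  by_cases htr : t < r
  · have h1 : {a : Unit | t < r} = univ := by
      ext
      simp [htr]
    have h2 : ENNReal.ofReal t < ENNReal.ofReal r := (ENNReal.ofReal_lt_ofReal_iff (ht0.trans htr)).2 htr
    rw [h1, measure_univ, indicator_of_mem (by exact h2)]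
  · have h1 : {a : Unit | t < r} = ∅ := by
      ext
      simp [htr]
    have h2 : ¬ ENNReal.ofReal t < ENNReal.ofReal r := by
      rw [not_lt]
      exact ENNReal.ofReal_le_ofReal (not_lt.mp htr)
    rw [h1, measure_empty, indicator_of_notMem (by exact h2)]

theorem mx_rpow_eq_lintegral (u : ℝ≥0∞) {p : ℝ} (hp : 0 < p) :
    u ^ p = ENNReal.ofReal p *
      ∫⁻ t in Ioi (0 : ℝ), ENNReal.ofReal (t ^ (p - 1)) *
        (Set.indicator {s : ℝ | ENNReal.ofReal s < u} (fun _ => (1 : ℝ≥0∞)) t) := by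
  by_cases hu : u = ⊤
  · subst hu
    rw [ENNReal.top_rpow_of_pos hp]
    symm
    refine ENNReal.eq_top_of_forall_nnreal_le fun r => ?_
    have h := mx_rpow_eq_lintegral_real (r := (r : ℝ) ^ (1 / p)) (by positivity) hp
    have h1 : ENNReal.ofReal ((r : ℝ) ^ (1 / p)) ^ p = r := by
      rw [ENNReal.ofReal_rpow_of_nonneg (by positivity) hp.le, ← Real.rpow_mul (NNReal.coe_nonneg r), one_div,
        inv_mul_cancel₀ hp.ne', Real.rpow_one, ENNReal.ofReal_coe_nnreal]
    rw [← h1, h]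
    gcongr
    exact le_top
  · have h := mx_rpow_eq_lintegral_real (r := u.toReal) ENNReal.toReal_nonneg hp
    rwa [ENNReal.ofReal_toReal hu] at h

theorem mx_layercake_meas {α : Type*} [MeasurableSpace α] (μ : Measure α) [SFinite μ]
    (F : α → ℝ≥0∞) (hF : Measurable F) {p : ℝ} (hp : 0 < p) :
    ∫⁻ x, F x ^ p ∂μ = ENNReal.ofReal p *
      ∫⁻ t in Ioi (0 : ℝ), ENNReal.ofReal (t ^ (p - 1)) * μ {x | ENNReal.ofReal t < F x} := by
  simp_rw [mx_rpow_eq_lintegral _ hp]
  have hset : MeasurableSet {q : α × ℝ | ENNReal.ofReal q.2 < F q.1} :=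
    measurableSet_lt measurable_snd.ennreal_ofReal (hF.comp measurable_fst)
  have hm : Measurable (Function.uncurry fun (x : α) (t : ℝ) => ENNReal.ofReal (t ^ (p - 1)) *
      (Set.indicator {s : ℝ | ENNReal.ofReal s < F x} (fun _ => (1 : ℝ≥0∞)) t)) := by
    have h1 : (Function.uncurry fun (x : α) (t : ℝ) => ENNReal.ofReal (t ^ (p - 1)) *
        (Set.indicator {s : ℝ | ENNReal.ofReal s < F x} (fun _ => (1 : ℝ≥0∞)) t)) =
        fun q : α × ℝ => ENNReal.ofReal (q.2 ^ (p - 1)) *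
          (Set.indicator {q : α × ℝ | ENNReal.ofReal q.2 < F q.1} (fun _ => (1 : ℝ≥0∞)) q) := by
      ext q
      rfl
    rw [h1]
    exact (measurable_snd.pow_const _).ennreal_ofReal.mul (measurable_const.indicator hset)
  rw [lintegral_const_mul' _ _ ENNReal.ofReal_ne_top, lintegral_lintegral_swap hm.aemeasurable]
  congr 1
  refine lintegral_congr fun t => ?_
  rw [lintegral_const_mul' _ _ ENNReal.ofReal_ne_top]
  congr 1
  have hs : MeasurableSet {x | ENNReal.ofReal t < F x} := measurableSet_lt measurable_const hF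
  rw [← lintegral_indicator_one hs]
  rfl

theorem mx_layercake {α : Type*} [MeasurableSpace α] (μ : Measure α) [SFinite μ]
    (F : α → ℝ≥0∞) (hF : AEMeasurable F μ) {p : ℝ} (hp : 0 < p) :
    ∫⁻ x, F x ^ p ∂μ = ENNReal.ofReal p *
      ∫⁻ t in Ioi (0 : ℝ), ENNReal.ofReal (t ^ (p - 1)) * μ {x | ENNReal.ofReal t < F x} := by
  have h := mx_layercake_meas μ (hF.mk F) hF.measurable_mk hp
  have h1 : ∫⁻ x, F x ^ p ∂μ = ∫⁻ x, hF.mk F x ^ p ∂μ := by
    refine lintegral_congr_ae ?_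
    filter_upwards [hF.ae_eq_mk] with x hx
    rw [hx]
  have h2 : ∀ t : ℝ, μ {x | ENNReal.ofReal t < F x} = μ {x | ENNReal.ofReal t < hF.mk F x} := by
    intro t
    refine measure_congr ?_
    filter_upwards [hF.ae_eq_mk] with x hx
    change (ENNReal.ofReal t < F x) = (ENNReal.ofReal t < hF.mk F x)
    rw [hx]
  simp_rw [h1, h2]
  exact h

/-- The distributional inequality behind the strong type bound. -/
theorem mx_distribution_le (μ : Measure ℝ) (f : ℝ → ℝ≥0∞) (hf : AEMeasurable f μ) {t : ℝ}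
    (ht : 0 < t) :
    ENNReal.ofReal t * μ {x | ENNReal.ofReal t < mxMax μ f x}
      ≤ 4 * ∫⁻ y in {y | ENNReal.ofReal (t / 2) < f y}, f y ∂μ := by
  set c : ℝ≥0∞ := ENNReal.ofReal (t / 2) with hc
  have hct : ENNReal.ofReal t = c + c := by
    rw [hc, ← ENNReal.ofReal_add (by positivity) (by positivity)]
    congr 1
    ring
  have hcfin : c ≠ ⊤ := ENNReal.ofReal_ne_top
  set A : Set ℝ := {y | c < f y} with hA
  have hAm : NullMeasurableSet A μ := nullMeasurableSet_lt aemeasurable_const hf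
  set f1 : ℝ → ℝ≥0∞ := A.indicator f with hf1
  set f2 : ℝ → ℝ≥0∞ := Aᶜ.indicator f with hf2
  have hsum : ∀ y, f y = f1 y + f2 y := by
    intro y
    rw [hf1, hf2]
    exact (congrFun (indicator_self_add_compl A f) y).symm
  have hf1m : AEMeasurable f1 μ := hf.indicator₀ hAm
  have hf2le : ∀ y, f2 y ≤ c := by
    intro y
    rw [hf2]
    by_cases hy : y ∈ A
    · rw [indicator_of_notMem (by simpa using hy)]
      exact zero_le
    · rw [indicator_of_mem (by simpa using hy)]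
      exact not_lt.mp hy
  have hM : ∀ x, mxMax μ f x ≤ mxMax μ f1 x + c := by
    intro x
    have h1 : mxMax μ f x = mxMax μ (fun y => f1 y + f2 y) x := by
      congr 1
      exact funext hsum
    rw [h1]
    exact (mxMax_add_le hf1m x).trans
      (add_le_add le_rfl (mxMax_le_of_ae_le (Filter.Eventually.of_forall hf2le) x))
  have hsub : {x | ENNReal.ofReal t < mxMax μ f x} ⊆ {x | c < mxMax μ f1 x} := by
    intro x hx
    have h1 : c + c < mxMax μ f1 x + c := by
      rw [← hct]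
      exact lt_of_lt_of_le hx (hM x)
    exact (ENNReal.add_lt_add_iff_right hcfin).1 h1
  have hw := mx_weak' μ f1 c
  rw [hf1, lintegral_indicator₀ hAm] at hw
  calc ENNReal.ofReal t * μ {x | ENNReal.ofReal t < mxMax μ f x}
      ≤ (c + c) * μ {x | c < mxMax μ f1 x} := by
        rw [← hct]
        exact mul_le_mul_right (measure_mono hsub) _
    _ = 2 * (c * μ {x | c < mxMax μ f1 x}) := by ring
    _ ≤ 2 * (2 * ∫⁻ y in A, f y ∂μ) := mul_le_mul_right hw _
    _ = 4 * ∫⁻ y in A, f y ∂μ := by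
        rw [← mul_assoc]
        norm_num

/-- the inner integral of the strong type computation -/
theorem mx_strong_inner (u : ℝ≥0∞) {p : ℝ} (hp : 1 < p) :
    ENNReal.ofReal (p - 1) * ∫⁻ t in Ioi (0 : ℝ), ENNReal.ofReal (t ^ (p - 2)) *
        (Set.indicator {s : ℝ | ENNReal.ofReal (s / 2) < u} (fun _ => (1 : ℝ≥0∞)) t) = (2 * u) ^ (p - 1) := by
  rw [mx_rpow_eq_lintegral (2 * u) (sub_pos.mpr hp)]
  congr 1
  refine lintegral_congr fun t => ?_
  have h1 : p - 1 - 1 = p - 2 := by ring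
  rw [h1]
  congr 1
  have h2 : {s : ℝ | ENNReal.ofReal (s / 2) < u} = {s : ℝ | ENNReal.ofReal s < 2 * u} := by
    ext s
    simp only [Set.mem_ofPred_eq]
    rw [ENNReal.ofReal_div_of_pos (by norm_num : (0 : ℝ) < 2), ENNReal.ofReal_ofNat,
      ENNReal.div_lt_iff (Or.inl (by norm_num)) (Or.inl (by norm_num)), mul_comm]
  rw [h2]

theorem mx_strong_meas (μ : Measure ℝ) [SFinite μ] (f : ℝ → ℝ≥0∞) (hf : Measurable f) {p : ℝ}
    (hp : 1 < p) :
    ∫⁻ x, mxMax μ f x ^ p ∂μ ≤ mxCp p * ∫⁻ x, f x ^ p ∂μ := by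
  have hp0 : 0 < p := by linarith
  have hp1 : 0 < p - 1 := by linarith
  rw [mx_layercake μ _ (mxMax_measurable μ f).aemeasurable hp0]
  -- pointwise in `t`
  have h1 : ∀ t ∈ Ioi (0 : ℝ), ENNReal.ofReal (t ^ (p - 1)) * μ {x | ENNReal.ofReal t < mxMax μ f x} ≤
      4 * ∫⁻ y, ENNReal.ofReal (t ^ (p - 2)) *
        (Set.indicator {s : ℝ | ENNReal.ofReal (s / 2) < f y} (fun _ => (1 : ℝ≥0∞)) t) * f y ∂μ := by
    intro t ht
    have ht0 : (0 : ℝ) < t := ht
    have e1 : ENNReal.ofReal (t ^ (p - 1)) = ENNReal.ofReal (t ^ (p - 2)) * ENNReal.ofReal t := by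
      rw [← ENNReal.ofReal_mul (by positivity)]
      congr 1
      have : p - 1 = (p - 2) + 1 := by ring
      rw [this, Real.rpow_add ht0, Real.rpow_one]
    have hs : MeasurableSet {y | ENNReal.ofReal (t / 2) < f y} := measurableSet_lt measurable_const hf
    have e2 : ∫⁻ y, ENNReal.ofReal (t ^ (p - 2)) *
        (Set.indicator {s : ℝ | ENNReal.ofReal (s / 2) < f y} (fun _ => (1 : ℝ≥0∞)) t) * f y ∂μ =
        ENNReal.ofReal (t ^ (p - 2)) * ∫⁻ y in {y | ENNReal.ofReal (t / 2) < f y}, f y ∂μ := by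
      rw [← lintegral_indicator hs, ← lintegral_const_mul' _ _ ENNReal.ofReal_ne_top]
      refine lintegral_congr fun y => ?_
      rw [mul_assoc]
      congr 1
      by_cases hy : ENNReal.ofReal (t / 2) < f y
      · rw [indicator_of_mem (by exact hy), indicator_of_mem (by exact hy), one_mul]
      · rw [indicator_of_notMem (by exact hy), indicator_of_notMem (by exact hy), zero_mul]
    rw [e1, e2, mul_assoc, mul_left_comm 4]
    exact mul_le_mul_right (mx_distribution_le μ f hf.aemeasurable ht0) _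
  have hset : MeasurableSet {q : ℝ × ℝ | ENNReal.ofReal (q.1 / 2) < f q.2} :=
    measurableSet_lt (measurable_fst.div_const 2).ennreal_ofReal (hf.comp measurable_snd)
  have hm : Measurable (Function.uncurry fun (t : ℝ) (y : ℝ) => ENNReal.ofReal (t ^ (p - 2)) *
      (Set.indicator {s : ℝ | ENNReal.ofReal (s / 2) < f y} (fun _ => (1 : ℝ≥0∞)) t) * f y) := by
    have h2 : (Function.uncurry fun (t : ℝ) (y : ℝ) => ENNReal.ofReal (t ^ (p - 2)) *
        (Set.indicator {s : ℝ | ENNReal.ofReal (s / 2) < f y} (fun _ => (1 : ℝ≥0∞)) t) * f y) =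
        fun q : ℝ × ℝ => ENNReal.ofReal (q.1 ^ (p - 2)) *
          (Set.indicator {q : ℝ × ℝ | ENNReal.ofReal (q.1 / 2) < f q.2} (fun _ => (1 : ℝ≥0∞)) q) * f q.2 := by
      ext q
      rfl
    rw [h2]
    exact ((measurable_fst.pow_const _).ennreal_ofReal.mul (measurable_const.indicator hset)).mul
      (hf.comp measurable_snd)
  calc ENNReal.ofReal p * ∫⁻ t in Ioi (0 : ℝ), ENNReal.ofReal (t ^ (p - 1)) *
        μ {x | ENNReal.ofReal t < mxMax μ f x}
      ≤ ENNReal.ofReal p * ∫⁻ t in Ioi (0 : ℝ), 4 * ∫⁻ y, ENNReal.ofReal (t ^ (p - 2)) *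
        (Set.indicator {s : ℝ | ENNReal.ofReal (s / 2) < f y} (fun _ => (1 : ℝ≥0∞)) t) * f y ∂μ :=
        mul_le_mul_right (setLIntegral_mono' measurableSet_Ioi h1) _
    _ = ENNReal.ofReal p * (4 * ∫⁻ y, (∫⁻ t in Ioi (0 : ℝ), ENNReal.ofReal (t ^ (p - 2)) *
        (Set.indicator {s : ℝ | ENNReal.ofReal (s / 2) < f y} (fun _ => (1 : ℝ≥0∞)) t)) * f y ∂μ) := by
        rw [lintegral_const_mul' _ _ (by norm_num), lintegral_lintegral_swap hm.aemeasurable]
        congr 2
        refine lintegral_congr fun y => ?_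
        rw [lintegral_mul_const'']
        have hsy : MeasurableSet {s : ℝ | ENNReal.ofReal (s / 2) < f y} :=
          measurableSet_lt (measurable_id.div_const 2).ennreal_ofReal measurable_const
        exact ((measurable_id.pow_const _).ennreal_ofReal.mul (measurable_const.indicator hsy)).aemeasurable
    _ = ENNReal.ofReal p * (4 * ∫⁻ y, (ENNReal.ofReal (p - 1))⁻¹ * (2 : ℝ≥0∞) ^ (p - 1) * f y ^ p ∂μ) := by
        congr 2
        refine lintegral_congr fun y => ?_
        have hne : ENNReal.ofReal (p - 1) ≠ 0 := by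
          rw [Ne, ENNReal.ofReal_eq_zero, not_le]
          exact hp1
        have h3 := mx_strong_inner (f y) hp
        have h4 : ∫⁻ t in Ioi (0 : ℝ), ENNReal.ofReal (t ^ (p - 2)) *
            (Set.indicator {s : ℝ | ENNReal.ofReal (s / 2) < f y} (fun _ => (1 : ℝ≥0∞)) t) =
            (ENNReal.ofReal (p - 1))⁻¹ * (2 * f y) ^ (p - 1) := by
          rw [← h3, ← mul_assoc, ENNReal.inv_mul_cancel hne ENNReal.ofReal_ne_top, one_mul]
        rw [h4, ENNReal.mul_rpow_of_nonneg _ _ hp1.le]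
        have h5 : f y ^ p = f y ^ (p - 1) * f y := by
          have : p = (p - 1) + 1 := by ring
          conv_lhs => rw [this]
          rw [ENNReal.rpow_add_of_nonneg _ _ hp1.le zero_le_one, ENNReal.rpow_one]
        rw [h5]
        ring
    _ = mxCp p * ∫⁻ x, f x ^ p ∂μ := by
        have hfin : (ENNReal.ofReal (p - 1))⁻¹ * (2 : ℝ≥0∞) ^ (p - 1) ≠ ⊤ := by
          refine ENNReal.mul_ne_top ?_ (ENNReal.rpow_ne_top_of_nonneg hp1.le (by norm_num))
          rw [Ne, ENNReal.inv_eq_top, ENNReal.ofReal_eq_zero, not_le]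
          exact hp1
        rw [lintegral_const_mul' _ _ hfin, ← mul_assoc, ← mul_assoc]
        congr 1
        unfold mxCp
        change _ = ENNReal.ofReal (2 ^ (p + 1) * p / (p - 1))
        have e4 : (4 : ℝ≥0∞) = ENNReal.ofReal 4 := by norm_num
        have e2 : (2 : ℝ≥0∞) = ENNReal.ofReal 2 := by norm_num
        rw [e4, e2, ENNReal.ofReal_rpow_of_pos (by norm_num), ← ENNReal.ofReal_inv_of_pos hp1,
          ← ENNReal.ofReal_mul hp0.le, ← ENNReal.ofReal_mul (by positivity), ← ENNReal.ofReal_mul (by positivity)]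
        congr 1
        have h6 : (2 : ℝ) ^ (p + 1) = 4 * 2 ^ (p - 1) := by
          have : p + 1 = 2 + (p - 1) := by ring
          rw [this, Real.rpow_add (by norm_num)]
          norm_num
        rw [h6]
        field_simp

/-- Strong type (p,p) with a constant independent of the measure. -/
theorem mx_strong (μ : Measure ℝ) [SFinite μ] (f : ℝ → ℝ≥0∞) (hf : AEMeasurable f μ) {p : ℝ}
    (hp : 1 < p) :
    ∫⁻ x, mxMax μ f x ^ p ∂μ ≤ mxCp p * ∫⁻ x, f x ^ p ∂μ := by
  have h := mx_strong_meas μ (hf.mk f) hf.measurable_mk hp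
  have h1 : ∫⁻ x, f x ^ p ∂μ = ∫⁻ x, hf.mk f x ^ p ∂μ := by
    refine lintegral_congr_ae ?_
    filter_upwards [hf.ae_eq_mk] with x hx
    rw [hx]
  rw [mxMax_congr_ae hf.ae_eq_mk, h1]
  exact h

/-- Hardy-Littlewood maximal theorem on `ℝ`. -/
theorem mxM_strong (f : ℝ → ℝ≥0∞) (hf : AEMeasurable f) {p : ℝ} (hp : 1 < p) :
    ∫⁻ x, mxM f x ^ p ≤ mxCp p * ∫⁻ x, f x ^ p :=
  mx_strong volume f hf hp

/-- `M_q` is bounded on `L^p` for `p > q > 0`. -/
theorem mxMqE_strong (f : ℝ → ℝ≥0∞) (hf : AEMeasurable f) {p q : ℝ} (hq : 0 < q) (hpq : q < p) :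
    ∫⁻ x, mxMqE q f x ^ p ≤ mxCp (p / q) * ∫⁻ x, f x ^ p := by
  have h := mxM_strong (fun y => f y ^ q) (hf.pow_const q) (p := p / q) ((one_lt_div hq).mpr hpq)
  have e1 : ∀ x, mxMqE q f x ^ p = mxM (fun y => f y ^ q) x ^ (p / q) := by
    intro x
    unfold mxMqE
    rw [← ENNReal.rpow_mul]
    congr 1
    field_simp
  have e2 : ∀ x, (f x ^ q) ^ (p / q) = f x ^ p := by
    intro x
    rw [← ENNReal.rpow_mul]
    congr 1
    field_simp
  simp_rw [e1]
  simp_rw [e2] at h
  exact h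

end Claimed.Agent.R258
end
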