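/- Packed by merge_tool.py (helper293): 4 modules of Claimed.Agent.R258 in one file, same declarations.
   Old modules, in this order: CellApi.Basic, CellApi.Fin, S5.Defs, S7.Var -/
import Claimed.Agent.R258.S5.Base
import Claimed.Agent.R258.Pack001

/- ===== packed: Claimed.Agent.R258.CellApi.Basic ===== -/
section
/-
Row 258, block [CELL] (architect helper132).  API OF THE DYADIC CELLS OF `R258/Defs.lean`, file 1: lengths, ancestors, children, the
partial order, intervals, `atPt`.      All names have the prefix `cell_`.   No paper is needed.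
Facts to remember: `I.anc n = ⟨I.depth - n, I.idx / 2 ^ n⟩` (floor division of integers), `I ≤ J ↔ ∃ n, I.anc n = J` (`Iff.rfl`),
`I < J ↔ ∃ n, 0 < n ∧ I.anc n = J` (`Iff.rfl`), `I.len = 2 ^ (-I.depth)` (`zpow`), `I.set = Set.Ico I.left I.right`.
RULES FOR THE OWNER OF A LEAF: fill the `sorry`s IN PLACE (auxiliary lemmas above, prefix `cell_`); do not change a statement without telling
helper132.   LEAVES: P-CELL-A = sections `len`, `anc`, `order`;   P-CELL-B = sections `interval`, `atPt`.
-/
set_option autoImplicit false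

open MeasureTheory

namespace Claimed.Agent.R258

/-! ### Lengths -/

section len

theorem cell_len_pos (I : Cell) : 0 < I.len := by
  unfold Cell.len
  positivity

theorem cell_len_ne_zero (I : Cell) : I.len ≠ 0 := (cell_len_pos I).ne'

theorem cell_len_nonneg (I : Cell) : 0 ≤ I.len := (cell_len_pos I).le

theorem cell_len_anc (I : Cell) (n : ℕ) : (I.anc n).len = 2 ^ n * I.len := by
  unfold Cell.len Cell.anc
  simp only
  rw [neg_sub, sub_eq_add_neg, zpow_add₀ (by norm_num), zpow_natCast]

theorem cell_len_child (I : Cell) (b : Fin 2) : (I.child b).len = I.len / 2 := by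
  unfold Cell.len Cell.child
  simp only
  rw [neg_add, zpow_add₀ (by norm_num), zpow_neg_one, div_eq_mul_inv]

theorem cell_len_eq_of_depth {I J : Cell} (h : I.depth = J.depth) : I.len = J.len := by
  unfold Cell.len
  rw [h]

theorem cell_len_le_of_depth {I J : Cell} (h : J.depth ≤ I.depth) : I.len ≤ J.len := by
  unfold Cell.len
  exact zpow_le_zpow_right₀ (by norm_num) (by omega)

/-- comparison of two lengths -/
theorem cell_len_eq_zpow (I J : Cell) : I.len = (2 : ℝ) ^ (J.depth - I.depth) * J.len := by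
  unfold Cell.len
  rw [← zpow_add₀ (by norm_num)]
  congr 1
  ring

theorem cell_right_eq (I : Cell) : I.right = I.left + I.len := by
  unfold Cell.right Cell.left
  ring

theorem cell_left_lt_right (I : Cell) : I.left < I.right := by
  rw [cell_right_eq]
  linarith [cell_len_pos I]

end len

/-! ### Ancestors and children -/

section anc

@[simp] theorem cell_anc_zero (I : Cell) : I.anc 0 = I := by
  ext <;> simp [Cell.anc]

theorem cell_anc_anc (I : Cell) (m n : ℕ) : (I.anc m).anc n = I.anc (m + n) := by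
  ext
  · simp only [Cell.anc]
    push_cast
    ring
  · simp only [Cell.anc]
    rw [Int.ediv_ediv_of_nonneg (by positivity), pow_add]

@[simp] theorem cell_depth_anc (I : Cell) (n : ℕ) : (I.anc n).depth = I.depth - n := rfl

@[simp] theorem cell_idx_anc (I : Cell) (n : ℕ) : (I.anc n).idx = I.idx / 2 ^ n := rfl

@[simp] theorem cell_depth_child (I : Cell) (b : Fin 2) : (I.child b).depth = I.depth + 1 := rfl

@[simp] theorem cell_idx_child (I : Cell) (b : Fin 2) : (I.child b).idx = 2 * I.idx + (b : ℤ) := rfl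

/-- the parent of a child -/
theorem cell_child_anc (I : Cell) (b : Fin 2) : (I.child b).anc 1 = I := by
  have := b.2
  ext
  · simp only [Cell.anc, Cell.child]
    push_cast
    ring
  · simp only [Cell.anc, Cell.child]
    omega

/-- every cell is a child of its parent -/
theorem cell_exists_child (I : Cell) : ∃ b : Fin 2, (I.anc 1).child b = I := by
  rcases Int.emod_two_eq I.idx with h | h
  · refine ⟨0, ?_⟩
    ext
    · simp only [Cell.anc, Cell.child]
      push_cast
      ring
    · simp only [Cell.anc, Cell.child]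
      simp only [Fin.val_zero, Nat.cast_zero]
      omega
  · refine ⟨1, ?_⟩
    ext
    · simp only [Cell.anc, Cell.child]
      push_cast
      ring
    · simp only [Cell.anc, Cell.child]
      simp only [Fin.val_one, Nat.cast_one]
      omega

theorem cell_child_inj {I J : Cell} {b b' : Fin 2} (h : I.child b = J.child b') : I = J ∧ b = b' := by
  have h1 := congrArg Cell.depth h
  have h2 := congrArg Cell.idx h
  simp only [Cell.child] at h1 h2
  have hb := b.2
  have hb' := b'.2
  refine ⟨?_, ?_⟩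
  · ext
    · omega
    · omega
  · ext
    omega

theorem cell_child_ne (I : Cell) : I.child 0 ≠ I.child 1 := by
  intro h
  have := (cell_child_inj h).2
  exact absurd this (by decide)

/-- `anc n` is injective on the pairs (ancestor, position): two cells of the same depth with the same index are equal -/
theorem cell_anc_succ (I : Cell) (n : ℕ) : I.anc (n + 1) = (I.anc n).anc 1 := by
  rw [cell_anc_anc]

end anc

/-! ### The partial order -/

section order

theorem cell_le_iff {I J : Cell} : I ≤ J ↔ ∃ n : ℕ, I.anc n = J := Iff.rfl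

theorem cell_lt_iff {I J : Cell} : I < J ↔ ∃ n : ℕ, 0 < n ∧ I.anc n = J := Iff.rfl

theorem cell_depth_le_of_le {I J : Cell} (h : I ≤ J) : J.depth ≤ I.depth := by
  obtain ⟨n, rfl⟩ := h
  simp only [cell_depth_anc]
  omega

/-- THE PARTIAL ORDER (it extends the instances `LE Cell`, `LT Cell` of `Defs.lean`) -/
instance cellPartialOrder : PartialOrder Cell where
  le := (· ≤ ·)
  lt := (· < ·)
  le_refl := by
    intro I
    exact ⟨0, cell_anc_zero I⟩
  le_trans := by
    rintro I J K ⟨m, rfl⟩ ⟨n, rfl⟩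
    exact ⟨m + n, (cell_anc_anc I m n).symm⟩
  lt_iff_le_not_ge := by
    intro I J
    constructor
    · rintro ⟨n, hn, rfl⟩
      refine ⟨⟨n, rfl⟩, ?_⟩
      rintro ⟨m, hm⟩
      have := congrArg Cell.depth hm
      simp only [cell_depth_anc] at this
      omega
    · rintro ⟨⟨n, rfl⟩, h⟩
      refine ⟨n, Nat.pos_of_ne_zero ?_, rfl⟩
      rintro rfl
      exact h ⟨0, by simp⟩
  le_antisymm := by
    rintro I J ⟨m, h1⟩ ⟨n, h2⟩
    have e1 := congrArg Cell.depth h1
    have e2 := congrArg Cell.depth h2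
    simp only [cell_depth_anc] at e1 e2
    have hm : m = 0 := by omega
    subst hm
    rw [cell_anc_zero] at h1
    exact h1

theorem cell_le_anc (I : Cell) (n : ℕ) : I ≤ I.anc n := ⟨n, rfl⟩

theorem cell_lt_anc (I : Cell) {n : ℕ} (hn : 0 < n) : I < I.anc n := ⟨n, hn, rfl⟩

theorem cell_child_lt (I : Cell) (b : Fin 2) : I.child b < I := ⟨1, one_pos, cell_child_anc I b⟩

theorem cell_child_le (I : Cell) (b : Fin 2) : I.child b ≤ I := ⟨1, cell_child_anc I b⟩

theorem cell_depth_lt_of_lt {I J : Cell} (h : I < J) : J.depth < I.depth := by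
  obtain ⟨n, hn, rfl⟩ := h
  simp only [cell_depth_anc]
  omega

/-- the number of generations is determined by the depths -/
theorem cell_le_iff_toNat {I J : Cell} :
    I ≤ J ↔ J.depth ≤ I.depth ∧ I.anc (I.depth - J.depth).toNat = J := by
  constructor
  · rintro ⟨n, rfl⟩
    refine ⟨by simp only [cell_depth_anc]; omega, ?_⟩
    congr 1
    simp only [cell_depth_anc]
    omega
  · rintro ⟨_, h⟩
    exact ⟨_, h⟩

/-- in coordinates -/
theorem cell_le_iff_idx {I J : Cell} :
    I ≤ J ↔ J.depth ≤ I.depth ∧ I.idx / 2 ^ (I.depth - J.depth).toNat = J.idx := by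
  rw [cell_le_iff_toNat]
  refine and_congr_right fun hd => ?_
  rw [Cell.ext_iff]
  simp only [cell_depth_anc, cell_idx_anc]
  constructor
  · exact fun h => h.2
  · intro h
    exact ⟨by omega, h⟩

theorem cell_eq_of_le_of_depth {I J : Cell} (h : I ≤ J) (hd : I.depth ≤ J.depth) : I = J := by
  obtain ⟨n, rfl⟩ := h
  simp only [cell_depth_anc] at hd
  have hn : n = 0 := by omega
  subst hn
  simp

theorem cell_lt_iff_le_depth {I J : Cell} : I < J ↔ I ≤ J ∧ J.depth < I.depth := by
  constructor
  · intro h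
    exact ⟨h.le, cell_depth_lt_of_lt h⟩
  · rintro ⟨⟨n, rfl⟩, hd⟩
    simp only [cell_depth_anc] at hd
    exact ⟨n, by omega, rfl⟩

/-- strictly below `J` = the parent is still below `J` -/
theorem cell_lt_iff_parent_le {I J : Cell} : I < J ↔ I.anc 1 ≤ J := by
  constructor
  · rintro ⟨n, hn, rfl⟩
    refine ⟨n - 1, ?_⟩
    rw [cell_anc_anc]
    congr 1
    omega
  · rintro ⟨n, h⟩
    refine ⟨1 + n, by omega, ?_⟩
    rw [← cell_anc_anc]
    exact h

theorem cell_le_iff_eq_or_child {I J : Cell} : I ≤ J ↔ I = J ∨ ∃ b : Fin 2, I ≤ J.child b := by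
  constructor
  · rintro ⟨n, rfl⟩
    cases n with
    | zero => exact Or.inl (by simp)
    | succ n =>
      right
      obtain ⟨b, hb⟩ := cell_exists_child (I.anc n)
      refine ⟨b, n, ?_⟩
      rw [cell_anc_succ, hb]
  · rintro (rfl | ⟨b, hb⟩)
    · exact le_refl _
    · exact hb.trans (cell_child_le J b)

theorem cell_lt_iff_child {I J : Cell} : I < J ↔ ∃ b : Fin 2, I ≤ J.child b := by
  constructor
  · rintro ⟨n, hn, rfl⟩
    obtain ⟨k, rfl⟩ : ∃ k, n = k + 1 := ⟨n - 1, by omega⟩
    obtain ⟨b, hb⟩ := cell_exists_child (I.anc k)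
    refine ⟨b, k, ?_⟩
    rw [cell_anc_succ, hb]
  · rintro ⟨b, hb⟩
    exact lt_of_le_of_lt hb (cell_child_lt J b)

theorem cell_len_le_of_le {I J : Cell} (h : I ≤ J) : I.len ≤ J.len :=
  cell_len_le_of_depth (cell_depth_le_of_le h)

theorem cell_len_le_half_of_lt {I J : Cell} (h : I < J) : I.len ≤ J.len / 2 := by
  obtain ⟨n, hn, rfl⟩ := h
  rw [cell_len_anc]
  have h2 : (2 : ℝ) ≤ 2 ^ n := by
    calc (2 : ℝ) = 2 ^ 1 := by norm_num
      _ ≤ 2 ^ n := pow_le_pow_right₀ (by norm_num) hn
  have := cell_len_pos I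
  nlinarith

theorem cell_anc_mono {I J : Cell} (h : I ≤ J) (n : ℕ) : I.anc n ≤ J.anc n := by
  obtain ⟨m, rfl⟩ := h
  refine ⟨m, ?_⟩
  rw [cell_anc_anc, cell_anc_anc, add_comm]

/-- the ancestors of a cell form a chain -/
theorem cell_chain {I J K : Cell} (h1 : I ≤ J) (h2 : I ≤ K) : J ≤ K ∨ K ≤ J := by
  obtain ⟨m, rfl⟩ := h1
  obtain ⟨n, rfl⟩ := h2
  rcases le_total m n with h | h
  · left
    refine ⟨n - m, ?_⟩
    rw [cell_anc_anc]
    congr 1
    omega
  · right
    refine ⟨m - n, ?_⟩
    rw [cell_anc_anc]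
    congr 1
    omega

theorem cell_chain_of_depth {I J K : Cell} (h1 : I ≤ J) (h2 : I ≤ K) (hd : K.depth ≤ J.depth) : J ≤ K := by
  obtain ⟨m, rfl⟩ := h1
  obtain ⟨n, rfl⟩ := h2
  simp only [cell_depth_anc] at hd
  refine ⟨n - m, ?_⟩
  rw [cell_anc_anc]
  congr 1
  omega

/-- induction on the cells below `R`, from the root to the leaves -/
theorem cell_induction_down (R : Cell) {P : Cell → Prop} (h0 : P R)
    (h1 : ∀ I, I ≤ R → P I → ∀ b, P (I.child b)) : ∀ I, I ≤ R → P I := by
  intro I hI
  obtain ⟨n, hn⟩ := hI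
  induction n generalizing I with
  | zero =>
    rw [cell_anc_zero] at hn
    rw [hn]
    exact h0
  | succ n ih =>
    have h2 : (I.anc 1).anc n = R := by
      rw [cell_anc_anc, add_comm]
      exact hn
    obtain ⟨b, hb⟩ := cell_exists_child I
    rw [← hb]
    exact h1 _ ⟨n, h2⟩ (ih _ h2) b

/-- strong induction from the deep cells to the root: `P` holds at all cells of depth `≥ s1`, and at `I` if it holds at all `I' < I` -/
theorem cell_induction_up (s1 : ℤ) {P : Cell → Prop} (h0 : ∀ I : Cell, s1 ≤ I.depth → P I)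
    (h1 : ∀ I : Cell, (∀ I', I' < I → P I') → P I) : ∀ I, P I := by
  have key : ∀ n : ℕ, ∀ I : Cell, (s1 - I.depth).toNat ≤ n → P I := by
    intro n
    induction n with
    | zero =>
      intro I hI
      exact h0 I (by omega)
    | succ n ih =>
      intro I hI
      refine h1 I fun I' hlt => ih I' ?_
      have := cell_depth_lt_of_lt hlt
      omega
  exact fun I => key _ I le_rfl

instance cellCountable : Countable Cell := by
  refine Function.Injective.countable (f := fun I : Cell => (I.depth, I.idx)) ?_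
  intro I J h
  simp only [Prod.mk.injEq] at h
  exact Cell.ext h.1 h.2

end order

/-! ### Intervals -/

section interval

theorem cell_mem_set {I : Cell} {y : ℝ} : y ∈ I.set ↔ I.left ≤ y ∧ y < I.right := Iff.rfl

theorem cell_left_mem (I : Cell) : I.left ∈ I.set := ⟨le_rfl, cell_left_lt_right I⟩

theorem cell_set_nonempty (I : Cell) : I.set.Nonempty := ⟨_, cell_left_mem I⟩

theorem cell_measurableSet (I : Cell) : MeasurableSet I.set := measurableSet_Ico

theorem cell_volume_set (I : Cell) : volume I.set = ENNReal.ofReal I.len := by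
  unfold Cell.set
  rw [Real.volume_Ico, cell_right_eq, add_sub_cancel_left]

theorem cell_volume_real (I : Cell) : (volume I.set).toReal = I.len := by
  rw [cell_volume_set, ENNReal.toReal_ofReal (cell_len_nonneg I)]

theorem cell_volume_ne_top (I : Cell) : volume I.set ≠ ⊤ := by
  rw [cell_volume_set]
  exact ENNReal.ofReal_ne_top

theorem cell_volume_ne_zero (I : Cell) : volume I.set ≠ 0 := by
  rw [cell_volume_set]
  exact (ENNReal.ofReal_pos.2 (cell_len_pos I)).ne'

/-- the integral of a constant -/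
theorem cell_integral_const (I : Cell) (c : ℝ) : ∫ _ in I.set, c = I.len * c := by
  rw [setIntegral_const, Measure.real, cell_volume_real, smul_eq_mul]

theorem cell_left_child_zero (I : Cell) : (I.child 0).left = I.left := by
  unfold Cell.left
  rw [cell_len_child, cell_idx_child]
  push_cast
  simp only [Fin.val_zero, Nat.cast_zero]
  ring

theorem cell_right_child_zero (I : Cell) : (I.child 0).right = I.left + I.len / 2 := by
  unfold Cell.right Cell.left
  rw [cell_len_child, cell_idx_child]
  push_cast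
  simp only [Fin.val_zero, Nat.cast_zero]
  ring

theorem cell_left_child_one (I : Cell) : (I.child 1).left = I.left + I.len / 2 := by
  unfold Cell.left
  rw [cell_len_child, cell_idx_child]
  push_cast
  simp only [Fin.val_one, Nat.cast_one]
  ring

theorem cell_right_child_one (I : Cell) : (I.child 1).right = I.right := by
  unfold Cell.right
  rw [cell_len_child, cell_idx_child]
  push_cast
  simp only [Fin.val_one, Nat.cast_one]
  ring

theorem cell_set_child_union (I : Cell) : (I.child 0).set ∪ (I.child 1).set = I.set := by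
  unfold Cell.set
  rw [cell_left_child_zero, cell_right_child_zero, cell_left_child_one, cell_right_child_one]
  have := cell_len_pos I
  exact Set.Ico_union_Ico_eq_Ico (by linarith) (by rw [cell_right_eq]; linarith)

theorem cell_set_child_disjoint (I : Cell) : Disjoint (I.child 0).set (I.child 1).set := by
  unfold Cell.set
  rw [cell_right_child_zero, cell_left_child_one]
  exact Set.Ico_disjoint_Ico_same

theorem cell_set_child_subset (I : Cell) (b : Fin 2) : (I.child b).set ⊆ I.set := by
  rw [← cell_set_child_union I]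
  fin_cases b
  · exact Set.subset_union_left
  · exact Set.subset_union_right

theorem cell_set_subset_anc (I : Cell) (n : ℕ) : I.set ⊆ (I.anc n).set := by
  induction n with
  | zero => rw [cell_anc_zero]
  | succ n ih =>
    refine ih.trans ?_
    obtain ⟨b, hb⟩ := cell_exists_child (I.anc n)
    rw [cell_anc_succ]
    conv_lhs => rw [← hb]
    exact cell_set_child_subset _ b

theorem cell_disjoint_of_depth_aux {I J : Cell} (hd : I.depth = J.depth) (hlt : I.idx < J.idx) :
    Disjoint I.set J.set := by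
  rw [Set.disjoint_left]
  intro y hI hJ
  have h1 : I.right ≤ J.left := by
    unfold Cell.right Cell.left
    rw [cell_len_eq_of_depth hd]
    refine mul_le_mul_of_nonneg_right ?_ (cell_len_nonneg J)
    exact_mod_cast hlt
  exact absurd (lt_of_lt_of_le hI.2 h1) (not_lt.2 hJ.1)

theorem cell_eq_of_depth_of_mem {I J : Cell} (hd : I.depth = J.depth) {y : ℝ} (hI : y ∈ I.set)
    (hJ : y ∈ J.set) : I = J := by
  rcases lt_trichotomy I.idx J.idx with h | h | h
  · exact absurd hJ (Set.disjoint_left.1 (cell_disjoint_of_depth_aux hd h) hI)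
  · exact Cell.ext hd h
  · exact absurd hI (Set.disjoint_left.1 (cell_disjoint_of_depth_aux hd.symm h) hJ)

/-- **order = inclusion** -/
theorem cell_le_iff_subset {I J : Cell} : I ≤ J ↔ I.set ⊆ J.set := by
  constructor
  · rintro ⟨n, rfl⟩
    exact cell_set_subset_anc I n
  · intro h
    have h' := h
    unfold Cell.set at h'
    rw [Set.Ico_subset_Ico_iff (cell_left_lt_right I)] at h'
    have hlen : I.len ≤ J.len := by
      have e1 := cell_right_eq I
      have e2 := cell_right_eq J
      linarith [h'.1, h'.2]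
    have hd : J.depth ≤ I.depth := by
      unfold Cell.len at hlen
      rw [zpow_le_zpow_iff_right₀ (by norm_num)] at hlen
      omega
    refine ⟨(I.depth - J.depth).toNat, ?_⟩
    refine cell_eq_of_depth_of_mem ?_ (cell_set_subset_anc I _ (cell_left_mem I)) (h (cell_left_mem I))
    simp only [cell_depth_anc]
    omega

theorem cell_set_subset {I J : Cell} (h : I ≤ J) : I.set ⊆ J.set := cell_le_iff_subset.1 h

theorem cell_set_inj {I J : Cell} (h : I.set = J.set) : I = J := by
  exact le_antisymm (cell_le_iff_subset.2 h.subset) (cell_le_iff_subset.2 h.superset)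

/-- two cells of the same depth are equal or disjoint -/
theorem cell_disjoint_of_depth {I J : Cell} (hd : I.depth = J.depth) (hne : I ≠ J) :
    Disjoint I.set J.set := by
  rw [Set.disjoint_left]
  intro y hI hJ
  exact hne (cell_eq_of_depth_of_mem hd hI hJ)

/-- **nested or disjoint** -/
theorem cell_nested_or_disjoint (I J : Cell) : I ≤ J ∨ J ≤ I ∨ Disjoint I.set J.set := by
  by_cases hdis : Disjoint I.set J.set
  · exact Or.inr (Or.inr hdis)
  · rw [Set.not_disjoint_iff] at hdis
    obtain ⟨y, hI, hJ⟩ := hdis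
    rcases le_total J.depth I.depth with hd | hd
    · left
      refine ⟨(I.depth - J.depth).toNat, ?_⟩
      refine cell_eq_of_depth_of_mem ?_ (cell_set_subset_anc I _ hI) hJ
      simp only [cell_depth_anc]
      omega
    · right
      left
      refine ⟨(J.depth - I.depth).toNat, ?_⟩
      refine cell_eq_of_depth_of_mem ?_ (cell_set_subset_anc J _ hJ) hI
      simp only [cell_depth_anc]
      omega

theorem cell_disjoint_iff {I J : Cell} : Disjoint I.set J.set ↔ ¬ I ≤ J ∧ ¬ J ≤ I := by
  constructor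
  · intro h
    constructor
    · intro hle
      exact Set.disjoint_left.1 h (cell_left_mem I) (cell_set_subset hle (cell_left_mem I))
    · intro hle
      exact Set.disjoint_left.1 h (cell_set_subset hle (cell_left_mem J)) (cell_left_mem J)
  · rintro ⟨h1, h2⟩
    rcases cell_nested_or_disjoint I J with h | h | h
    · exact absurd h h1
    · exact absurd h h2
    · exact h

theorem cell_le_or_le_of_mem {I J : Cell} {y : ℝ} (hI : y ∈ I.set) (hJ : y ∈ J.set) : I ≤ J ∨ J ≤ I := by
  rcases cell_nested_or_disjoint I J with h | h | h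
  · exact Or.inl h
  · exact Or.inr h
  · exact absurd hJ (Set.disjoint_left.1 h hI)

theorem cell_le_of_mem_of_depth {I J : Cell} {y : ℝ} (hI : y ∈ I.set) (hJ : y ∈ J.set)
    (hd : J.depth ≤ I.depth) : I ≤ J := by
  rcases cell_le_or_le_of_mem hI hJ with h | h
  · exact h
  · exact (cell_eq_of_le_of_depth h hd).ge

end interval

/-! ### The cell of a given depth at a point -/

section atPt

@[simp] theorem cell_depth_atPt (s : ℤ) (y : ℝ) : (Cell.atPt s y).depth = s := rfl

theorem cell_mem_atPt (s : ℤ) (y : ℝ) : y ∈ (Cell.atPt s y).set := by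
  have h2 : (0 : ℝ) < 2 ^ (-s) := by positivity
  have e : y = y * (2 : ℝ) ^ s * 2 ^ (-s) := by
    rw [mul_assoc, ← zpow_add₀ (by norm_num), add_neg_cancel, zpow_zero, mul_one]
  rw [cell_mem_set]
  unfold Cell.left Cell.right Cell.len Cell.atPt
  simp only
  constructor
  · conv_rhs => rw [e]
    exact mul_le_mul_of_nonneg_right (Int.floor_le _) h2.le
  · conv_lhs => rw [e]
    exact mul_lt_mul_of_pos_right (Int.lt_floor_add_one _) h2

theorem cell_atPt_eq_iff {s : ℤ} {y : ℝ} {I : Cell} : Cell.atPt s y = I ↔ I.depth = s ∧ y ∈ I.set := by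
  constructor
  · rintro rfl
    exact ⟨rfl, cell_mem_atPt s y⟩
  · rintro ⟨hd, hy⟩
    exact cell_eq_of_depth_of_mem hd.symm (cell_mem_atPt s y) hy

theorem cell_mem_set_iff_atPt {I : Cell} {y : ℝ} : y ∈ I.set ↔ Cell.atPt I.depth y = I := by
  rw [cell_atPt_eq_iff]
  exact ⟨fun h => ⟨rfl, h⟩, fun h => h.2⟩

theorem cell_atPt_anc (s : ℤ) (y : ℝ) (n : ℕ) : (Cell.atPt s y).anc n = Cell.atPt (s - n) y := by
  symm
  rw [cell_atPt_eq_iff]
  exact ⟨rfl, cell_set_subset_anc _ n (cell_mem_atPt s y)⟩

theorem cell_atPt_le {s s' : ℤ} (h : s ≤ s') (y : ℝ) : Cell.atPt s' y ≤ Cell.atPt s y := by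
  refine ⟨(s' - s).toNat, ?_⟩
  rw [cell_atPt_anc]
  congr 1
  omega

theorem cell_atPt_le_iff {s : ℤ} {y : ℝ} {J : Cell} : Cell.atPt s y ≤ J ↔ J.depth ≤ s ∧ y ∈ J.set := by
  constructor
  · intro h
    exact ⟨cell_depth_le_of_le h, cell_set_subset h (cell_mem_atPt s y)⟩
  · rintro ⟨hd, hy⟩
    exact cell_le_of_mem_of_depth (cell_mem_atPt s y) hy hd

/-- the cells which contain `y` are the `atPt s y` -/
theorem cell_eq_atPt_of_mem {I : Cell} {y : ℝ} (h : y ∈ I.set) : I = Cell.atPt I.depth y :=
  (cell_mem_set_iff_atPt.1 h).symm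

/-- two points of one cell have the same cells of smaller depth -/
theorem cell_atPt_eq_of_mem {I : Cell} {y y' : ℝ} (h : y ∈ I.set) (h' : y' ∈ I.set) {s : ℤ}
    (hs : s ≤ I.depth) : Cell.atPt s y = Cell.atPt s y' := by
  have hK : ∀ z ∈ I.set, Cell.atPt s z = I.anc (I.depth - s).toNat := by
    intro z hz
    rw [cell_atPt_eq_iff]
    refine ⟨?_, cell_set_subset_anc I _ hz⟩
    simp only [cell_depth_anc]
    omega
  rw [hK y h, hK y' h']

/-- `y ↦ atPt s y` is measurable (countable discrete target): the preimage of any set of cells is measurable -/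
theorem cell_measurableSet_atPt (s : ℤ) (A : Set Cell) : MeasurableSet {y : ℝ | Cell.atPt s y ∈ A} := by
  have hm : Measurable fun y : ℝ => ⌊y * (2 : ℝ) ^ s⌋ :=
    Int.measurable_floor.comp (measurable_id.mul_const _)
  exact hm (MeasurableSet.of_discrete (s := {m : ℤ | (⟨s, m⟩ : Cell) ∈ A}))

end atPt

end Claimed.Agent.R258
end

/- ===== packed: Claimed.Agent.R258.CellApi.Fin ===== -/
section
/-
Row 258, block [CELL] (architect helper132).  API OF THE DYADIC CELLS, file 2: FINITE SETS OF CELLS.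
* `cellsAt R s`    : the `2^s` cells of relative depth `s` below `R`;
* `cellsUpTo R n`  : all cells of relative depth `≤ n` below `R` (a rooted tree; every finite set of cells below `R` is inside one of them);
* `Finset.Icc I R` : the chain of the cells between `I` and `R` (instance `LocallyFiniteOrder Cell`);
* `CellPart R π`   : `π` is a (stopping) partition of `R` into cells.
Filters: every statement with a `Finset.filter` takes the decidability instance as an argument `[DecidablePred ..]`, so that it applies to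
filters elaborated under `open Classical` as well.
RULES FOR THE OWNER OF A LEAF: fill the `sorry`s IN PLACE (auxiliary lemmas above, prefix `cell_`); do not change a statement without telling
helper132.   LEAVES: P-CELL-C = section `at`;  P-CELL-D = sections `upto`, `chain`;  P-CELL-E = section `part`.
-/
set_option autoImplicit false

open MeasureTheory Finset

namespace Claimed.Agent.R258

/-! ### The cells of a given relative depth -/

section «at»

/-- the cells of relative depth `s` below `R` -/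
def cellsAt (R : Cell) (s : ℕ) : Finset Cell :=
  (Finset.range (2 ^ s)).image fun k : ℕ => (⟨R.depth + s, 2 ^ s * R.idx + k⟩ : Cell)

theorem cell_mem_cellsAt {R I : Cell} {s : ℕ} : I ∈ cellsAt R s ↔ I.anc s = R := by
  have h2 : (0 : ℤ) < 2 ^ s := by positivity
  unfold cellsAt
  rw [Finset.mem_image]
  constructor
  · rintro ⟨k, hk, rfl⟩
    rw [Finset.mem_range] at hk
    have hk' : (k : ℤ) < 2 ^ s := by exact_mod_cast hk
    ext
    · simp only [Cell.anc]
      ring
    · simp only [Cell.anc]
      rw [add_comm, Int.add_mul_ediv_left _ _ h2.ne', Int.ediv_eq_zero_of_lt (by positivity) hk', zero_add]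
  · rintro rfl
    refine ⟨(I.idx % 2 ^ s).toNat, ?_, ?_⟩
    · rw [Finset.mem_range]
      have h3 := Int.emod_lt_of_pos I.idx h2
      have h4 := Int.emod_nonneg I.idx h2.ne'
      have : ((I.idx % 2 ^ s).toNat : ℤ) < ((2 ^ s : ℕ) : ℤ) := by
        rw [Int.toNat_of_nonneg h4]
        exact_mod_cast h3
      exact_mod_cast this
    · have h4 := Int.emod_nonneg I.idx h2.ne'
      ext
      · simp only [Cell.anc]
        ring
      · simp only [Cell.anc]
        rw [Int.toNat_of_nonneg h4]
        exact Int.mul_ediv_add_emod I.idx (2 ^ s)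

theorem cell_mem_cellsAt' {R I : Cell} {s : ℕ} : I ∈ cellsAt R s ↔ I ≤ R ∧ I.depth = R.depth + s := by
  rw [cell_mem_cellsAt]
  constructor
  · rintro rfl
    exact ⟨⟨s, rfl⟩, by simp⟩
  · rintro ⟨⟨n, rfl⟩, hd⟩
    simp only [cell_depth_anc] at hd
    have : n = s := by omega
    rw [this]

theorem cell_card_cellsAt (R : Cell) (s : ℕ) : (cellsAt R s).card = 2 ^ s := by
  unfold cellsAt
  rw [Finset.card_image_of_injective, Finset.card_range]
  intro a b h
  simp only [Cell.mk.injEq, true_and] at h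
  omega

theorem cell_cellsAt_zero (R : Cell) : cellsAt R 0 = {R} := by
  ext I
  rw [cell_mem_cellsAt, cell_anc_zero, Finset.mem_singleton]

theorem cell_cellsAt_one (R : Cell) : cellsAt R 1 = {R.child 0, R.child 1} := by
  ext I
  rw [cell_mem_cellsAt, Finset.mem_insert, Finset.mem_singleton]
  constructor
  · rintro rfl
    obtain ⟨b, hb⟩ := cell_exists_child I
    fin_cases b
    · exact Or.inl hb.symm
    · exact Or.inr hb.symm
  · rintro (rfl | rfl) <;> exact cell_child_anc _ _

theorem cell_len_of_mem_cellsAt {R I : Cell} {s : ℕ} (h : I ∈ cellsAt R s) : I.len = R.len / 2 ^ s := by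
  rw [cell_mem_cellsAt] at h
  rw [← h, cell_len_anc]
  field_simp

theorem cell_cellsAt_add_eq_biUnion (R : Cell) (s t : ℕ) :
    cellsAt R (s + t) = (cellsAt R s).biUnion fun J => cellsAt J t := by
  ext I
  simp only [Finset.mem_biUnion, cell_mem_cellsAt]
  constructor
  · intro h
    exact ⟨I.anc t, by rw [cell_anc_anc, add_comm]; exact h, rfl⟩
  · rintro ⟨J, hJ, rfl⟩
    rw [add_comm, ← cell_anc_anc]
    exact hJ

theorem cell_sum_cellsAt_add_aux {M : Type*} [AddCommMonoid M] (R : Cell) (s t : ℕ) (f : Cell → M) :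
    ∑ I ∈ cellsAt R (s + t), f I = ∑ J ∈ cellsAt R s, ∑ I ∈ cellsAt J t, f I := by
  rw [cell_cellsAt_add_eq_biUnion, Finset.sum_biUnion]
  intro J _ J' _ hne
  rw [Function.onFun, Finset.disjoint_left]
  intro I hI hI'
  rw [cell_mem_cellsAt] at hI hI'
  exact hne (hI.symm.trans hI')

/-- sums over the next generation -/
theorem cell_sum_cellsAt_succ {M : Type*} [AddCommMonoid M] (R : Cell) (s : ℕ) (f : Cell → M) :
    ∑ I ∈ cellsAt R (s + 1), f I = ∑ I ∈ cellsAt R s, (f (I.child 0) + f (I.child 1)) := by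
  rw [cell_sum_cellsAt_add_aux]
  refine Finset.sum_congr rfl fun I _ => ?_
  rw [cell_cellsAt_one, Finset.sum_pair (cell_child_ne I)]

/-- sums over generation `s + t`, grouped by the ancestors of generation `s` -/
theorem cell_sum_cellsAt_add {M : Type*} [AddCommMonoid M] (R : Cell) (s t : ℕ) (f : Cell → M) :
    ∑ I ∈ cellsAt R (s + t), f I = ∑ J ∈ cellsAt R s, ∑ I ∈ cellsAt J t, f I := by
  exact cell_sum_cellsAt_add_aux R s t f

theorem cell_sum_len_cellsAt (R : Cell) (s : ℕ) : ∑ I ∈ cellsAt R s, I.len = R.len := by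
  rw [Finset.sum_congr rfl fun I hI => cell_len_of_mem_cellsAt hI, Finset.sum_const, cell_card_cellsAt,
    nsmul_eq_mul]
  push_cast
  field_simp

theorem cell_cellsAt_pairwiseDisjoint (R : Cell) (s : ℕ) :
    ((cellsAt R s : Finset Cell) : Set Cell).PairwiseDisjoint Cell.set := by
  intro I hI J hJ hne
  rw [Finset.mem_coe, cell_mem_cellsAt'] at hI hJ
  exact cell_disjoint_of_depth (hI.2.trans hJ.2.symm) hne

theorem cell_cellsAt_iUnion (R : Cell) (s : ℕ) : ⋃ I ∈ cellsAt R s, I.set = R.set := by
  ext y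
  simp only [Set.mem_iUnion, exists_prop]
  constructor
  · rintro ⟨I, hI, hy⟩
    exact cell_set_subset (cell_mem_cellsAt'.1 hI).1 hy
  · intro hy
    refine ⟨Cell.atPt (R.depth + s) y, ?_, cell_mem_atPt _ _⟩
    rw [cell_mem_cellsAt']
    exact ⟨cell_atPt_le_iff.2 ⟨by omega, hy⟩, rfl⟩

/-- the cell of generation `s` at a point of `R` -/
theorem cell_atPt_mem_cellsAt {R : Cell} {y : ℝ} (hy : y ∈ R.set) (s : ℕ) :
    Cell.atPt (R.depth + s) y ∈ cellsAt R s := by
  rw [cell_mem_cellsAt']
  exact ⟨cell_atPt_le_iff.2 ⟨by omega, hy⟩, rfl⟩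

theorem cell_lintegral_cellsAt (R : Cell) (s : ℕ) (f : ℝ → ENNReal) :
    ∫⁻ y in R.set, f y = ∑ I ∈ cellsAt R s, ∫⁻ y in I.set, f y := by
  rw [← cell_cellsAt_iUnion R s]
  exact lintegral_biUnion_finset (cell_cellsAt_pairwiseDisjoint R s) (fun I _ => cell_measurableSet I) f

theorem cell_integral_cellsAt {E : Type*} [NormedAddCommGroup E] [NormedSpace ℝ E] (R : Cell) (s : ℕ)
    {f : ℝ → E} (hf : IntegrableOn f R.set) :
    ∫ y in R.set, f y = ∑ I ∈ cellsAt R s, ∫ y in I.set, f y := by
  rw [← cell_cellsAt_iUnion R s]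
  refine integral_biUnion_finset _ (fun I _ => cell_measurableSet I) (cell_cellsAt_pairwiseDisjoint R s) ?_
  intro I hI
  exact hf.mono_set (cell_set_subset (cell_mem_cellsAt'.1 hI).1)

end «at»

/-! ### Full trees of finite height -/

section upto

/-- all cells of relative depth `≤ n` below `R` -/
def cellsUpTo (R : Cell) (n : ℕ) : Finset Cell := (Finset.range (n + 1)).biUnion (cellsAt R)

theorem cell_mem_cellsUpTo {R I : Cell} {n : ℕ} : I ∈ cellsUpTo R n ↔ I ≤ R ∧ I.depth ≤ R.depth + n := by
  unfold cellsUpTo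
  simp only [Finset.mem_biUnion, Finset.mem_range, cell_mem_cellsAt']
  constructor
  · rintro ⟨s, hs, hle, hd⟩
    exact ⟨hle, by omega⟩
  · rintro ⟨hle, hd⟩
    have h1 := cell_depth_le_of_le hle
    exact ⟨(I.depth - R.depth).toNat, by omega, hle, by omega⟩

theorem cell_cellsUpTo_mono (R : Cell) {m n : ℕ} (h : m ≤ n) : cellsUpTo R m ⊆ cellsUpTo R n := by
  intro I hI
  rw [cell_mem_cellsUpTo] at hI ⊢
  exact ⟨hI.1, by omega⟩

theorem cell_rootedTree_cellsUpTo (R : Cell) (n : ℕ) : RootedTree R (cellsUpTo R n) := by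
  refine ⟨?_, ?_, ?_⟩
  · rw [cell_mem_cellsUpTo]
    exact ⟨le_refl _, by omega⟩
  · intro I hI
    exact (cell_mem_cellsUpTo.1 hI).1
  · intro I hI J hIJ hJR
    rw [cell_mem_cellsUpTo] at hI ⊢
    have := cell_depth_le_of_le hIJ
    exact ⟨hJR, by omega⟩

/-- every finite set of cells below `R` lies in a full tree of finite height -/
theorem cell_exists_cellsUpTo (R : Cell) (S : Finset Cell) (hS : ∀ I ∈ S, I ≤ R) : ∃ n, S ⊆ cellsUpTo R n := by
  refine ⟨S.sup fun I => (I.depth - R.depth).toNat, ?_⟩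
  intro I hI
  rw [cell_mem_cellsUpTo]
  refine ⟨hS I hI, ?_⟩
  have := Finset.le_sup (f := fun I : Cell => (I.depth - R.depth).toNat) hI
  omega

theorem cell_sum_cellsUpTo {M : Type*} [AddCommMonoid M] (R : Cell) (n : ℕ) (f : Cell → M) :
    ∑ I ∈ cellsUpTo R n, f I = ∑ s ∈ Finset.range (n + 1), ∑ I ∈ cellsAt R s, f I := by
  unfold cellsUpTo
  rw [Finset.sum_biUnion]
  intro s _ t _ hne
  rw [Function.onFun, Finset.disjoint_left]
  intro I hI hI'
  rw [cell_mem_cellsAt'] at hI hI'
  apply hne
  have := hI.2.symm.trans hI'.2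
  omega

/-- the set of the cells below `R` of depth `< s1` is finite -/
theorem cell_finite_below (R : Cell) (s1 : ℤ) : {I : Cell | I ≤ R ∧ I.depth < s1}.Finite := by
  refine (Finset.finite_toSet (cellsUpTo R (s1 - R.depth).toNat)).subset ?_
  rintro I ⟨hle, hd⟩
  rw [Finset.mem_coe, cell_mem_cellsUpTo]
  exact ⟨hle, by omega⟩

end upto

/-! ### Chains -/

section chain

theorem cell_finite_Icc (I R : Cell) : (Set.Icc I R).Finite := by
  refine (cell_finite_below R (I.depth + 1)).subset ?_
  rintro J ⟨h1, h2⟩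
  have := cell_depth_le_of_le h1
  exact ⟨h2, by omega⟩

/-- `Finset.Icc I R` = the cells between `I` and `R` -/
noncomputable instance cellLocallyFiniteOrder : LocallyFiniteOrder Cell :=
  LocallyFiniteOrder.ofFiniteIcc cell_finite_Icc

theorem cell_anc_injective (I : Cell) : Function.Injective I.anc := by
  intro a b h
  have := congrArg Cell.depth h
  simp only [cell_depth_anc] at this
  omega

theorem cell_Icc_eq_image {I R : Cell} {n : ℕ} (h : I.anc n = R) :
    Finset.Icc I R = (Finset.range (n + 1)).image I.anc := by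
  ext J
  rw [Finset.mem_Icc, Finset.mem_image]
  constructor
  · rintro ⟨⟨k, rfl⟩, h2⟩
    have := cell_depth_le_of_le h2
    rw [← h] at this
    simp only [cell_depth_anc] at this
    exact ⟨k, Finset.mem_range.2 (by omega), rfl⟩
  · rintro ⟨k, hk, rfl⟩
    rw [Finset.mem_range] at hk
    refine ⟨cell_le_anc I k, n - k, ?_⟩
    rw [cell_anc_anc, ← h]
    congr 1
    omega

theorem cell_card_Icc {I R : Cell} {n : ℕ} (h : I.anc n = R) : (Finset.Icc I R).card = n + 1 := by
  rw [cell_Icc_eq_image h, Finset.card_image_of_injective _ (cell_anc_injective I), Finset.card_range]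

/-- sums along the path from `I` to `R` -/
theorem cell_sum_Icc {M : Type*} [AddCommMonoid M] {I R : Cell} {n : ℕ} (h : I.anc n = R) (f : Cell → M) :
    ∑ J ∈ Finset.Icc I R, f J = ∑ k ∈ Finset.range (n + 1), f (I.anc k) := by
  rw [cell_Icc_eq_image h, Finset.sum_image fun a _ b _ hab => cell_anc_injective I hab]

/-- the path of a child -/
theorem cell_Icc_child {I R : Cell} (h : I ≤ R) (b : Fin 2) :
    Finset.Icc (I.child b) R = insert (I.child b) (Finset.Icc I R) := by
  ext J
  rw [Finset.mem_insert, Finset.mem_Icc, Finset.mem_Icc]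
  constructor
  · rintro ⟨h1, h2⟩
    rcases eq_or_lt_of_le h1 with h3 | h3
    · exact Or.inl h3.symm
    · rw [cell_lt_iff_parent_le, cell_child_anc] at h3
      exact Or.inr ⟨h3, h2⟩
  · rintro (rfl | ⟨h1, h2⟩)
    · exact ⟨le_refl _, (cell_child_le I b).trans h⟩
    · exact ⟨(cell_child_le I b).trans h1, h2⟩

theorem cell_sum_Icc_child {M : Type*} [AddCommMonoid M] {I R : Cell} (h : I ≤ R) (b : Fin 2) (f : Cell → M) :
    ∑ J ∈ Finset.Icc (I.child b) R, f J = f (I.child b) + ∑ J ∈ Finset.Icc I R, f J := by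
  rw [cell_Icc_child h b, Finset.sum_insert]
  rw [Finset.mem_Icc]
  rintro ⟨h1, _⟩
  exact absurd (cell_child_lt I b) (not_lt_of_ge h1)

/-- a rooted tree contains the paths to its root -/
theorem cell_Icc_subset_tree {R : Cell} {T : Finset Cell} (hT : RootedTree R T) {I : Cell} (hI : I ∈ T) :
    Finset.Icc I R ⊆ T := by
  intro J hJ
  rw [Finset.mem_Icc] at hJ
  exact hT.conv I hI J hJ.1 hJ.2

/-- the path from `I` to `R`, in terms of a point of `I` -/
theorem cell_mem_Icc_iff_atPt {I R J : Cell} {y : ℝ} (hy : y ∈ I.set) (h : I ≤ R) :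
    J ∈ Finset.Icc I R ↔ y ∈ J.set ∧ R.depth ≤ J.depth ∧ J.depth ≤ I.depth := by
  rw [Finset.mem_Icc]
  constructor
  · rintro ⟨h1, h2⟩
    exact ⟨cell_set_subset h1 hy, cell_depth_le_of_le h2, cell_depth_le_of_le h1⟩
  · rintro ⟨h1, h2, h3⟩
    exact ⟨cell_le_of_mem_of_depth hy h1 h3, cell_le_of_mem_of_depth h1 (cell_set_subset h hy) h2⟩

end chain

/-! ### Partitions of a cell into cells -/

section part

/-- `π` is a partition of `R` into cells (a "stopping partition") -/
structure CellPart (R : Cell) (π : Finset Cell) : Prop where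
  le : ∀ I ∈ π, I ≤ R
  anti : IsAntichain (· ≤ ·) (π : Set Cell)
  cover : ∀ y ∈ R.set, ∃ I ∈ π, y ∈ I.set

theorem cell_part_self (R : Cell) : CellPart R {R} := by
  refine ⟨?_, ?_, ?_⟩
  · intro I hI
    rw [Finset.mem_singleton] at hI
    exact hI.le
  · rw [Finset.coe_singleton]
    exact IsAntichain.singleton
  · intro y hy
    exact ⟨R, Finset.mem_singleton_self R, hy⟩

theorem cell_part_cellsAt (R : Cell) (s : ℕ) : CellPart R (cellsAt R s) := by
  refine ⟨?_, ?_, ?_⟩
  · intro I hI
    exact (cell_mem_cellsAt'.1 hI).1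
  · intro I hI J hJ hne hle
    rw [Finset.mem_coe, cell_mem_cellsAt'] at hI hJ
    exact hne (cell_eq_of_le_of_depth hle (by omega))
  · intro y hy
    exact ⟨_, cell_atPt_mem_cellsAt hy s, cell_mem_atPt _ _⟩

theorem CellPart.iUnion {R : Cell} {π : Finset Cell} (h : CellPart R π) : ⋃ I ∈ π, I.set = R.set := by
  ext y
  simp only [Set.mem_iUnion, exists_prop]
  constructor
  · rintro ⟨I, hI, hy⟩
    exact cell_set_subset (h.le I hI) hy
  · intro hy
    exact h.cover y hy

theorem cell_pairwiseDisjoint_of_antichain {π : Finset Cell} (ha : IsAntichain (· ≤ ·) (π : Set Cell)) :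
    (π : Set Cell).PairwiseDisjoint Cell.set := by
  intro I hI J hJ hne
  exact cell_disjoint_iff.2 ⟨ha hI hJ hne, ha hJ hI hne.symm⟩

theorem cell_sum_len_eq_volume {π : Finset Cell} (ha : IsAntichain (· ≤ ·) (π : Set Cell)) :
    ENNReal.ofReal (∑ I ∈ π, I.len) = volume (⋃ I ∈ π, I.set) := by
  rw [measure_biUnion_finset (cell_pairwiseDisjoint_of_antichain ha) fun I _ => cell_measurableSet I,
    ENNReal.ofReal_sum_of_nonneg fun I _ => cell_len_nonneg I]
  exact Finset.sum_congr rfl fun I _ => (cell_volume_set I).symm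

theorem cell_sum_len_le_aux {R : Cell} {π : Finset Cell} (hle : ∀ I ∈ π, I ≤ R)
    (ha : IsAntichain (· ≤ ·) (π : Set Cell)) : ∑ I ∈ π, I.len ≤ R.len := by
  have h1 : volume (⋃ I ∈ π, I.set) ≤ volume R.set :=
    measure_mono (Set.iUnion₂_subset fun I hI => cell_set_subset (hle I hI))
  rw [← cell_sum_len_eq_volume ha, cell_volume_set] at h1
  exact (ENNReal.ofReal_le_ofReal_iff (cell_len_nonneg R)).1 h1

theorem CellPart.pairwiseDisjoint {R : Cell} {π : Finset Cell} (h : CellPart R π) :
    (π : Set Cell).PairwiseDisjoint Cell.set := by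
  exact cell_pairwiseDisjoint_of_antichain h.anti

theorem CellPart.sum_len {R : Cell} {π : Finset Cell} (h : CellPart R π) : ∑ I ∈ π, I.len = R.len := by
  have h1 := cell_sum_len_eq_volume h.anti
  rw [h.iUnion, cell_volume_set] at h1
  exact (ENNReal.ofReal_eq_ofReal_iff (Finset.sum_nonneg fun I _ => cell_len_nonneg I)
    (cell_len_nonneg R)).1 h1

/-- an antichain below `R` of full length is a partition -/
theorem cell_part_of_sum_len {R : Cell} {π : Finset Cell} (hle : ∀ I ∈ π, I ≤ R)
    (ha : IsAntichain (· ≤ ·) (π : Set Cell)) (hs : ∑ I ∈ π, I.len = R.len) : CellPart R π := by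
  refine ⟨hle, ha, ?_⟩
  intro y hy
  by_contra hno
  push Not at hno
  obtain ⟨n, hn⟩ := cell_exists_cellsUpTo R π hle
  set K := Cell.atPt (R.depth + n) y with hK
  have hyK : y ∈ K.set := cell_mem_atPt _ _
  have hKR : K ≤ R := cell_atPt_le_iff.2 ⟨by omega, hy⟩
  have hcmp : ∀ I ∈ π, ¬ K ≤ I ∧ ¬ I ≤ K := by
    intro I hI
    constructor
    · intro h
      exact hno I hI (cell_set_subset h hyK)
    · intro h
      have hd := (cell_mem_cellsUpTo.1 (hn hI)).2
      have : I = K := cell_eq_of_le_of_depth h hd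
      exact hno I hI (this ▸ hyK)
  have hKπ : K ∉ π := fun h => (hcmp K h).1 (le_refl _)
  have h1 : ∑ I ∈ insert K π, I.len ≤ R.len := by
    refine cell_sum_len_le_aux ?_ ?_
    · intro I hI
      rcases Finset.mem_insert.1 hI with rfl | hI
      · exact hKR
      · exact hle I hI
    · rw [Finset.coe_insert]
      refine ha.insert ?_ ?_
      · intro I hI _ h
        exact (hcmp I hI).2 h
      · intro I hI _ h
        exact (hcmp I hI).1 h
  rw [Finset.sum_insert hKπ, hs] at h1
  linarith [cell_len_pos K]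

/-- every cell below `R` is comparable with exactly one... : it is below a member or strictly above a member -/
theorem CellPart.cases {R : Cell} {π : Finset Cell} (h : CellPart R π) {I : Cell} (hI : I ≤ R) :
    (∃ K ∈ π, I ≤ K) ∨ ∃ K ∈ π, K < I := by
  obtain ⟨K, hK, hy⟩ := h.cover I.left (cell_set_subset hI (cell_left_mem I))
  rcases cell_le_or_le_of_mem (cell_left_mem I) hy with h1 | h1
  · exact Or.inl ⟨K, hK, h1⟩
  · rcases eq_or_lt_of_le h1 with h2 | h2
    · exact Or.inl ⟨K, hK, h2.ge⟩
    · exact Or.inr ⟨K, hK, h2⟩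

/-- the member of the partition above a given cell is unique -/
theorem CellPart.unique {R : Cell} {π : Finset Cell} (h : CellPart R π) {I K K' : Cell} (hK : K ∈ π)
    (hK' : K' ∈ π) (h1 : I ≤ K) (h2 : I ≤ K') : K = K' := by
  rcases cell_chain h1 h2 with h3 | h3
  · exact h.anti.eq hK hK' h3
  · exact (h.anti.eq hK' hK h3).symm

/-- the part of a partition below a cell which is not strictly below a member -/
theorem CellPart.restrict {R : Cell} {π : Finset Cell} (h : CellPart R π) {I : Cell} (hI : I ≤ R)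
    (hn : ∀ K ∈ π, ¬ I < K) [DecidablePred fun K : Cell => K ≤ I] : CellPart I (π.filter fun K => K ≤ I) := by
  refine ⟨?_, ?_, ?_⟩
  · intro K hK
    exact (Finset.mem_filter.1 hK).2
  · refine h.anti.subset ?_
    intro K hK
    exact (Finset.mem_filter.1 (Finset.mem_coe.1 hK)).1
  · intro y hy
    obtain ⟨K, hK, hyK⟩ := h.cover y (cell_set_subset hI hy)
    refine ⟨K, Finset.mem_filter.2 ⟨hK, ?_⟩, hyK⟩
    rcases cell_le_or_le_of_mem hy hyK with h1 | h1
    · rcases eq_or_lt_of_le h1 with h2 | h2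
      · exact h2.ge
      · exact absurd h2 (hn K hK)
    · exact h1

/-- replace every member of a partition by a partition of it -/
theorem CellPart.bind {R : Cell} {π : Finset Cell} (h : CellPart R π) (ρ : Cell → Finset Cell)
    (hρ : ∀ K ∈ π, CellPart K (ρ K)) : CellPart R (π.biUnion ρ) := by
  refine ⟨?_, ?_, ?_⟩
  · intro I hI
    obtain ⟨K, hK, hIK⟩ := Finset.mem_biUnion.1 hI
    exact ((hρ K hK).le I hIK).trans (h.le K hK)
  · intro I hI I' hI' hne hle
    obtain ⟨K, hK, hIK⟩ := Finset.mem_biUnion.1 (Finset.mem_coe.1 hI)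
    obtain ⟨K', hK', hIK'⟩ := Finset.mem_biUnion.1 (Finset.mem_coe.1 hI')
    have e : K = K' := h.unique hK hK' ((hρ K hK).le I hIK) (hle.trans ((hρ K' hK').le I' hIK'))
    subst e
    exact (hρ K hK).anti hIK hIK' hne hle
  · intro y hy
    obtain ⟨K, hK, hyK⟩ := h.cover y hy
    obtain ⟨I, hI, hyI⟩ := (hρ K hK).cover y hyK
    exact ⟨I, Finset.mem_biUnion.2 ⟨K, hK, hI⟩, hyI⟩

theorem CellPart.lintegral {R : Cell} {π : Finset Cell} (h : CellPart R π) (f : ℝ → ENNReal) :
    ∫⁻ y in R.set, f y = ∑ I ∈ π, ∫⁻ y in I.set, f y := by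
  rw [← h.iUnion]
  exact lintegral_biUnion_finset h.pairwiseDisjoint (fun I _ => cell_measurableSet I) f

theorem CellPart.integral {E : Type*} [NormedAddCommGroup E] [NormedSpace ℝ E] {R : Cell} {π : Finset Cell}
    (h : CellPart R π) {f : ℝ → E} (hf : IntegrableOn f R.set) :
    ∫ y in R.set, f y = ∑ I ∈ π, ∫ y in I.set, f y := by
  rw [← h.iUnion]
  refine integral_biUnion_finset _ (fun I _ => cell_measurableSet I) h.pairwiseDisjoint ?_
  intro I hI
  exact hf.mono_set (cell_set_subset (h.le I hI))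

/-- `π'` refines `π` -/
def CellRefines (π' π : Finset Cell) : Prop := ∀ I ∈ π', ∃ K ∈ π, I ≤ K

/-- if `π'` refines `π` (both partitions of `R`) then the members of `π'` below `K ∈ π` form a partition of `K` -/
theorem CellPart.refines_restrict {R : Cell} {π π' : Finset Cell} (h : CellPart R π) (h' : CellPart R π')
    (hr : CellRefines π' π) {K : Cell} (hK : K ∈ π) [DecidablePred fun I : Cell => I ≤ K] :
    CellPart K (π'.filter fun I => I ≤ K) := by
  refine h'.restrict (h.le K hK) ?_
  intro I hI hlt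
  obtain ⟨K', hK', hIK'⟩ := hr I hI
  have h1 : K < K' := lt_of_lt_of_le hlt hIK'
  exact h1.ne (h.anti.eq hK hK' h1.le)

/-- THE LEAVES OF A STOPPED TREE.  `stops` an antichain of cells below `R`, all of relative depth `≤ n`: the stops together with the cells of
relative depth `n` which are not below a stop form a partition of `R`. -/
theorem cell_part_stops {R : Cell} {stops : Finset Cell} {n : ℕ} (hs : stops ⊆ cellsUpTo R n)
    (ha : IsAntichain (· ≤ ·) (stops : Set Cell)) [DecidablePred fun I : Cell => ∀ K ∈ stops, ¬ I ≤ K] :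
    CellPart R (stops ∪ (cellsAt R n).filter fun I => ∀ K ∈ stops, ¬ I ≤ K) := by
  refine ⟨?_, ?_, ?_⟩
  · intro I hI
    rcases Finset.mem_union.1 hI with hI | hI
    · exact (cell_mem_cellsUpTo.1 (hs hI)).1
    · exact (cell_mem_cellsAt'.1 (Finset.mem_filter.1 hI).1).1
  · intro I hI J hJ hne hle
    rcases Finset.mem_union.1 (Finset.mem_coe.1 hI) with hI | hI <;>
      rcases Finset.mem_union.1 (Finset.mem_coe.1 hJ) with hJ | hJ
    · exact ha hI hJ hne hle
    · have h1 := (cell_mem_cellsUpTo.1 (hs hI)).2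
      have h2 := (cell_mem_cellsAt'.1 (Finset.mem_filter.1 hJ).1).2
      exact hne (cell_eq_of_le_of_depth hle (by omega))
    · exact (Finset.mem_filter.1 hI).2 J hJ hle
    · have h1 := (cell_mem_cellsAt'.1 (Finset.mem_filter.1 hI).1).2
      have h2 := (cell_mem_cellsAt'.1 (Finset.mem_filter.1 hJ).1).2
      exact hne (cell_eq_of_le_of_depth hle (by omega))
  · intro y hy
    by_cases hex : ∃ K ∈ stops, Cell.atPt (R.depth + n) y ≤ K
    · obtain ⟨K, hK, hle⟩ := hex
      exact ⟨K, Finset.mem_union_left _ hK, cell_set_subset hle (cell_mem_atPt _ _)⟩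
    · push Not at hex
      exact ⟨_, Finset.mem_union_right _ (Finset.mem_filter.2 ⟨cell_atPt_mem_cellsAt hy n, hex⟩),
        cell_mem_atPt _ _⟩

end part

end Claimed.Agent.R258
end

/- ===== packed: Claimed.Agent.R258.S5.Defs ===== -/
section
/-
Row 258 (S0498), Sec. 5 (base.tex), architect helper182.   DEFINITIONS of the block S5 (= theorem (T2) `BaseGoal` of S5/Base.lean).

* `Inh R m`            : `m : Cell → Finset Col` is an inherited mask family on all cells below `R` (with private labels);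
* `FullAv R m`         : every column is available on all cells below its birth cell;
* `Bud R m ch D`       : its budget: bounded chart atoms (chart data `ch`) of complexity `≤ D`, `1/D ≤ √ε ≤ 1`, path count `≤ D`;
* `dproj m I n`        : the DELAYED projection `P_{s+n}` restricted to `I` (direct sum over `cellsAt I n`, CellApi/Fin.lean); `dproj m I 0 = cproj (m I) I`;
* `DSmall q I w j r δ` : `𝔡_{j,I}(r) ≤ δ` (one normalized `L^q` and two normalized `L²` opponents);
* `mom I r φ`          : normalized moment `⨍_I r_phys \bar φ`;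
* `AdmSeq J F Dh L z`  : admissible sequences of Sec. 5.1;
* `slot4 i j a b`      : the four slots are distinct;
* `tripNorm`           : the norm `𝒜_I` of Lemma 5.7.
-/
set_option autoImplicit false
open MeasureTheory
open scoped ENNReal ContDiff

namespace Claimed.Agent.R258

/-- inherited mask family on all cells below `R`, with private labels -/
structure Inh (R : Cell) (m : Cell → Finset Col) : Prop where
  birth : ∀ I, ∀ Φ ∈ m I, I ≤ Φ.birth
  mono : ∀ I I' : Cell, I ≤ R → I' ≤ I → m I ⊆ m I'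
  lab : ∀ I I', ∀ Φ ∈ m I, ∀ Φ' ∈ m I', Φ.lab = Φ'.lab → Φ = Φ'

/-- full availability: a column of the family is available on ALL cells below its birth cell (and below `R`) -/
def FullAv (R : Cell) (m : Cell → Finset Col) : Prop :=
  ∀ I, ∀ Φ ∈ m I, ∀ I' : Cell, I' ≤ R → I' ≤ Φ.birth → Φ ∈ m I'

/-- budget of a mask family whose columns are bounded chart atoms -/
structure Bud (R : Cell) (m : Cell → Finset Col) (ch : ℕ → Chart) (D : ℝ) : Prop where
  chart : ∀ I, ∀ Φ ∈ m I, Φ.phi = (ch Φ.lab).eval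
  cplx : ∀ I, ∀ Φ ∈ m I, (ch Φ.lab).Cplx D
  bdd : ∀ I, ∀ Φ ∈ m I, (ch Φ.lab).Bdd
  eps : ∀ I, ∀ Φ ∈ m I, D⁻¹ ≤ Real.sqrt Φ.eps ∧ Φ.eps ≤ 1
  /-- path count of births (the budget `∑_v 1_{J_v} ≤ D` of Sec. 3.2) -/
  count : ∀ I, I ≤ R → ∀ A : Finset Col, (∀ Φ ∈ A, (∃ I', I' ≤ R ∧ Φ ∈ m I') ∧ I ≤ Φ.birth) → (A.card : ℝ) ≤ D

/-- the delayed projection: direct sum of the local projections on the partition of `I` at relative depth `n` -/
noncomputable def dproj (m : Cell → Finset Col) (I : Cell) (n : ℕ) : XV →L[ℂ] XV :=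
  ∑ Q ∈ cellsAt I n, cproj (m Q) Q

/-- `𝔡_{j,I}(r) ≤ δ`: the residual `r` in slot `j`, a normalized `L^q(I)` input in the slot `m ≠ j`, normalized `L²(I)` inputs in the
other two slots. -/
def DSmall (q : ℝ) (I : Cell) (w : ℝ × ℝ → ℂ) (j : Fin 4) (r : XV) (δ : ℝ) : Prop :=
  ∀ (z : Fin 4 → XV) (m : Fin 4), z j = r → m ≠ j →
    MemLp (physFn (z m)) (ENNReal.ofReal q) (volume.restrict I.set) →
    ‖formV I w z‖ ≤ δ * nnorm q I (physFn (z m)) * ∏ l ∈ (Finset.univ.erase j).erase m, n2 I (z l)

/-- normalized moment of the physical component against a scalar function -/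
noncomputable def mom (I : Cell) (r : XV) (φ : ℝ → ℂ) : ℂ :=
  (I.len⁻¹ : ℝ) * ∫ y in I.set, physFn r y * (starRingEnd ℂ) (φ y)

/-- admissible sequences (Sec. 5.1): a combination of the fixed input, at most three current projections of budget `Dh` and a
square-energy sequence of constant `L`. -/
def AdmSeq (J : Cell) (F : XV) (Dh L : ℝ) (z : Cell → XV) : Prop :=
  ∃ (α : ℂ) (β : Fin 3 → ℂ) (m : Fin 3 → Cell → Finset Col) (ch : Fin 3 → ℕ → Chart) (Z : Cell → XV),
    ‖α‖ ≤ 1 ∧ (∀ i, ‖β i‖ ≤ 1) ∧ (∀ i, Inh J (m i)) ∧ (∀ i, Bud J (m i) (ch i) Dh) ∧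
    (∀ I, restr I.set (Z I) = Z I) ∧
    (∀ A : Finset Cell, (∀ I ∈ A, I ≤ J) → ∑ I ∈ A, ‖Z I‖ ^ 2 ≤ L ^ 2 * ‖restr J.set F‖ ^ 2) ∧
    ∀ I, I ≤ J → z I = α • restr I.set F + ∑ i, β i • cproj (m i I) I F + Z I

/-- four distinct slots -/
def slot4 (i j a b : Fin 4) : Prop := i ≠ j ∧ i ≠ a ∧ i ≠ b ∧ j ≠ a ∧ j ≠ b ∧ a ≠ b

/-- scalar inputs placed in the slots `i j a b` -/
def put4 {α : Type*} (i j a : Fin 4) (xi xj xa xb : α) : Fin 4 → α :=
  fun l => if l = i then xi else if l = j then xj else if l = a then xa else xb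

/-- the norm `𝒜_I` of the form of three fixed scalar functions (slots `≠ l`) against a normalized `L²(I)` input in the slot `l` -/
noncomputable def tripNorm (I : Cell) (w : ℝ × ℝ → ℂ) (l : Fin 4) (φ : Fin 4 → ℝ → ℂ) : ℝ :=
  sSup {x : ℝ | ∃ u : XV, n2 I u ≤ 1 ∧ x = ‖form I w (Function.update φ l (physFn u))‖}

/-- `exp (C (1 + x)^C)`: quasipolynomial bounds -/
noncomputable def qpoly (C x : ℝ) : ℝ := Real.exp (C * (1 + x) ^ C)

/-- `(C (1 + x))^C`: polylogarithmic bounds -/
noncomputable def plog (C x : ℝ) : ℝ := (C * (1 + x)) ^ C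

end Claimed.Agent.R258
end

/- ===== packed: Claimed.Agent.R258.S7.Var ===== -/
section
/-
Row 258, Sec. 7.2 (home architect: helper244).  ABSTRACT FORM of Lemma 7.3 (variation on certified endpoint cells), block [S7-VAR].

Setting: a root `R`; relative depths `n : ℕ` (cells `cellsAt R n`); shared history `W` = list of factors (inherited mask family, flag
`true` = complement), head = OUTERMOST factor; for every group `G` an outer inherited mask family `L G` (individual nested ball
projection); `cert G J` = "`J` has a downstream actual-use certificate for `G`" (closed under passing to ancestors below `R`).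
Hypotheses are the CONCLUSIONS of Lemma 3.4 (`ComprFor`, for all suffixes of `W`) and of Lemma 6.6 (`UsableBessel`).
Averages over pad choices (coupled across time) and signed sums are added afterwards by Jensen (`s7_var_avg`).

LEAF [P-S7-VAR]: prove `theorem s7_varShGoal : VarShGoal`, `s7_varOneGoal : VarOneGoal`, `s7_varGoal : VarGoal`, `s7_varRowsGoal : VarRowsGoal`,
`s7_jumpGoal : JumpGoal` in S7/VarProof.lean.
PROOF (complete).  Write `Lg n = sum_{J in cellsAt R n} cproj (L G J) J`, `Pj n = sum_J cproj (f_j J) J`, `Pi n = s7sh R W n`.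
(0) Basic facts: `cproj A J = restr J ∘ cproj A J ∘ restr J` (range inside L^2(J)); cells of one depth are disjoint, so all these sums are
    block diagonal and `Lg n`, `Pj n` are orthogonal projections; by `Inh.mono`, `restr J (Φ.vec J') = Φ.vec J` for `J ≤ J'` (also for the
    junk value), hence range (Lg n) ⊆ range (Lg n') for n ≤ n' : NESTED (use `s3_Nested`, `s3_Nested.bessel` of S3/Prefix.lean);
    `sum_J restr J = restr R` at every depth, so the increment of a complement factor is minus the increment of the projection;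
    `restr J' (Pi r F) = s7prod W J' F` for an r-cell `J'`; product of block diagonal operators is block diagonal.
(1) VarSh: telescope `Pi t - Pi r = sum_j [factors left of j at t] (f_{j,t} - f_{j,r}) [factors right of j at r]`; left factors are
    contractions; rows `B_(i,J') = (Pj (t i) - Pj (r i)) ∘ restr J'` (J' in cellsAt R (r i)) are Bessel with constant 1 (disjoint depth
    intervals: orthogonal increments; block diagonal in J'); `ComprFor` for the suffix right of `j` gives
    `sum_i ‖(f_{j,t_i} - f_{j,r_i}) Pi^{>j}_{r_i} F‖^2 ≤ Kap^2 ‖F‖^2`; Minkowski in l^2(i) over the m = W.length values of j.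
(2) group Bessel at one time: `sum_G ‖1_{E G} Lg t x‖^2 ≤ 2 ‖x‖^2`: by duality; the adjoint maps `(w_G)` to `sum_G Lg t (1_{E G} w_G)`, every
    summand lies in the usable space of `G`, `UsableBessel` gives `‖sum‖^2 ≤ 2 sum ‖w_G‖^2`.  This is VarOne after `ComprFor` for W itself
    (rows `2^{-1/2} 1_{E G} Lg t restr J`, J in cellsAt R t).
(3) joint Bessel of `1_{E G i} (Lg (t i) - Lg (r i))` over (G,i), constant 2: duality again; `y_G = sum_i (Lg (t i) - Lg (r i)) 1_{E G i} w_{G,i}`
    lies in the usable space (`cert_up` for the r-cells that meet `E G i`; on the other r-cells the term vanishes), and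
    `‖y_G‖^2 = sum_i ‖(Lg (t i) - Lg (r i)) v_i‖^2 ≤ sum_i ‖w_{G,i}‖^2` (orthogonal increments).
(4) Var: `Z_t - Z_r = (Lg t - Lg r) Pi r + Lg t (Pi t - Pi r)`.  First term: rows of (3) cut at the r-cells, `ComprFor R W Kap`:
    `≤ 2 Kap^2 ‖F‖^2`.  Second term: (2) at every i, then (1): `≤ 2 (m Kap)^2 ‖F‖^2`.  Minkowski: `2 ((m+1) Kap)^2`.
-/
set_option autoImplicit false
open MeasureTheory

namespace Claimed.Agent.R258

/-- a factor of a history at the cell `J`: the local projection or its complement in `L²(J)` -/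
noncomputable def s7fac (f : (Cell → Finset Col) × Bool) (J : Cell) : XV →L[ℂ] XV :=
  if f.2 then restr J.set - cproj (f.1 J) J else cproj (f.1 J) J

/-- the product of the factors at the cell `J`; head = outermost; the empty product is the restriction to `J` -/
noncomputable def s7prod : List ((Cell → Finset Col) × Bool) → Cell → XV →L[ℂ] XV
  | [], J => restr J.set
  | f :: W, J => (s7fac f J).comp (s7prod W J)

/-- the conclusion of Lemma 3.4 for the product `W` with constant `Kap` -/
def ComprFor (R : Cell) (W : List ((Cell → Finset Col) × Bool)) (Kap : ℝ) : Prop :=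
  ∀ (ι : Type) [Fintype ι] (B : ι → XV →L[ℂ] XV) (u : ι → Cell), (∀ ν, u ν ≤ R) →
    (∀ ν, B ν = (B ν).comp (restr (u ν).set)) → (∀ z, ∑ ν, ‖B ν z‖ ^ 2 ≤ ‖z‖ ^ 2) →
    ∀ z, ∑ ν, ‖B ν (s7prod W (u ν) z)‖ ^ 2 ≤ Kap ^ 2 * ‖z‖ ^ 2

/-- the conclusion of Lemma 6.6: the usable endpoint spaces of the groups are almost orthogonal -/
def UsableBessel (R : Cell) (grps : Finset ℕ) (L : ℕ → Cell → Finset Col) (cert : ℕ → Cell → Prop) : Prop :=
  ∀ y : ℕ → XV, (∀ G ∈ grps, y G ∈ ⨆ (J : Cell) (_ : J ≤ R ∧ cert G J), colSpan (L G J) J) →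
    ‖∑ G ∈ grps, y G‖ ^ 2 ≤ 2 * ∑ G ∈ grps, ‖y G‖ ^ 2

/-- the coarse output at relative depth `n`: `∑_J L_{G,J} ∏ W_J` -/
noncomputable def s7out (R : Cell) (L : ℕ → Cell → Finset Col) (W : List ((Cell → Finset Col) × Bool)) (G n : ℕ) :
    XV →L[ℂ] XV :=
  ∑ J ∈ cellsAt R n, (cproj (L G J) J).comp (s7prod W J)

/-- the shared history at relative depth `n` (no outer ball) -/
noncomputable def s7sh (R : Cell) (W : List ((Cell → Finset Col) × Bool)) (n : ℕ) : XV →L[ℂ] XV :=
  ∑ J ∈ cellsAt R n, s7prod W J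

/-- common hypotheses -/
structure VarHyp (R : Cell) (grps : Finset ℕ) (L : ℕ → Cell → Finset Col) (cert : ℕ → Cell → Prop)
    (W : List ((Cell → Finset Col) × Bool)) (Kap : ℝ) : Prop where
  inhL : ∀ G ∈ grps, Inh R (L G)
  inhW : ∀ f ∈ W, Inh R f.1
  cert_up : ∀ G J J', cert G J → J ≤ J' → J' ≤ R → cert G J'
  ub : UsableBessel R grps L cert
  compr : ∀ W', W' <:+ W → ComprFor R W' Kap
  kap : 1 ≤ Kap

/-- **Lemma 7.3**, individual projections. -/
def VarGoal : Prop :=
  ∀ (R : Cell) (grps : Finset ℕ) (L : ℕ → Cell → Finset Col) (cert : ℕ → Cell → Prop)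
    (W : List ((Cell → Finset Col) × Bool)) (Kap : ℝ), VarHyp R grps L cert W Kap →
  ∀ (κ : Type) [Fintype κ] (r t : κ → ℕ), (∀ i, r i ≤ t i) → (∀ i j, i ≠ j → t i ≤ r j ∨ t j ≤ r i) →
  ∀ (E : ℕ → κ → Finset Cell), (∀ G i, E G i ⊆ cellsAt R (t i)) → (∀ G i, ∀ J ∈ E G i, cert G J) →
  ∀ F : XV,
    ∑ G ∈ grps, ∑ i, ∑ J ∈ E G i, ‖restr J.set (s7out R L W G (t i) F - s7out R L W G (r i) F)‖ ^ 2
      ≤ 2 * (((W.length : ℝ) + 1) * Kap) ^ 2 * ‖F‖ ^ 2

/-- the one-time bound (intervals crossing the start of the attempt, zero convention) -/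
def VarOneGoal : Prop :=
  ∀ (R : Cell) (grps : Finset ℕ) (L : ℕ → Cell → Finset Col) (cert : ℕ → Cell → Prop)
    (W : List ((Cell → Finset Col) × Bool)) (Kap : ℝ), VarHyp R grps L cert W Kap →
  ∀ (t : ℕ) (E : ℕ → Finset Cell), (∀ G, E G ⊆ cellsAt R t) → (∀ G, ∀ J ∈ E G, cert G J) →
  ∀ F : XV, ∑ G ∈ grps, ∑ J ∈ E G, ‖restr J.set (s7out R L W G t F)‖ ^ 2 ≤ 2 * Kap ^ 2 * ‖F‖ ^ 2

/-- the shared version (no outer ball, no group sum) -/
def VarShGoal : Prop :=
  ∀ (R : Cell) (W : List ((Cell → Finset Col) × Bool)) (Kap : ℝ), (∀ f ∈ W, Inh R f.1) →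
    (∀ W', W' <:+ W → ComprFor R W' Kap) → 1 ≤ Kap →
  ∀ (κ : Type) [Fintype κ] (r t : κ → ℕ), (∀ i, r i ≤ t i) → (∀ i j, i ≠ j → t i ≤ r j ∨ t j ≤ r i) →
  ∀ F : XV, ∑ i, ‖s7sh R W (t i) F - s7sh R W (r i) F‖ ^ 2 ≤ ((W.length : ℝ) * Kap) ^ 2 * ‖F‖ ^ 2

/-- **Lemma 8.8 without the lift**: rows `Te e` local to certified cells `Ue e`, Bessel (constant `Bz`) for each group, are jointly square summable
on the coarse outputs.  PROOF: (a) for one group, `ComprFor R [(L G, false)] Kap` inserts the outer ball projection: Bessel constant `Bz Kap²`;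
(b) the adjoint of the row operator of `G` has its range in the usable space of `G`: `UsableBessel` + duality give the joint constant `2 Bz Kap²`;
(c) `ComprFor R W Kap` for the joint rows inserts the shared history. -/
def VarRowsGoal : Prop :=
  ∀ (R : Cell) (grps : Finset ℕ) (L : ℕ → Cell → Finset Col) (cert : ℕ → Cell → Prop)
    (W : List ((Cell → Finset Col) × Bool)) (Kap : ℝ), VarHyp R grps L cert W Kap →
    (∀ G ∈ grps, ComprFor R [(L G, false)] Kap) →
  ∀ (ι : Type) [Fintype ι] (Ge : ι → ℕ) (Ue : ι → Cell) (Te : ι → XV →L[ℂ] XV) (Bz : ℝ), 0 ≤ Bz →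
    (∀ e, Ge e ∈ grps ∧ Ue e ≤ R ∧ cert (Ge e) (Ue e)) → (∀ e F, Te e (restr (Ue e).set F) = Te e F) →
    (∀ G F, ∑ e with Ge e = G, ‖Te e F‖ ^ 2 ≤ Bz * ‖F‖ ^ 2) →
  ∀ F : XV, ∑ e, ‖Te e (cproj (L (Ge e) (Ue e)) (Ue e) (s7prod W (Ue e) F))‖ ^ 2 ≤ 2 * Bz * Kap ^ 4 * ‖F‖ ^ 2

/-- **product-jump estimate** (Lemma 3.3, second assertion, on a window of `win` depths) for POSITIVE products of inherited mask families:
no budget of the families is needed.  PROOF: sort the endpoints `r i, t i` into one increasing sequence of at most `2 win + 2` times, apply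
`s3_prefix_diff` (S3/Prefix.lean) to the nested projections `n ↦ ∑_{J ∈ cellsAt R (τ n)} cproj (f J) J`. -/
def JumpGoal : Prop :=
  ∀ (R : Cell) (W : List ((Cell → Finset Col) × Bool)), (∀ f ∈ W, Inh R f.1 ∧ f.2 = false) →
  ∀ (κ : Type) [Fintype κ] (r t : κ → ℕ) (n0 win : ℕ), (∀ i, r i ≤ t i) → (∀ i j, i ≠ j → t i ≤ r j ∨ t j ≤ r i) →
    (∀ i, n0 ≤ r i ∧ t i ≤ n0 + win) →
  ∀ F : XV, ∑ i, ‖s7sh R W (t i) F - s7sh R W (r i) F‖ ^ 2
    ≤ ((W.length : ℝ) * (1 + Nat.clog 2 (2 * win + 3) : ℕ) ^ (W.length - 1)) ^ 2 * ‖F‖ ^ 2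

end Claimed.Agent.R258
end
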