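/- Packed by merge_tool.py (helper293): 7 modules of Claimed.Agent.R258 in one file, same declarations.
   Old modules, in this order: Color.Defs, Color.Mark, Color.Lev, Color.Arith, Color.Metric, Color.State, Color.Mono -/
import Mathlib

/- ===== packed: Claimed.Agent.R258.Color.Defs ===== -/
section
/-
Row 258 (S0498), block [COLOR] = localization.tex, subsections "Colors with controlled changes" and
"Historical ball masks and usable endpoints" (Lemma color-budget, Lemma historical-masks).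
Architect: helper63.   THIS FILE: all definitions of the internal (purely combinatorial) construction.

Differences with the paper (all harmless, only the interface `LocColourSys` of `Color/Iface.lean` is exported):
* distances are `ℕ`-valued (the adapter caps the `ℕ∞`-valued tag distance at `(d0+6) * b1`);
* a cell type `C` is any partial order in which the ancestors of a cell form a chain; `pres : C → Finset V` is any monotone family of lists;
* admission indices are 0-BASED: `adm` is injective on `pres I` with values `< card (pres I)`;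
* scores are written additively in `ℕ`:  `z` wins with score `g` iff `δ z = g + q z` and `δ w + 5 ≤ g + q w` for all rivals;
* a failed marking is replaced by the PLACEHOLDER winner `⟨d0, v, 0⟩` (virtual round `d0`, the vertex itself, score `0`), and the
  rest of the construction is carried out with it: every object below is a TOTAL function of `(I, v)`;
* NO CHANGE COUNTER, NO HISTORY in colours/groups: the counter is replaced by the monotone potential `pot`
  (`Σ_rounds (2 * top + [unmarked])`, cohort level, `Σ_l` floor logs of the balls, the same for the high rounds, combined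
  lexicographically).  On comparable cells: `pot` is monotone and equal potentials force equal data.
  Only the masks are historical.
-/
set_option autoImplicit false
open Classical

namespace Claimed.Agent.R258

/-! ## Parameters -/

/-- internal parameters: `d0` and the maximal pad `Hm = H_max` -/
structure ColPar where
  d0 : ℕ
  Hm : ℕ

namespace ColPar
/-- `b_2 = 100 (H_max + 1)` -/
def b2 (p : ColPar) : ℕ := 100 * (p.Hm + 1)
/-- `b_1 / (2 d_0)` -/
def stp (p : ColPar) : ℕ := p.d0 ^ 9 * 50 * (p.Hm + 1) ^ 2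
/-- `b_1 = d_0^10 b_2 (H_max + 1)` -/
def b1 (p : ColPar) : ℕ := 2 * p.d0 * p.stp
/-- `R_l = 10 l (d_0+1) b_2` -/
def Rl (p : ColPar) (l : ℕ) : ℕ := 10 * l * (p.d0 + 1) * p.b2
/-- `T_l = (g-3) b_1 + l b_1/(2 d_0)` -/
def Tl (p : ColPar) (g l : ℕ) : ℤ := ((g : ℤ) - 3) * p.b1 + l * p.stp
/-- `U = (g-2) b_1` -/
def Ug (p : ColPar) (g : ℕ) : ℤ := ((g : ℤ) - 2) * p.b1
/-- strict bound of the potential of `d0` rounds -/
def K1 (p : ColPar) : ℕ := p.d0 * (2 * p.d0 + 1) + 1
/-- strict bound of the level potential -/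
def K2 (p : ColPar) : ℕ := p.d0 + 1
/-- strict bound of the ball potential -/
def K3 (p : ColPar) : ℕ := p.d0 * p.d0 + 1
/-- strict bound of the total potential -/
def KP (p : ColPar) : ℕ := p.K1 * p.K2 * p.K3 * p.K1
/-- radix of the metadata -/
def B (p : ColPar) : ℕ := p.d0 + 1
end ColPar

/-! ## Generic score situations -/

section Mark
variable {V : Type*}

/-- In the situation (competitors `Z`, delays `δ`, offsets `q`) the vertex `z` is the unique winner, with score `g` and gap `≥ 5`. -/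
def col_Mk (Z : Finset V) (δ q : V → ℕ) (z : V) (g : ℕ) : Prop :=
  z ∈ Z ∧ δ z = g + q z ∧ ∀ w ∈ Z, w ≠ z → δ w + 5 ≤ g + q w

/-- the situation is marked -/
def col_mk (Z : Finset V) (δ q : V → ℕ) : Prop := ∃ z g, col_Mk Z δ q z g

/-- top score (truncated at `0`; the true top score is `≥ 0` as soon as some competitor has offset `0`) -/
def col_top (Z : Finset V) (δ q : V → ℕ) : ℕ := Z.sup fun w => δ w - q w

/-- potential of one round -/
noncomputable def col_phi (Z : Finset V) (δ q : V → ℕ) : ℕ :=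
  2 * col_top Z δ q + if col_mk Z δ q then 0 else 1

/-- potential of `d0` rounds -/
noncomputable def col_Phi (d0 : ℕ) (Z : Finset V) (δ : ℕ → V → ℕ) (q : V → ℕ) : ℕ :=
  ∑ r ∈ Finset.range d0, col_phi Z (δ r) q

/-- round, winner, score -/
@[ext] structure ColWin (V : Type*) where
  r : ℕ
  z : V
  g : ℕ

/-- `x` = (first marked round, its winner, its score) -/
def col_First (d0 : ℕ) (Z : Finset V) (δ : ℕ → V → ℕ) (q : V → ℕ) (x : ColWin V) : Prop :=
  x.r < d0 ∧ col_Mk Z (δ x.r) q x.z x.g ∧ ∀ r' < x.r, ¬ col_mk Z (δ r') q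

/-- the data of the first marked round; placeholder `⟨d0, v, 0⟩` if no round is marked -/
noncomputable def col_win (d0 : ℕ) (Z : Finset V) (δ : ℕ → V → ℕ) (q : V → ℕ) (v : V) : ColWin V :=
  if h : ∃ x, col_First d0 Z δ q x then h.choose else ⟨d0, v, 0⟩

end Mark

/-! ## Dyadic cohorts (0-based indices) and floor logarithms to base 3/2 -/

/-- cohort level of winner index `i` and last index `j` (`i ≤ j`): least `t` with `i / 2^t = j / 2^t`.
`0` = equality cohort; for `t ≥ 1` the block is `[m 2^t, (m+1) 2^t)`, `m = i / 2^t`, `i` in its lower, `j` in its upper half. -/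
noncomputable def col_lev (i j : ℕ) : ℕ := sInf {t : ℕ | i / 2 ^ t = j / 2 ^ t}

/-- exclusive end of the frozen prefix: `i + 1` for `t ≤ 1`, in general the end of the block of length `2^(t-1)` containing `i`. -/
def col_pe (i t : ℕ) : ℕ := (i / 2 ^ (t - 1) + 1) * 2 ^ (t - 1)

/-- `⌊log_{3/2} c⌋` for `c ≥ 1` -/
noncomputable def col_flog (c : ℕ) : ℕ := sSup {n : ℕ | 3 ^ n ≤ c * 2 ^ n}

/-! ## The vertex system -/

/-- cells `C`, vertices `V`: depth of a cell, distance at an absolute depth, the list `𝒱(I)` of the vertices present at `I`,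
admission index (0-based) -/
structure ColSys (C V : Type*) where
  depth : C → ℤ
  dist : ℤ → V → V → ℕ
  pres : C → Finset V
  adm : V → ℕ

/-- frozen context: primary round, score, winner, frozen prefix -/
@[ext] structure ColCtx (V : Type*) where
  r : ℕ
  g : ℕ
  z : V
  W : Finset V

/-- a group: frozen context + level, `l`, `n`, high round, high score, high winner, potential -/
@[ext] structure ColGrp (V : Type*) extends ColCtx V where
  lev : ℕ
  l : ℕ
  n : ℕ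
  r2 : ℕ
  g2 : ℕ
  a : V
  pot : ℕ

namespace ColSys
variable {C V : Type*}

/-- the hypotheses on a vertex system; `D` = path bound -/
structure Valid [PartialOrder C] (S : ColSys C V) (D : ℕ) : Prop where
  depth_mono : ∀ {I J : C}, I ≤ J → S.depth J ≤ S.depth I
  chain : ∀ {I J K : C}, I ≤ J → I ≤ K → J ≤ K ∨ K ≤ J
  pres_mono : ∀ {I J : C}, J ≤ I → S.pres I ⊆ S.pres J
  dist_self : ∀ s a, S.dist s a a = 0
  dist_symm : ∀ s a b, S.dist s a b = S.dist s b a
  dist_tri : ∀ s a b c, S.dist s a c ≤ S.dist s a b + S.dist s b c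
  dist_anti : ∀ {s s' : ℤ} (a b : V), s ≤ s' → S.dist s' a b ≤ S.dist s a b
  card_le : ∀ I, (S.pres I).card ≤ D
  adm_inj : ∀ I, Set.InjOn S.adm (S.pres I : Set V)
  adm_lt : ∀ I, ∀ v ∈ S.pres I, S.adm v < (S.pres I).card

/-! ### profiles and frozen pseudometrics (functions of a context only) -/

/-- true score of the rival `w` at the vertex `a` at absolute depth `s` -/
def tsc (S : ColSys C V) (p : ColPar) (dp : ℕ → V → ℕ) (X : ColCtx V) (a : V) (s : ℤ) (w : V) : ℤ :=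
  ((p.b1 * dp X.r w : ℕ) : ℤ) - (S.dist s w a : ℤ)

/-- `f_a(s) ≤ x` (the unclipped profile is only used through this predicate) -/
def rivLe (S : ColSys C V) (p : ColPar) (dp : ℕ → V → ℕ) (X : ColCtx V) (a : V) (s : ℤ) (x : ℤ) : Prop :=
  ∀ w ∈ X.W.erase X.z, S.tsc p dp X a s w ≤ x

/-- clipped profile `C_l(f_a(s))` -/
noncomputable def cf (S : ColSys C V) (p : ColPar) (dp : ℕ → V → ℕ) (X : ColCtx V) (l : ℕ) (a : V) (s : ℤ) : ℤ :=
  min (p.Ug X.g) ((X.W.erase X.z).fold max (p.Tl X.g l) (S.tsc p dp X a s))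

/-- frozen pseudometric `d^{(l)}(a,b) = sup_s |C_l(f_a(s)) - C_l(f_b(s))|` -/
noncomputable def fd (S : ColSys C V) (p : ColPar) (dp : ℕ → V → ℕ) (X : ColCtx V) (l : ℕ) (a b : V) : ℕ :=
  sSup {n : ℕ | ∃ s : ℤ, n = (S.cf p dp X l a s - S.cf p dp X l b s).natAbs}

variable [LE C]

/-- the ball `B_{d^{(l)}}(v, R_l)` on the vertices present at `I` -/
noncomputable def ball (S : ColSys C V) (p : ColPar) (dp : ℕ → V → ℕ) (X : ColCtx V) (l : ℕ) (I : C) (v : V) : Finset V :=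
  (S.pres I).filter fun y => S.fd p dp X l y v ≤ p.Rl l

/-- floor logarithm of the size of the ball -/
noncomputable def nl (S : ColSys C V) (p : ColPar) (dp : ℕ → V → ℕ) (X : ColCtx V) (l : ℕ) (I : C) (v : V) : ℕ :=
  col_flog (S.ball p dp X l I v).card

/-- least `1 ≤ l < d0` such that the balls number `l` and `l+1` have the same floor logarithm -/
noncomputable def selL (S : ColSys C V) (p : ColPar) (dp : ℕ → V → ℕ) (X : ColCtx V) (I : C) (v : V) : ℕ :=
  sInf {l : ℕ | 1 ≤ l ∧ l < p.d0 ∧ S.nl p dp X l I v = S.nl p dp X (l + 1) I v}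

/-! ### the state at `(I, v)`; stages 1-3 depend on the primary arrays `dp` only -/

/-- primary offsets `⌊d_s(w,v)/b_1⌋` -/
def q1 (S : ColSys C V) (p : ColPar) (I : C) (v : V) : V → ℕ := fun w => S.dist (S.depth I) w v / p.b1

/-- primary round, winner, score -/
noncomputable def win1 (S : ColSys C V) (p : ColPar) (dp : ℕ → V → ℕ) (I : C) (v : V) : ColWin V :=
  col_win p.d0 (S.pres I) dp (S.q1 p I v) v

/-- cohort level -/
noncomputable def lev (S : ColSys C V) (p : ColPar) (dp : ℕ → V → ℕ) (I : C) (v : V) : ℕ :=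
  col_lev (S.adm (S.win1 p dp I v).z) ((S.pres I).card - 1)

/-- frozen context -/
noncomputable def ctx (S : ColSys C V) (p : ColPar) (dp : ℕ → V → ℕ) (I : C) (v : V) : ColCtx V where
  r := (S.win1 p dp I v).r
  g := (S.win1 p dp I v).g
  z := (S.win1 p dp I v).z
  W := (S.pres I).filter fun w => S.adm w < col_pe (S.adm (S.win1 p dp I v).z) (S.lev p dp I v)

/-- the selected `l` -/
noncomputable def lsel (S : ColSys C V) (p : ColPar) (dp : ℕ → V → ℕ) (I : C) (v : V) : ℕ :=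
  S.selL p dp (S.ctx p dp I v) I v

/-- high offsets `⌊d^{(l+1)}(w,v)/b_2⌋` -/
noncomputable def q2 (S : ColSys C V) (p : ColPar) (dp : ℕ → V → ℕ) (I : C) (v : V) : V → ℕ :=
  fun w => S.fd p dp (S.ctx p dp I v) (S.lsel p dp I v + 1) w v / p.b2

/-- high round, winner, score -/
noncomputable def win2 (S : ColSys C V) (p : ColPar) (dp dh : ℕ → V → ℕ) (I : C) (v : V) : ColWin V :=
  col_win p.d0 (S.pres I) dh (S.q2 p dp I v) v

noncomputable def pot1 (S : ColSys C V) (p : ColPar) (dp : ℕ → V → ℕ) (I : C) (v : V) : ℕ :=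
  col_Phi p.d0 (S.pres I) dp (S.q1 p I v)

noncomputable def pot3 (S : ColSys C V) (p : ColPar) (dp : ℕ → V → ℕ) (I : C) (v : V) : ℕ :=
  ∑ l ∈ Finset.Icc 1 p.d0, S.nl p dp (S.ctx p dp I v) l I v

noncomputable def pot4 (S : ColSys C V) (p : ColPar) (dp dh : ℕ → V → ℕ) (I : C) (v : V) : ℕ :=
  col_Phi p.d0 (S.pres I) dh (S.q2 p dp I v)

/-- potential of the stages 1-3 -/
noncomputable def pot123 (S : ColSys C V) (p : ColPar) (dp : ℕ → V → ℕ) (I : C) (v : V) : ℕ :=
  (S.pot1 p dp I v * p.K2 + S.lev p dp I v) * p.K3 + S.pot3 p dp I v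

/-- total potential -/
noncomputable def pot (S : ColSys C V) (p : ColPar) (dp dh : ℕ → V → ℕ) (I : C) (v : V) : ℕ :=
  S.pot123 p dp I v * p.K1 + S.pot4 p dp dh I v

/-- the group of the central vertex `v` at `I` -/
noncomputable def grp (S : ColSys C V) (p : ColPar) (dp dh : ℕ → V → ℕ) (I : C) (v : V) : ColGrp V where
  toColCtx := S.ctx p dp I v
  lev := S.lev p dp I v
  l := S.lsel p dp I v
  n := S.nl p dp (S.ctx p dp I v) (S.lsel p dp I v) I v
  r2 := (S.win2 p dp dh I v).r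
  g2 := (S.win2 p dp dh I v).g
  a := (S.win2 p dp dh I v).z
  pot := S.pot p dp dh I v

/-- both markings exist at `(I, v)` -/
def ok (S : ColSys C V) (p : ColPar) (dp dh : ℕ → V → ℕ) (I : C) (v : V) : Prop :=
  (S.win1 p dp I v).r < p.d0 ∧ (S.win2 p dp dh I v).r < p.d0

end ColSys

/-! ## Colours -/

namespace ColGrp
variable {V : Type*}

/-- mixed radix code of the seven metadata -/
def mcode (p : ColPar) (G : ColGrp V) : ℕ :=
  ((((((G.r * p.B + G.g) * p.B + G.lev) * p.B + G.l) * p.B + G.n) * p.B + G.r2) * p.B + G.g2)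

/-- the colour: potential first (decreasing), then the metadata -/
def col (p : ColPar) (G : ColGrp V) : ℕ := 1 + (p.KP - 1 - G.pot) * p.B ^ 7 + G.mcode p

end ColGrp

/-! ## Historical masks, uses, usable endpoints -/

namespace ColSys
variable {C V : Type*} [LE C]

/-- `v0` is a central vertex assigned to `G` at the cell `I0` -/
def Wit (S : ColSys C V) (p : ColPar) (dp dh : ℕ → V → ℕ) (G : ColGrp V) (I0 : C) (v0 : V) : Prop :=
  v0 ∈ S.pres I0 ∧ S.ok p dp dh I0 v0 ∧ S.grp p dp dh I0 v0 = G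

/-- the three predicates (12) at depth `s`, pad `h`, witness `v0` -/
def Pad (S : ColSys C V) (p : ColPar) (dp : ℕ → V → ℕ) (G : ColGrp V) (h : ℕ) (s : ℤ) (v0 b : V) : Prop :=
  G.g * p.b1 + S.dist s G.z b ≤ p.b1 * dp G.r G.z + p.b1 + h ∧
  S.fd p dp G.toColCtx (G.l + 1) b v0 ≤ h ∧
  S.fd p dp G.toColCtx G.l b v0 ≤ 10 * p.Rl G.l * h

/-- the pad mask `𝓜_{G,h}(I)` (raw predicate: historical witness at or above `I`) -/
noncomputable def mask (S : ColSys C V) (p : ColPar) (dp dh : ℕ → V → ℕ) (G : ColGrp V) (h : ℕ) (I : C) : Finset V :=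
  (S.pres I).filter fun b => ∃ I0 v0, I ≤ I0 ∧ S.Wit p dp dh G I0 v0 ∧ S.Pad p dp G h (S.depth I) v0 b

/-- actual use -/
def use (S : ColSys C V) (p : ColPar) (dp dh : ℕ → V → ℕ) (G : ColGrp V) (I : C) : Prop :=
  ∃ v, S.Wit p dp dh G I v

end ColSys

/-- STANDING HYPOTHESES of all deterministic lemmas of the block. -/
structure ColSys.Std {C V : Type*} [PartialOrder C] (S : ColSys C V) (p : ColPar) (D : ℕ) (dp dh : ℕ → V → ℕ) : Prop where
  valid : S.Valid D
  dp_le : ∀ r v, dp r v ≤ p.d0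
  dh_le : ∀ r v, dh r v ≤ p.d0
  d0_ge : 10 ≤ p.d0
  D_pow2 : D ≤ 2 ^ p.d0
  D_flog : D * 2 ^ (p.d0 - 1) < 3 ^ (p.d0 - 1)

end Claimed.Agent.R258
end

/- ===== packed: Claimed.Agent.R258.Color.Mark ===== -/
section
/-
Row 258, block [COLOR].  LEAF P-COL-MARK: generic score situations (competitors `Z`, delays `δ`, offsets `q`).  No paper needed.  (proved: helper63)

ORDER on situations: `(Z,q) ≤ (Z',q')` iff `Z ⊆ Z'` and `q' w ≤ q w` for `w ∈ Z` (competitors are added, scores `δ w - q w` increase).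
A "centre" is a competitor with offset `0`: it makes the true top score `≥ 0` and attained:
  `∃ w0 ∈ Z, δ w0 = col_top Z δ q + q w0`   (take a maximiser of the truncated score; if the max is `0` use the centre... careful:
  if `top = 0` then the centre `v` has `δ v - 0 ≤ 0`, so `δ v = 0 = top + q v`).

KEY LEMMA `col_Mk_back`: if the top scores agree and the LATER situation is marked with `(z,g)`, so is the EARLIER one, same `(z,g)`.
  Proof: `g = top' = top` (`col_Mk_top`).  Take `w0 ∈ Z` with `δ w0 = g + q w0 ≥ g + q' w0`.  If `w0 ≠ z` then `δ w0 + 5 ≤ g + q' w0 ≤ δ w0`, absurd.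
  So `z = w0 ∈ Z`, `δ z = g + q z`; a rival `w ∈ Z` has `δ w + 5 ≤ g + q' w ≤ g + q w`.
Hence `col_phi = 2 top + [unmarked]` is monotone (top increases by ≥ 1, or top is equal and unmarked stays unmarked), and equality of
`col_phi` forces (parity) equal tops and equal status, hence (`col_Mk_back` + `col_Mk_unique`) the same winner and score.
`col_Phi` = sum over rounds: monotone termwise; equality of the sums forces termwise equality (`Finset.sum_eq_sum_iff_of_le`).
-/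
set_option autoImplicit false
open Classical

namespace Claimed.Agent.R258
variable {V : Type*}

theorem col_Mk_unique {Z : Finset V} {δ q : V → ℕ} {z z' : V} {g g' : ℕ}
    (h : col_Mk Z δ q z g) (h' : col_Mk Z δ q z' g') : z = z' ∧ g = g' := by
  obtain ⟨hz, he, hr⟩ := h
  obtain ⟨hz', he', hr'⟩ := h'
  by_cases hzz : z = z'
  · subst hzz
    exact ⟨rfl, by omega⟩
  · exfalso
    have h1 := hr z' hz' (Ne.symm hzz)
    have h2 := hr' z hz hzz
    omega

theorem col_Mk_top {Z : Finset V} {δ q : V → ℕ} {z : V} {g : ℕ} (h : col_Mk Z δ q z g) : col_top Z δ q = g := by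
  obtain ⟨hz, he, hr⟩ := h
  unfold col_top
  apply le_antisymm
  · apply Finset.sup_le
    intro w hw
    by_cases hwz : w = z
    · subst hwz
      omega
    · have := hr w hw hwz
      omega
  · have h1 : δ z - q z ≤ Z.sup fun w => δ w - q w := Finset.le_sup (f := fun w => δ w - q w) hz
    omega

theorem col_top_le {Z : Finset V} {δ q : V → ℕ} {d0 : ℕ} (hδ : ∀ v, δ v ≤ d0) : col_top Z δ q ≤ d0 := by
  unfold col_top
  apply Finset.sup_le
  intro w _
  have := hδ w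
  omega

theorem col_top_mono {Z Z' : Finset V} {δ q q' : V → ℕ} (hZ : Z ⊆ Z') (hq : ∀ w ∈ Z, q' w ≤ q w) :
    col_top Z δ q ≤ col_top Z' δ q' := by
  unfold col_top
  apply Finset.sup_le
  intro w hw
  have h1 : δ w - q' w ≤ Z'.sup fun w => δ w - q' w := Finset.le_sup (f := fun w => δ w - q' w) (hZ hw)
  have h2 := hq w hw
  omega

/-- with a centre the top score is attained as a true score -/
theorem col_top_attained {Z : Finset V} {δ q : V → ℕ} (hc : ∃ v ∈ Z, q v = 0) :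
    ∃ w0 ∈ Z, δ w0 = col_top Z δ q + q w0 := by
  obtain ⟨v, hv, hqv⟩ := hc
  obtain ⟨w1, hw1, htop⟩ := Finset.exists_mem_eq_sup Z ⟨v, hv⟩ (fun w => δ w - q w)
  have htop' : col_top Z δ q = δ w1 - q w1 := htop
  by_cases h : q w1 ≤ δ w1
  · exact ⟨w1, hw1, by omega⟩
  · refine ⟨v, hv, ?_⟩
    have h1 : δ v - q v ≤ col_top Z δ q := Finset.le_sup (f := fun w => δ w - q w) hv
    omega

theorem col_Mk_back {Z Z' : Finset V} {δ q q' : V → ℕ} (hZ : Z ⊆ Z') (hq : ∀ w ∈ Z, q' w ≤ q w)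
    (hc : ∃ v ∈ Z, q v = 0) (ht : col_top Z δ q = col_top Z' δ q') {z : V} {g : ℕ}
    (h : col_Mk Z' δ q' z g) : col_Mk Z δ q z g := by
  have hg : col_top Z' δ q' = g := col_Mk_top h
  obtain ⟨hz, he, hr⟩ := h
  obtain ⟨w0, hw0, hw0e⟩ := col_top_attained (δ := δ) hc
  rw [ht, hg] at hw0e
  have hw0z : w0 = z := by
    by_contra hne
    have h1 := hr w0 (hZ hw0) hne
    have h2 := hq w0 hw0
    omega
  subst hw0z
  refine ⟨hw0, hw0e, ?_⟩
  intro w hw hne
  have h1 := hr w (hZ hw) hne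
  have h2 := hq w hw
  omega

theorem col_phi_mono {Z Z' : Finset V} {δ q q' : V → ℕ} (hZ : Z ⊆ Z') (hq : ∀ w ∈ Z, q' w ≤ q w)
    (hc : ∃ v ∈ Z, q v = 0) : col_phi Z δ q ≤ col_phi Z' δ q' := by
  have ht := col_top_mono (δ := δ) hZ hq
  unfold col_phi
  rcases Nat.lt_or_ge (col_top Z δ q) (col_top Z' δ q') with hlt | hge
  · split_ifs <;> omega
  · have heq : col_top Z δ q = col_top Z' δ q' := le_antisymm ht hge
    by_cases hmk' : col_mk Z' δ q'
    · obtain ⟨z, g, hM⟩ := hmk'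
      have hmk : col_mk Z δ q := ⟨z, g, col_Mk_back hZ hq hc heq hM⟩
      rw [if_pos hmk]
      omega
    · rw [if_neg hmk']
      split_ifs <;> omega

theorem col_phi_eq {Z Z' : Finset V} {δ q q' : V → ℕ} (hZ : Z ⊆ Z') (hq : ∀ w ∈ Z, q' w ≤ q w)
    (hc : ∃ v ∈ Z, q v = 0) (he : col_phi Z δ q = col_phi Z' δ q') (z : V) (g : ℕ) :
    col_Mk Z δ q z g ↔ col_Mk Z' δ q' z g := by
  unfold col_phi at he
  have heq : col_top Z δ q = col_top Z' δ q' := by
    split_ifs at he <;> omega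
  have hst : col_mk Z δ q → col_mk Z' δ q' := by
    intro hmk
    by_contra hmk'
    rw [if_pos hmk, if_neg hmk'] at he
    omega
  constructor
  · intro hM
    obtain ⟨z', g', hM'⟩ := hst ⟨z, g, hM⟩
    have hb := col_Mk_back hZ hq hc heq hM'
    obtain ⟨h1, h2⟩ := col_Mk_unique hM hb
    rw [h1, h2]
    exact hM'
  · intro hM'
    exact col_Mk_back hZ hq hc heq hM'

theorem col_phi_le {Z : Finset V} {δ q : V → ℕ} {d0 : ℕ} (hδ : ∀ v, δ v ≤ d0) : col_phi Z δ q ≤ 2 * d0 + 1 := by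
  have := col_top_le (Z := Z) (q := q) hδ
  unfold col_phi
  split_ifs <;> omega

theorem col_Phi_mono (d0 : ℕ) {Z Z' : Finset V} {δ : ℕ → V → ℕ} {q q' : V → ℕ} (hZ : Z ⊆ Z')
    (hq : ∀ w ∈ Z, q' w ≤ q w) (hc : ∃ v ∈ Z, q v = 0) : col_Phi d0 Z δ q ≤ col_Phi d0 Z' δ q' := by
  unfold col_Phi
  exact Finset.sum_le_sum (fun r _ => col_phi_mono hZ hq hc)

theorem col_Phi_eq {d0 : ℕ} {Z Z' : Finset V} {δ : ℕ → V → ℕ} {q q' : V → ℕ} (hZ : Z ⊆ Z')
    (hq : ∀ w ∈ Z, q' w ≤ q w) (hc : ∃ v ∈ Z, q v = 0) (he : col_Phi d0 Z δ q = col_Phi d0 Z' δ q') :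
    ∀ r < d0, ∀ (z : V) (g : ℕ), col_Mk Z (δ r) q z g ↔ col_Mk Z' (δ r) q' z g := by
  unfold col_Phi at he
  have h := (Finset.sum_eq_sum_iff_of_le (fun r _ => col_phi_mono (δ := δ r) hZ hq hc)).mp he
  intro r hr z g
  exact col_phi_eq hZ hq hc (h r (Finset.mem_range.mpr hr)) z g

theorem col_Phi_lt {d0 : ℕ} {Z : Finset V} {δ : ℕ → V → ℕ} {q : V → ℕ} (hδ : ∀ r v, δ r v ≤ d0) :
    col_Phi d0 Z δ q < d0 * (2 * d0 + 1) + 1 := by
  unfold col_Phi
  have h : ∑ r ∈ Finset.range d0, col_phi Z (δ r) q ≤ ∑ _r ∈ Finset.range d0, (2 * d0 + 1) :=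
    Finset.sum_le_sum (fun r _ => col_phi_le (hδ r))
  rw [Finset.sum_const, Finset.card_range, smul_eq_mul] at h
  omega

theorem col_First_unique {d0 : ℕ} {Z : Finset V} {δ : ℕ → V → ℕ} {q : V → ℕ} {x y : ColWin V}
    (hx : col_First d0 Z δ q x) (hy : col_First d0 Z δ q y) : x = y := by
  obtain ⟨_, hxM, hxf⟩ := hx
  obtain ⟨_, hyM, hyf⟩ := hy
  have hr : x.r = y.r := by
    rcases Nat.lt_trichotomy x.r y.r with h | h | h
    · exact absurd ⟨x.z, x.g, hxM⟩ (hyf x.r h)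
    · exact h
    · exact absurd ⟨y.z, y.g, hyM⟩ (hxf y.r h)
  rw [hr] at hxM
  obtain ⟨h1, h2⟩ := col_Mk_unique hxM hyM
  exact ColWin.ext hr h1 h2

theorem col_win_of_exists {d0 : ℕ} {Z : Finset V} {δ : ℕ → V → ℕ} {q : V → ℕ} {v : V}
    (h : ∃ x, col_First d0 Z δ q x) : col_First d0 Z δ q (col_win d0 Z δ q v) := by
  unfold col_win
  rw [dif_pos h]
  exact h.choose_spec

theorem col_win_of_not_exists {d0 : ℕ} {Z : Finset V} {δ : ℕ → V → ℕ} {q : V → ℕ} {v : V}
    (h : ¬ ∃ x, col_First d0 Z δ q x) : col_win d0 Z δ q v = ⟨d0, v, 0⟩ := by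
  unfold col_win
  rw [dif_neg h]

theorem col_win_r_le (d0 : ℕ) (Z : Finset V) (δ : ℕ → V → ℕ) (q : V → ℕ) (v : V) : (col_win d0 Z δ q v).r ≤ d0 := by
  by_cases h : ∃ x, col_First d0 Z δ q x
  · exact (col_win_of_exists h).1.le
  · rw [col_win_of_not_exists h]

theorem col_win_spec {d0 : ℕ} {Z : Finset V} {δ : ℕ → V → ℕ} {q : V → ℕ} {v : V}
    (h : (col_win d0 Z δ q v).r < d0) : col_First d0 Z δ q (col_win d0 Z δ q v) := by
  by_cases hex : ∃ x, col_First d0 Z δ q x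
  · exact col_win_of_exists hex
  · rw [col_win_of_not_exists hex] at h
    exact absurd h (lt_irrefl _)

theorem col_First_exists_iff {d0 : ℕ} {Z : Finset V} {δ : ℕ → V → ℕ} {q : V → ℕ} :
    (∃ x, col_First d0 Z δ q x) ↔ ∃ r < d0, col_mk Z (δ r) q := by
  constructor
  · rintro ⟨x, hx, hM, _⟩
    exact ⟨x.r, hx, x.z, x.g, hM⟩
  · intro h
    have h' : ∃ r, r < d0 ∧ col_mk Z (δ r) q := by
      obtain ⟨r, hr, hm⟩ := h
      exact ⟨r, hr, hm⟩
    obtain ⟨hr, z, g, hM⟩ := Nat.find_spec h'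
    refine ⟨⟨Nat.find h', z, g⟩, hr, hM, ?_⟩
    intro r' hr' hm
    exact Nat.find_min h' hr' ⟨lt_trans hr' hr, hm⟩

theorem col_win_lt_iff {d0 : ℕ} {Z : Finset V} {δ : ℕ → V → ℕ} {q : V → ℕ} {v : V} :
    (col_win d0 Z δ q v).r < d0 ↔ ∃ r < d0, col_mk Z (δ r) q := by
  rw [← col_First_exists_iff]
  constructor
  · intro h
    exact ⟨_, col_win_spec h⟩
  · intro h
    exact (col_win_of_exists h).1

theorem col_win_congr {d0 : ℕ} {Z Z' : Finset V} {δ : ℕ → V → ℕ} {q q' : V → ℕ}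
    (h : ∀ r < d0, ∀ (z : V) (g : ℕ), col_Mk Z (δ r) q z g ↔ col_Mk Z' (δ r) q' z g) (v : V) :
    col_win d0 Z δ q v = col_win d0 Z' δ q' v := by
  have hF : ∀ x, col_First d0 Z δ q x ↔ col_First d0 Z' δ q' x := by
    intro x
    unfold col_First col_mk
    constructor
    · rintro ⟨hx, hM, hf⟩
      refine ⟨hx, (h x.r hx x.z x.g).mp hM, ?_⟩
      rintro r' hr' ⟨z, g, hM'⟩
      exact hf r' hr' ⟨z, g, (h r' (lt_trans hr' hx) z g).mpr hM'⟩
    · rintro ⟨hx, hM, hf⟩
      refine ⟨hx, (h x.r hx x.z x.g).mpr hM, ?_⟩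
      rintro r' hr' ⟨z, g, hM'⟩
      exact hf r' hr' ⟨z, g, (h r' (lt_trans hr' hx) z g).mp hM'⟩
  by_cases hex : ∃ x, col_First d0 Z δ q x
  · have hex' : ∃ x, col_First d0 Z' δ q' x := by
      obtain ⟨x, hx⟩ := hex
      exact ⟨x, (hF x).mp hx⟩
    exact col_First_unique ((hF _).mp (col_win_of_exists hex)) (col_win_of_exists hex')
  · have hex' : ¬ ∃ x, col_First d0 Z' δ q' x := by
      rintro ⟨x, hx⟩
      exact hex ⟨x, (hF x).mpr hx⟩
    rw [col_win_of_not_exists hex, col_win_of_not_exists hex']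

theorem col_win_g_le {d0 : ℕ} {Z : Finset V} {δ : ℕ → V → ℕ} {q : V → ℕ} (hδ : ∀ r v, δ r v ≤ d0) (v : V) :
    (col_win d0 Z δ q v).g ≤ d0 := by
  by_cases hex : ∃ x, col_First d0 Z δ q x
  · obtain ⟨_, ⟨_, he, _⟩, _⟩ := col_win_of_exists (v := v) hex
    have := hδ (col_win d0 Z δ q v).r (col_win d0 Z δ q v).z
    omega
  · rw [col_win_of_not_exists hex]
    exact Nat.zero_le _

theorem col_win_mem {d0 : ℕ} {Z : Finset V} {δ : ℕ → V → ℕ} {q : V → ℕ} {v : V} (hv : v ∈ Z) :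
    (col_win d0 Z δ q v).z ∈ Z := by
  by_cases hex : ∃ x, col_First d0 Z δ q x
  · exact (col_win_of_exists (v := v) hex).2.1.1
  · rw [col_win_of_not_exists hex]
    exact hv

theorem col_Mk_congr {Z : Finset V} {δ q q' : V → ℕ} (h : ∀ w ∈ Z, q w = q' w) (z : V) (g : ℕ) :
    col_Mk Z δ q z g ↔ col_Mk Z δ q' z g := by
  unfold col_Mk
  constructor
  · rintro ⟨hz, he, hr⟩
    refine ⟨hz, by rw [← h z hz]; exact he, fun w hw hne => ?_⟩
    rw [← h w hw]
    exact hr w hw hne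
  · rintro ⟨hz, he, hr⟩
    refine ⟨hz, by rw [h z hz]; exact he, fun w hw hne => ?_⟩
    rw [h w hw]
    exact hr w hw hne

theorem col_mk_congr {Z : Finset V} {δ q q' : V → ℕ} (h : ∀ w ∈ Z, q w = q' w) : col_mk Z δ q ↔ col_mk Z δ q' := by
  unfold col_mk
  constructor
  · rintro ⟨z, g, hM⟩
    exact ⟨z, g, (col_Mk_congr h z g).mp hM⟩
  · rintro ⟨z, g, hM⟩
    exact ⟨z, g, (col_Mk_congr h z g).mpr hM⟩

end Claimed.Agent.R258
end

/- ===== packed: Claimed.Agent.R258.Color.Lev ===== -/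
section
/-
Row 258, block [COLOR].  LEAF P-COL-LEV: dyadic cohort levels (0-based indices) and floor logarithms to base 3/2.  No paper needed.  (proved: helper63)

`col_lev i j = sInf {t | i / 2^t = j / 2^t}` (nonempty: `t = max i j` gives `0 = 0`, `Nat.div_eq_of_lt`, `Nat.lt_two_pow_self`); use `Nat.sInf_mem`, `Nat.sInf_le`.
`col_pe i t = (i / 2^(t-1) + 1) * 2^(t-1)`.
* mono: `i ≤ j ≤ j'`, `t' = lev i j'`: `i/2^t' ≤ j/2^t' ≤ j'/2^t' = i/2^t'`.
* pe_le: `t = 0`: `i = j`.  `t ≥ 1`: minimality gives `i/2^(t-1) ≠ j/2^(t-1)`, so `<`, so `(i/2^(t-1)+1) 2^(t-1) ≤ (j/2^(t-1)) 2^(t-1) ≤ j`.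
* sep: `t = 0`: `i1 = j1 ≤ j2 = i2`.  `t = k+1`: `i1/2^k < j1/2^k` and both have the same half `m1 = i1/2^t` (`Nat.div_div_eq_div_mul`, `pow_succ`), so
  `i1/2^k = 2 m1`; in the same way `i2/2^k = 2 m2`, and `m1 = j1/2^t ≤ j2/2^t = m2`.  Hence `i1/2^k ≤ i2/2^k`, i.e. `i1 < (i2/2^k+1) 2^k` (`Nat.div_lt_iff_lt_mul`).
`col_flog c = sSup {n | 3^n ≤ c 2^n}`: the set is bounded (`3^n ≤ c 2^n → n ≤ c`, e.g. from `n < (3/2)^n`, i.e. `n * 2^n < 3^n` by induction) and contains `0` if `c ≥ 1`;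
use `Nat.sSup_mem`, `le_csSup`.
-/
set_option autoImplicit false

namespace Claimed.Agent.R258

theorem col_lev_nonempty (i j : ℕ) : {t : ℕ | i / 2 ^ t = j / 2 ^ t}.Nonempty := by
  refine ⟨max i j, ?_⟩
  have h1 : i < 2 ^ max i j := lt_of_le_of_lt (le_max_left i j) Nat.lt_two_pow_self
  have h2 : j < 2 ^ max i j := lt_of_le_of_lt (le_max_right i j) Nat.lt_two_pow_self
  show i / 2 ^ max i j = j / 2 ^ max i j
  rw [Nat.div_eq_of_lt h1, Nat.div_eq_of_lt h2]

theorem col_lev_spec (i j : ℕ) : i / 2 ^ col_lev i j = j / 2 ^ col_lev i j :=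
  Nat.sInf_mem (col_lev_nonempty i j)

theorem col_lev_min {i j t : ℕ} (h : i / 2 ^ t = j / 2 ^ t) : col_lev i j ≤ t :=
  Nat.sInf_le h

theorem col_lev_mono {i j j' : ℕ} (hij : i ≤ j) (hjj : j ≤ j') : col_lev i j ≤ col_lev i j' := by
  apply col_lev_min
  have h := col_lev_spec i j'
  have h1 : i / 2 ^ col_lev i j' ≤ j / 2 ^ col_lev i j' := Nat.div_le_div_right hij
  have h2 : j / 2 ^ col_lev i j' ≤ j' / 2 ^ col_lev i j' := Nat.div_le_div_right hjj
  omega

theorem col_lev_le {i j d : ℕ} (hij : i ≤ j) (hj : j < 2 ^ d) : col_lev i j ≤ d := by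
  apply col_lev_min
  rw [Nat.div_eq_of_lt hj, Nat.div_eq_of_lt (lt_of_le_of_lt hij hj)]

theorem col_lt_pe (i t : ℕ) : i < col_pe i t := by
  unfold col_pe
  have h : 0 < 2 ^ (t - 1) := by positivity
  have := Nat.lt_mul_div_succ i h
  rwa [Nat.mul_comm] at this

/-- below its level the quotients of `i < j` differ -/
theorem col_lev_pred_lt {i j k : ℕ} (hij : i ≤ j) (h : col_lev i j = k + 1) : i / 2 ^ k < j / 2 ^ k := by
  have h1 : i / 2 ^ k ≤ j / 2 ^ k := Nat.div_le_div_right hij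
  rcases Nat.lt_or_ge (i / 2 ^ k) (j / 2 ^ k) with h2 | h2
  · exact h2
  · have := col_lev_min (le_antisymm h1 h2)
    omega

/-- in its cohort the whole frozen prefix is already present -/
theorem col_pe_le {i j : ℕ} (hij : i ≤ j) : col_pe i (col_lev i j) ≤ j + 1 := by
  rcases Nat.eq_zero_or_pos (col_lev i j) with h0 | hpos
  · have h := col_lev_spec i j
    rw [h0] at h ⊢
    unfold col_pe
    simp at h ⊢
    omega
  · obtain ⟨k, hk⟩ : ∃ k, col_lev i j = k + 1 := ⟨col_lev i j - 1, by omega⟩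
    have hlt := col_lev_pred_lt hij hk
    rw [hk]
    unfold col_pe
    simp only [Nat.add_sub_cancel]
    calc (i / 2 ^ k + 1) * 2 ^ k ≤ (j / 2 ^ k) * 2 ^ k := Nat.mul_le_mul_right _ hlt
      _ ≤ j := Nat.div_mul_le_self j _
      _ ≤ j + 1 := Nat.le_succ j

/-- the index `i` lies in the lower half of its block -/
theorem col_lev_lower {i j k : ℕ} (hij : i ≤ j) (h : col_lev i j = k + 1) : i / 2 ^ k = 2 * (i / 2 ^ (k + 1)) := by
  have hlt := col_lev_pred_lt hij h
  have hs := col_lev_spec i j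
  rw [h] at hs
  have e1 : i / 2 ^ (k + 1) = i / 2 ^ k / 2 := by rw [pow_succ, Nat.div_div_eq_div_mul]
  have e2 : j / 2 ^ (k + 1) = j / 2 ^ k / 2 := by rw [pow_succ, Nat.div_div_eq_div_mul]
  rw [e1, e2] at hs
  rw [e1]
  omega

/-- at a fixed level the earlier winner belongs to the later frozen prefix -/
theorem col_lev_sep {i1 j1 i2 j2 t : ℕ} (h1 : i1 ≤ j1) (h12 : j1 ≤ j2) (h2 : i2 ≤ j2)
    (e1 : col_lev i1 j1 = t) (e2 : col_lev i2 j2 = t) : i1 < col_pe i2 t := by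
  rcases Nat.eq_zero_or_pos t with h0 | hpos
  · subst h0
    have a1 := col_lev_spec i1 j1
    have a2 := col_lev_spec i2 j2
    rw [e1] at a1
    rw [e2] at a2
    unfold col_pe
    simp at a1 a2 ⊢
    omega
  · obtain ⟨k, rfl⟩ : ∃ k, t = k + 1 := ⟨t - 1, by omega⟩
    have l1 := col_lev_lower h1 e1
    have l2 := col_lev_lower h2 e2
    have a1 := col_lev_spec i1 j1
    have a2 := col_lev_spec i2 j2
    rw [e1] at a1
    rw [e2] at a2
    have hm : j1 / 2 ^ (k + 1) ≤ j2 / 2 ^ (k + 1) := Nat.div_le_div_right h12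
    have hle : i1 / 2 ^ k ≤ i2 / 2 ^ k := by omega
    unfold col_pe
    simp only [Nat.add_sub_cancel]
    have hpos : 0 < 2 ^ k := by positivity
    calc i1 < 2 ^ k * (i1 / 2 ^ k + 1) := Nat.lt_mul_div_succ i1 hpos
      _ ≤ 2 ^ k * (i2 / 2 ^ k + 1) := Nat.mul_le_mul_left _ (by omega)
      _ = (i2 / 2 ^ k + 1) * 2 ^ k := Nat.mul_comm _ _

/-- Bernoulli: `(n + 2) 2^n ≤ 2 * 3^n` -/
theorem col_flog_bern (n : ℕ) : (n + 2) * 2 ^ n ≤ 2 * 3 ^ n := by
  induction n with
  | zero => simp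
  | succ n ih =>
    calc (n + 1 + 2) * 2 ^ (n + 1) = 2 * (n + 3) * 2 ^ n := by ring
      _ ≤ 3 * (n + 2) * 2 ^ n := Nat.mul_le_mul_right _ (by omega)
      _ = 3 * ((n + 2) * 2 ^ n) := by ring
      _ ≤ 3 * (2 * 3 ^ n) := Nat.mul_le_mul_left _ ih
      _ = 2 * 3 ^ (n + 1) := by ring

theorem col_flog_bdd (c : ℕ) : BddAbove {n : ℕ | 3 ^ n ≤ c * 2 ^ n} := by
  refine ⟨2 * c, ?_⟩
  intro n hn
  have hn' : 3 ^ n ≤ c * 2 ^ n := hn
  have h1 := col_flog_bern n
  have h2 : (n + 2) * 2 ^ n ≤ (2 * c) * 2 ^ n := by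
    calc (n + 2) * 2 ^ n ≤ 2 * 3 ^ n := h1
      _ ≤ 2 * (c * 2 ^ n) := Nat.mul_le_mul_left _ hn'
      _ = (2 * c) * 2 ^ n := by ring
  have h3 : n + 2 ≤ 2 * c := Nat.le_of_mul_le_mul_right h2 (by positivity)
  omega

theorem col_flog_mem {c : ℕ} (hc : 1 ≤ c) : 3 ^ col_flog c ≤ c * 2 ^ col_flog c := by
  have hne : {n : ℕ | 3 ^ n ≤ c * 2 ^ n}.Nonempty := ⟨0, by simpa using hc⟩
  exact Nat.sSup_mem hne (col_flog_bdd c)

theorem col_le_flog {c n : ℕ} (h : 3 ^ n ≤ c * 2 ^ n) : n ≤ col_flog c :=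
  le_csSup (col_flog_bdd c) h

theorem col_flog_spec {c : ℕ} (hc : 1 ≤ c) :
    3 ^ col_flog c ≤ c * 2 ^ col_flog c ∧ c * 2 ^ (col_flog c + 1) < 3 ^ (col_flog c + 1) := by
  refine ⟨col_flog_mem hc, ?_⟩
  by_contra h
  have := col_le_flog (not_lt.mp h)
  omega

theorem col_flog_mono {c c' : ℕ} (hc : 1 ≤ c) (h : c ≤ c') : col_flog c ≤ col_flog c' := by
  apply col_le_flog
  exact (col_flog_mem hc).trans (Nat.mul_le_mul_right _ h)

theorem col_flog_lt {c D m : ℕ} (hc : 1 ≤ c) (h : c ≤ D) (hD : D * 2 ^ m < 3 ^ m) : col_flog c < m := by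
  by_contra hge
  obtain ⟨e, he⟩ := Nat.exists_eq_add_of_le (not_lt.mp hge)
  have h1 := col_flog_mem hc
  rw [he] at h1
  have h2 : 3 ^ (m + e) ≤ D * 2 ^ m * 2 ^ e := by
    calc 3 ^ (m + e) ≤ c * 2 ^ (m + e) := h1
      _ ≤ D * 2 ^ (m + e) := Nat.mul_le_mul_right _ h
      _ = D * 2 ^ m * 2 ^ e := by ring
  have h3 : D * 2 ^ m * 2 ^ e < 3 ^ m * 2 ^ e := Nat.mul_lt_mul_of_pos_right hD (by positivity)
  have h4 : 3 ^ m * 2 ^ e ≤ 3 ^ m * 3 ^ e := Nat.mul_le_mul_left _ (Nat.pow_le_pow_left (by omega) e)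
  have h5 : 3 ^ (m + e) = 3 ^ m * 3 ^ e := pow_add 3 m e
  omega

/-- two subsets of size `≥ (3/2)^n` of a set of size `< (3/2)^(n+1)` intersect -/
theorem col_two_balls {α : Type*} [DecidableEq α] {A B E : Finset α} {n : ℕ} (hA : A ⊆ E) (hB : B ⊆ E)
    (hAn : 3 ^ n ≤ A.card * 2 ^ n) (hBn : 3 ^ n ≤ B.card * 2 ^ n) (hE : E.card * 2 ^ (n + 1) < 3 ^ (n + 1)) :
    (A ∩ B).Nonempty := by
  by_contra hne
  rw [Finset.not_nonempty_iff_eq_empty] at hne
  have hdisj : Disjoint A B := Finset.disjoint_iff_inter_eq_empty.mpr hne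
  have hcard : A.card + B.card ≤ E.card := by
    rw [← Finset.card_union_of_disjoint hdisj]
    exact Finset.card_le_card (Finset.union_subset hA hB)
  have h1 : (A.card + B.card) * 2 ^ n ≤ E.card * 2 ^ n := Nat.mul_le_mul_right _ hcard
  have h2 : E.card * 2 ^ (n + 1) = 2 * (E.card * 2 ^ n) := by ring
  have h3 : 3 ^ (n + 1) = 3 * 3 ^ n := by ring
  have h4 : (A.card + B.card) * 2 ^ n = A.card * 2 ^ n + B.card * 2 ^ n := by ring
  have h5 : 0 < 3 ^ n := by positivity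
  omega

/-- lexicographic combination of two potentials -/
theorem col_lex {K a b a' b' : ℕ} (hb : b < K) (hb' : b' < K) (ha : a ≤ a') (hab : a = a' → b ≤ b') :
    a * K + b ≤ a' * K + b' ∧ (a * K + b = a' * K + b' → a = a' ∧ b = b') := by
  rcases Nat.lt_or_ge a a' with hlt | hge
  · have h1 : (a + 1) * K ≤ a' * K := Nat.mul_le_mul_right _ hlt
    have h2 : (a + 1) * K = a * K + K := by ring
    constructor
    · omega
    · intro h
      omega
  · have heq : a = a' := le_antisymm ha hge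
    subst heq
    have := hab rfl
    constructor
    · omega
    · intro h
      exact ⟨rfl, by omega⟩

/-- a map which factors through a bounded potential takes few values -/
theorem col_count_of_potential {α β : Type*} (A : Set α) (σ : α → β) (Ψ : α → ℕ) (N : ℕ)
    (hΨ : ∀ x ∈ A, Ψ x < N) (h : ∀ x ∈ A, ∀ y ∈ A, Ψ x = Ψ y → σ x = σ y) :
    ∃ F : Finset β, F.card ≤ N ∧ ∀ x ∈ A, σ x ∈ F := by
  classical
  rcases A.eq_empty_or_nonempty with hA | ⟨x0, _⟩
  · refine ⟨∅, by simp, ?_⟩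
    intro x hx
    rw [hA] at hx
    exact absurd hx (Set.notMem_empty x)
  · let g : ℕ → β := fun n => if hn : ∃ x ∈ A, Ψ x = n then σ hn.choose else σ x0
    refine ⟨(Finset.range N).image g, ?_, ?_⟩
    · exact Finset.card_image_le.trans (by rw [Finset.card_range])
    · intro x hx
      rw [Finset.mem_image]
      refine ⟨Ψ x, Finset.mem_range.mpr (hΨ x hx), ?_⟩
      have hn : ∃ y ∈ A, Ψ y = Ψ x := ⟨x, hx, rfl⟩
      show (if hn : ∃ y ∈ A, Ψ y = Ψ x then σ hn.choose else σ x0) = σ x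
      rw [dif_pos hn]
      exact h _ hn.choose_spec.1 x hx hn.choose_spec.2

end Claimed.Agent.R258
end

/- ===== packed: Claimed.Agent.R258.Color.Arith ===== -/
section
/-
Row 258, block [COLOR].  LEAF P-COL-ARITH: elementary inequalities between the constants.  No paper needed.  (proved: helper63)
`b2 = 100 (Hm+1)`, `stp = 50 d0^9 (Hm+1)^2`, `b1 = 2 d0 stp = 100 d0^10 (Hm+1)^2`.
-/
set_option autoImplicit false

namespace Claimed.Agent.R258
namespace ColPar
variable (p : ColPar)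

theorem col_b1_eq : p.b1 = p.d0 ^ 10 * p.b2 * (p.Hm + 1) := by
  unfold b1 stp b2
  ring

theorem col_stp_pos (hd : 10 ≤ p.d0) : 0 < p.stp := by
  unfold stp
  have : 0 < p.d0 := by omega
  positivity

theorem col_b1_pos (hd : 10 ≤ p.d0) : 0 < p.b1 := by
  unfold b1
  have h1 := p.col_stp_pos hd
  have : 0 < p.d0 := by omega
  positivity

theorem col_b2_pos : 0 < p.b2 := by
  unfold b2
  positivity

theorem col_Tl_succ (g l : ℕ) : p.Tl g (l + 1) = p.Tl g l + p.stp := by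
  unfold Tl
  push_cast
  ring

theorem col_Tl_mono (g : ℕ) {l l' : ℕ} (h : l ≤ l') : p.Tl g l ≤ p.Tl g l' := by
  unfold Tl
  have h1 : (l : ℤ) ≤ l' := by exact_mod_cast h
  have h2 : (0 : ℤ) ≤ p.stp := by positivity
  nlinarith

theorem col_Tl_ge (g l : ℕ) : ((g : ℤ) - 3) * p.b1 ≤ p.Tl g l := by
  unfold Tl
  have h2 : (0 : ℤ) ≤ (l : ℤ) * p.stp := by positivity
  linarith

/-- `T_l ≤ (g - 5/2) b_1` for `l ≤ d0` -/
theorem col_Tl_le (g : ℕ) {l : ℕ} (hl : l ≤ p.d0) : 2 * p.Tl g l ≤ (2 * (g : ℤ) - 5) * p.b1 := by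
  unfold Tl b1
  have h1 : (l : ℤ) ≤ p.d0 := by exact_mod_cast hl
  have h2 : (0 : ℤ) ≤ p.stp := by positivity
  push_cast
  nlinarith

theorem col_Tl_lt_Ug (hd : 10 ≤ p.d0) (g : ℕ) {l : ℕ} (hl : l ≤ p.d0) : p.Tl g l < p.Ug g := by
  have h1 := p.col_Tl_le g hl
  have h2 : (0 : ℤ) < p.b1 := by exact_mod_cast p.col_b1_pos hd
  unfold Ug
  nlinarith

theorem col_Hm_lt_b2 : 2 * p.Hm + 1 < 4 * p.b2 := by
  unfold b2
  omega

theorem col_b2_le_b1 (hd : 10 ≤ p.d0) : p.b2 ≤ p.b1 := by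
  rw [col_b1_eq]
  have h1 : 1 ≤ p.d0 ^ 10 := Nat.one_le_pow _ _ (by omega)
  calc p.b2 = 1 * p.b2 * 1 := by ring
    _ ≤ p.d0 ^ 10 * p.b2 * (p.Hm + 1) := by
      apply Nat.mul_le_mul (Nat.mul_le_mul h1 le_rfl) (by omega)

theorem col_Hm_lt_b1 (hd : 10 ≤ p.d0) : p.Hm + 10 < p.b1 := by
  have h1 := p.col_b2_le_b1 hd
  have h2 : p.Hm + 10 < p.b2 := by
    unfold b2
    omega
  omega

theorem col_Rl_le {l : ℕ} (hl : l ≤ p.d0) : p.Rl l ≤ 1000 * (p.d0 * (p.d0 + 1)) * (p.Hm + 1) := by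
  unfold Rl b2
  calc 10 * l * (p.d0 + 1) * (100 * (p.Hm + 1)) ≤ 10 * p.d0 * (p.d0 + 1) * (100 * (p.Hm + 1)) := by
        apply Nat.mul_le_mul_right
        apply Nat.mul_le_mul_right
        exact Nat.mul_le_mul_left _ hl
    _ = 1000 * (p.d0 * (p.d0 + 1)) * (p.Hm + 1) := by ring

/-- `A_h + 10 < T_{l+1} - T_l` -/
theorem col_Ah (hd : 10 ≤ p.d0) {l h : ℕ} (hl : l ≤ p.d0) (hh : h ≤ p.Hm) :
    10 * p.Rl l * h + 2 * p.Rl l + 10 < p.stp := by
  have hR := p.col_Rl_le hl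
  set R := p.Rl l with hRdef
  set M := p.Hm + 1 with hM
  have hM1 : 1 ≤ M := by omega
  -- `10 R h + 2 R ≤ 10 R M`
  have h1 : 10 * R * h + 2 * R ≤ 10 * R * M := by
    have : h + 1 ≤ M := by omega
    nlinarith
  have h2 : 10 * R * M ≤ 10000 * (p.d0 * (p.d0 + 1)) * (M * M) := by
    calc 10 * R * M ≤ 10 * (1000 * (p.d0 * (p.d0 + 1)) * M) * M := by
          apply Nat.mul_le_mul_right
          exact Nat.mul_le_mul_left _ hR
      _ = 10000 * (p.d0 * (p.d0 + 1)) * (M * M) := by ring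
  have h3 : p.d0 * (p.d0 + 1) ≤ 2 * p.d0 ^ 2 := by nlinarith
  have h4 : 10 ^ 7 * p.d0 ^ 2 ≤ p.d0 ^ 9 := by
    calc 10 ^ 7 * p.d0 ^ 2 ≤ p.d0 ^ 7 * p.d0 ^ 2 := Nat.mul_le_mul_right _ (Nat.pow_le_pow_left hd 7)
      _ = p.d0 ^ 9 := by ring
  have hMM : 1 ≤ M * M := Nat.mul_pos hM1 hM1
  have hd2 : 100 ≤ p.d0 ^ 2 := by nlinarith
  have h5 : p.stp = p.d0 ^ 9 * 50 * (M * M) := by
    unfold stp
    rw [← hM]
    ring
  rw [h5]
  have h6 : 10000 * (p.d0 * (p.d0 + 1)) * (M * M) ≤ 20000 * p.d0 ^ 2 * (M * M) := by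
    apply Nat.mul_le_mul_right
    omega
  have h7 : 10 ^ 7 * p.d0 ^ 2 * 50 * (M * M) ≤ p.d0 ^ 9 * 50 * (M * M) := by
    apply Nat.mul_le_mul_right
    apply Nat.mul_le_mul_right
    exact h4
  have h8 : 20000 * p.d0 ^ 2 * (M * M) + 10 < 10 ^ 7 * p.d0 ^ 2 * 50 * (M * M) := by
    have : 100 ≤ p.d0 ^ 2 * (M * M) := by nlinarith
    nlinarith
  omega

theorem col_Rl_succ (l : ℕ) : p.Rl l + 2 * ((p.d0 + 1) * p.b2) ≤ p.Rl (l + 1) := by
  unfold Rl
  nlinarith [Nat.zero_le ((p.d0 + 1) * p.b2)]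

theorem col_Rl_mono {l l' : ℕ} (h : l ≤ l') : p.Rl l ≤ p.Rl l' := by
  unfold Rl
  apply Nat.mul_le_mul_right
  apply Nat.mul_le_mul_right
  exact Nat.mul_le_mul_left _ h

theorem col_Rl_pos {l : ℕ} (hl : 1 ≤ l) : 1 ≤ p.Rl l := by
  unfold Rl
  have := p.col_b2_pos
  have h1 : 0 < 10 * l * (p.d0 + 1) * p.b2 := by positivity
  omega

theorem col_KP_le (hd : 10 ≤ p.d0) : p.KP ≤ p.d0 ^ 8 := by
  unfold KP K1 K2 K3
  obtain ⟨e, he⟩ := Nat.exists_eq_add_of_le hd
  rw [he]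
  zify
  have he0 : (0 : ℤ) ≤ e := by positivity
  nlinarith [pow_nonneg he0 2, pow_nonneg he0 3, pow_nonneg he0 4, pow_nonneg he0 5, pow_nonneg he0 6,
    pow_nonneg he0 7, pow_nonneg he0 8]

theorem col_KP_pos : 0 < p.KP := by
  unfold KP K1 K2 K3
  positivity

theorem col_colour_bound (hd : 10 ≤ p.d0) : p.KP * p.B ^ 7 ≤ p.d0 ^ 30 := by
  have h1 := p.col_KP_le hd
  have h2 : p.B ≤ p.d0 ^ 2 := by
    unfold B
    nlinarith
  calc p.KP * p.B ^ 7 ≤ p.d0 ^ 8 * (p.d0 ^ 2) ^ 7 := Nat.mul_le_mul h1 (Nat.pow_le_pow_left h2 7)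
    _ = p.d0 ^ 22 := by ring
    _ ≤ p.d0 ^ 30 := Nat.pow_le_pow_right (by omega) (by omega)

end ColPar
end Claimed.Agent.R258
end

/- ===== packed: Claimed.Agent.R258.Color.Metric ===== -/
section
/-
Row 258, block [COLOR].  LEAF P-COL-METRIC: profiles, clips, frozen pseudometrics.  (localization.tex l.262-285; self-contained here.)  (proved: helper63)

Fix a context `X = (r, g, z, W)`.  Rivals: `w ∈ W \ {z}`; true score `tsc a s w = b1 * dp r w - dist s w a : ℤ`;
`cf l a s = min U (max (T_l, max_w tsc a s w))` (`Finset.fold max`; use `Finset.fold_max_le`, `Finset.le_fold_max`, `Finset.fold_max_lt`, `Finset.lt_fold_max`);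
`fd l a b = sup_s |cf l a s - cf l b s|` (`sSup` of a set of naturals bounded by `(U - min U T_l).toNat`, because `min U T_l ≤ cf ≤ U`; use `Nat.sSup_mem`/`le_csSup`/`csSup_le`).
Only the axioms `dist_self/symm/tri/anti` of `hS : S.Valid D` are used.
* `tsc` is nondecreasing in `s` (dist_anti) and `1`-Lipschitz in `a` (triangle inequality + symmetry); both pass to `fold max` and to `min U`.
* `col_cf_succ`: `fold max T_{l+1} f = max T_{l+1} (fold max T_l f)` since `T_l ≤ T_{l+1}`; `min U (max T' y) = max T' (min U y)` if `T' ≤ U`.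
  Hence `|cf (l+1) a s - cf (l+1) b s| ≤ |cf l a s - cf l b s|` (`abs_max_sub_max_le_abs`), i.e. `fd (l+1) ≤ fd l`.
* TWO-PHASE LEMMA `col_fd_two_phase`: if at depth `s` both profiles are `≤ T_l` and `dist s a b ≤ h`, then `fd l a b ≤ h`:
  for `s' ≤ s` both clipped profiles equal `T_l` (monotonicity), for `s' ≥ s` use the Lipschitz bound and `dist s' ≤ dist s`.
-/
set_option autoImplicit false
open Classical

namespace Claimed.Agent.R258
variable {C V : Type*} [PartialOrder C] {S : ColSys C V} {D : ℕ}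

theorem col_tsc_mono (hS : S.Valid D) (p : ColPar) (dp : ℕ → V → ℕ) (X : ColCtx V) (a w : V) {s s' : ℤ} (h : s ≤ s') :
    S.tsc p dp X a s w ≤ S.tsc p dp X a s' w := by
  unfold ColSys.tsc
  have h1 : (S.dist s' w a : ℤ) ≤ S.dist s w a := by exact_mod_cast hS.dist_anti w a h
  linarith

theorem col_tsc_lip (hS : S.Valid D) (p : ColPar) (dp : ℕ → V → ℕ) (X : ColCtx V) (a b w : V) (s : ℤ) :
    S.tsc p dp X a s w ≤ S.tsc p dp X b s w + S.dist s a b := by
  unfold ColSys.tsc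
  have h1 : (S.dist s w b : ℤ) ≤ S.dist s w a + S.dist s a b := by exact_mod_cast hS.dist_tri s w a b
  linarith

theorem col_rivLe_depth (hS : S.Valid D) (p : ColPar) (dp : ℕ → V → ℕ) (X : ColCtx V) (a : V) {s s' : ℤ} (h : s ≤ s')
    {x : ℤ} (hx : S.rivLe p dp X a s' x) : S.rivLe p dp X a s x :=
  fun w hw => (col_tsc_mono hS p dp X a w h).trans (hx w hw)

theorem col_rivLe_lip (hS : S.Valid D) (p : ColPar) (dp : ℕ → V → ℕ) (X : ColCtx V) (a b : V) (s : ℤ)
    {x : ℤ} (hx : S.rivLe p dp X b s x) : S.rivLe p dp X a s (x + S.dist s a b) :=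
  fun w hw => (col_tsc_lip hS p dp X a b w s).trans (by have := hx w hw; linarith)

theorem col_rivLe_le (p : ColPar) (dp : ℕ → V → ℕ) (X : ColCtx V) (a : V) (s : ℤ)
    {x y : ℤ} (hxy : x ≤ y) (hx : S.rivLe p dp X a s x) : S.rivLe p dp X a s y :=
  fun w hw => (hx w hw).trans hxy

theorem col_cf_le (p : ColPar) (dp : ℕ → V → ℕ) (X : ColCtx V) (l : ℕ) (a : V) (s : ℤ) :
    S.cf p dp X l a s ≤ p.Ug X.g :=
  min_le_left _ _

theorem col_cf_ge (p : ColPar) (dp : ℕ → V → ℕ) (X : ColCtx V) (l : ℕ) (a : V) (s : ℤ)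
    (hTU : p.Tl X.g l ≤ p.Ug X.g) : p.Tl X.g l ≤ S.cf p dp X l a s :=
  le_min hTU ((Finset.le_fold_max _).mpr (Or.inl le_rfl))

/-- `fold max` of two families which differ by at most `c ≥ 0` -/
theorem col_fold_max_le_add {ι : Type*} (R : Finset ι) (T : ℤ) (f f' : ι → ℤ) (c : ℤ) (hc : 0 ≤ c)
    (h : ∀ w ∈ R, f w ≤ f' w + c) : R.fold max T f ≤ R.fold max T f' + c := by
  rw [Finset.fold_max_le]
  constructor
  · have : T ≤ R.fold max T f' := (Finset.le_fold_max _).mpr (Or.inl le_rfl)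
    linarith
  · intro w hw
    have : f' w ≤ R.fold max T f' := (Finset.le_fold_max _).mpr (Or.inr ⟨w, hw, le_rfl⟩)
    have := h w hw
    linarith

theorem col_cf_le_add (p : ColPar) (dp : ℕ → V → ℕ) (X : ColCtx V) (l : ℕ) (a b : V) (s s' : ℤ) (c : ℤ) (hc : 0 ≤ c)
    (h : ∀ w, S.tsc p dp X a s w ≤ S.tsc p dp X b s' w + c) : S.cf p dp X l a s ≤ S.cf p dp X l b s' + c := by
  unfold ColSys.cf
  have h1 := col_fold_max_le_add (X.W.erase X.z) (p.Tl X.g l) (S.tsc p dp X a s) (S.tsc p dp X b s') c hc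
    (fun w _ => h w)
  rcases le_total (p.Ug X.g) ((X.W.erase X.z).fold max (p.Tl X.g l) (S.tsc p dp X b s')) with h2 | h2
  · rw [min_eq_left h2]
    have := min_le_left (p.Ug X.g) ((X.W.erase X.z).fold max (p.Tl X.g l) (S.tsc p dp X a s))
    linarith
  · rw [min_eq_right h2]
    have := min_le_right (p.Ug X.g) ((X.W.erase X.z).fold max (p.Tl X.g l) (S.tsc p dp X a s))
    linarith

theorem col_cf_mono (hS : S.Valid D) (p : ColPar) (dp : ℕ → V → ℕ) (X : ColCtx V) (l : ℕ) (a : V) {s s' : ℤ}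
    (h : s ≤ s') : S.cf p dp X l a s ≤ S.cf p dp X l a s' := by
  have := col_cf_le_add (S := S) p dp X l a a s s' 0 le_rfl
    (fun w => by have := col_tsc_mono hS p dp X a w h; linarith)
  linarith

theorem col_cf_lip (hS : S.Valid D) (p : ColPar) (dp : ℕ → V → ℕ) (X : ColCtx V) (l : ℕ) (a b : V) (s : ℤ) :
    |S.cf p dp X l a s - S.cf p dp X l b s| ≤ S.dist s a b := by
  have h1 := col_cf_le_add (S := S) p dp X l a b s s (S.dist s a b) (by positivity)
    (fun w => col_tsc_lip hS p dp X a b w s)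
  have h2 := col_cf_le_add (S := S) p dp X l b a s s (S.dist s a b) (by positivity)
    (fun w => by have := col_tsc_lip hS p dp X b a w s; rw [hS.dist_symm s b a] at this; exact this)
  rw [abs_le]
  constructor <;> linarith

theorem col_cf_eq_of_rivLe (p : ColPar) (dp : ℕ → V → ℕ) (X : ColCtx V) (l : ℕ) (a : V) (s : ℤ)
    (hTU : p.Tl X.g l ≤ p.Ug X.g) (h : S.rivLe p dp X a s (p.Tl X.g l)) : S.cf p dp X l a s = p.Tl X.g l := by
  unfold ColSys.cf
  have h1 : (X.W.erase X.z).fold max (p.Tl X.g l) (S.tsc p dp X a s) = p.Tl X.g l :=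
    le_antisymm ((Finset.fold_max_le _).mpr ⟨le_rfl, h⟩) ((Finset.le_fold_max _).mpr (Or.inl le_rfl))
  rw [h1, min_eq_right hTU]

theorem col_cf_le_of_rivLe (p : ColPar) (dp : ℕ → V → ℕ) (X : ColCtx V) (l : ℕ) (a : V) (s : ℤ)
    {x : ℤ} (hx : p.Tl X.g l ≤ x) (h : S.rivLe p dp X a s x) : S.cf p dp X l a s ≤ x :=
  (min_le_right _ _).trans ((Finset.fold_max_le _).mpr ⟨hx, h⟩)

/-- below the upper clip the clipped profile dominates the true profile -/
theorem col_rivLe_of_cf_lt (p : ColPar) (dp : ℕ → V → ℕ) (X : ColCtx V) (l : ℕ) (a : V) (s : ℤ)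
    (h : S.cf p dp X l a s < p.Ug X.g) : S.rivLe p dp X a s (S.cf p dp X l a s) := by
  intro w hw
  unfold ColSys.cf at h ⊢
  have h1 : (X.W.erase X.z).fold max (p.Tl X.g l) (S.tsc p dp X a s) < p.Ug X.g := by
    by_contra hno
    rw [min_eq_left (not_lt.mp hno)] at h
    exact lt_irrefl _ h
  rw [min_eq_right h1.le]
  exact (Finset.le_fold_max _).mpr (Or.inr ⟨w, hw, le_rfl⟩)

theorem col_cf_succ (p : ColPar) (dp : ℕ → V → ℕ) (X : ColCtx V) (l : ℕ) (a : V) (s : ℤ)
    (hTU : p.Tl X.g (l + 1) ≤ p.Ug X.g) :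
    S.cf p dp X (l + 1) a s = max (p.Tl X.g (l + 1)) (S.cf p dp X l a s) := by
  unfold ColSys.cf
  have hT : p.Tl X.g l ≤ p.Tl X.g (l + 1) := p.col_Tl_mono X.g (Nat.le_succ l)
  have h1 : (X.W.erase X.z).fold max (p.Tl X.g (l + 1)) (S.tsc p dp X a s)
      = max (p.Tl X.g (l + 1)) ((X.W.erase X.z).fold max (p.Tl X.g l) (S.tsc p dp X a s)) := by
    apply le_antisymm
    · rw [Finset.fold_max_le]
      refine ⟨le_max_left _ _, fun w hw => le_max_of_le_right ?_⟩
      exact (Finset.le_fold_max _).mpr (Or.inr ⟨w, hw, le_rfl⟩)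
    · apply max_le
      · exact (Finset.le_fold_max _).mpr (Or.inl le_rfl)
      · rw [Finset.fold_max_le]
        refine ⟨(Finset.le_fold_max _).mpr (Or.inl hT), fun w hw => ?_⟩
        exact (Finset.le_fold_max _).mpr (Or.inr ⟨w, hw, le_rfl⟩)
  rw [h1, min_max_distrib_left, min_eq_right hTU]

theorem col_fd_bdd (p : ColPar) (dp : ℕ → V → ℕ) (X : ColCtx V) (l : ℕ) (a b : V) :
    BddAbove {n : ℕ | ∃ s : ℤ, n = (S.cf p dp X l a s - S.cf p dp X l b s).natAbs} := by
  refine ⟨(p.Ug X.g - min (p.Ug X.g) (p.Tl X.g l)).natAbs, ?_⟩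
  rintro n ⟨s, rfl⟩
  have hlow : ∀ c : V, min (p.Ug X.g) (p.Tl X.g l) ≤ S.cf p dp X l c s := fun c =>
    min_le_min_left _ ((Finset.le_fold_max _).mpr (Or.inl le_rfl))
  have h1 := hlow a
  have h2 := hlow b
  have h3 := col_cf_le (S := S) p dp X l a s
  have h4 := col_cf_le (S := S) p dp X l b s
  omega

theorem col_fd_le_iff (p : ColPar) (dp : ℕ → V → ℕ) (X : ColCtx V) (l : ℕ) (a b : V) (r : ℕ) :
    S.fd p dp X l a b ≤ r ↔ ∀ s : ℤ, |S.cf p dp X l a s - S.cf p dp X l b s| ≤ r := by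
  unfold ColSys.fd
  constructor
  · intro h s
    have h1 : (S.cf p dp X l a s - S.cf p dp X l b s).natAbs ≤ r :=
      (le_csSup (col_fd_bdd p dp X l a b) ⟨s, rfl⟩).trans h
    rw [Int.abs_eq_natAbs]
    exact_mod_cast h1
  · intro h
    have hne : {n : ℕ | ∃ s : ℤ, n = (S.cf p dp X l a s - S.cf p dp X l b s).natAbs}.Nonempty := ⟨_, 0, rfl⟩
    apply csSup_le hne
    rintro n ⟨s, rfl⟩
    have h1 := h s
    rw [Int.abs_eq_natAbs] at h1
    exact_mod_cast h1

theorem col_abs_le_fd (p : ColPar) (dp : ℕ → V → ℕ) (X : ColCtx V) (l : ℕ) (a b : V) (s : ℤ) :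
    |S.cf p dp X l a s - S.cf p dp X l b s| ≤ S.fd p dp X l a b :=
  (col_fd_le_iff p dp X l a b _).mp le_rfl s

theorem col_fd_self (p : ColPar) (dp : ℕ → V → ℕ) (X : ColCtx V) (l : ℕ) (a : V) : S.fd p dp X l a a = 0 := by
  apply Nat.le_zero.mp
  rw [col_fd_le_iff]
  intro s
  simp

theorem col_fd_symm (p : ColPar) (dp : ℕ → V → ℕ) (X : ColCtx V) (l : ℕ) (a b : V) :
    S.fd p dp X l a b = S.fd p dp X l b a := by
  apply le_antisymm
  · rw [col_fd_le_iff]
    intro s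
    rw [abs_sub_comm]
    exact col_abs_le_fd p dp X l b a s
  · rw [col_fd_le_iff]
    intro s
    rw [abs_sub_comm]
    exact col_abs_le_fd p dp X l a b s

theorem col_fd_tri (p : ColPar) (dp : ℕ → V → ℕ) (X : ColCtx V) (l : ℕ) (a b c : V) :
    S.fd p dp X l a c ≤ S.fd p dp X l a b + S.fd p dp X l b c := by
  rw [col_fd_le_iff]
  intro s
  have h1 := col_abs_le_fd (S := S) p dp X l a b s
  have h2 := col_abs_le_fd (S := S) p dp X l b c s
  have h3 := abs_sub_le (S.cf p dp X l a s) (S.cf p dp X l b s) (S.cf p dp X l c s)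
  push_cast
  linarith

theorem col_fd_succ_le (p : ColPar) (dp : ℕ → V → ℕ) (X : ColCtx V) (l : ℕ) (a b : V)
    (hTU : p.Tl X.g (l + 1) ≤ p.Ug X.g) : S.fd p dp X (l + 1) a b ≤ S.fd p dp X l a b := by
  rw [col_fd_le_iff]
  intro s
  rw [col_cf_succ p dp X l a s hTU, col_cf_succ p dp X l b s hTU, max_comm (p.Tl X.g (l + 1)),
    max_comm (p.Tl X.g (l + 1))]
  exact (abs_max_sub_max_le_abs _ _ _).trans (col_abs_le_fd p dp X l a b s)

theorem col_fd_two_phase (hS : S.Valid D) (p : ColPar) (dp : ℕ → V → ℕ) (X : ColCtx V) (l : ℕ) (a b : V) (s : ℤ) (h : ℕ)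
    (hTU : p.Tl X.g l ≤ p.Ug X.g) (ha : S.rivLe p dp X a s (p.Tl X.g l)) (hb : S.rivLe p dp X b s (p.Tl X.g l))
    (hd : S.dist s a b ≤ h) : S.fd p dp X l a b ≤ h := by
  rw [col_fd_le_iff]
  intro s'
  rcases le_total s' s with hs | hs
  · rw [col_cf_eq_of_rivLe p dp X l a s' hTU (col_rivLe_depth hS p dp X a hs ha),
      col_cf_eq_of_rivLe p dp X l b s' hTU (col_rivLe_depth hS p dp X b hs hb)]
    simp
  · have h1 := col_cf_lip hS p dp X l a b s'
    have h2 : (S.dist s' a b : ℤ) ≤ h := by exact_mod_cast (hS.dist_anti a b hs).trans hd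
    linarith

end Claimed.Agent.R258
end

/- ===== packed: Claimed.Agent.R258.Color.State ===== -/
section
/-
Row 258, block [COLOR].  LEAF P-COL-STATE: basic properties of the state at `(I, v)`, `v ∈ pres I`.  (localization.tex l.243-300; self-contained here.)  (proved: helper63)
Uses Mark.lean, Lev.lean, Metric.lean, Arith.lean as black boxes.  `H : S.Std p D dp dh` are the standing hypotheses.

* `pres` is monotone: `J ≤ I → pres I ⊆ pres J` (`Valid.pres_mono`).
* centre: `q1 I v v = 0` (dist_self), `q2 I v v = 0` (`col_fd_self`).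
* winner `z := (win1 I v).z ∈ pres I` (`col_win_mem`), so `adm z ≤ card - 1` (`adm_lt`), `lev ≤ d0` (`col_lev_le`, `card ≤ D ≤ 2^d0`),
  `z ∈ W` (`col_lt_pe`), `col_pe (adm z) lev ≤ card` (`col_pe_le`).
* balls: `v ∈ ball X l I v` (`col_fd_self`), so `1 ≤ card ≤ D`, `nl < d0 - 1` (`col_flog_lt` with `D_flog`);
  `ball X l ⊆ ball X (l+1)` for `l + 1 ≤ d0` (`col_fd_succ_le`, `col_Tl_lt_Ug`, `col_Rl_mono`), so `nl l ≤ nl (l+1)` (`col_flog_mono`).
* `lsel`: the set `{l | 1 ≤ l < d0 ∧ nl l = nl (l+1)}` is nonempty: otherwise `nl` is strictly increasing on `1..d0`, so `nl d0 ≥ d0 - 1`. Then `Nat.sInf_mem`.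
* potentials: `pot1, pot4 < K1` (`col_Phi_lt`), `lev < K2`, `pot3 ≤ d0 (d0-2) < K3`; combine: `a < A → b < B → a * B + b < A * B`.
-/
set_option autoImplicit false
open Classical

namespace Claimed.Agent.R258
variable {C V : Type*} [PartialOrder C] {S : ColSys C V} {p : ColPar} {D : ℕ} {dp dh : ℕ → V → ℕ}

theorem col_pres_mono (H : S.Std p D dp dh) {I J : C} (h : J ≤ I) : S.pres I ⊆ S.pres J :=
  H.valid.pres_mono h

theorem col_q1_self (H : S.Std p D dp dh) (I : C) (v : V) : S.q1 p I v v = 0 := by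
  simp [ColSys.q1, H.valid.dist_self]

theorem col_q2_self (S : ColSys C V) (p : ColPar) (dp : ℕ → V → ℕ) (I : C) (v : V) : S.q2 p dp I v v = 0 := by
  unfold ColSys.q2
  rw [col_fd_self]
  simp

theorem col_win1_mem (S : ColSys C V) (p : ColPar) (dp : ℕ → V → ℕ) {I : C} {v : V} (hv : v ∈ S.pres I) :
    (S.win1 p dp I v).z ∈ S.pres I :=
  col_win_mem hv

theorem col_win2_mem (S : ColSys C V) (p : ColPar) (dp dh : ℕ → V → ℕ) {I : C} {v : V} (hv : v ∈ S.pres I) :
    (S.win2 p dp dh I v).z ∈ S.pres I :=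
  col_win_mem hv

theorem col_win1_spec {I : C} {v : V} (h : (S.win1 p dp I v).r < p.d0) :
    col_Mk (S.pres I) (dp (S.win1 p dp I v).r) (S.q1 p I v) (S.win1 p dp I v).z (S.win1 p dp I v).g :=
  (col_win_spec h).2.1

theorem col_win2_spec {I : C} {v : V} (h : (S.win2 p dp dh I v).r < p.d0) :
    col_Mk (S.pres I) (dh (S.win2 p dp dh I v).r) (S.q2 p dp I v) (S.win2 p dp dh I v).z (S.win2 p dp dh I v).g :=
  (col_win_spec h).2.1

theorem col_adm_le (H : S.Std p D dp dh) {I : C} {w : V} (hw : w ∈ S.pres I) : S.adm w ≤ (S.pres I).card - 1 := by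
  have := H.valid.adm_lt I w hw
  omega

theorem col_lev_le_d0 (H : S.Std p D dp dh) {I : C} {v : V} (hv : v ∈ S.pres I) : S.lev p dp I v ≤ p.d0 := by
  unfold ColSys.lev
  apply col_lev_le (col_adm_le H (col_win1_mem S p dp hv))
  have h1 : 0 < (S.pres I).card := Finset.card_pos.mpr ⟨v, hv⟩
  have h2 := H.valid.card_le I
  have h3 := H.D_pow2
  omega

theorem col_pe_le_card (H : S.Std p D dp dh) {I : C} {v : V} (hv : v ∈ S.pres I) :
    col_pe (S.adm (S.win1 p dp I v).z) (S.lev p dp I v) ≤ (S.pres I).card := by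
  have h1 : 0 < (S.pres I).card := Finset.card_pos.mpr ⟨v, hv⟩
  have h2 := col_pe_le (col_adm_le H (col_win1_mem S p dp hv))
  unfold ColSys.lev
  omega

theorem col_z_mem_W (S : ColSys C V) (p : ColPar) (dp : ℕ → V → ℕ) {I : C} {v : V} (hv : v ∈ S.pres I) :
    (S.ctx p dp I v).z ∈ (S.ctx p dp I v).W := by
  show (S.win1 p dp I v).z ∈ (S.pres I).filter fun w =>
    S.adm w < col_pe (S.adm (S.win1 p dp I v).z) (S.lev p dp I v)
  rw [Finset.mem_filter]
  exact ⟨col_win1_mem S p dp hv, col_lt_pe _ _⟩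

theorem col_W_sub (S : ColSys C V) (p : ColPar) (dp : ℕ → V → ℕ) (I : C) (v : V) : (S.ctx p dp I v).W ⊆ S.pres I :=
  Finset.filter_subset _ _

theorem col_self_mem_ball (S : ColSys C V) (p : ColPar) (dp : ℕ → V → ℕ) (X : ColCtx V) (l : ℕ) {I : C} {v : V}
    (hv : v ∈ S.pres I) : v ∈ S.ball p dp X l I v := by
  unfold ColSys.ball
  rw [Finset.mem_filter, col_fd_self]
  exact ⟨hv, Nat.zero_le _⟩

theorem col_ball_succ (H : S.Std p D dp dh) (X : ColCtx V) {l : ℕ} (hl : l + 1 ≤ p.d0) (I : C) (v : V) :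
    S.ball p dp X l I v ⊆ S.ball p dp X (l + 1) I v := by
  intro y hy
  unfold ColSys.ball at hy ⊢
  rw [Finset.mem_filter] at hy ⊢
  refine ⟨hy.1, ?_⟩
  exact (col_fd_succ_le p dp X l y v (p.col_Tl_lt_Ug H.d0_ge X.g hl).le).trans
    (hy.2.trans (p.col_Rl_mono (Nat.le_succ l)))

theorem col_ball_card_pos (S : ColSys C V) (p : ColPar) (dp : ℕ → V → ℕ) (X : ColCtx V) (l : ℕ) {I : C} {v : V}
    (hv : v ∈ S.pres I) : 1 ≤ (S.ball p dp X l I v).card :=
  Finset.card_pos.mpr ⟨v, col_self_mem_ball S p dp X l hv⟩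

theorem col_nl_lt (H : S.Std p D dp dh) (X : ColCtx V) (l : ℕ) {I : C} {v : V} (hv : v ∈ S.pres I) :
    S.nl p dp X l I v < p.d0 - 1 := by
  unfold ColSys.nl
  apply col_flog_lt (col_ball_card_pos S p dp X l hv) _ H.D_flog
  exact (Finset.card_le_card (Finset.filter_subset _ _)).trans (H.valid.card_le I)

theorem col_nl_succ (H : S.Std p D dp dh) (X : ColCtx V) {l : ℕ} (hl : l + 1 ≤ p.d0) {I : C} {v : V}
    (hv : v ∈ S.pres I) : S.nl p dp X l I v ≤ S.nl p dp X (l + 1) I v :=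
  col_flog_mono (col_ball_card_pos S p dp X l hv) (Finset.card_le_card (col_ball_succ H X hl I v))

/-- `(3/2)^n ≤ card (ball) < (3/2)^(n+1)` -/
theorem col_nl_spec (S : ColSys C V) (p : ColPar) (dp : ℕ → V → ℕ) (X : ColCtx V) (l : ℕ) {I : C} {v : V}
    (hv : v ∈ S.pres I) :
    3 ^ S.nl p dp X l I v ≤ (S.ball p dp X l I v).card * 2 ^ S.nl p dp X l I v ∧
    (S.ball p dp X l I v).card * 2 ^ (S.nl p dp X l I v + 1) < 3 ^ (S.nl p dp X l I v + 1) :=
  col_flog_spec (col_ball_card_pos S p dp X l hv)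

theorem col_selL_spec (H : S.Std p D dp dh) (X : ColCtx V) {I : C} {v : V} (hv : v ∈ S.pres I) :
    1 ≤ S.selL p dp X I v ∧ S.selL p dp X I v < p.d0 ∧
      S.nl p dp X (S.selL p dp X I v) I v = S.nl p dp X (S.selL p dp X I v + 1) I v := by
  have hne : {l : ℕ | 1 ≤ l ∧ l < p.d0 ∧ S.nl p dp X l I v = S.nl p dp X (l + 1) I v}.Nonempty := by
    by_contra hcon
    rw [Set.not_nonempty_iff_eq_empty] at hcon
    have hcon' : ∀ l, 1 ≤ l → l < p.d0 → S.nl p dp X l I v ≠ S.nl p dp X (l + 1) I v := by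
      intro l h1 h2 h3
      have : l ∈ {l : ℕ | 1 ≤ l ∧ l < p.d0 ∧ S.nl p dp X l I v = S.nl p dp X (l + 1) I v} := ⟨h1, h2, h3⟩
      rw [hcon] at this
      exact this
    have key : ∀ k, k + 1 ≤ p.d0 → k ≤ S.nl p dp X (k + 1) I v := by
      intro k
      induction k with
      | zero => intro _; exact Nat.zero_le _
      | succ k ih =>
        intro hk
        have h1 := ih (by omega)
        have h2 := col_nl_succ H X (l := k + 1) (by omega) hv
        have h3 := hcon' (k + 1) (by omega) (by omega)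
        omega
    have hd := H.d0_ge
    have h1 := key (p.d0 - 1) (by omega)
    have h2 := col_nl_lt H X (p.d0 - 1 + 1) hv
    omega
  exact Nat.sInf_mem hne

theorem col_pair_lt {a A b B : ℕ} (ha : a < A) (hb : b < B) : a * B + b < A * B := by
  calc a * B + b < a * B + B := by omega
    _ = (a + 1) * B := by ring
    _ ≤ A * B := Nat.mul_le_mul_right _ ha

theorem col_pot123_lt (H : S.Std p D dp dh) {I : C} {v : V} (hv : v ∈ S.pres I) :
    S.pot1 p dp I v < p.K1 ∧ S.lev p dp I v < p.K2 ∧ S.pot3 p dp I v < p.K3 ∧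
      S.pot123 p dp I v < p.K1 * p.K2 * p.K3 := by
  have h1 : S.pot1 p dp I v < p.K1 := col_Phi_lt H.dp_le
  have h2 : S.lev p dp I v < p.K2 := by
    have := col_lev_le_d0 H hv
    unfold ColPar.K2
    omega
  have h3 : S.pot3 p dp I v < p.K3 := by
    unfold ColSys.pot3 ColPar.K3
    have h : ∑ l ∈ Finset.Icc 1 p.d0, S.nl p dp (S.ctx p dp I v) l I v ≤ ∑ _l ∈ Finset.Icc 1 p.d0, p.d0 := by
      apply Finset.sum_le_sum
      intro l _
      have := col_nl_lt H (S.ctx p dp I v) l hv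
      omega
    rw [Finset.sum_const, Nat.card_Icc, smul_eq_mul] at h
    simp only [Nat.add_sub_cancel] at h
    omega
  exact ⟨h1, h2, h3, col_pair_lt (col_pair_lt h1 h2) h3⟩

theorem col_pot_lt (H : S.Std p D dp dh) {I : C} {v : V} (hv : v ∈ S.pres I) :
    S.pot4 p dp dh I v < p.K1 ∧ S.pot p dp dh I v < p.KP := by
  have h4 : S.pot4 p dp dh I v < p.K1 := col_Phi_lt H.dh_le
  exact ⟨h4, col_pair_lt (col_pot123_lt H hv).2.2.2 h4⟩

/-- a group in range: every metadatum is `< B = d0 + 1`, the potential is `< KP` -/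
structure ColGrp.InRange (p : ColPar) (G : ColGrp V) : Prop where
  r : G.r ≤ p.d0
  g : G.g ≤ p.d0
  lev : G.lev ≤ p.d0
  l1 : 1 ≤ G.l
  l : G.l < p.d0
  n : G.n ≤ p.d0
  r2 : G.r2 ≤ p.d0
  g2 : G.g2 ≤ p.d0
  pot : G.pot < p.KP

theorem col_grp_inRange (H : S.Std p D dp dh) {I : C} {v : V} (hv : v ∈ S.pres I) :
    (S.grp p dp dh I v).InRange p where
  r := col_win_r_le _ _ _ _ _
  g := col_win_g_le H.dp_le v
  lev := col_lev_le_d0 H hv
  l1 := (col_selL_spec H (S.ctx p dp I v) hv).1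
  l := (col_selL_spec H (S.ctx p dp I v) hv).2.1
  n := by
    have := col_nl_lt H (S.ctx p dp I v) (S.lsel p dp I v) hv
    show S.nl p dp (S.ctx p dp I v) (S.lsel p dp I v) I v ≤ p.d0
    omega
  r2 := col_win_r_le _ _ _ _ _
  g2 := col_win_g_le H.dh_le v
  pot := (col_pot_lt H hv).2

/-- EVERYTHING one knows at a central assignment, in terms of the fields of `G`. -/
structure ColSys.WitFacts (S : ColSys C V) (p : ColPar) (dp dh : ℕ → V → ℕ) (G : ColGrp V) (I : C) (v : V) : Prop where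
  v_mem : v ∈ S.pres I
  range : G.InRange p
  r_lt : G.r < p.d0
  r2_lt : G.r2 < p.d0
  mk1 : col_Mk (S.pres I) (dp G.r) (S.q1 p I v) G.z G.g
  lev_eq : G.lev = col_lev (S.adm G.z) ((S.pres I).card - 1)
  W_eq : G.W = (S.pres I).filter fun w => S.adm w < col_pe (S.adm G.z) G.lev
  pe_le : col_pe (S.adm G.z) G.lev ≤ (S.pres I).card
  z_mem : G.z ∈ S.pres I
  n_eq : S.nl p dp G.toColCtx G.l I v = G.n
  n_eq' : S.nl p dp G.toColCtx (G.l + 1) I v = G.n
  mk2 : col_Mk (S.pres I) (dh G.r2) (fun w => S.fd p dp G.toColCtx (G.l + 1) w v / p.b2) G.a G.g2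

theorem col_wit_facts (H : S.Std p D dp dh) {G : ColGrp V} {I : C} {v : V} (hW : S.Wit p dp dh G I v) :
    S.WitFacts p dp dh G I v := by
  obtain ⟨hv, hok, rfl⟩ := hW
  exact
  { v_mem := hv
    range := col_grp_inRange H hv
    r_lt := hok.1
    r2_lt := hok.2
    mk1 := col_win1_spec hok.1
    lev_eq := rfl
    W_eq := rfl
    pe_le := col_pe_le_card H hv
    z_mem := col_win1_mem S p dp hv
    n_eq := rfl
    n_eq' := (col_selL_spec H (S.ctx p dp I v) hv).2.2.symm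
    mk2 := col_win2_spec hok.2 }

end Claimed.Agent.R258
end

/- ===== packed: Claimed.Agent.R258.Color.Mono ===== -/
section
/-
Row 258, block [COLOR].  LEAF P-COL-MONO: the potential is monotone along a path and equal potentials force equal data.
(Replaces the episode counting of Lemma color-budget, localization.tex l.322-345.  Self-contained here.)  (proved: helper63)
Setting: `J ≤ I` (J finer), `v ∈ pres I` (hence `v ∈ pres J`).  `pres I ⊆ pres J`, `depth I ≤ depth J`.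

STAGE 1: situations `(pres I, q1 I v) ≤ (pres J, q1 J v)` (dist_anti + `Nat.div_le_div_right`), centre `v`.  `col_Phi_mono`, `col_Phi_eq` + `col_win_congr`.
STAGE 2 (same `win1`, winner `z`, `i = adm z`): `lev = col_lev i (card - 1)` is monotone (`col_lev_mono`, `col_adm_le`, card monotone).
  If the levels agree, `pe := col_pe i lev` is the same and `pe ≤ card (pres I)` (`col_pe_le_card`).  CLAIM `{w ∈ pres J | adm w < pe} = {w ∈ pres I | adm w < pe}`:
  `adm` maps `pres I` injectively into `range (card (pres I))`, hence ONTO (`Finset.eq_of_subset_of_card_le` / `Finset.surj_on_of_inj_on_of_card_le`);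
  so for `w ∈ pres J` with `adm w < pe ≤ card (pres I)` there is `w' ∈ pres I ⊆ pres J` with `adm w' = adm w`, and `w = w'` by `adm_inj J`.
STAGE 3 (same context `X`): `ball X l I v ⊆ ball X l J v`, so `nl` is monotone in the cell (`col_flog_mono`, the ball contains `v`);
  equal sums over `l ∈ Icc 1 d0` force termwise equality (`Finset.sum_eq_sum_iff_of_le`); then the sets defining `selL` coincide (`l, l+1 ∈ Icc 1 d0`).
STAGE 4 (same `X`, same `l`): `q2 I v = q2 J v` as functions; situations `(pres I, q2) ≤ (pres J, q2)`, centre `v` (`col_q2_self`).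
COMBINATION: `col_lex` three times, with the strict bounds of `col_pot123_lt`, `col_pot_lt`.  `grp` equality by `ColGrp.ext`/`ColCtx.ext`.
-/
set_option autoImplicit false
open Classical

namespace Claimed.Agent.R258
variable {C V : Type*} [PartialOrder C] {S : ColSys C V} {p : ColPar} {D : ℕ} {dp dh : ℕ → V → ℕ}

theorem col_stage1 (H : S.Std p D dp dh) {I J : C} (hJI : J ≤ I) {v : V} (hv : v ∈ S.pres I) :
    S.pot1 p dp I v ≤ S.pot1 p dp J v ∧
      (S.pot1 p dp I v = S.pot1 p dp J v → S.win1 p dp I v = S.win1 p dp J v) := by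
  have hZ : S.pres I ⊆ S.pres J := H.valid.pres_mono hJI
  have hq : ∀ w ∈ S.pres I, S.q1 p J v w ≤ S.q1 p I v w := fun w _ =>
    Nat.div_le_div_right (H.valid.dist_anti w v (H.valid.depth_mono hJI))
  have hc : ∃ c ∈ S.pres I, S.q1 p I v c = 0 := ⟨v, hv, col_q1_self H I v⟩
  exact ⟨col_Phi_mono p.d0 hZ hq hc, fun he => col_win_congr (col_Phi_eq hZ hq hc he) v⟩

/-- prefixes of the lists on a common path -/
theorem col_prefix_eq (H : S.Std p D dp dh) {I J : C} (hJI : J ≤ I) {m : ℕ} (hm : m ≤ (S.pres I).card) :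
    ((S.pres J).filter fun w => S.adm w < m) = (S.pres I).filter fun w => S.adm w < m := by
  have hZ : S.pres I ⊆ S.pres J := H.valid.pres_mono hJI
  have himg : (S.pres I).image S.adm = Finset.range (S.pres I).card := by
    apply Finset.eq_of_subset_of_card_le
    · intro n hn
      obtain ⟨w, hw, rfl⟩ := Finset.mem_image.mp hn
      exact Finset.mem_range.mpr (H.valid.adm_lt I w hw)
    · rw [Finset.card_range, Finset.card_image_of_injOn (H.valid.adm_inj I)]
  ext w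
  rw [Finset.mem_filter, Finset.mem_filter]
  constructor
  · rintro ⟨hw, hlt⟩
    refine ⟨?_, hlt⟩
    have h1 : S.adm w ∈ (S.pres I).image S.adm := by
      rw [himg]
      exact Finset.mem_range.mpr (lt_of_lt_of_le hlt hm)
    obtain ⟨w', hw', he⟩ := Finset.mem_image.mp h1
    have : w' = w := H.valid.adm_inj J (hZ hw') hw he
    rw [← this]
    exact hw'
  · rintro ⟨hw, hlt⟩
    exact ⟨hZ hw, hlt⟩

theorem col_stage2 (H : S.Std p D dp dh) {I J : C} (hJI : J ≤ I) {v : V} (hv : v ∈ S.pres I)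
    (h1 : S.win1 p dp I v = S.win1 p dp J v) :
    S.lev p dp I v ≤ S.lev p dp J v ∧ (S.lev p dp I v = S.lev p dp J v → S.ctx p dp I v = S.ctx p dp J v) := by
  have hZ : S.pres I ⊆ S.pres J := H.valid.pres_mono hJI
  have hcard : (S.pres I).card ≤ (S.pres J).card := Finset.card_le_card hZ
  constructor
  · unfold ColSys.lev
    rw [← h1]
    exact col_lev_mono (col_adm_le H (col_win1_mem S p dp hv)) (by omega)
  · intro hl
    have hpe := col_pe_le_card H hv
    apply ColCtx.ext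
    · exact congrArg ColWin.r h1
    · exact congrArg ColWin.g h1
    · exact congrArg ColWin.z h1
    · show ((S.pres I).filter fun w => S.adm w < col_pe (S.adm (S.win1 p dp I v).z) (S.lev p dp I v))
        = (S.pres J).filter fun w => S.adm w < col_pe (S.adm (S.win1 p dp J v).z) (S.lev p dp J v)
      rw [← h1, ← hl]
      exact (col_prefix_eq H hJI hpe).symm

theorem col_nl_cell_mono (H : S.Std p D dp dh) {I J : C} (hJI : J ≤ I) {v : V} (hv : v ∈ S.pres I)
    (X : ColCtx V) (l : ℕ) : S.nl p dp X l I v ≤ S.nl p dp X l J v := by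
  apply col_flog_mono (col_ball_card_pos S p dp X l hv)
  apply Finset.card_le_card
  exact Finset.filter_subset_filter _ (H.valid.pres_mono hJI)

theorem col_stage3 (H : S.Std p D dp dh) {I J : C} (hJI : J ≤ I) {v : V} (hv : v ∈ S.pres I)
    (h2 : S.ctx p dp I v = S.ctx p dp J v) :
    S.pot3 p dp I v ≤ S.pot3 p dp J v ∧
      (S.pot3 p dp I v = S.pot3 p dp J v →
        S.lsel p dp I v = S.lsel p dp J v ∧
        S.nl p dp (S.ctx p dp I v) (S.lsel p dp I v) I v = S.nl p dp (S.ctx p dp J v) (S.lsel p dp J v) J v) := by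
  unfold ColSys.pot3 ColSys.lsel
  rw [← h2]
  set X := S.ctx p dp I v with hX
  have hle : ∀ l ∈ Finset.Icc 1 p.d0, S.nl p dp X l I v ≤ S.nl p dp X l J v := fun l _ =>
    col_nl_cell_mono H hJI hv X l
  refine ⟨Finset.sum_le_sum hle, fun he => ?_⟩
  have heq := (Finset.sum_eq_sum_iff_of_le hle).mp he
  have hsel : S.selL p dp X I v = S.selL p dp X J v := by
    unfold ColSys.selL
    congr 1
    ext l
    constructor
    · rintro ⟨a, b, c⟩
      refine ⟨a, b, ?_⟩
      rw [← heq l (Finset.mem_Icc.mpr ⟨a, b.le⟩), ← heq (l + 1) (Finset.mem_Icc.mpr ⟨by omega, b⟩)]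
      exact c
    · rintro ⟨a, b, c⟩
      refine ⟨a, b, ?_⟩
      rw [heq l (Finset.mem_Icc.mpr ⟨a, b.le⟩), heq (l + 1) (Finset.mem_Icc.mpr ⟨by omega, b⟩)]
      exact c
  refine ⟨hsel, ?_⟩
  rw [← hsel]
  obtain ⟨a, b, _⟩ := col_selL_spec H X hv
  exact heq _ (Finset.mem_Icc.mpr ⟨a, b.le⟩)

theorem col_stage4 (H : S.Std p D dp dh) {I J : C} (hJI : J ≤ I) {v : V} (hv : v ∈ S.pres I)
    (h2 : S.ctx p dp I v = S.ctx p dp J v) (h3 : S.lsel p dp I v = S.lsel p dp J v) :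
    S.pot4 p dp dh I v ≤ S.pot4 p dp dh J v ∧
      (S.pot4 p dp dh I v = S.pot4 p dp dh J v → S.win2 p dp dh I v = S.win2 p dp dh J v) := by
  have hZ : S.pres I ⊆ S.pres J := H.valid.pres_mono hJI
  have hqq : S.q2 p dp J v = S.q2 p dp I v := by
    unfold ColSys.q2
    rw [h2, h3]
  have hq : ∀ w ∈ S.pres I, S.q2 p dp J v w ≤ S.q2 p dp I v w := fun w _ => by rw [hqq]
  have hc : ∃ c ∈ S.pres I, S.q2 p dp I v c = 0 := ⟨v, hv, col_q2_self S p dp I v⟩
  exact ⟨col_Phi_mono p.d0 hZ hq hc, fun he => col_win_congr (col_Phi_eq hZ hq hc he) v⟩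

theorem col_pot123_mono (H : S.Std p D dp dh) {I J : C} (hJI : J ≤ I) {v : V} (hv : v ∈ S.pres I) :
    S.pot123 p dp I v ≤ S.pot123 p dp J v ∧
      (S.pot123 p dp I v = S.pot123 p dp J v →
        S.lev p dp I v = S.lev p dp J v ∧ S.ctx p dp I v = S.ctx p dp J v ∧ S.lsel p dp I v = S.lsel p dp J v ∧
        S.nl p dp (S.ctx p dp I v) (S.lsel p dp I v) I v = S.nl p dp (S.ctx p dp J v) (S.lsel p dp J v) J v) := by
  have hvJ : v ∈ S.pres J := H.valid.pres_mono hJI hv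
  obtain ⟨_, bI2, bI3, _⟩ := col_pot123_lt H hv
  obtain ⟨_, bJ2, bJ3, _⟩ := col_pot123_lt H hvJ
  obtain ⟨m1, e1⟩ := col_stage1 H hJI hv
  obtain ⟨mA, eA⟩ := col_lex bI2 bJ2 m1 (fun h => (col_stage2 H hJI hv (e1 h)).1)
  have hctx : S.pot1 p dp I v * p.K2 + S.lev p dp I v = S.pot1 p dp J v * p.K2 + S.lev p dp J v →
      S.lev p dp I v = S.lev p dp J v ∧ S.ctx p dp I v = S.ctx p dp J v := by
    intro h
    obtain ⟨h1, h2⟩ := eA h
    exact ⟨h2, (col_stage2 H hJI hv (e1 h1)).2 h2⟩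
  obtain ⟨mB, eB⟩ := col_lex bI3 bJ3 mA (fun h => (col_stage3 H hJI hv (hctx h).2).1)
  refine ⟨mB, fun h => ?_⟩
  obtain ⟨h1, h2⟩ := eB h
  obtain ⟨hl, hc⟩ := hctx h1
  obtain ⟨h3, h4⟩ := (col_stage3 H hJI hv hc).2 h2
  exact ⟨hl, hc, h3, h4⟩

theorem col_pot_mono (H : S.Std p D dp dh) {I J : C} (hJI : J ≤ I) {v : V} (hv : v ∈ S.pres I) :
    S.pot p dp dh I v ≤ S.pot p dp dh J v ∧
      (S.pot p dp dh I v = S.pot p dp dh J v → S.grp p dp dh I v = S.grp p dp dh J v) := by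
  have hvJ : v ∈ S.pres J := H.valid.pres_mono hJI hv
  obtain ⟨bI, _⟩ := col_pot_lt H hv
  obtain ⟨bJ, _⟩ := col_pot_lt H hvJ
  obtain ⟨m, e⟩ := col_pot123_mono H hJI hv
  obtain ⟨mC, eC⟩ := col_lex bI bJ m (fun h => (col_stage4 H hJI hv (e h).2.1 (e h).2.2.1).1)
  refine ⟨mC, fun h => ?_⟩
  obtain ⟨h1, h2⟩ := eC h
  obtain ⟨hl, hc, hs, hn⟩ := e h1
  have hw := (col_stage4 H hJI hv hc hs).2 h2
  apply ColGrp.ext
  · exact congrArg ColCtx.r hc
  · exact congrArg ColCtx.g hc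
  · exact congrArg ColCtx.z hc
  · exact congrArg ColCtx.W hc
  · exact hl
  · exact hs
  · exact hn
  · exact congrArg ColWin.r hw
  · exact congrArg ColWin.g hw
  · exact congrArg ColWin.z hw
  · exact h

end Claimed.Agent.R258
end
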