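/- Packed by merge_tool.py (helper293): 8 modules of Claimed.Agent.R258 in one file, same declarations.
   Old modules, in this order: Max.Weight, Max.Lerner, Max.Factor, Max.RdF, Max.ExtrapH, Max.ExtrapCore, Max.Extrap, Max.Mixed -/
import Claimed.Agent.R258.Pack001

/- ===== packed: Claimed.Agent.R258.Max.Weight ===== -/
section
/-
Row 258, block [MAX], package P-MAX-WEIGHT (architect helper192).

Elementary facts on Muckenhoupt weights: the constant weight, monotonicity in the constant, change on a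
null set, local integrability, duality `v ∈ A_p ⇒ v^(1-p') ∈ A_{p'}`.

PROOF NOTES (`p' = mxConj p = p/(p-1)`, `σ = mxDual p v = v^(-1/(p-1))`).
* `mxDual_dual`: `ENNReal.rpow_mul` is unconditional; `(-1/(p-1)) * (-1/(p'-1)) = 1` as `p'-1 = 1/(p-1)`.
* positivity of `∫_I v`, `∫_I σ`: `v, σ > 0` a.e. and `volume (Ioo a b) > 0`
  (`lintegral_pos_iff_support` / `setLIntegral_eq_zero_iff`); finiteness: the product in `bound` is finite
  and both factors are positive.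
* `MxAp.dual`: `(∫σ)(∫v)^(p'-1) = ((∫v)(∫σ)^(p-1))^(p'-1) ≤ (A |I|^p)^(p'-1) = A^(p'-1) |I|^(p')`.
-/
set_option autoImplicit false

open MeasureTheory Set
open scoped ENNReal NNReal

namespace Claimed.Agent.R258

theorem mxConj_gt_one {p : ℝ} (hp : 1 < p) : 1 < mxConj p := by
  unfold mxConj
  exact (one_lt_div (by linarith)).mpr (by linarith)

theorem mxConj_sub_one {p : ℝ} (hp : 1 < p) : mxConj p - 1 = 1 / (p - 1) := by
  unfold mxConj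
  have : p - 1 ≠ 0 := by linarith
  field_simp
  ring

theorem mxConj_conj {p : ℝ} (hp : 1 < p) : mxConj (mxConj p) = p := by
  have h := mxConj_sub_one hp
  have h1 : p - 1 ≠ 0 := by linarith
  unfold mxConj at h ⊢
  rw [h]
  field_simp

theorem mxConj_holder {p : ℝ} (hp : 1 < p) : p.HolderConjugate (mxConj p) :=
  Real.HolderConjugate.conjExponent hp

theorem mxDual_dual {p : ℝ} (hp : 1 < p) (v : ℝ → ℝ≥0∞) : mxDual (mxConj p) (mxDual p v) = v := by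
  ext x
  unfold mxDual
  have h1 : p - 1 ≠ 0 := by linarith
  rw [← ENNReal.rpow_mul, mxConj_sub_one hp]
  have : -1 / (p - 1) * (-1 / (1 / (p - 1))) = 1 := by
    field_simp
  rw [this, ENNReal.rpow_one]

theorem mxDual_measurable (p : ℝ) {v : ℝ → ℝ≥0∞} (hv : Measurable v) : Measurable (mxDual p v) :=
  hv.pow_const _

theorem mx_dual_exp_neg {p : ℝ} (hp : 1 < p) : -1 / (p - 1) < 0 :=
  div_neg_of_neg_of_pos (by norm_num) (by linarith)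

theorem mxDual_ne_zero {p : ℝ} (hp : 1 < p) {v : ℝ → ℝ≥0∞} {x : ℝ} (h : v x ≠ ⊤) :
    mxDual p v x ≠ 0 := by
  unfold mxDual
  rw [Ne, ENNReal.rpow_eq_zero_iff]
  have := mx_dual_exp_neg hp
  rintro (⟨_, h2⟩ | ⟨h1, _⟩)
  · linarith
  · exact h h1

theorem mxDual_ne_top {p : ℝ} (hp : 1 < p) {v : ℝ → ℝ≥0∞} {x : ℝ} (h : v x ≠ 0) :
    mxDual p v x ≠ ⊤ := by
  unfold mxDual
  rw [Ne, ENNReal.rpow_eq_top_iff]
  have := mx_dual_exp_neg hp
  rintro (⟨h1, _⟩ | ⟨_, h2⟩)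
  · exact h h1
  · linarith

/-- `σ^(1-p) = v`. -/
theorem mxDual_rpow {p : ℝ} (hp : 1 < p) (v : ℝ → ℝ≥0∞) (x : ℝ) :
    mxDual p v x ^ (1 - p) = v x := by
  unfold mxDual
  have h1 : p - 1 ≠ 0 := by linarith
  rw [← ENNReal.rpow_mul]
  have : -1 / (p - 1) * (1 - p) = 1 := by
    field_simp
    ring
  rw [this, ENNReal.rpow_one]

/-- `v^(1-p') = σ`. -/
theorem mx_rpow_eq_mxDual {p : ℝ} (hp : 1 < p) (v : ℝ → ℝ≥0∞) (x : ℝ) :
    v x ^ (1 - mxConj p) = mxDual p v x := by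
  unfold mxDual
  congr 1
  have := mxConj_sub_one hp
  have h2 : 1 - mxConj p = -(mxConj p - 1) := by ring
  rw [h2, this]
  ring

theorem mxAp_one {p : ℝ} (hp : 1 < p) : MxAp p 1 (fun _ => 1) := by
  refine ⟨measurable_const, Filter.Eventually.of_forall fun _ => one_ne_zero,
    Filter.Eventually.of_forall fun _ => ENNReal.one_ne_top, fun a b _ => ?_⟩
  have h1 : ∀ y, mxDual p (fun _ => 1) y = 1 := fun y => by
    unfold mxDual
    exact ENNReal.one_rpow _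
  simp_rw [h1]
  rw [setLIntegral_const, Real.volume_Ioo, one_mul, ENNReal.coe_one, one_mul]
  have h2 : p = 1 + (p - 1) := by ring
  conv_rhs => rw [h2]
  rw [ENNReal.rpow_add_of_nonneg _ _ zero_le_one (by linarith), ENNReal.rpow_one]

theorem MxAp.mono {p : ℝ} {A A' : ℝ≥0} {v : ℝ → ℝ≥0∞} (h : MxAp p A v) (hA : A ≤ A') :
    MxAp p A' v :=
  ⟨h.meas, h.pos, h.fin, fun a b hab => (h.bound a b hab).trans
    (mul_le_mul_left (ENNReal.coe_le_coe.mpr hA) _)⟩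

theorem MxAp.congr_ae {p : ℝ} {A : ℝ≥0} {v v' : ℝ → ℝ≥0∞} (h : MxAp p A v) (hv' : Measurable v')
    (hvv : v =ᵐ[volume] v') : MxAp p A v' := by
  refine ⟨hv', ?_, ?_, fun a b hab => ?_⟩
  · filter_upwards [h.pos, hvv] with x h1 h2
    rwa [← h2]
  · filter_upwards [h.fin, hvv] with x h1 h2
    rwa [← h2]
  · have h1 : ∫⁻ y in Ioo a b, v' y = ∫⁻ y in Ioo a b, v y :=
      lintegral_congr_ae (ae_restrict_of_ae hvv.symm)
    have h2 : ∫⁻ y in Ioo a b, mxDual p v' y = ∫⁻ y in Ioo a b, mxDual p v y := by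
      refine lintegral_congr_ae (ae_restrict_of_ae ?_)
      filter_upwards [hvv] with x hx
      unfold mxDual
      rw [hx]
    rw [h1, h2]
    exact h.bound a b hab

theorem mx_setLIntegral_pos {w : ℝ → ℝ≥0∞} (hw : Measurable w) (hpos : ∀ᵐ x, w x ≠ 0) {a b : ℝ}
    (hab : a < b) : 0 < ∫⁻ y in Ioo a b, w y := by
  rw [pos_iff_ne_zero, Ne, lintegral_eq_zero_iff hw]
  intro h0
  have hne : (ae (volume.restrict (Ioo a b))).NeBot := by
    rw [ae_neBot, Ne, Measure.restrict_eq_zero, Real.volume_Ioo, ENNReal.ofReal_eq_zero, not_le]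
    linarith
  obtain ⟨y, hy1, hy2⟩ := (h0.and (ae_restrict_of_ae hpos)).exists
  exact hy2 hy1

theorem MxAp.lintegral_pos {p : ℝ} {A : ℝ≥0} {v : ℝ → ℝ≥0∞} (h : MxAp p A v) {a b : ℝ}
    (hab : a < b) : 0 < ∫⁻ y in Ioo a b, v y :=
  mx_setLIntegral_pos h.meas h.pos hab

theorem MxAp.lintegral_dual_pos {p : ℝ} (hp : 1 < p) {A : ℝ≥0} {v : ℝ → ℝ≥0∞} (h : MxAp p A v)
    {a b : ℝ} (hab : a < b) : 0 < ∫⁻ y in Ioo a b, mxDual p v y :=
  mx_setLIntegral_pos (mxDual_measurable p h.meas) (h.fin.mono fun _ hx => mxDual_ne_zero hp hx) hab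

theorem mx_Ap_rhs_ne_top (p : ℝ) (hp : 1 < p) (A : ℝ≥0) (a b : ℝ) :
    (A : ℝ≥0∞) * ENNReal.ofReal (b - a) ^ p ≠ ⊤ :=
  ENNReal.mul_ne_top ENNReal.coe_ne_top (ENNReal.rpow_ne_top_of_nonneg (by linarith) ENNReal.ofReal_ne_top)

theorem MxAp.lintegral_ne_top {p : ℝ} (hp : 1 < p) {A : ℝ≥0} {v : ℝ → ℝ≥0∞} (h : MxAp p A v)
    {a b : ℝ} (hab : a < b) : ∫⁻ y in Ioo a b, v y ≠ ⊤ := by
  intro htop
  have hb := h.bound a b hab
  have hY : (∫⁻ y in Ioo a b, mxDual p v y) ^ (p - 1) ≠ 0 := by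
    rw [Ne, ENNReal.rpow_eq_zero_iff]
    rintro (⟨h1, _⟩ | ⟨_, h2⟩)
    · exact (h.lintegral_dual_pos hp hab).ne' h1
    · linarith
  rw [htop, ENNReal.top_mul hY, top_le_iff] at hb
  exact mx_Ap_rhs_ne_top p hp A a b hb

theorem MxAp.lintegral_dual_ne_top {p : ℝ} (hp : 1 < p) {A : ℝ≥0} {v : ℝ → ℝ≥0∞}
    (h : MxAp p A v) {a b : ℝ} (hab : a < b) : ∫⁻ y in Ioo a b, mxDual p v y ≠ ⊤ := by
  intro htop
  have hb := h.bound a b hab
  rw [htop, ENNReal.top_rpow_of_pos (by linarith), ENNReal.mul_top (h.lintegral_pos hab).ne', top_le_iff] at hb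
  exact mx_Ap_rhs_ne_top p hp A a b hb

/-- The constant of an `A_p` weight is positive. -/
theorem MxAp.const_pos {p : ℝ} (hp : 1 < p) {A : ℝ≥0} {v : ℝ → ℝ≥0∞} (h : MxAp p A v) :
    0 < A := by
  rw [pos_iff_ne_zero]
  rintro rfl
  have hb := h.bound 0 1 zero_lt_one
  rw [ENNReal.coe_zero, zero_mul, nonpos_iff_eq_zero, mul_eq_zero] at hb
  rcases hb with hb | hb
  · exact (h.lintegral_pos zero_lt_one).ne' hb
  · rw [ENNReal.rpow_eq_zero_iff] at hb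
    rcases hb with ⟨h1, _⟩ | ⟨_, h2⟩
    · exact (h.lintegral_dual_pos hp zero_lt_one).ne' h1
    · linarith

theorem MxAp.dual {p : ℝ} (hp : 1 < p) {A : ℝ≥0} {v : ℝ → ℝ≥0∞} (h : MxAp p A v) :
    MxAp (mxConj p) (A ^ (mxConj p - 1)) (mxDual p v) := by
  have hq : 0 < mxConj p - 1 := by linarith [mxConj_gt_one hp]
  have hp1 : p - 1 ≠ 0 := by linarith
  refine ⟨mxDual_measurable p h.meas, h.fin.mono fun _ hx => mxDual_ne_zero hp hx,
    h.pos.mono fun _ hx => mxDual_ne_top hp hx, fun a b hab => ?_⟩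
  rw [mxDual_dual hp]
  have hb := ENNReal.rpow_le_rpow (h.bound a b hab) hq.le
  rw [ENNReal.mul_rpow_of_nonneg _ _ hq.le, ENNReal.mul_rpow_of_nonneg _ _ hq.le, ← ENNReal.rpow_mul,
    ← ENNReal.rpow_mul] at hb
  have e1 : (p - 1) * (mxConj p - 1) = 1 := by
    rw [mxConj_sub_one hp]
    field_simp
  have e2 : p * (mxConj p - 1) = mxConj p := by
    rw [mxConj_sub_one hp]
    unfold mxConj
    field_simp
  rw [e1, e2, ENNReal.rpow_one] at hb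
  rw [ENNReal.coe_rpow_of_nonneg _ hq.le, mul_comm]
  exact hb

end Claimed.Agent.R258
end

/- ===== packed: Claimed.Agent.R258.Max.Lerner ===== -/
section
/-
Row 258, block [MAX], package P-MAX-LERNER (architect helper192).

Muckenhoupt's weighted maximal theorem on `ℝ`, by Lerner's elementary argument (no reverse Hölder
inequality, no interpolation): a pointwise bound of `M f` by a composition of the maximal operators of the
measures `v dx` and `σ dx`, which are bounded on `L^{p'}(v)`, `L^p(σ)` with UNIVERSAL constants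
(`mx_strong`).

PROOF.  `σ = mxDual p v = v^(-1/(p-1))`, `μ_v = volume.withDensity v`, `μ_σ = volume.withDensity σ`,
`Φ = mxMax μ_σ (f σ⁻¹)`, `Ψ = mxMax μ_v (Φ^(p-1) v⁻¹)`.
Fix `x ∈ I = Ioo a b`; `v(I) = ∫_I v`, `σ(I) = ∫_I σ` lie in `(0,∞)` (Weight.lean);
`μ_v I = v(I)`, `μ_σ I = σ(I)` (`withDensity_apply`).
 (1) `∫_I f = ∫_I (f σ⁻¹) dμ_σ` (`setLIntegral_withDensity_eq_setLIntegral_mul`; `σ * (f σ⁻¹) = f` a.e.).
     So `m := σ(I)⁻¹ ∫_I f ≤ Φ y` for EVERY `y ∈ I` (`mx_avg_le`).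
 (2) `|I| m^(p-1) = ∫_I m^(p-1) ≤ ∫_I Φ^(p-1) = ∫_I Φ^(p-1) v⁻¹ dμ_v`, so
     `v(I)⁻¹ |I| m^(p-1) ≤ Ψ x`.
 (3) `(|I|⁻¹ ∫_I f)^(p-1) = [v(I) σ(I)^(p-1) |I|^(-p)] * [v(I)⁻¹ |I| m^(p-1)] ≤ A Ψ x`.
 Taking the supremum over `I` gives `mx_lerner_pointwise` (`ENNReal.rpow` is monotone and continuous:
 `(⨆ ..)^(p-1) ≤ c` iff each term; use `mxMax_le_iff` after taking the power `1/(p-1)`).
 (4) `(M f)^p = ((M f)^(p-1))^(p') ≤ A^(p') Ψ^(p')`;
     `∫ Ψ^(p') v = ∫ Ψ^(p') dμ_v ≤ mxCp p' ∫ (Φ^(p-1) v⁻¹)^(p') dμ_v = mxCp p' ∫ Φ^p v^(1-p') = mxCp p' ∫ Φ^p dμ_σ`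
     `≤ mxCp p' mxCp p ∫ (f σ⁻¹)^p dμ_σ = mxCp p' mxCp p ∫ f^p σ^(1-p) = mxCp p' mxCp p ∫ f^p v`.
 All identities between integrands hold at the points where `0 < v < ∞`, i.e. a.e.
 `volume.withDensity _` is s-finite (instance).
-/
set_option autoImplicit false

open MeasureTheory Set
open scoped ENNReal NNReal

namespace Claimed.Agent.R258

theorem mx_lerner_alg {V T L Q A G : ℝ≥0∞} (hV0 : V ≠ 0) (hVt : V ≠ ⊤) (hT0 : T ≠ 0) (hTt : T ≠ ⊤)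
    (hQ0 : Q ≠ 0) (hQt : Q ≠ ⊤) (h : V * T ≤ A * (L * Q)) :
    Q⁻¹ * G ≤ A * (V⁻¹ * (L * (T⁻¹ * G))) := by
  have h1 : V⁻¹ * V = 1 := ENNReal.inv_mul_cancel hV0 hVt
  have h2 : T⁻¹ * T = 1 := ENNReal.inv_mul_cancel hT0 hTt
  have h3 : Q⁻¹ * Q = 1 := ENNReal.inv_mul_cancel hQ0 hQt
  calc Q⁻¹ * G = (V⁻¹ * V) * (T⁻¹ * T) * (Q⁻¹ * G) := by rw [h1, h2, one_mul, one_mul]
    _ = (V⁻¹ * T⁻¹ * Q⁻¹ * G) * (V * T) := by ring
    _ ≤ (V⁻¹ * T⁻¹ * Q⁻¹ * G) * (A * (L * Q)) := mul_le_mul_right h _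
    _ = A * (V⁻¹ * (L * (T⁻¹ * G))) * (Q⁻¹ * Q) := by ring
    _ = A * (V⁻¹ * (L * (T⁻¹ * G))) := by rw [h3, mul_one]

/-- integrals against `w dx` of `g / w` -/
theorem mx_setLIntegral_withDensity_div {w g : ℝ → ℝ≥0∞} (hw : Measurable w) (hg : Measurable g)
    (h0 : ∀ᵐ x, w x ≠ 0) (ht : ∀ᵐ x, w x ≠ ⊤) {s : Set ℝ} (hs : MeasurableSet s) :
    ∫⁻ y in s, g y * (w y)⁻¹ ∂(volume.withDensity w) = ∫⁻ y in s, g y := by
  have hm : Measurable fun y => g y * (w y)⁻¹ := hg.mul hw.inv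
  rw [setLIntegral_withDensity_eq_setLIntegral_mul _ hw hm hs]
  refine lintegral_congr_ae (ae_restrict_of_ae ?_)
  filter_upwards [h0, ht] with y hy0 hyt
  simp only [Pi.mul_apply]
  rw [mul_left_comm, ENNReal.mul_inv_cancel hy0 hyt, mul_one]

/-- Lerner's pointwise bound. -/
theorem mx_lerner_pointwise {p : ℝ} (hp : 1 < p) {A : ℝ≥0} {v : ℝ → ℝ≥0∞} (hv : MxAp p A v)
    (f : ℝ → ℝ≥0∞) (hf : Measurable f) (x : ℝ) :
    mxM f x ^ (p - 1) ≤ A * mxMax (volume.withDensity v)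
      (fun y => (mxMax (volume.withDensity (mxDual p v))
        (fun z => f z * (mxDual p v z)⁻¹) y) ^ (p - 1) * (v y)⁻¹) x := by
  have hp1 : 0 < p - 1 := by linarith
  set σ := mxDual p v with hσ
  have hσm : Measurable σ := mxDual_measurable p hv.meas
  have hσ0 : ∀ᵐ y, σ y ≠ 0 := hv.fin.mono fun _ hy => mxDual_ne_zero hp hy
  have hσt : ∀ᵐ y, σ y ≠ ⊤ := hv.pos.mono fun _ hy => mxDual_ne_top hp hy
  set Φ : ℝ → ℝ≥0∞ := mxMax (volume.withDensity σ) (fun z => f z * (σ z)⁻¹) with hΦ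
  have hΦm : Measurable Φ := mxMax_measurable _ _
  rw [← ENNReal.le_rpow_inv_iff hp1]
  unfold mxM
  rw [mxMax_le_iff]
  intro a b hx
  rw [ENNReal.le_rpow_inv_iff hp1]
  have hab : a < b := hx.1.trans hx.2
  set V := ∫⁻ y in Ioo a b, v y with hV
  set S := ∫⁻ y in Ioo a b, σ y with hS
  set F := ∫⁻ y in Ioo a b, f y with hF
  set L := ENNReal.ofReal (b - a) with hL
  have hV0 : V ≠ 0 := (hv.lintegral_pos hab).ne'
  have hVt : V ≠ ⊤ := hv.lintegral_ne_top hp hab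
  have hS0 : S ≠ 0 := (hv.lintegral_dual_pos hp hab).ne'
  have hSt : S ≠ ⊤ := hv.lintegral_dual_ne_top hp hab
  have hL0 : L ≠ 0 := by
    rw [hL, Ne, ENNReal.ofReal_eq_zero, not_le]
    linarith
  have hLt : L ≠ ⊤ := ENNReal.ofReal_ne_top
  -- (1)
  have h1 : ∀ y ∈ Ioo a b, S⁻¹ * F ≤ Φ y := by
    intro y hy
    have := mx_avg_le (volume.withDensity σ) (fun z => f z * (σ z)⁻¹) hy
    rwa [withDensity_apply _ measurableSet_Ioo,
      mx_setLIntegral_withDensity_div hσm hf hσ0 hσt measurableSet_Ioo] at this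
  -- (2)
  have h2 : V⁻¹ * (L * (S⁻¹ * F) ^ (p - 1)) ≤
      mxMax (volume.withDensity v) (fun y => Φ y ^ (p - 1) * (v y)⁻¹) x := by
    have := mx_avg_le (volume.withDensity v) (fun y => Φ y ^ (p - 1) * (v y)⁻¹) hx
    rw [withDensity_apply _ measurableSet_Ioo,
      mx_setLIntegral_withDensity_div hv.meas (hΦm.pow_const _) hv.pos hv.fin measurableSet_Ioo] at this
    refine le_trans (mul_le_mul_right ?_ _) this
    calc L * (S⁻¹ * F) ^ (p - 1) = ∫⁻ _y in Ioo a b, (S⁻¹ * F) ^ (p - 1) := by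
          rw [setLIntegral_const, Real.volume_Ioo, mul_comm]
      _ ≤ ∫⁻ y in Ioo a b, Φ y ^ (p - 1) :=
          setLIntegral_mono' measurableSet_Ioo fun y hy => ENNReal.rpow_le_rpow (h1 y hy) hp1.le
  -- (3)
  refine le_trans ?_ (mul_le_mul_right h2 _)
  rw [Real.volume_Ioo, ENNReal.mul_rpow_of_nonneg _ _ hp1.le, ENNReal.mul_rpow_of_nonneg _ _ hp1.le,
    ENNReal.inv_rpow, ENNReal.inv_rpow]
  have hb := hv.bound a b hab
  have e : L ^ p = L * L ^ (p - 1) := by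
    have : p = 1 + (p - 1) := by ring
    conv_lhs => rw [this]
    rw [ENNReal.rpow_add_of_nonneg _ _ zero_le_one hp1.le, ENNReal.rpow_one]
  rw [← hL, e] at hb
  exact mx_lerner_alg hV0 hVt (ENNReal.rpow_pos (pos_iff_ne_zero.mpr hS0) hSt).ne'
    (ENNReal.rpow_ne_top_of_nonneg hp1.le hSt) (ENNReal.rpow_pos (pos_iff_ne_zero.mpr hL0) hLt).ne'
    (ENNReal.rpow_ne_top_of_nonneg hp1.le hLt) hb

/-- integral against `w dx` -/
theorem mx_lintegral_withDensity_mul {w g : ℝ → ℝ≥0∞} (hw : Measurable w) (hg : Measurable g) :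
    ∫⁻ y, g y ∂(volume.withDensity w) = ∫⁻ y, g y * w y := by
  rw [lintegral_withDensity_eq_lintegral_mul _ hw hg]
  refine lintegral_congr fun y => ?_
  simp only [Pi.mul_apply]
  rw [mul_comm]

/-- Muckenhoupt's theorem: `M` is bounded on `L^p(v)` for `v ∈ A_p`. -/
theorem mx_weighted {p : ℝ} (hp : 1 < p) {A : ℝ≥0} {v : ℝ → ℝ≥0∞} (hv : MxAp p A v)
    (f : ℝ → ℝ≥0∞) (hf : Measurable f) :
    ∫⁻ x, mxM f x ^ p * v x ≤ mxCw p A * ∫⁻ x, f x ^ p * v x := by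
  have hp1 : 0 < p - 1 := by linarith
  have hp0 : 0 < p := by linarith
  have hq1 : 1 < mxConj p := mxConj_gt_one hp
  have hq0 : 0 < mxConj p := by linarith
  have hpq : (p - 1) * mxConj p = p := by
    unfold mxConj
    field_simp
  set σ := mxDual p v with hσ
  have hσm : Measurable σ := mxDual_measurable p hv.meas
  set Φ : ℝ → ℝ≥0∞ := mxMax (volume.withDensity σ) (fun z => f z * (σ z)⁻¹) with hΦ
  have hΦm : Measurable Φ := mxMax_measurable _ _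
  set Ψ : ℝ → ℝ≥0∞ := mxMax (volume.withDensity v) (fun y => Φ y ^ (p - 1) * (v y)⁻¹) with hΨ
  have hΨm : Measurable Ψ := mxMax_measurable _ _
  have hg1 : Measurable fun y => Φ y ^ (p - 1) * (v y)⁻¹ := (hΦm.pow_const _).mul hv.meas.inv
  have hg2 : Measurable fun z => f z * (σ z)⁻¹ := hf.mul hσm.inv
  -- step A
  have hA : ∀ x, mxM f x ^ p ≤ (A : ℝ≥0∞) ^ mxConj p * Ψ x ^ mxConj p := by
    intro x
    have h := mx_lerner_pointwise hp hv f hf x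
    have h' := ENNReal.rpow_le_rpow h hq0.le
    rwa [← ENNReal.rpow_mul, hpq, ENNReal.mul_rpow_of_nonneg _ _ hq0.le] at h'
  -- step B
  have hB : ∫⁻ x, Ψ x ^ mxConj p * v x ≤ mxCp (mxConj p) * ∫⁻ x, Φ x ^ p * σ x := by
    have h := mx_strong (volume.withDensity v) (fun y => Φ y ^ (p - 1) * (v y)⁻¹) hg1.aemeasurable hq1
    rw [mx_lintegral_withDensity_mul hv.meas (hΨm.pow_const _),
      mx_lintegral_withDensity_mul hv.meas (hg1.pow_const _)] at h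
    refine h.trans_eq ?_
    congr 1
    refine lintegral_congr_ae ?_
    filter_upwards [hv.pos, hv.fin] with y hy0 hyt
    rw [ENNReal.mul_rpow_of_nonneg _ _ hq0.le, ← ENNReal.rpow_mul, hpq, mul_assoc, hσ,
      ← mx_rpow_eq_mxDual hp v y, ENNReal.rpow_sub _ _ hy0 hyt, ENNReal.rpow_one, ENNReal.inv_rpow,
      div_eq_mul_inv, mul_comm (v y)]
  -- step C
  have hC : ∫⁻ x, Φ x ^ p * σ x ≤ mxCp p * ∫⁻ x, f x ^ p * v x := by
    have h := mx_strong (volume.withDensity σ) (fun z => f z * (σ z)⁻¹) hg2.aemeasurable hp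
    rw [mx_lintegral_withDensity_mul hσm (hΦm.pow_const _),
      mx_lintegral_withDensity_mul hσm (hg2.pow_const _)] at h
    refine h.trans_eq ?_
    congr 1
    refine lintegral_congr_ae ?_
    filter_upwards [hv.pos, hv.fin] with y hy0 hyt
    have hs0 : σ y ≠ 0 := mxDual_ne_zero hp hyt
    have hst : σ y ≠ ⊤ := mxDual_ne_top hp hy0
    rw [ENNReal.mul_rpow_of_nonneg _ _ hp0.le, mul_assoc]
    congr 1
    rw [← mxDual_rpow hp v y, ← hσ, ENNReal.rpow_sub _ _ hs0 hst, ENNReal.rpow_one, ENNReal.inv_rpow,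
      div_eq_mul_inv, mul_comm]
  calc ∫⁻ x, mxM f x ^ p * v x
      ≤ ∫⁻ x, (A : ℝ≥0∞) ^ mxConj p * (Ψ x ^ mxConj p * v x) := by
        refine lintegral_mono fun x => ?_
        rw [← mul_assoc]
        exact mul_le_mul_left (hA x) _
    _ = (A : ℝ≥0∞) ^ mxConj p * ∫⁻ x, Ψ x ^ mxConj p * v x :=
        lintegral_const_mul _ ((hΨm.pow_const _).mul hv.meas)
    _ ≤ (A : ℝ≥0∞) ^ mxConj p * (mxCp (mxConj p) * (mxCp p * ∫⁻ x, f x ^ p * v x)) :=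
        mul_le_mul_right (hB.trans (mul_le_mul_right hC _)) _
    _ = mxCw p A * ∫⁻ x, f x ^ p * v x := by
        unfold mxCw
        rw [ENNReal.coe_mul, ENNReal.coe_mul, ENNReal.coe_rpow_of_nonneg _ hq0.le]
        ring

end Claimed.Agent.R258
end

/- ===== packed: Claimed.Agent.R258.Max.Factor ===== -/
section
/-
Row 258, block [MAX], package P-MAX-FACTOR (architect helper192).

`A_1` weights and the easy half of the Jones factorisation: `w₁ w₂^(1-p) ∈ A_p` for `w₁, w₂ ∈ A_1`, with constant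
`A₁ A₂^(p-1)`.

PROOF NOTES.
* `mx_A1_avg_le`: for a.e. `y ∈ Ioo a b`: `|I|⁻¹ ∫_I w ≤ mxM w y ≤ A w y` (`mx_avg_le`, `mxM = mxMax volume`).
* `MxA1.lintegral_ne_top`: pick one such `y` with `w y ≠ ⊤` (the interval has positive measure).
* the constants are positive (`MxA1.const_pos`): otherwise `mxM w = 0` a.e., against `mxM_pos`.
* `mx_reverse_factor`: with `m_i = |I|⁻¹ ∫_I w_i ∈ (0,∞)`, a.e. on `I`:
  `w₂^(1-p) ≤ (m₂/A₂)^(1-p)` and `w₁^(-1/(p-1)) ≤ (m₁/A₁)^(-1/(p-1))`; hence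
  `∫_I w₁ w₂^(1-p) ≤ A₂^(p-1) m₂^(1-p) m₁ |I|` and
  `(∫_I (w₁ w₂^(1-p))^(-1/(p-1)))^(p-1) = (∫_I w₁^(-1/(p-1)) w₂)^(p-1) ≤ A₁ m₁⁻¹ m₂^(p-1) |I|^(p-1)`.
  (`ENNReal.mul_rpow_of_ne_zero`/`of_ne_top` a.e., since `0 < w_i < ∞` a.e.)  Multiply: `A₁ A₂^(p-1) |I|^p`.
-/
set_option autoImplicit false

open MeasureTheory Set
open scoped ENNReal NNReal

namespace Claimed.Agent.R258

/-- For an `A_1` weight, the average over an interval is at most `A w(y)` for a.e. `y` in it. -/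
theorem mx_A1_avg_le {A : ℝ≥0} {w : ℝ → ℝ≥0∞} (h : MxA1 A w) (a b : ℝ) :
    ∀ᵐ y, y ∈ Ioo a b → (volume (Ioo a b))⁻¹ * ∫⁻ z in Ioo a b, w z ≤ A * w y := by
  filter_upwards [h.bound] with y hy hyI
  exact (mx_avg_le volume w hyI).trans hy

theorem MxA1.lintegral_pos {A : ℝ≥0} {w : ℝ → ℝ≥0∞} (h : MxA1 A w) {a b : ℝ} (hab : a < b) :
    0 < ∫⁻ y in Ioo a b, w y :=
  mx_setLIntegral_pos h.meas h.pos hab

theorem mx_restrict_Ioo_neBot {a b : ℝ} (hab : a < b) : (ae (volume.restrict (Ioo a b))).NeBot := by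
  rw [ae_neBot, Ne, Measure.restrict_eq_zero, Real.volume_Ioo, ENNReal.ofReal_eq_zero, not_le]
  linarith

theorem MxA1.lintegral_ne_top {A : ℝ≥0} {w : ℝ → ℝ≥0∞} (h : MxA1 A w) {a b : ℝ} (hab : a < b) :
    ∫⁻ y in Ioo a b, w y ≠ ⊤ := by
  intro htop
  have := mx_restrict_Ioo_neBot hab
  obtain ⟨y, ⟨hy1, hy2⟩, hy3⟩ := ((ae_restrict_of_ae ((mx_A1_avg_le h a b).and h.fin)).and
    (ae_restrict_mem (μ := volume) (measurableSet_Ioo (a := a) (b := b)))).exists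
  have h1 := hy1 hy3
  have h2 : (volume (Ioo a b))⁻¹ ≠ 0 := by
    rw [Real.volume_Ioo]
    exact ENNReal.inv_ne_zero.mpr ENNReal.ofReal_ne_top
  rw [htop, ENNReal.mul_top h2, top_le_iff] at h1
  exact ENNReal.mul_ne_top ENNReal.coe_ne_top hy2 h1

theorem MxA1.const_pos {A : ℝ≥0} {w : ℝ → ℝ≥0∞} (h : MxA1 A w) : 0 < A := by
  rw [pos_iff_ne_zero]
  rintro rfl
  have h1 : ∫⁻ y, w y ≠ 0 := by
    have h2 := h.lintegral_pos zero_lt_one
    exact (lt_of_lt_of_le h2 (setLIntegral_le_lintegral _ _)).ne'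
  obtain ⟨x, hx⟩ := h.bound.exists
  rw [ENNReal.coe_zero, zero_mul] at hx
  exact absurd (mxM_pos w h1 x) (not_lt.mpr hx)

theorem mx_rpow_anti {x y : ℝ≥0∞} {z : ℝ} (hz : z ≤ 0) (h : x ≤ y) : y ^ z ≤ x ^ z := by
  obtain ⟨s, rfl⟩ : ∃ s : ℝ, z = -s := ⟨-z, by ring⟩
  rw [ENNReal.rpow_neg, ENNReal.rpow_neg, ENNReal.inv_le_inv]
  exact ENNReal.rpow_le_rpow h (by linarith)

theorem mx_factor_alg {p : ℝ} (hp : 1 < p) {c₁ c₂ L A₁ A₂ : ℝ≥0∞} (hc₁0 : c₁ ≠ 0) (hc₁t : c₁ ≠ ⊤)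
    (hc₂0 : c₂ ≠ 0) (hc₂t : c₂ ≠ ⊤) :
    (c₂ ^ (1 - p) * (c₁ * L * A₁)) * (c₁ ^ (-1 / (p - 1)) * (c₂ * L * A₂)) ^ (p - 1) =
      A₁ * A₂ ^ (p - 1) * L ^ p := by
  have hp1 : 0 ≤ p - 1 := by linarith
  have hp1' : p - 1 ≠ 0 := by linarith
  have e1 : -1 / (p - 1) * (p - 1) = -1 := by field_simp
  rw [ENNReal.mul_rpow_of_nonneg _ _ hp1, ← ENNReal.rpow_mul, e1, ENNReal.rpow_neg_one,
    ENNReal.mul_rpow_of_nonneg _ _ hp1, ENNReal.mul_rpow_of_nonneg _ _ hp1]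
  have h1 : c₂ ^ (1 - p) * c₂ ^ (p - 1) = 1 := by
    rw [← ENNReal.rpow_add _ _ hc₂0 hc₂t]
    simp
  have h2 : c₁ * c₁⁻¹ = 1 := ENNReal.mul_inv_cancel hc₁0 hc₁t
  have h3 : L * L ^ (p - 1) = L ^ p := by
    have : p = 1 + (p - 1) := by ring
    conv_rhs => rw [this]
    rw [ENNReal.rpow_add_of_nonneg _ _ zero_le_one hp1, ENNReal.rpow_one]
  calc c₂ ^ (1 - p) * (c₁ * L * A₁) * (c₁⁻¹ * (c₂ ^ (p - 1) * L ^ (p - 1) * A₂ ^ (p - 1)))
      = (c₂ ^ (1 - p) * c₂ ^ (p - 1)) * (c₁ * c₁⁻¹) * (L * L ^ (p - 1)) * (A₁ * A₂ ^ (p - 1)) := by ring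
    _ = A₁ * A₂ ^ (p - 1) * L ^ p := by
        rw [h1, h2, h3]
        ring

/-- the lower bound `c = |I|⁻¹ ∫_I w / A` of an `A_1` weight on an interval -/
theorem mx_A1_lower {A : ℝ≥0} {w : ℝ → ℝ≥0∞} (h : MxA1 A w) {a b : ℝ} (hab : a < b) :
    ∃ c : ℝ≥0∞, c ≠ 0 ∧ c ≠ ⊤ ∧ (∫⁻ z in Ioo a b, w z = c * ENNReal.ofReal (b - a) * A) ∧
      ∀ᵐ y ∂(volume.restrict (Ioo a b)), c ≤ w y := by
  have hA0 : (A : ℝ≥0∞) ≠ 0 := by
    rw [Ne, ENNReal.coe_eq_zero]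
    exact h.const_pos.ne'
  have hL0 : ENNReal.ofReal (b - a) ≠ 0 := by
    rw [Ne, ENNReal.ofReal_eq_zero, not_le]
    linarith
  have hLt : ENNReal.ofReal (b - a) ≠ ⊤ := ENNReal.ofReal_ne_top
  refine ⟨(ENNReal.ofReal (b - a))⁻¹ * (∫⁻ z in Ioo a b, w z) / A, ?_, ?_, ?_, ?_⟩
  · rw [Ne, ENNReal.div_eq_zero_iff, not_or]
    exact ⟨mul_ne_zero (ENNReal.inv_ne_zero.mpr hLt) (h.lintegral_pos hab).ne', ENNReal.coe_ne_top⟩
  · rw [Ne, ENNReal.div_eq_top, not_or]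
    constructor
    · rintro ⟨_, h2⟩
      exact hA0 h2
    · rintro ⟨h1, _⟩
      exact ENNReal.mul_ne_top (ENNReal.inv_ne_top.mpr hL0) (h.lintegral_ne_top hab) h1
  · rw [mul_right_comm, ENNReal.div_mul_cancel hA0 ENNReal.coe_ne_top, mul_right_comm,
      ENNReal.inv_mul_cancel hL0 hLt, one_mul]
  · filter_upwards [ae_restrict_of_ae (mx_A1_avg_le h a b),
      ae_restrict_mem (μ := volume) (measurableSet_Ioo (a := a) (b := b))] with y hy1 hy2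
    have h1 := hy1 hy2
    rw [Real.volume_Ioo] at h1
    refine ENNReal.div_le_of_le_mul ?_
    rwa [mul_comm (w y)]

/-- Easy half of the Jones factorisation theorem. -/
theorem mx_reverse_factor {p : ℝ} (hp : 1 < p) {A₁ A₂ : ℝ≥0} {w₁ w₂ : ℝ → ℝ≥0∞}
    (h₁ : MxA1 A₁ w₁) (h₂ : MxA1 A₂ w₂) :
    MxAp p (A₁ * A₂ ^ (p - 1)) (fun x => w₁ x * w₂ x ^ (1 - p)) := by
  have hp1 : 0 < p - 1 := by linarith
  have hneg : 1 - p < 0 := by linarith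
  have hw2ne0 : ∀ x, w₂ x ≠ ⊤ → w₂ x ^ (1 - p) ≠ 0 := by
    intro x hx
    rw [Ne, ENNReal.rpow_eq_zero_iff]
    rintro (⟨_, h2⟩ | ⟨h1, _⟩)
    · linarith
    · exact hx h1
  have hw2net : ∀ x, w₂ x ≠ 0 → w₂ x ^ (1 - p) ≠ ⊤ := by
    intro x hx
    rw [Ne, ENNReal.rpow_eq_top_iff]
    rintro (⟨h1, _⟩ | ⟨_, h2⟩)
    · exact hx h1
    · linarith
  refine ⟨h₁.meas.mul (h₂.meas.pow_const _), ?_, ?_, fun a b hab => ?_⟩
  · filter_upwards [h₁.pos, h₂.fin] with x hx1 hx2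
    exact mul_ne_zero hx1 (hw2ne0 x hx2)
  · filter_upwards [h₁.fin, h₂.pos] with x hx1 hx2
    exact ENNReal.mul_ne_top hx1 (hw2net x hx2)
  · obtain ⟨c₁, hc₁0, hc₁t, hW₁, hlow₁⟩ := mx_A1_lower h₁ hab
    obtain ⟨c₂, hc₂0, hc₂t, hW₂, hlow₂⟩ := mx_A1_lower h₂ hab
    have hI1 : ∫⁻ y in Ioo a b, w₁ y * w₂ y ^ (1 - p) ≤ c₂ ^ (1 - p) * (c₁ * ENNReal.ofReal (b - a) * A₁) := by
      rw [← hW₁, ← lintegral_const_mul _ h₁.meas]
      refine lintegral_mono_ae ?_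
      filter_upwards [hlow₂] with y hy
      rw [mul_comm]
      exact mul_le_mul_left (mx_rpow_anti hneg.le hy) _
    have hI2 : ∫⁻ y in Ioo a b, mxDual p (fun x => w₁ x * w₂ x ^ (1 - p)) y ≤
        c₁ ^ (-1 / (p - 1)) * (c₂ * ENNReal.ofReal (b - a) * A₂) := by
      rw [← hW₂, ← lintegral_const_mul _ h₂.meas]
      refine lintegral_mono_ae ?_
      filter_upwards [hlow₁, ae_restrict_of_ae h₁.fin, ae_restrict_of_ae h₂.pos] with y hy hy1 hy2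
      unfold mxDual
      rw [ENNReal.mul_rpow_of_ne_top hy1 (hw2net y hy2), ← ENNReal.rpow_mul]
      have e : (1 - p) * (-1 / (p - 1)) = 1 := by
        have : p - 1 ≠ 0 := hp1.ne'
        field_simp
        ring
      rw [e, ENNReal.rpow_one]
      exact mul_le_mul_left (mx_rpow_anti (mx_dual_exp_neg hp).le hy) _
    calc (∫⁻ y in Ioo a b, w₁ y * w₂ y ^ (1 - p)) *
          (∫⁻ y in Ioo a b, mxDual p (fun x => w₁ x * w₂ x ^ (1 - p)) y) ^ (p - 1)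
        ≤ (c₂ ^ (1 - p) * (c₁ * ENNReal.ofReal (b - a) * A₁)) *
          (c₁ ^ (-1 / (p - 1)) * (c₂ * ENNReal.ofReal (b - a) * A₂)) ^ (p - 1) :=
          mul_le_mul' hI1 (ENNReal.rpow_le_rpow hI2 hp1.le)
      _ = (A₁ : ℝ≥0∞) * (A₂ : ℝ≥0∞) ^ (p - 1) * ENNReal.ofReal (b - a) ^ p :=
          mx_factor_alg hp hc₁0 hc₁t hc₂0 hc₂t
      _ = ((A₁ * A₂ ^ (p - 1) : ℝ≥0) : ℝ≥0∞) * ENNReal.ofReal (b - a) ^ p := by
          rw [ENNReal.coe_mul, ENNReal.coe_rpow_of_nonneg _ hp1.le]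
      _ ≤ _ := le_rfl

end Claimed.Agent.R258
end

/- ===== packed: Claimed.Agent.R258.Max.RdF ===== -/
section
/-
Row 258, block [MAX], package P-MAX-RDF (architect helper192).

The Rubio de Francia iteration algorithm for the Hardy-Littlewood operator on `L^p(v)`, `v ∈ A_p`:
`R h = ∑_k (2B)^(-k) M^k h`, where `B = mxB p A` and `B^p = mxCw p A` is the constant of `mx_weighted`.
  (a) `h ≤ R h`;   (b) `∫ (R h)^p v ≤ 2^p ∫ h^p v`;   (c) `M (R h) ≤ 2B * R h` everywhere;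
  (d) if `0 < ∫ h^p v < ∞` then `R h` is an `A_1` weight with constant `2B`.

PROOF NOTES.
* `mx_Lp_tsum_le` (Minkowski for countable sums of `ℝ≥0∞`-valued functions): finite sums by induction from
  `ENNReal.lintegral_Lp_add_le`; then `∑' = ⨆ N, ∑_{n<N}` (`ENNReal.tsum_eq_iSup_nat`), monotone convergence
  (`lintegral_iSup'`), continuity/monotonicity of `rpow` (`ENNReal.monotone_rpow_of_nonneg`, `iSup` commutes
  with the order isomorphism `ENNReal.orderIsoRpow`).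
* (b): with `μ_v = volume.withDensity v` (or directly with the integrand `(..)^p * v`),
  `‖M^k h‖_{L^p(v)} ≤ B^k ‖h‖_{L^p(v)}` by induction from `mx_weighted`
  (`mxM_measurable` gives measurability of the iterates for `k ≥ 1`), so
  `‖R h‖ ≤ ∑ (2B)^(-k) B^k ‖h‖ = ∑ 2^(-k) ‖h‖ = 2 ‖h‖` (`ENNReal.tsum_geometric`, `B ≠ 0`, `B ≠ ⊤`).
* (c): `mxMax_tsum_le`, `mxMax_const_mul`:
  `M (R h) ≤ ∑_k (2B)^(-k) M^(k+1) h = 2B ∑_k (2B)^(-(k+1)) M^(k+1) h ≤ 2B * R h` (`Function.iterate_succ_apply'`).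
* (d): finiteness a.e. from (b) (`ae_lt_top` for `(R h)^p * v`, and `v ≠ 0` a.e.);
  positivity everywhere: `∫ h ≠ 0` (otherwise `h = 0` a.e. and `∫ h^p v = 0`), so `M h > 0` everywhere (`mxM_pos`) and
  `R h ≥ (2B)⁻¹ M h > 0`.
-/
set_option autoImplicit false

open MeasureTheory Set
open scoped ENNReal NNReal

namespace Claimed.Agent.R258

/-- `B = (mxCw p A)^(1/p)`: the operator norm bound of `M` on `L^p(v)`. -/
noncomputable def mxB (p : ℝ) (A : ℝ≥0) : ℝ≥0 := (mxCw p A) ^ (1 / p)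

/-- The Rubio de Francia iteration. -/
noncomputable def mxRdF (B : ℝ≥0) (h : ℝ → ℝ≥0∞) (x : ℝ) : ℝ≥0∞ :=
  ∑' k : ℕ, ((2 * (B : ℝ≥0∞)) ^ k)⁻¹ * (mxM^[k] h) x

theorem mxCp_pos {p : ℝ} (hp : 1 < p) : 0 < mxCp p := by
  unfold mxCp
  rw [Real.toNNReal_pos]
  have : 0 < p - 1 := by linarith
  have : 0 < p := by linarith
  positivity

theorem mxCw_pos {p : ℝ} (hp : 1 < p) {A : ℝ≥0} (hA : 0 < A) : 0 < mxCw p A :=
  mul_pos (mul_pos (NNReal.rpow_pos hA) (mxCp_pos (mxConj_gt_one hp))) (mxCp_pos hp)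

theorem mxB_pos {p : ℝ} (hp : 1 < p) {A : ℝ≥0} (hA : 0 < A) : 0 < mxB p A :=
  NNReal.rpow_pos (mxCw_pos hp hA)

theorem mxB_rpow {p : ℝ} (hp : 1 < p) (A : ℝ≥0) : (mxB p A) ^ p = mxCw p A := by
  unfold mxB
  rw [← NNReal.rpow_mul, one_div_mul_cancel (by linarith), NNReal.rpow_one]

theorem mx_Lp_sum_le {α : Type*} [MeasurableSpace α] (μ : Measure α) (F : ℕ → α → ℝ≥0∞)
    (hF : ∀ n, AEMeasurable (F n) μ) {p : ℝ} (hp : 1 ≤ p) (N : ℕ) :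
    (∫⁻ x, (∑ n ∈ Finset.range N, F n x) ^ p ∂μ) ^ (1 / p)
      ≤ ∑ n ∈ Finset.range N, (∫⁻ x, F n x ^ p ∂μ) ^ (1 / p) := by
  have hp0 : 0 < p := by linarith
  induction N with
  | zero =>
    simp only [Finset.range_zero, Finset.sum_empty, ENNReal.zero_rpow_of_pos hp0, lintegral_zero,
      nonpos_iff_eq_zero]
    exact ENNReal.zero_rpow_of_pos (by positivity)
  | succ N ih =>
    simp only [Finset.sum_range_succ]
    have hS : AEMeasurable (fun x => ∑ n ∈ Finset.range N, F n x) μ :=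
      Finset.aemeasurable_fun_sum _ fun n _ => hF n
    have := ENNReal.lintegral_Lp_add_le hS (hF N) hp
    simp only [Pi.add_apply] at this
    exact this.trans (add_le_add ih le_rfl)

/-- Minkowski's inequality for countable sums. -/
theorem mx_Lp_tsum_le {α : Type*} [MeasurableSpace α] (μ : Measure α) (F : ℕ → α → ℝ≥0∞)
    (hF : ∀ n, AEMeasurable (F n) μ) {p : ℝ} (hp : 1 ≤ p) :
    (∫⁻ x, (∑' n, F n x) ^ p ∂μ) ^ (1 / p) ≤ ∑' n, (∫⁻ x, F n x ^ p ∂μ) ^ (1 / p) := by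
  have hp0 : 0 < p := by linarith
  have hS : ∀ N, AEMeasurable (fun x => (∑ n ∈ Finset.range N, F n x) ^ p) μ := fun N =>
    (Finset.aemeasurable_fun_sum _ fun n _ => hF n).pow_const _
  have hmono : ∀ᵐ x ∂μ, Monotone fun N => (∑ n ∈ Finset.range N, F n x) ^ p :=
    Filter.Eventually.of_forall fun x N M hNM =>
      ENNReal.rpow_le_rpow (Finset.sum_le_sum_of_subset (Finset.range_mono hNM)) hp0.le
  have hlim : ∀ᵐ x ∂μ, Filter.Tendsto (fun N => (∑ n ∈ Finset.range N, F n x) ^ p) Filter.atTop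
      (nhds ((∑' n, F n x) ^ p)) :=
    Filter.Eventually.of_forall fun x =>
      ((ENNReal.continuous_rpow_const (y := p)).tendsto _).comp (ENNReal.tendsto_nat_tsum _)
  have h1 := lintegral_tendsto_of_tendsto_of_monotone hS hmono hlim
  have h2 := ((ENNReal.continuous_rpow_const (y := 1 / p)).tendsto _).comp h1
  refine le_of_tendsto' h2 fun N => ?_
  exact (mx_Lp_sum_le μ F hF hp N).trans (ENNReal.sum_le_tsum _)

theorem mx_iterate_measurable {h : ℝ → ℝ≥0∞} (hh : Measurable h) (k : ℕ) :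
    Measurable (mxM^[k] h) := by
  cases k with
  | zero => exact hh
  | succ k =>
    rw [Function.iterate_succ_apply']
    exact mxM_measurable _

theorem mxRdF_measurable (B : ℝ≥0) {h : ℝ → ℝ≥0∞} (hh : Measurable h) :
    Measurable (mxRdF B h) :=
  Measurable.tsum fun k => measurable_const.mul (mx_iterate_measurable hh k)

theorem mx_le_mxRdF (B : ℝ≥0) (h : ℝ → ℝ≥0∞) (x : ℝ) : h x ≤ mxRdF B h x := by
  have := ENNReal.le_tsum (f := fun k : ℕ => ((2 * (B : ℝ≥0∞)) ^ k)⁻¹ * (mxM^[k] h) x) 0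
  simpa [mxRdF] using this

theorem mx_iterate_norm {p : ℝ} (hp : 1 < p) {A : ℝ≥0} {v : ℝ → ℝ≥0∞} (hv : MxAp p A v)
    {h : ℝ → ℝ≥0∞} (hh : Measurable h) (k : ℕ) :
    ∫⁻ x, (mxM^[k] h) x ^ p * v x ≤ (mxCw p A : ℝ≥0∞) ^ k * ∫⁻ x, h x ^ p * v x := by
  induction k with
  | zero => simp
  | succ k ih =>
    rw [Function.iterate_succ_apply', pow_succ', mul_assoc]
    exact (mx_weighted hp hv _ (mx_iterate_measurable hh k)).trans (mul_le_mul_right ih _)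

theorem mx_rdf_term {B I : ℝ≥0∞} (hB0 : B ≠ 0) (hBt : B ≠ ⊤) (k : ℕ) :
    ((2 * B) ^ k)⁻¹ * (B ^ k * I) = (2⁻¹ : ℝ≥0∞) ^ k * I := by
  have h1 : B ^ k ≠ 0 := pow_ne_zero _ hB0
  have h2 : B ^ k ≠ ⊤ := ENNReal.pow_ne_top hBt
  rw [mul_pow, ENNReal.mul_inv (Or.inr h2) (Or.inr h1), ← mul_assoc, mul_assoc _ _ (B ^ k),
    ENNReal.inv_mul_cancel h1 h2, mul_one, ENNReal.inv_pow]

theorem mxRdF_norm {p : ℝ} (hp : 1 < p) {A : ℝ≥0} {v : ℝ → ℝ≥0∞} (hv : MxAp p A v)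
    {h : ℝ → ℝ≥0∞} (hh : Measurable h) :
    ∫⁻ x, mxRdF (mxB p A) h x ^ p * v x ≤ 2 ^ p * ∫⁻ x, h x ^ p * v x := by
  have hp0 : 0 < p := by linarith
  have hip : 0 < 1 / p := by positivity
  set B := mxB p A with hB
  have hBpos : 0 < B := mxB_pos hp (hv.const_pos hp)
  have hB0 : (B : ℝ≥0∞) ≠ 0 := by exact_mod_cast hBpos.ne'
  have hBt : (B : ℝ≥0∞) ≠ ⊤ := ENNReal.coe_ne_top
  set I := ∫⁻ x, h x ^ p * v x with hI
  set F : ℕ → ℝ → ℝ≥0∞ := fun k x => ((2 * (B : ℝ≥0∞)) ^ k)⁻¹ * (mxM^[k] h) x with hF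
  have hFm : ∀ k, Measurable (F k) := fun k => measurable_const.mul (mx_iterate_measurable hh k)
  have hCw : (mxCw p A : ℝ≥0∞) ^ (1 / p) = B := by
    rw [hB, mxB, ENNReal.coe_rpow_of_nonneg _ hip.le]
  have hterm : ∀ k, (∫⁻ x, F k x ^ p ∂(volume.withDensity v)) ^ (1 / p)
      ≤ (2⁻¹ : ℝ≥0∞) ^ k * I ^ (1 / p) := by
    intro k
    rw [mx_lintegral_withDensity_mul hv.meas ((hFm k).pow_const _)]
    have e : ∀ x, F k x ^ p * v x = (((2 * (B : ℝ≥0∞)) ^ k)⁻¹) ^ p * ((mxM^[k] h) x ^ p * v x) := by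
      intro x
      rw [hF]
      simp only
      rw [ENNReal.mul_rpow_of_nonneg _ _ hp0.le, mul_assoc]
    simp only [e]
    have hmk : Measurable fun x => (mxM^[k] h) x ^ p * v x :=
      ((mx_iterate_measurable hh k).pow_const _).mul hv.meas
    rw [lintegral_const_mul _ hmk,
      ENNReal.mul_rpow_of_nonneg _ _ hip.le, ← ENNReal.rpow_mul, mul_one_div_cancel hp0.ne',
      ENNReal.rpow_one, ← mx_rdf_term hB0 hBt k]
    refine mul_le_mul_right ?_ _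
    have h2 := ENNReal.rpow_le_rpow (mx_iterate_norm hp hv hh k) hip.le
    rwa [ENNReal.mul_rpow_of_nonneg _ _ hip.le, ← ENNReal.rpow_natCast, ← ENNReal.rpow_mul,
      mul_comm (k : ℝ), ENNReal.rpow_mul, hCw, ENNReal.rpow_natCast] at h2
  have hmain : (∫⁻ x, mxRdF B h x ^ p * v x) ^ (1 / p) ≤ 2 * I ^ (1 / p) := by
    have h1 := mx_Lp_tsum_le (volume.withDensity v) F (fun k => (hFm k).aemeasurable) hp.le
    rw [mx_lintegral_withDensity_mul hv.meas ((Measurable.tsum hFm).pow_const _)] at h1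
    refine h1.trans ((ENNReal.tsum_le_tsum hterm).trans_eq ?_)
    rw [ENNReal.tsum_mul_right, ENNReal.tsum_geometric, ENNReal.one_sub_inv_two, inv_inv]
  have h3 := ENNReal.rpow_le_rpow hmain hp0.le
  rwa [← ENNReal.rpow_mul, one_div_mul_cancel hp0.ne', ENNReal.rpow_one,
    ENNReal.mul_rpow_of_nonneg _ _ hp0.le, ← ENNReal.rpow_mul, one_div_mul_cancel hp0.ne',
    ENNReal.rpow_one] at h3

theorem mxM_mxRdF_le {B : ℝ≥0} (hB : 0 < B) {h : ℝ → ℝ≥0∞} (hh : Measurable h) (x : ℝ) :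
    mxM (mxRdF B h) x ≤ (2 * B : ℝ≥0) * mxRdF B h x := by
  have hc0 : (2 * (B : ℝ≥0∞)) ≠ 0 := by
    have : (B : ℝ≥0∞) ≠ 0 := by exact_mod_cast hB.ne'
    exact mul_ne_zero two_ne_zero this
  have hct : (2 * (B : ℝ≥0∞)) ≠ ⊤ := ENNReal.mul_ne_top ENNReal.ofNat_ne_top ENNReal.coe_ne_top
  have h1 := mxMax_tsum_le (μ := volume)
    (fun (k : ℕ) (y : ℝ) => ((2 * (B : ℝ≥0∞)) ^ k)⁻¹ * (mxM^[k] h) y)
    (fun k => (measurable_const.mul (mx_iterate_measurable hh k)).aemeasurable) x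
  have h2 : ∀ k : ℕ, mxMax volume (fun y => ((2 * (B : ℝ≥0∞)) ^ k)⁻¹ * (mxM^[k] h) y) x
      = (2 * (B : ℝ≥0∞)) * (((2 * (B : ℝ≥0∞)) ^ (k + 1))⁻¹ * (mxM^[k + 1] h) x) := by
    intro k
    rw [mxMax_const_mul (mx_iterate_measurable hh k).aemeasurable, Function.iterate_succ_apply',
      pow_succ', ENNReal.mul_inv (Or.inl hc0) (Or.inl hct), ← mul_assoc, ← mul_assoc,
      ENNReal.mul_inv_cancel hc0 hct, one_mul]
    rfl
  simp only [h2] at h1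
  rw [ENNReal.tsum_mul_left] at h1
  refine le_trans h1 ?_
  rw [ENNReal.coe_mul, ENNReal.coe_ofNat]
  refine mul_le_mul_right ?_ _
  unfold mxRdF
  rw [tsum_eq_zero_add' (f := fun k : ℕ => ((2 * (B : ℝ≥0∞)) ^ k)⁻¹ * (mxM^[k] h) x)
    ENNReal.summable]
  exact le_add_self

theorem mxRdF_isA1 {p : ℝ} (hp : 1 < p) {A : ℝ≥0} {v : ℝ → ℝ≥0∞} (hv : MxAp p A v)
    {h : ℝ → ℝ≥0∞} (hh : Measurable h) (h0 : ∫⁻ x, h x ^ p * v x ≠ 0)
    (h1 : ∫⁻ x, h x ^ p * v x ≠ ⊤) :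
    MxA1 (2 * mxB p A) (mxRdF (mxB p A) h) := by
  have hp0 : 0 < p := by linarith
  have hBpos : 0 < mxB p A := mxB_pos hp (hv.const_pos hp)
  have hm := mxRdF_measurable (mxB p A) hh
  refine ⟨hm, ?_, ?_, Filter.Eventually.of_forall fun x => mxM_mxRdF_le hBpos hh x⟩
  · -- positivity
    have hint : ∫⁻ y, h y ≠ 0 := by
      intro hz
      apply h0
      rw [lintegral_eq_zero_iff hh] at hz
      have hmk : Measurable fun x => h x ^ p * v x := (hh.pow_const _).mul hv.meas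
      rw [lintegral_eq_zero_iff hmk]
      filter_upwards [hz] with y hy
      simp only [Pi.zero_apply] at hy ⊢
      rw [hy, ENNReal.zero_rpow_of_pos hp0, zero_mul]
    refine Filter.Eventually.of_forall fun x => ?_
    have hpos := mxM_pos h hint x
    have hle := ENNReal.le_tsum
      (f := fun k : ℕ => ((2 * (mxB p A : ℝ≥0∞)) ^ k)⁻¹ * (mxM^[k] h) x) 1
    have hc : ((2 * (mxB p A : ℝ≥0∞)) ^ 1)⁻¹ ≠ 0 := by
      rw [pow_one]
      exact ENNReal.inv_ne_zero.mpr (ENNReal.mul_ne_top ENNReal.ofNat_ne_top ENNReal.coe_ne_top)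
    have : 0 < ((2 * (mxB p A : ℝ≥0∞)) ^ 1)⁻¹ * (mxM^[1] h) x :=
      ENNReal.mul_pos hc (by simpa using hpos.ne')
    exact (this.trans_le hle).ne'
  · -- finiteness
    have hfin : ∫⁻ x, mxRdF (mxB p A) h x ^ p * v x ≠ ⊤ :=
      ne_top_of_le_ne_top (ENNReal.mul_ne_top (ENNReal.rpow_ne_top_of_nonneg hp0.le
        ENNReal.ofNat_ne_top) h1) (mxRdF_norm hp hv hh)
    have hmk : Measurable fun x => mxRdF (mxB p A) h x ^ p * v x := (hm.pow_const p).mul hv.meas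
    have hae := ae_lt_top hmk hfin
    filter_upwards [hae, hv.pos] with x hx hvx hR
    rw [hR, ENNReal.top_rpow_of_pos hp0, ENNReal.top_mul hvx] at hx
    exact lt_irrefl _ hx

end Claimed.Agent.R258
end

/- ===== packed: Claimed.Agent.R258.Max.ExtrapH ===== -/
section
/-
Row 258, block [MAX], package P-MAX-EXTRAP-H (architect helper192).

The two Hölder steps of the extrapolation argument (pure measure theory in `ℝ≥0∞`; no maximal functions).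

  `mx_extrap_pair`: `∫ W₁ W₂ = ∫ (W₁ w^(1/p)) (W₂ w^(-1/p)) ≤ (∫ W₁^p w)^(1/p) (∫ W₂^(p') σ)^(1/p')`
        (`ENNReal.lintegral_mul_le_Lp_mul_Lq` with `mxConj_holder`; `(w^(-1/p))^(p') = w^(-p'/p) = w^(-1/(p-1)) = σ = mxDual p w`;
         the pointwise identity `W₁ w^(1/p) * (W₂ w^(-1/p)) = W₁ W₂` holds where `0 < w < ∞`, i.e. a.e.);
  `mx_extrap_holder`: `∫ U W₂ ≤ (∫ U^(p₀) W₂ W₁^(1-p₀))^(1/p₀) (∫ W₁ W₂)^(1/p₀')`
        (Hölder for `F = U W₁^(-1/p₀') W₂^(1/p₀)` and `G = W₁^(1/p₀') W₂^(1/p₀')`; `F G = U W₂` where `0 < W₁ < ∞`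
         (`ENNReal.rpow_add_of_nonneg` for `W₂`, which may be `0` or `⊤`); `F^(p₀) = U^(p₀) W₁^(1-p₀) W₂`
         since `p₀/p₀' = p₀ - 1`; `G^(p₀') = W₁ W₂`; `ENNReal.mul_rpow_of_nonneg`).
-/
set_option autoImplicit false

open MeasureTheory Set
open scoped ENNReal NNReal

namespace Claimed.Agent.R258

theorem mx_extrap_pair {p : ℝ} (hp : 1 < p) {w : ℝ → ℝ≥0∞} (hw : Measurable w)
    (hw0 : ∀ᵐ x, w x ≠ 0) (hw1 : ∀ᵐ x, w x ≠ ⊤) {W₁ W₂ : ℝ → ℝ≥0∞} (h₁ : Measurable W₁)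
    (h₂ : Measurable W₂) :
    ∫⁻ x, W₁ x * W₂ x ≤ (∫⁻ x, W₁ x ^ p * w x) ^ (1 / p) *
      (∫⁻ x, W₂ x ^ (mxConj p) * mxDual p w x) ^ (1 / mxConj p) := by
  have hp0 : 0 < p := by linarith
  have hp1 : p - 1 ≠ 0 := by linarith
  have hq0 : 0 < mxConj p := by linarith [mxConj_gt_one hp]
  have hF : Measurable fun x => W₁ x * w x ^ (1 / p) := h₁.mul (hw.pow_const _)
  have hG : Measurable fun x => W₂ x * w x ^ (-(1 / p)) := h₂.mul (hw.pow_const _)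
  have h := ENNReal.lintegral_mul_le_Lp_mul_Lq volume (mxConj_holder hp) hF.aemeasurable
    hG.aemeasurable
  have e0 : ∫⁻ x, W₁ x * W₂ x
      = ∫⁻ x, ((fun x => W₁ x * w x ^ (1 / p)) * fun x => W₂ x * w x ^ (-(1 / p))) x := by
    refine lintegral_congr_ae ?_
    filter_upwards [hw0, hw1] with x h0 h1
    simp only [Pi.mul_apply]
    have : w x ^ (1 / p) * w x ^ (-(1 / p)) = 1 := by
      rw [← ENNReal.rpow_add _ _ h0 h1, add_neg_cancel, ENNReal.rpow_zero]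
    calc W₁ x * W₂ x = W₁ x * W₂ x * (w x ^ (1 / p) * w x ^ (-(1 / p))) := by rw [this, mul_one]
      _ = _ := by ring
  have e1 : ∀ x, (W₁ x * w x ^ (1 / p)) ^ p = W₁ x ^ p * w x := by
    intro x
    rw [ENNReal.mul_rpow_of_nonneg _ _ hp0.le, ← ENNReal.rpow_mul, one_div_mul_cancel hp0.ne',
      ENNReal.rpow_one]
  have e2 : ∀ x, (W₂ x * w x ^ (-(1 / p))) ^ mxConj p = W₂ x ^ mxConj p * mxDual p w x := by
    intro x
    rw [ENNReal.mul_rpow_of_nonneg _ _ hq0.le, ← ENNReal.rpow_mul]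
    unfold mxDual mxConj
    congr 2
    field_simp
  rw [e0]
  simpa only [e1, e2] using h

theorem mx_extrap_holder {p₀ : ℝ} (hp₀ : 1 < p₀) {U W₁ W₂ : ℝ → ℝ≥0∞} (hU : Measurable U)
    (h₁ : Measurable W₁) (h₂ : Measurable W₂) (h10 : ∀ᵐ x, W₁ x ≠ 0) (h11 : ∀ᵐ x, W₁ x ≠ ⊤) :
    ∫⁻ x, U x * W₂ x ≤ (∫⁻ x, U x ^ p₀ * (W₂ x * W₁ x ^ (1 - p₀))) ^ (1 / p₀) *
      (∫⁻ x, W₁ x * W₂ x) ^ (1 / mxConj p₀) := by
  have hp0 : 0 < p₀ := by linarith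
  have hp1 : p₀ - 1 ≠ 0 := by linarith
  have hq0 : 0 < mxConj p₀ := by linarith [mxConj_gt_one hp₀]
  set q := mxConj p₀ with hq
  have hF : Measurable fun x => U x * W₁ x ^ (-(1 / q)) * W₂ x ^ (1 / p₀) :=
    (hU.mul (h₁.pow_const _)).mul (h₂.pow_const _)
  have hG : Measurable fun x => W₁ x ^ (1 / q) * W₂ x ^ (1 / q) :=
    (h₁.pow_const _).mul (h₂.pow_const _)
  have h := ENNReal.lintegral_mul_le_Lp_mul_Lq volume (mxConj_holder hp₀) hF.aemeasurable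
    hG.aemeasurable
  rw [← hq] at h
  have hsum : 1 / p₀ + 1 / q = 1 := by
    have := (mxConj_holder hp₀).inv_add_inv_eq_one
    simpa [one_div] using this
  have e0 : ∫⁻ x, U x * W₂ x
      = ∫⁻ x, ((fun x => U x * W₁ x ^ (-(1 / q)) * W₂ x ^ (1 / p₀)) *
          fun x => W₁ x ^ (1 / q) * W₂ x ^ (1 / q)) x := by
    refine lintegral_congr_ae ?_
    filter_upwards [h10, h11] with x h0 h1
    simp only [Pi.mul_apply]
    have a1 : W₁ x ^ (-(1 / q)) * W₁ x ^ (1 / q) = 1 := by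
      rw [← ENNReal.rpow_add _ _ h0 h1, neg_add_cancel, ENNReal.rpow_zero]
    have a2 : W₂ x ^ (1 / p₀) * W₂ x ^ (1 / q) = W₂ x := by
      rw [← ENNReal.rpow_add_of_nonneg _ _ (by positivity) (by positivity), hsum, ENNReal.rpow_one]
    calc U x * W₂ x = U x * (W₁ x ^ (-(1 / q)) * W₁ x ^ (1 / q)) *
          (W₂ x ^ (1 / p₀) * W₂ x ^ (1 / q)) := by rw [a1, a2, mul_one]
      _ = _ := by ring
  have e1 : ∀ x, (U x * W₁ x ^ (-(1 / q)) * W₂ x ^ (1 / p₀)) ^ p₀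
      = U x ^ p₀ * (W₂ x * W₁ x ^ (1 - p₀)) := by
    intro x
    rw [ENNReal.mul_rpow_of_nonneg _ _ hp0.le, ENNReal.mul_rpow_of_nonneg _ _ hp0.le,
      ← ENNReal.rpow_mul, ← ENNReal.rpow_mul, one_div_mul_cancel hp0.ne', ENNReal.rpow_one]
    have : -(1 / q) * p₀ = 1 - p₀ := by
      rw [hq]
      unfold mxConj
      field_simp
      ring
    rw [this]
    ring
  have e2 : ∀ x, (W₁ x ^ (1 / q) * W₂ x ^ (1 / q)) ^ q = W₁ x * W₂ x := by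
    intro x
    rw [ENNReal.mul_rpow_of_nonneg _ _ hq0.le, ← ENNReal.rpow_mul, ← ENNReal.rpow_mul,
      one_div_mul_cancel hq0.ne', ENNReal.rpow_one, ENNReal.rpow_one]
  rw [e0]
  simpa only [e1, e2] using h

end Claimed.Agent.R258
end

/- ===== packed: Claimed.Agent.R258.Max.ExtrapCore ===== -/
section
/-
Row 258, block [MAX], package P-MAX-EXTRAP-CORE (architect helper192).

Core of the Rubio de Francia extrapolation theorem: one pair `(U, V)` with `0 < ∫ U^p w < ∞`, `0 < ∫ V^p w < ∞`.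

PROOF (`a := (∫ U^p w)^(1/p)`, `b := (∫ V^p w)^(1/p)`, both in `(0,∞)`; `p' = mxConj p`,
`σ = mxDual p w ∈ A_{p'}` with constant `A' = A^(p'-1)` (`MxAp.dual`), `B = mxB p A`, `B' = mxB p' A'`):
  `h₁ = U/a + V/b`:  `0 < ∫ h₁^p w ≤ 2^p` (`(x+y)^p ≤ 2^(p-1)(x^p+y^p)`: `ENNReal.rpow_add_le_mul_rpow_add_rpow`,
        or Minkowski `ENNReal.lintegral_Lp_add_le` w.r.t. `volume.withDensity w`);
  `H₂ = U^(p-1) w / a^(p-1)`:  `∫ H₂^(p') σ = ∫ U^p w^(p') w^(1-p') / a^p = 1`  (`(p-1) p' = p`, `mx_rpow_eq_mxDual`);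
  `W₁ = mxRdF B h₁`, `W₂ = mxRdF B' H₂`: `A_1` weights with constants `2B`, `2B'` (`mxRdF_isA1`),
        `∫ W₁^p w ≤ 2^p 2^p`, `∫ W₂^(p') σ ≤ 2^(p')` (`mxRdF_norm`), `h₁ ≤ W₁`, `H₂ ≤ W₂` (`mx_le_mxRdF`);
  `w₀ = W₂ * W₁^(1-p₀) ∈ A_{p₀}` with constant `mxA0 p₀ p A = 2B' (2B)^(p₀-1)` (`mx_reverse_factor`).
  (i)   `∫ W₁ W₂ ≤ 4 * 2 = 8` (`mx_extrap_pair`);
  (ii)  `∫ U W₂ ≤ (∫ U^(p₀) w₀)^(1/p₀) (∫ W₁ W₂)^(1/p₀')` (`mx_extrap_holder`);
  (iii) `a = ∫ U H₂ ≤ ∫ U W₂`   (`∫ U U^(p-1) w / a^(p-1) = a^p / a^(p-1)`);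
  (iv)  hypothesis: `∫ U^(p₀) w₀ ≤ N(A₀) ∫ V^(p₀) w₀`, and `V ≤ b h₁ ≤ b W₁` gives
        `∫ V^(p₀) w₀ ≤ b^(p₀) ∫ W₁^(p₀) W₁^(1-p₀) W₂ = b^(p₀) ∫ W₁ W₂ ≤ 8 b^(p₀)` (a.e. `0 < W₁ < ∞`).
  Together `a ≤ (8 N b^(p₀))^(1/p₀) 8^(1/p₀') = 8 N^(1/p₀) b`, i.e. `∫ U^p w ≤ 8^p N^(p/p₀) ∫ V^p w`.
Feel free to add auxiliary lemmas (prefix `mx_exc_`).
-/
set_option autoImplicit false

open MeasureTheory Set
open scoped ENNReal NNReal

namespace Claimed.Agent.R258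

/-- The `A_{p₀}` constant of the auxiliary weight. -/
noncomputable def mxA0 (p₀ p : ℝ) (A : ℝ≥0) : ℝ≥0 :=
  (2 * mxB (mxConj p) (A ^ (mxConj p - 1))) * (2 * mxB p A) ^ (p₀ - 1)

/-- The extrapolated constant. -/
noncomputable def mxK (p₀ p : ℝ) (N : ℝ≥0 → ℝ≥0) (A : ℝ≥0) : ℝ≥0 :=
  8 ^ p * (N (mxA0 p₀ p A)) ^ (p / p₀)

/-- the `p`-th root of a finite nonzero number -/
theorem mx_exc_root {I : ℝ≥0∞} {p : ℝ} (hp : 0 < p) (h0 : I ≠ 0) (h1 : I ≠ ⊤) :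
    I ^ (1 / p) ≠ 0 ∧ I ^ (1 / p) ≠ ⊤ ∧ (I ^ (1 / p)) ^ p = I := by
  refine ⟨(ENNReal.rpow_pos (pos_iff_ne_zero.2 h0) h1).ne',
    ENNReal.rpow_ne_top_of_nonneg (by positivity) h1, ?_⟩
  rw [← ENNReal.rpow_mul, one_div_mul_cancel hp.ne', ENNReal.rpow_one]

theorem mx_exc_scale (c : ℝ≥0∞) (hc : c ≠ ⊤) {p : ℝ} (hp : 0 ≤ p) (F w : ℝ → ℝ≥0∞) :
    ∫⁻ y, (c * F y) ^ p * w y = c ^ p * ∫⁻ y, F y ^ p * w y := by
  rw [← lintegral_const_mul' _ _ (ENNReal.rpow_ne_top_of_nonneg hp hc)]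
  refine lintegral_congr fun y => ?_
  rw [ENNReal.mul_rpow_of_nonneg _ _ hp, mul_assoc]

/-- normalisation: `∫ (U/a)^p w = 1` -/
theorem mx_exc_unit {a I : ℝ≥0∞} {p : ℝ} (hp : 0 < p) (ha0 : a ≠ 0) (hat : a ≠ ⊤) (hap : a ^ p = I)
    (F w : ℝ → ℝ≥0∞) (hI : ∫⁻ y, F y ^ p * w y = I) : ∫⁻ y, (a⁻¹ * F y) ^ p * w y = 1 := by
  rw [mx_exc_scale _ (ENNReal.inv_ne_top.2 ha0) hp.le, hI, ENNReal.inv_rpow, hap]
  have h0 : I ≠ 0 := by
    rw [← hap]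
    exact (ENNReal.rpow_pos (pos_iff_ne_zero.2 ha0) hat).ne'
  have h1 : I ≠ ⊤ := by
    rw [← hap]
    exact ENNReal.rpow_ne_top_of_nonneg hp.le hat
  exact ENNReal.inv_mul_cancel h0 h1

/-- `h₁ = U/a + V/b` -/
theorem mx_exc_h1 {p : ℝ} (hp : 1 < p) {U V w : ℝ → ℝ≥0∞} (hU : Measurable U) (hw : Measurable w)
    {a b : ℝ≥0∞} (hUa : ∫⁻ y, (a⁻¹ * U y) ^ p * w y = 1) (hVb : ∫⁻ y, (b⁻¹ * V y) ^ p * w y = 1) :
    ∫⁻ y, (a⁻¹ * U y + b⁻¹ * V y) ^ p * w y ≠ 0 ∧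
    ∫⁻ y, (a⁻¹ * U y + b⁻¹ * V y) ^ p * w y ≤ 2 ^ p := by
  have hp0 : 0 < p := by linarith
  constructor
  · have h1 : ∫⁻ y, (a⁻¹ * U y) ^ p * w y ≤ ∫⁻ y, (a⁻¹ * U y + b⁻¹ * V y) ^ p * w y := by
      refine lintegral_mono fun y => ?_
      exact mul_le_mul_left (ENNReal.rpow_le_rpow le_self_add hp0.le) _
    rw [hUa] at h1
    intro h0
    rw [h0] at h1
    exact absurd h1 (by simp)
  · calc ∫⁻ y, (a⁻¹ * U y + b⁻¹ * V y) ^ p * w y
        ≤ ∫⁻ y, 2 ^ (p - 1) * ((a⁻¹ * U y) ^ p * w y + (b⁻¹ * V y) ^ p * w y) := by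
          refine lintegral_mono fun y => ?_
          have := ENNReal.rpow_add_le_mul_rpow_add_rpow (a⁻¹ * U y) (b⁻¹ * V y) hp.le
          calc (a⁻¹ * U y + b⁻¹ * V y) ^ p * w y
              ≤ (2 ^ (p - 1) * ((a⁻¹ * U y) ^ p + (b⁻¹ * V y) ^ p)) * w y :=
                mul_le_mul_left this _
            _ = _ := by ring
      _ = 2 ^ (p - 1) * (1 + 1) := by
          have hm : Measurable fun y => (a⁻¹ * U y) ^ p * w y :=
            ((measurable_const.mul hU).pow_const p).mul hw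
          rw [lintegral_const_mul' _ _ (ENNReal.rpow_ne_top_of_nonneg (by linarith)
            ENNReal.ofNat_ne_top), lintegral_add_left hm, hUa, hVb]
      _ = 2 ^ p := by
          rw [one_add_one_eq_two]
          conv_lhs => rw [← ENNReal.rpow_one 2, ← ENNReal.rpow_mul, one_mul]
          rw [← ENNReal.rpow_add _ _ two_ne_zero ENNReal.ofNat_ne_top]
          congr 1
          ring

/-- `H₂ = U^(p-1) w / a^(p-1)` -/
theorem mx_exc_H2 {p : ℝ} (hp : 1 < p) {U w : ℝ → ℝ≥0∞}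
    (hw0 : ∀ᵐ x, w x ≠ 0) (hw1 : ∀ᵐ x, w x ≠ ⊤) {a I : ℝ≥0∞} (ha0 : a ≠ 0) (hat : a ≠ ⊤)
    (hap : a ^ p = I) (hI : ∫⁻ y, U y ^ p * w y = I) :
    ∫⁻ y, ((a ^ (p - 1))⁻¹ * (U y ^ (p - 1) * w y)) ^ (mxConj p) * mxDual p w y = 1 ∧
    ∫⁻ y, U y * ((a ^ (p - 1))⁻¹ * (U y ^ (p - 1) * w y)) = a := by
  have hp0 : 0 < p := by linarith
  have hp1 : 0 < p - 1 := by linarith
  have hq : 1 < mxConj p := mxConj_gt_one hp
  have hq0 : 0 < mxConj p := by linarith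
  have hpq : (p - 1) * mxConj p = p := by
    unfold mxConj
    field_simp
  have hc0 : a ^ (p - 1) ≠ 0 := (ENNReal.rpow_pos (pos_iff_ne_zero.2 ha0) hat).ne'
  have hct : a ^ (p - 1) ≠ ⊤ := ENNReal.rpow_ne_top_of_nonneg hp1.le hat
  have hI0 : I ≠ 0 := by
    rw [← hap]
    exact (ENNReal.rpow_pos (pos_iff_ne_zero.2 ha0) hat).ne'
  have hI1 : I ≠ ⊤ := by
    rw [← hap]
    exact ENNReal.rpow_ne_top_of_nonneg hp0.le hat
  constructor
  · rw [mx_exc_scale _ (ENNReal.inv_ne_top.2 hc0) hq0.le, ENNReal.inv_rpow, ← ENNReal.rpow_mul, hpq,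
      hap]
    have e : ∫⁻ y, (U y ^ (p - 1) * w y) ^ (mxConj p) * mxDual p w y = I := by
      rw [← hI]
      refine lintegral_congr_ae ?_
      filter_upwards [hw0, hw1] with y h0 h1
      rw [ENNReal.mul_rpow_of_nonneg _ _ hq0.le, ← ENNReal.rpow_mul, hpq, mul_assoc,
        ← mx_rpow_eq_mxDual hp, ← ENNReal.rpow_add _ _ h0 h1]
      congr 1
      have : mxConj p + (1 - mxConj p) = 1 := by ring
      rw [this, ENNReal.rpow_one]
    rw [e]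
    exact ENNReal.inv_mul_cancel hI0 hI1
  · have e : ∀ y, U y * ((a ^ (p - 1))⁻¹ * (U y ^ (p - 1) * w y))
        = (a ^ (p - 1))⁻¹ * (U y ^ p * w y) := by
      intro y
      have h1 : U y ^ p = U y * U y ^ (p - 1) := by
        conv_lhs => rw [show p = 1 + (p - 1) by ring]
        rw [ENNReal.rpow_add_of_nonneg _ _ zero_le_one hp1.le, ENNReal.rpow_one]
      rw [h1]
      ring
    simp only [e]
    rw [lintegral_const_mul' _ _ (ENNReal.inv_ne_top.2 hc0), hI, ← hap]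
    have h1 : a ^ p = a ^ (p - 1) * a := by
      conv_lhs => rw [show p = (p - 1) + 1 by ring]
      rw [ENNReal.rpow_add_of_nonneg _ _ hp1.le zero_le_one, ENNReal.rpow_one]
    rw [h1, ← mul_assoc, ENNReal.inv_mul_cancel hc0 hct, one_mul]

/-- step (iv) -/
theorem mx_exc_V {p₀ : ℝ} (hp₀ : 1 < p₀) {V W₁ W₂ : ℝ → ℝ≥0∞} {b : ℝ≥0∞} (hbt : b ≠ ⊤)
    (hV : ∀ y, V y ≤ b * W₁ y) (h10 : ∀ᵐ x, W₁ x ≠ 0) (h11 : ∀ᵐ x, W₁ x ≠ ⊤) :
    ∫⁻ y, V y ^ p₀ * (W₂ y * W₁ y ^ (1 - p₀)) ≤ b ^ p₀ * ∫⁻ y, W₁ y * W₂ y := by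
  have h0 : 0 < p₀ := by linarith
  rw [← lintegral_const_mul' _ _ (ENNReal.rpow_ne_top_of_nonneg h0.le hbt)]
  refine lintegral_mono_ae ?_
  filter_upwards [h10, h11] with y hy0 hy1
  calc V y ^ p₀ * (W₂ y * W₁ y ^ (1 - p₀))
      ≤ (b * W₁ y) ^ p₀ * (W₂ y * W₁ y ^ (1 - p₀)) :=
        mul_le_mul_left (ENNReal.rpow_le_rpow (hV y) h0.le) _
    _ = b ^ p₀ * ((W₁ y ^ p₀ * W₁ y ^ (1 - p₀)) * W₂ y) := by
        rw [ENNReal.mul_rpow_of_nonneg _ _ h0.le]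
        ring
    _ = b ^ p₀ * (W₁ y * W₂ y) := by
        rw [← ENNReal.rpow_add _ _ hy0 hy1]
        have : p₀ + (1 - p₀) = 1 := by ring
        rw [this, ENNReal.rpow_one]

/-- the final arithmetic -/
theorem mx_exc_final {p₀ p : ℝ} (hp₀ : 1 < p₀) (hp : 0 < p) {a b P Nc : ℝ≥0∞}
    (h : a ≤ (Nc * (b ^ p₀ * P)) ^ (1 / p₀) * P ^ (1 / mxConj p₀)) (hP : P ≤ 8) :
    a ^ p ≤ (8 ^ p * Nc ^ (p / p₀)) * b ^ p := by
  have h0 : 0 < p₀ := by linarith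
  have hi : 0 ≤ 1 / p₀ := by positivity
  have hq : 0 < mxConj p₀ := by linarith [mxConj_gt_one hp₀]
  have hiq : 0 ≤ 1 / mxConj p₀ := by positivity
  have hsum : 1 / p₀ + 1 / mxConj p₀ = 1 := by
    have := (mxConj_holder hp₀).inv_add_inv_eq_one
    rw [one_div, one_div]
    exact this
  have e : (Nc * (b ^ p₀ * P)) ^ (1 / p₀) * P ^ (1 / mxConj p₀) = Nc ^ (1 / p₀) * b * P := by
    rw [ENNReal.mul_rpow_of_nonneg _ _ hi, ENNReal.mul_rpow_of_nonneg _ _ hi, ← ENNReal.rpow_mul,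
      mul_one_div_cancel h0.ne', ENNReal.rpow_one]
    have : P ^ (1 / p₀) * P ^ (1 / mxConj p₀) = P := by
      rw [← ENNReal.rpow_add_of_nonneg _ _ hi hiq, hsum, ENNReal.rpow_one]
    calc Nc ^ (1 / p₀) * (b * P ^ (1 / p₀)) * P ^ (1 / mxConj p₀)
        = Nc ^ (1 / p₀) * b * (P ^ (1 / p₀) * P ^ (1 / mxConj p₀)) := by ring
      _ = _ := by rw [this]
  rw [e] at h
  have h2 : a ≤ Nc ^ (1 / p₀) * b * 8 := h.trans (mul_le_mul_right hP _)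
  calc a ^ p ≤ (Nc ^ (1 / p₀) * b * 8) ^ p := ENNReal.rpow_le_rpow h2 hp.le
    _ = (8 ^ p * Nc ^ (p / p₀)) * b ^ p := by
        rw [ENNReal.mul_rpow_of_nonneg _ _ hp.le, ENNReal.mul_rpow_of_nonneg _ _ hp.le,
          ← ENNReal.rpow_mul]
        have : 1 / p₀ * p = p / p₀ := by ring
        rw [this]
        ring

theorem mx_extrap_core {p₀ p : ℝ} (hp₀ : 1 < p₀) (hp : 1 < p) (N : ℝ≥0 → ℝ≥0)
    {U V : ℝ → ℝ≥0∞} (hU : Measurable U) (hV : Measurable V)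
    (hyp : ∀ (A₀ : ℝ≥0) (w₀ : ℝ → ℝ≥0∞), MxAp p₀ A₀ w₀ →
      ∫⁻ y, U y ^ p₀ * w₀ y ≤ N A₀ * ∫⁻ y, V y ^ p₀ * w₀ y)
    {A : ℝ≥0} {w : ℝ → ℝ≥0∞} (hw : MxAp p A w)
    (hU0 : ∫⁻ y, U y ^ p * w y ≠ 0) (hU1 : ∫⁻ y, U y ^ p * w y ≠ ⊤)
    (hV0 : ∫⁻ y, V y ^ p * w y ≠ 0) (hV1 : ∫⁻ y, V y ^ p * w y ≠ ⊤) :
    ∫⁻ y, U y ^ p * w y ≤ mxK p₀ p N A * ∫⁻ y, V y ^ p * w y := by
  have hp0 : 0 < p := by linarith
  have hp1 : 0 < p - 1 := by linarith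
  have hq : 1 < mxConj p := mxConj_gt_one hp
  have hq0 : 0 < mxConj p := by linarith
  have h00 : 0 < p₀ := by linarith
  obtain ⟨IU, hIU⟩ : ∃ I, ∫⁻ y, U y ^ p * w y = I := ⟨_, rfl⟩
  obtain ⟨IV, hIV⟩ : ∃ I, ∫⁻ y, V y ^ p * w y = I := ⟨_, rfl⟩
  rw [hIU] at hU0 hU1 ⊢
  rw [hIV] at hV0 hV1 ⊢
  obtain ⟨ha0, hat, hap⟩ := mx_exc_root hp0 hU0 hU1
  obtain ⟨hb0, hbt, hbp⟩ := mx_exc_root hp0 hV0 hV1
  obtain ⟨a, ha⟩ : ∃ a, a = IU ^ (1 / p) := ⟨_, rfl⟩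
  obtain ⟨b, hb⟩ : ∃ b, b = IV ^ (1 / p) := ⟨_, rfl⟩
  rw [← ha] at ha0 hat hap
  rw [← hb] at hb0 hbt hbp
  have hσ : MxAp (mxConj p) (A ^ (mxConj p - 1)) (mxDual p w) := hw.dual hp
  -- the two functions
  obtain ⟨h₁, hh₁⟩ : ∃ h₁ : ℝ → ℝ≥0∞, h₁ = fun y => a⁻¹ * U y + b⁻¹ * V y := ⟨_, rfl⟩
  obtain ⟨H₂, hH₂⟩ : ∃ H₂ : ℝ → ℝ≥0∞,
      H₂ = fun y => (a ^ (p - 1))⁻¹ * (U y ^ (p - 1) * w y) := ⟨_, rfl⟩
  have hh₁m : Measurable h₁ := by
    rw [hh₁]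
    exact (measurable_const.mul hU).add (measurable_const.mul hV)
  have hH₂m : Measurable H₂ := by
    rw [hH₂]
    exact measurable_const.mul ((hU.pow_const _).mul hw.meas)
  obtain ⟨n1a, n1b⟩ : ∫⁻ y, h₁ y ^ p * w y ≠ 0 ∧ ∫⁻ y, h₁ y ^ p * w y ≤ 2 ^ p := by
    rw [hh₁]
    exact mx_exc_h1 hp hU hw.meas (mx_exc_unit hp0 ha0 hat hap U w hIU)
      (mx_exc_unit hp0 hb0 hbt hbp V w hIV)
  obtain ⟨n2a, n2b⟩ : ∫⁻ y, H₂ y ^ (mxConj p) * mxDual p w y = 1 ∧ ∫⁻ y, U y * H₂ y = a := by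
    rw [hH₂]
    exact mx_exc_H2 hp hw.pos hw.fin ha0 hat hap hIU
  have h2pt : (2 : ℝ≥0∞) ^ p ≠ ⊤ := ENNReal.rpow_ne_top_of_nonneg hp0.le ENNReal.ofNat_ne_top
  -- the two `A_1` weights
  obtain ⟨W₁, hW₁⟩ : ∃ W₁, W₁ = mxRdF (mxB p A) h₁ := ⟨_, rfl⟩
  obtain ⟨W₂, hW₂⟩ : ∃ W₂, W₂ = mxRdF (mxB (mxConj p) (A ^ (mxConj p - 1))) H₂ := ⟨_, rfl⟩
  have A1₁ : MxA1 (2 * mxB p A) W₁ := by
    rw [hW₁]
    exact mxRdF_isA1 hp hw hh₁m n1a (ne_top_of_le_ne_top h2pt n1b)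
  have A1₂ : MxA1 (2 * mxB (mxConj p) (A ^ (mxConj p - 1))) W₂ := by
    rw [hW₂]
    exact mxRdF_isA1 hq hσ hH₂m (by rw [n2a]; exact one_ne_zero) (by rw [n2a]; exact ENNReal.one_ne_top)
  have N₁ : ∫⁻ y, W₁ y ^ p * w y ≤ 2 ^ p * 2 ^ p := by
    rw [hW₁]
    exact (mxRdF_norm hp hw hh₁m).trans (mul_le_mul_right n1b _)
  have N₂ : ∫⁻ y, W₂ y ^ (mxConj p) * mxDual p w y ≤ 2 ^ (mxConj p) := by
    rw [hW₂]
    have := mxRdF_norm hq hσ hH₂m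
    rwa [n2a, mul_one] at this
  have le₁ : ∀ y, h₁ y ≤ W₁ y := by
    intro y
    rw [hW₁]
    exact mx_le_mxRdF _ _ y
  have le₂ : ∀ y, H₂ y ≤ W₂ y := by
    intro y
    rw [hW₂]
    exact mx_le_mxRdF _ _ y
  have hw₀ : MxAp p₀ (mxA0 p₀ p A) (fun x => W₂ x * W₁ x ^ (1 - p₀)) :=
    mx_reverse_factor hp₀ A1₂ A1₁
  -- (i)
  have hP : ∫⁻ y, W₁ y * W₂ y ≤ 8 := by
    refine (mx_extrap_pair hp hw.meas hw.pos hw.fin A1₁.meas A1₂.meas).trans ?_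
    have e1 : (∫⁻ y, W₁ y ^ p * w y) ^ (1 / p) ≤ 4 := by
      refine (ENNReal.rpow_le_rpow N₁ (by positivity)).trans (le_of_eq ?_)
      rw [ENNReal.mul_rpow_of_nonneg _ _ (by positivity), ← ENNReal.rpow_mul,
        mul_one_div_cancel hp0.ne', ENNReal.rpow_one]
      norm_num
    have e2 : (∫⁻ y, W₂ y ^ (mxConj p) * mxDual p w y) ^ (1 / mxConj p) ≤ 2 := by
      refine (ENNReal.rpow_le_rpow N₂ (by positivity)).trans (le_of_eq ?_)
      rw [← ENNReal.rpow_mul, mul_one_div_cancel hq0.ne', ENNReal.rpow_one]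
    calc _ ≤ (4 : ℝ≥0∞) * 2 := mul_le_mul' e1 e2
      _ = 8 := by norm_num
  -- (iii), (ii)
  have h3 : a ≤ ∫⁻ y, U y * W₂ y := by
    rw [← n2b]
    exact lintegral_mono fun y => mul_le_mul_right (le₂ y) _
  have h4 := mx_extrap_holder hp₀ hU A1₁.meas A1₂.meas A1₁.pos A1₁.fin
  -- (iv)
  have hVb : ∀ y, V y ≤ b * W₁ y := by
    intro y
    calc V y = b * (b⁻¹ * V y) := by
          rw [← mul_assoc, ENNReal.mul_inv_cancel hb0 hbt, one_mul]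
      _ ≤ b * h₁ y := by
          refine mul_le_mul_right ?_ _
          rw [hh₁]
          exact le_add_self
      _ ≤ b * W₁ y := mul_le_mul_right (le₁ y) _
  have h5 := mx_exc_V (W₂ := W₂) hp₀ hbt hVb A1₁.pos A1₁.fin
  have h6 : ∫⁻ y, U y ^ p₀ * (W₂ y * W₁ y ^ (1 - p₀))
      ≤ (N (mxA0 p₀ p A) : ℝ≥0∞) * (b ^ p₀ * ∫⁻ y, W₁ y * W₂ y) :=
    (hyp _ _ hw₀).trans (mul_le_mul_right h5 _)
  have h7 : a ≤ ((N (mxA0 p₀ p A) : ℝ≥0∞) * (b ^ p₀ * ∫⁻ y, W₁ y * W₂ y)) ^ (1 / p₀)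
      * (∫⁻ y, W₁ y * W₂ y) ^ (1 / mxConj p₀) :=
    h3.trans (h4.trans (mul_le_mul_left (ENNReal.rpow_le_rpow h6 (by positivity)) _))
  have h8 := mx_exc_final hp₀ hp0 h7 hP
  rw [hap, hbp] at h8
  refine h8.trans (le_of_eq ?_)
  congr 1
  unfold mxK
  rw [ENNReal.coe_mul, ENNReal.coe_rpow_of_nonneg _ hp0.le,
    ENNReal.coe_rpow_of_nonneg _ (by positivity : 0 ≤ p / p₀)]
  norm_num

end Claimed.Agent.R258
end

/- ===== packed: Claimed.Agent.R258.Max.Extrap ===== -/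
section
/-
Row 258, block [MAX], package P-MAX-EXTRAP (architect helper192).

Rubio de Francia extrapolation, family-of-pairs form (paper: proof of Lemma 7.1; Cruz-Uribe, Martell,
Perez, Thm 3.9), stated for ONE pair `(U, V)` of measurable `ℝ≥0∞`-valued functions with explicit constants,
and WITHOUT any finiteness assumption (removed by truncation of `U`).

PROOF of `mx_extrap` from `mx_extrap_core`.  `A > 0` (`MxAp.const_pos`), so `mxK p₀ p N A > 0` (`mxK_pos`).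
  If `∫ V^p w = ⊤` the right side is `⊤` (this is the only place where `hN` is used: `0 * ⊤ = 0` in `ℝ≥0∞`).
  If `∫ V^p w = 0` then `V = 0` a.e. (`w ≠ 0` a.e.), the hypothesis with the weight `1` (`mxAp_one`) gives `∫ U^(p₀) = 0`,
  so `U = 0` a.e. and the left side is `0`.
  Otherwise apply the core to `U_n = min (U, n) 1_{Ioo (-n) n}` (the hypothesis is inherited
  since `U_n ≤ U`; `∫ U_n^p w ≤ n^p ∫_{Ioo (-n) n} w < ∞` by `MxAp.lintegral_ne_top`; if `∫ U_n^p w = 0` there is nothing to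
  prove) and let `n → ∞` (`U_n ↑ U` pointwise; monotone convergence, `lintegral_iSup`).
-/
set_option autoImplicit false

open MeasureTheory Set
open scoped ENNReal NNReal

namespace Claimed.Agent.R258

theorem mxA0_pos {p₀ p : ℝ} (hp : 1 < p) {A : ℝ≥0} (hA : 0 < A) : 0 < mxA0 p₀ p A :=
  mul_pos (mul_pos two_pos (mxB_pos (mxConj_gt_one hp) (NNReal.rpow_pos hA)))
    (NNReal.rpow_pos (mul_pos two_pos (mxB_pos hp hA)))

theorem mxK_pos {p₀ p : ℝ} (hp : 1 < p) {N : ℝ≥0 → ℝ≥0} (hN : ∀ A₀, 0 < A₀ → 0 < N A₀)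
    {A : ℝ≥0} (hA : 0 < A) : 0 < mxK p₀ p N A :=
  mul_pos (NNReal.rpow_pos (by norm_num)) (NNReal.rpow_pos (hN _ (mxA0_pos hp hA)))

/-- truncation -/
noncomputable def mxTrunc (U : ℝ → ℝ≥0∞) (n : ℕ) : ℝ → ℝ≥0∞ :=
  (Ioo (-((n : ℝ) + 1)) ((n : ℝ) + 1)).indicator fun x => min (U x) ((n + 1 : ℕ) : ℝ≥0∞)

theorem mxTrunc_measurable {U : ℝ → ℝ≥0∞} (hU : Measurable U) (n : ℕ) :
    Measurable (mxTrunc U n) :=
  (hU.min measurable_const).indicator measurableSet_Ioo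

theorem mxTrunc_le (U : ℝ → ℝ≥0∞) (n : ℕ) (x : ℝ) : mxTrunc U n x ≤ U x := by
  unfold mxTrunc
  refine indicator_le' (fun _ _ => min_le_left _ _) (fun _ _ => zero_le) x

theorem mxTrunc_mono (U : ℝ → ℝ≥0∞) (x : ℝ) : Monotone fun n => mxTrunc U n x := by
  intro n m hnm
  have hnm' : (n : ℝ) ≤ m := by exact_mod_cast hnm
  unfold mxTrunc
  simp only
  refine le_trans (indicator_le_indicator_of_subset (t := Ioo (-((m : ℝ) + 1)) ((m : ℝ) + 1))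
    (Ioo_subset_Ioo (by linarith) (by linarith)) (fun _ => zero_le) x) ?_
  refine indicator_le_indicator ?_
  exact min_le_min le_rfl (by exact_mod_cast Nat.succ_le_succ hnm)

theorem mxTrunc_tendsto (U : ℝ → ℝ≥0∞) (x : ℝ) :
    Filter.Tendsto (fun n => mxTrunc U n x) Filter.atTop (nhds (U x)) := by
  have h1 : Filter.Tendsto (fun n : ℕ => min (U x) ((n + 1 : ℕ) : ℝ≥0∞)) Filter.atTop
      (nhds (min (U x) ⊤)) :=
    tendsto_const_nhds.min (ENNReal.tendsto_nat_nhds_top.comp (Filter.tendsto_add_atTop_nat 1))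
  rw [min_eq_left le_top] at h1
  refine h1.congr' ?_
  obtain ⟨N, hN⟩ := exists_nat_gt |x|
  filter_upwards [Filter.eventually_ge_atTop N] with n hn
  have hn' : (N : ℝ) ≤ n := by exact_mod_cast hn
  have := abs_lt.mp hN
  unfold mxTrunc
  rw [indicator_of_mem]
  exact ⟨by linarith [this.1], by linarith [this.2]⟩

theorem mxTrunc_lintegral_ne_top {p : ℝ} (hp : 1 < p) {A : ℝ≥0} {w : ℝ → ℝ≥0∞} (hw : MxAp p A w)
    (U : ℝ → ℝ≥0∞) (n : ℕ) : ∫⁻ y, mxTrunc U n y ^ p * w y ≠ ⊤ := by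
  have hp0 : 0 < p := by linarith
  have hab : -((n : ℝ) + 1) < (n : ℝ) + 1 := by
    have : (0 : ℝ) ≤ n := Nat.cast_nonneg n
    linarith
  have hle : ∀ y, mxTrunc U n y ^ p * w y
      ≤ (Ioo (-((n : ℝ) + 1)) ((n : ℝ) + 1)).indicator
        (fun y => ((n + 1 : ℕ) : ℝ≥0∞) ^ p * w y) y := by
    intro y
    unfold mxTrunc
    by_cases hy : y ∈ Ioo (-((n : ℝ) + 1)) ((n : ℝ) + 1)
    · rw [indicator_of_mem hy, indicator_of_mem hy]
      exact mul_le_mul_left (ENNReal.rpow_le_rpow (min_le_right _ _) hp0.le) _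
    · rw [indicator_of_notMem hy, indicator_of_notMem hy, ENNReal.zero_rpow_of_pos hp0, zero_mul]
  refine ne_top_of_le_ne_top ?_ (lintegral_mono hle)
  rw [lintegral_indicator measurableSet_Ioo, lintegral_const_mul _ hw.meas]
  exact ENNReal.mul_ne_top (ENNReal.rpow_ne_top_of_nonneg hp0.le (ENNReal.natCast_ne_top _))
    (hw.lintegral_ne_top hp hab)

/-- **Rubio de Francia extrapolation** for one pair of functions. -/
theorem mx_extrap {p₀ p : ℝ} (hp₀ : 1 < p₀) (hp : 1 < p) (N : ℝ≥0 → ℝ≥0)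
    (hN : ∀ A₀, 0 < A₀ → 0 < N A₀)
    {U V : ℝ → ℝ≥0∞} (hU : Measurable U) (hV : Measurable V)
    (hyp : ∀ (A₀ : ℝ≥0) (w₀ : ℝ → ℝ≥0∞), MxAp p₀ A₀ w₀ →
      ∫⁻ y, U y ^ p₀ * w₀ y ≤ N A₀ * ∫⁻ y, V y ^ p₀ * w₀ y)
    {A : ℝ≥0} {w : ℝ → ℝ≥0∞} (hw : MxAp p A w) :
    ∫⁻ y, U y ^ p * w y ≤ mxK p₀ p N A * ∫⁻ y, V y ^ p * w y := by
  have hp0 : 0 < p := by linarith
  have hp₀0 : 0 < p₀ := by linarith
  have hK : (mxK p₀ p N A : ℝ≥0∞) ≠ 0 := by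
    exact_mod_cast (mxK_pos hp hN (hw.const_pos hp)).ne'
  by_cases hV1 : ∫⁻ y, V y ^ p * w y = ⊤
  · rw [hV1, ENNReal.mul_top hK]
    exact le_top
  by_cases hV0 : ∫⁻ y, V y ^ p * w y = 0
  · have hmV : Measurable fun y => V y ^ p * w y := (hV.pow_const _).mul hw.meas
    have hVz : ∀ᵐ y, V y = 0 := by
      rw [lintegral_eq_zero_iff hmV] at hV0
      filter_upwards [hV0, hw.pos] with y hy hwy
      simp only [Pi.zero_apply, mul_eq_zero] at hy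
      rcases hy with hy | hy
      · rw [ENNReal.rpow_eq_zero_iff] at hy
        rcases hy with ⟨h, _⟩ | ⟨_, h⟩
        · exact h
        · linarith
      · exact absurd hy hwy
    have h1 := hyp 1 (fun _ => 1) (mxAp_one hp₀)
    have h2 : ∫⁻ y, V y ^ p₀ * (1 : ℝ≥0∞) = 0 := by
      have hm : Measurable fun y => V y ^ p₀ * (1 : ℝ≥0∞) := (hV.pow_const _).mul measurable_const
      rw [lintegral_eq_zero_iff hm]
      filter_upwards [hVz] with y hy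
      simp only [Pi.zero_apply]
      rw [hy, ENNReal.zero_rpow_of_pos hp₀0, zero_mul]
    rw [h2, mul_zero, nonpos_iff_eq_zero] at h1
    have hm : Measurable fun y => U y ^ p₀ * (1 : ℝ≥0∞) := (hU.pow_const _).mul measurable_const
    rw [lintegral_eq_zero_iff hm] at h1
    have h3 : ∫⁻ y, U y ^ p * w y = 0 := by
      have hmU : Measurable fun y => U y ^ p * w y := (hU.pow_const _).mul hw.meas
      rw [lintegral_eq_zero_iff hmU]
      filter_upwards [h1] with y hy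
      simp only [Pi.zero_apply, mul_one] at hy ⊢
      rw [ENNReal.rpow_eq_zero_iff] at hy
      rcases hy with ⟨h, _⟩ | ⟨_, h⟩
      · rw [h, ENNReal.zero_rpow_of_pos hp0, zero_mul]
      · linarith
    rw [h3]
    exact zero_le
  -- main case
  have hstep : ∀ n, ∫⁻ y, mxTrunc U n y ^ p * w y ≤ mxK p₀ p N A * ∫⁻ y, V y ^ p * w y := by
    intro n
    by_cases hz : ∫⁻ y, mxTrunc U n y ^ p * w y = 0
    · rw [hz]
      exact zero_le
    refine mx_extrap_core hp₀ hp N (mxTrunc_measurable hU n) hV ?_ hw hz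
      (mxTrunc_lintegral_ne_top hp hw U n) hV0 hV1
    intro A₀ w₀ hw₀
    refine le_trans (lintegral_mono fun y => ?_) (hyp A₀ w₀ hw₀)
    exact mul_le_mul_left (ENNReal.rpow_le_rpow (mxTrunc_le U n y) hp₀0.le) _
  have hm : ∀ n, AEMeasurable (fun y => mxTrunc U n y ^ p * w y) volume := fun n =>
    (((mxTrunc_measurable hU n).pow_const _).mul hw.meas).aemeasurable
  have hmono : ∀ᵐ y, Monotone fun n => mxTrunc U n y ^ p * w y :=
    Filter.Eventually.of_forall fun y n m hnm =>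
      mul_le_mul_left (ENNReal.rpow_le_rpow (mxTrunc_mono U y hnm) hp0.le) _
  have hlim : ∀ᵐ y, Filter.Tendsto (fun n => mxTrunc U n y ^ p * w y) Filter.atTop
      (nhds (U y ^ p * w y)) := by
    filter_upwards [hw.fin] with y hy
    exact ENNReal.Tendsto.mul_const
      (((ENNReal.continuous_rpow_const (y := p)).tendsto _).comp (mxTrunc_tendsto U y)) (Or.inr hy)
  exact le_of_tendsto' (lintegral_tendsto_of_tendsto_of_monotone hm hmono hlim) hstep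

end Claimed.Agent.R258
end

/- ===== packed: Claimed.Agent.R258.Max.Mixed ===== -/
section
/-
Row 258, block [MAX], package P-MAX-MIXED (architect helper192).

**Lemma 7.1** (sides.tex, lem:sides-mixed-maximal): the Hardy-Littlewood operator in the real variable `y` is bounded on
`L^r_y(v; L^s_ξ(X; L^t_w(W)))`, `1 < r, s, t < ∞`, `v ∈ A_r`, for ARBITRARY s-finite measure spaces `X`, `W` and jointly
measurable `g`.  The constant `mxC3 r s t A` depends on `r, s, t` and the `A_r` constant only.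

PROOF (as in the paper; two extrapolations).
  `U1 ξ y = (∫_w (M g(·,ξ,w))(y)^t)^(1/t)`, `V1 ξ y = (∫_w g(y,ξ,w)^t)^(1/t)`.
  Step 1: `mx_weighted` at exponent `t`, integrated in `w` (Tonelli): for all `A_t` weights `∫ U1^t v ≤ mxCw t A ∫ V1^t v`.
  Step 2: `mx_extrap` (`t → s`).   Step 3: integrate in `ξ` (Tonelli): pair `U2 = (∫_ξ U1^s)^(1/s)`, `V2`.
  Step 4: `mx_extrap` (`s → r`).
-/
set_option autoImplicit false

open MeasureTheory Set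
open scoped ENNReal NNReal

namespace Claimed.Agent.R258

/-- Constant of Lemma 7.1. -/
noncomputable def mxC3 (r s t : ℝ) (A : ℝ≥0) : ℝ≥0 := mxK s r (mxK t s (mxCw t)) A

/-- One step of the proof of Lemma 7.1: a weighted `L^t` inequality, uniform in a parameter `z`, is integrated in `z` and
extrapolated to the exponent `s`.  `P`, `Q` play the roles of `U^t`, `V^t`. -/
theorem mx_mixed_lift {Z : Type*} [MeasurableSpace Z] (ρ : Measure Z) [SFinite ρ] {t s : ℝ}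
    (ht : 1 < t) (hs : 1 < s) (N : ℝ≥0 → ℝ≥0) (hN : ∀ A₀, 0 < A₀ → 0 < N A₀)
    (P Q : ℝ → Z → ℝ≥0∞) (hP : Measurable (Function.uncurry P))
    (hQ : Measurable (Function.uncurry Q))
    (hyp : ∀ (z : Z) (A₀ : ℝ≥0) (w₀ : ℝ → ℝ≥0∞), MxAp t A₀ w₀ →
      ∫⁻ y, P y z * w₀ y ≤ N A₀ * ∫⁻ y, Q y z * w₀ y)
    {A : ℝ≥0} {v : ℝ → ℝ≥0∞} (hv : MxAp s A v) :
    ∫⁻ y, (∫⁻ z, P y z ∂ρ) ^ (s / t) * v y
      ≤ mxK t s N A * ∫⁻ y, (∫⁻ z, Q y z ∂ρ) ^ (s / t) * v y := by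
  have ht0 : t ≠ 0 := by positivity
  have hPm : Measurable (fun y => ∫⁻ z, P y z ∂ρ) := hP.lintegral_prod_right
  have hQm : Measurable (fun y => ∫⁻ z, Q y z ∂ρ) := hQ.lintegral_prod_right
  have key := mx_extrap (p₀ := t) (p := s) ht hs N hN
    (U := fun y => (∫⁻ z, P y z ∂ρ) ^ (1 / t)) (V := fun y => (∫⁻ z, Q y z ∂ρ) ^ (1 / t))
    (hPm.pow_const _) (hQm.pow_const _) ?_ hv
  · have e : ∀ x : ℝ≥0∞, (x ^ (1 / t)) ^ s = x ^ (s / t) := by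
      intro x
      rw [← ENNReal.rpow_mul]
      congr 1
      field_simp
    simpa only [e] using key
  · intro A₀ w₀ hw₀
    have e : ∀ x : ℝ≥0∞, (x ^ (1 / t)) ^ t = x := by
      intro x
      rw [← ENNReal.rpow_mul, one_div, inv_mul_cancel₀ ht0, ENNReal.rpow_one]
    simp only [e]
    have swap : ∀ R : ℝ → Z → ℝ≥0∞, Measurable (Function.uncurry R) →
        ∫⁻ y, (∫⁻ z, R y z ∂ρ) * w₀ y = ∫⁻ z, (∫⁻ y, R y z * w₀ y) ∂ρ := by
      intro R hR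
      have h1 : ∀ y, (∫⁻ z, R y z ∂ρ) * w₀ y = ∫⁻ z, R y z * w₀ y ∂ρ := by
        intro y
        rw [lintegral_mul_const]
        exact hR.comp (measurable_const.prodMk measurable_id)
      simp only [h1]
      rw [lintegral_lintegral_swap]
      exact (hR.mul (hw₀.meas.comp measurable_fst)).aemeasurable
    rw [swap P hP, swap Q hQ]
    calc ∫⁻ z, (∫⁻ y, P y z * w₀ y) ∂ρ ≤ ∫⁻ z, N A₀ * (∫⁻ y, Q y z * w₀ y) ∂ρ :=
          lintegral_mono (fun z => hyp z A₀ w₀ hw₀)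
      _ = N A₀ * ∫⁻ z, (∫⁻ y, Q y z * w₀ y) ∂ρ := by
          rw [lintegral_const_mul]
          exact Measurable.lintegral_prod_left'
            (f := fun q : ℝ × Z => Q q.1 q.2 * w₀ q.1) (hQ.mul (hw₀.meas.comp measurable_fst))

variable {X W : Type*} [MeasurableSpace X] [MeasurableSpace W]

/-- Two-level version (Fefferman-Stein inequality with weights). -/
theorem mx_mixed_two (ν : Measure W) [SFinite ν] {s t : ℝ} (hs : 1 < s) (ht : 1 < t) {A : ℝ≥0}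
    {v : ℝ → ℝ≥0∞} (hv : MxAp s A v) (g : ℝ → W → ℝ≥0∞) (hg : Measurable (Function.uncurry g)) :
    ∫⁻ y, (∫⁻ w, mxM (fun y' => g y' w) y ^ t ∂ν) ^ (s / t) * v y
      ≤ mxK t s (mxCw t) A * ∫⁻ y, (∫⁻ w, g y w ^ t ∂ν) ^ (s / t) * v y := by
  refine mx_mixed_lift ν ht hs (mxCw t) (fun A₀ h => mxCw_pos ht h)
    (fun y w => mxM (fun y' => g y' w) y ^ t) (fun y w => g y w ^ t) ?_ ?_ ?_ hv
  · exact (mxM_measurable_param g hg).pow_const t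
  · exact hg.pow_const t
  · intro w A₀ w₀ hw₀
    exact mx_weighted ht hw₀ (fun y' => g y' w) (hg.comp (measurable_id.prodMk measurable_const))

/-- **Lemma 7.1**, weighted form. -/
theorem mx_mixed_weighted (μ : Measure X) (ν : Measure W) [SFinite μ] [SFinite ν] {r s t : ℝ}
    (hr : 1 < r) (hs : 1 < s) (ht : 1 < t) {A : ℝ≥0} {v : ℝ → ℝ≥0∞} (hv : MxAp r A v)
    (g : ℝ → X → W → ℝ≥0∞) (hg : Measurable (fun z : ℝ × X × W => g z.1 z.2.1 z.2.2)) :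
    ∫⁻ y, (∫⁻ ξ, (∫⁻ w, mxM (fun y' => g y' ξ w) y ^ t ∂ν) ^ (s / t) ∂μ) ^ (r / s) * v y
      ≤ mxC3 r s t A *
        ∫⁻ y, (∫⁻ ξ, (∫⁻ w, g y ξ w ^ t ∂ν) ^ (s / t) ∂μ) ^ (r / s) * v y := by
  have hassoc : Measurable (fun q : (ℝ × X) × W => ((q.1.1, q.1.2, q.2) : ℝ × X × W)) :=
    (measurable_fst.comp measurable_fst).prodMk
      ((measurable_snd.comp measurable_fst).prodMk measurable_snd)
  refine mx_mixed_lift μ hs hr (mxK t s (mxCw t))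
    (fun A₀ h => mxK_pos hs (fun A₁ h₁ => mxCw_pos ht h₁) h)
    (fun y ξ => (∫⁻ w, mxM (fun y' => g y' ξ w) y ^ t ∂ν) ^ (s / t))
    (fun y ξ => (∫⁻ w, g y ξ w ^ t ∂ν) ^ (s / t)) ?_ ?_ ?_ hv
  · have h1 : Measurable (fun z : ℝ × X × W => mxM (fun y' => g y' z.2.1 z.2.2) z.1) :=
      mxM_measurable_param (Z := X × W) (fun y z => g y z.1 z.2) hg
    have h2 : Measurable (fun q : (ℝ × X) × W => mxM (fun y' => g y' q.1.2 q.2) q.1.1 ^ t) :=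
      (h1.comp hassoc).pow_const t
    exact (Measurable.lintegral_prod_right' (ν := ν) h2).pow_const _
  · have h2 : Measurable (fun q : (ℝ × X) × W => g q.1.1 q.1.2 q.2 ^ t) :=
      (hg.comp hassoc).pow_const t
    exact (Measurable.lintegral_prod_right' (ν := ν) h2).pow_const _
  · intro ξ A₀ w₀ hw₀
    exact mx_mixed_two ν hs ht hw₀ (fun y w => g y ξ w)
      (hg.comp (measurable_fst.prodMk (measurable_const.prodMk measurable_snd)))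

/-- **Lemma 7.1**, unweighted form. -/
theorem mx_mixed (μ : Measure X) (ν : Measure W) [SFinite μ] [SFinite ν] {r s t : ℝ}
    (hr : 1 < r) (hs : 1 < s) (ht : 1 < t)
    (g : ℝ → X → W → ℝ≥0∞) (hg : Measurable (fun z : ℝ × X × W => g z.1 z.2.1 z.2.2)) :
    ∫⁻ y, (∫⁻ ξ, (∫⁻ w, mxM (fun y' => g y' ξ w) y ^ t ∂ν) ^ (s / t) ∂μ) ^ (r / s)
      ≤ mxC3 r s t 1 *
        ∫⁻ y, (∫⁻ ξ, (∫⁻ w, g y ξ w ^ t ∂ν) ^ (s / t) ∂μ) ^ (r / s) := by
  simpa only [mul_one] using mx_mixed_weighted μ ν hr hs ht (mxAp_one hr) g hg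

/-- **Lemma 7.1**, second assertion: `‖M_q f‖_{L^p_y L^b_ξ L^h_w} ≤ C ‖f‖_{L^p_y L^b_ξ L^h_w}` for `p, b, h > q > 0`
(`p`-th powers of the norms). -/
theorem mx_mixed_Mq (μ : Measure X) (ν : Measure W) [SFinite μ] [SFinite ν] {p b h q : ℝ}
    (hq : 0 < q) (hp : q < p) (hb : q < b) (hh : q < h)
    (f : ℝ → X → W → ℝ≥0∞) (hf : Measurable (fun z : ℝ × X × W => f z.1 z.2.1 z.2.2)) :
    ∫⁻ y, (∫⁻ ξ, (∫⁻ w, mxMqE q (fun y' => f y' ξ w) y ^ h ∂ν) ^ (b / h) ∂μ) ^ (p / b)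
      ≤ mxC3 (p / q) (b / q) (h / q) 1 *
        ∫⁻ y, (∫⁻ ξ, (∫⁻ w, f y ξ w ^ h ∂ν) ^ (b / h) ∂μ) ^ (p / b) := by
  have hq0 : q ≠ 0 := hq.ne'
  have hb0 : b ≠ 0 := (hq.trans hb).ne'
  have hh0 : h ≠ 0 := (hq.trans hh).ne'
  have key := mx_mixed μ ν (r := p / q) (s := b / q) (t := h / q)
    ((one_lt_div hq).2 hp) ((one_lt_div hq).2 hb) ((one_lt_div hq).2 hh)
    (fun y ξ w => f y ξ w ^ q) (hf.pow_const q)
  have e1 : b / q / (h / q) = b / h := by field_simp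
  have e2 : p / q / (b / q) = p / b := by field_simp
  have e3 : ∀ x : ℝ≥0∞, (x ^ q) ^ (h / q) = x ^ h := by
    intro x
    rw [← ENNReal.rpow_mul]
    congr 1
    field_simp
  have e4 : ∀ x : ℝ≥0∞, (x ^ (1 / q)) ^ h = x ^ (h / q) := by
    intro x
    rw [← ENNReal.rpow_mul]
    congr 1
    field_simp
  simp only [e1, e2, e3] at key
  simpa only [mxMqE, e4] using key

end Claimed.Agent.R258
end
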