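/- Packed by merge_tool.py (helper293): 9 modules of Claimed.Agent.R258 in one file, same declarations.
   Old modules, in this order: U3.Defs, U3.Kit, U3.Bohr, U3.Lin.BSGDefs, U3.Lin.BSG1, U3.Lin.BSG2, U3.Lin.BSG3, U3.Lin.BSG4, U3.Lin.BSG -/
import Mathlib

/- ===== packed: Claimed.Agent.R258.U3.Defs ===== -/
section
/-
R258 / U3 : the paper-independent QUASIPOLYNOMIAL INVERSE THEOREM FOR THE U^3 NORM (block [U3] of row 258, S0498).
Owner of this file: helper52.   Namespace `Claimed.Agent.R258.U3`.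

DEFINITIONS ONLY.  The chain of theorems is described in `U3/Main.lean` (top assembly) and in the headers of the block files.

Conventions.
* `N` is a positive integer (in the chain: an odd prime), the group is `ZMod N`.
* `fr a`   = the signed fractional part of `a / N`, in `(-1/2, 1/2]`  (`valMinAbs / N`).
* `nrm a`  = `|fr a|` = distance of `a / N` to the nearest integer.
* `eN a`   = `e(a / N)` = `ZMod.stdAddChar a`.
* `zbohr S r` = Bohr set `{x : nrm (s * x) ≤ r for all s ∈ S}` (ARC norm, closed condition).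
* `LocLin S r M` : `M (x + y) = M x + M y` for ALL PAIRS `x, y ∈ zbohr S r` (no condition on `x + y`).
* all sums are UNNORMALISED (no expectations).
* `pl C X = C * X ^ C` : "polylogarithmic" bound;  a quantity `r` is "quasipolynomially not small" if `exp (-(pl C X)) ≤ r`.
-/
set_option autoImplicit false

namespace Claimed.Agent.R258.U3

open Finset
open scoped ComplexConjugate

/-- `pl C X = C * X ^ C`. -/
noncomputable def pl (C : ℕ) (X : ℝ) : ℝ := C * X ^ C

/-- `qs C X = exp (-(C * X ^ C))`, the generic quasipolynomially small threshold. -/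
noncomputable def qs (C : ℕ) (X : ℝ) : ℝ := Real.exp (-(pl C X))

/-- signed fractional part of a real number, `t - round t ∈ [-1/2, 1/2)`. -/
noncomputable def sfr (t : ℝ) : ℝ := t - round t

/-- `e(t) = exp (2 π i t)`. -/
noncomputable def eR (t : ℝ) : ℂ := Complex.exp (2 * Real.pi * Complex.I * t)

section ZModDefs

variable {N : ℕ} [NeZero N]

/-- signed fractional part of `a / N`. -/
noncomputable def fr (a : ZMod N) : ℝ := (a.valMinAbs : ℝ) / N

/-- arc norm of `a / N`. -/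
noncomputable def nrm (a : ZMod N) : ℝ := |fr a|

/-- `e(a / N)`. -/
noncomputable def eN (a : ZMod N) : ℂ := ZMod.stdAddChar a

open scoped Classical in
/-- Bohr set of `ZMod N` with frequency set `S` and (arc) radius `r`. -/
noncomputable def zbohr (S : Finset (ZMod N)) (r : ℝ) : Finset (ZMod N) :=
  univ.filter fun x => ∀ s ∈ S, nrm (s * x) ≤ r

/-- local linearity: additivity on all pairs of the Bohr set. -/
def LocLin (S : Finset (ZMod N)) (r : ℝ) (M : ZMod N → ZMod N) : Prop :=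
  ∀ x ∈ zbohr S r, ∀ y ∈ zbohr S r, M (x + y) = M x + M y

/-- the raw `U^3` cube sum on `ZMod N` (a nonnegative real number). -/
noncomputable def cube (f : ZMod N → ℂ) : ℂ :=
  ∑ x, ∑ h₁, ∑ h₂, ∑ h₃,
    f x * conj (f (x + h₁)) * conj (f (x + h₂)) * conj (f (x + h₃)) *
      f (x + h₁ + h₂) * f (x + h₁ + h₃) * f (x + h₂ + h₃) * conj (f (x + h₁ + h₂ + h₃))

/-- the raw `U^2` sum on `ZMod N`. -/
noncomputable def sq2 (g : ZMod N → ℂ) : ℂ :=
  ∑ x, ∑ h₁, ∑ h₂, g x * conj (g (x + h₁)) * conj (g (x + h₂)) * g (x + h₁ + h₂)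

/-- unnormalised Fourier transform on `ZMod N`. -/
noncomputable def ft (g : ZMod N → ℂ) (ξ : ZMod N) : ℂ := ∑ x, g x * eN (-(ξ * x))

/-- `∑_x f (x + h) conj (g x) e(- ξ x / N)`: Fourier coefficient of the multiplicative derivative. -/
noncomputable def dcoef (f g : ZMod N → ℂ) (h ξ : ZMod N) : ℂ :=
  ∑ x, f (x + h) * conj (g x) * eN (-(ξ * x))

/-- the graph of `φ` over `H`. -/
noncomputable def graph (H : Finset (ZMod N)) (φ : ZMod N → ZMod N) : Finset (ZMod N × ZMod N) :=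
  H.image fun h => (h, φ h)

/-- the antisymmetric form `{x, y} = M x * y - M y * x`. -/
def asym (M : ZMod N → ZMod N) (x y : ZMod N) : ZMod N := M x * y - M y * x

/-- **The state (★)** after linearisation: `M` is locally linear on `zbohr S (2 r)` and the derivatives of (a translate of) `f`
correlate with the phases `e(M h x / N)` for `h` in `zbohr S r`. -/
structure Star (f : ZMod N → ℂ) (S : Finset (ZMod N)) (r η : ℝ) (M : ZMod N → ZMod N) : Prop where
  lin : LocLin S (2 * r) M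
  corr : ∃ (x₀ : ZMod N) (f₂ : ZMod N → ℂ), (∀ x, ‖f₂ x‖ ≤ 1) ∧
    η * (zbohr S r).card * (N : ℝ) ^ 2 ≤ ∑ h ∈ zbohr S r, ‖dcoef (fun x => f (x + x₀)) f₂ h (M h)‖ ^ 2

end ZModDefs

/-- the raw cube sum of a function on `ℤ` supported on `[0, L)`. -/
noncomputable def cubeZ (L : ℕ) (f : ℤ → ℂ) : ℂ :=
  ∑ x ∈ Finset.Ico (0 : ℤ) L, ∑ h₁ ∈ Finset.Ioo (-(L : ℤ)) L, ∑ h₂ ∈ Finset.Ioo (-(L : ℤ)) L,
    ∑ h₃ ∈ Finset.Ioo (-(L : ℤ)) L,
    f x * conj (f (x + h₁)) * conj (f (x + h₂)) * conj (f (x + h₃)) *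
      f (x + h₁ + h₂) * f (x + h₁ + h₃) * f (x + h₂ + h₃) * conj (f (x + h₁ + h₂ + h₃))

section General

variable {G : Type*} [AddCommGroup G] [Fintype G]

open scoped Classical in
/-- Bohr set of a finite abelian group, CHORDAL metric: `‖ψ x - 1‖ ≤ r` for all `ψ ∈ Λ`. -/
noncomputable def cbohr (Λ : Finset (AddChar G ℂ)) (r : ℝ) : Finset G :=
  univ.filter fun x => ∀ ψ ∈ Λ, ‖ψ x - 1‖ ≤ r

/-- unnormalised Fourier transform on a finite abelian group. -/
noncomputable def gft (f : G → ℂ) (ψ : AddChar G ℂ) : ℂ := ∑ x, f x * conj (ψ x)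

end General

end Claimed.Agent.R258.U3
end

/- ===== packed: Claimed.Agent.R258.U3.Kit ===== -/
section
/-
R258 / U3 / Kit : elementary facts on `fr`, `nrm`, `eN`, `ft` (ZMod N) and on `pl`, `qs`.
Blueprint owner: helper52.  Every `sorry` below is a LEAF (claim the whole section named in the subtask table, fill in place, keep the
statements verbatim; extra private helper lemmas are welcome, prefix `kit_`).

SECTION K1 (arc norm):  all statements are elementary consequences of `ZMod.valMinAbs` API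
  (`ZMod.coe_valMinAbs`, `ZMod.valMinAbs_mem_Ioc`, `ZMod.valMinAbs_spec`, `ZMod.natAbs_valMinAbs_le`,
   `ZMod.natAbs_valMinAbs_add_le`, `ZMod.valMinAbs_neg_of_ne_half`, `ZMod.natAbs_valMinAbs_neg`).
SECTION K2 (the character `eN`): `ZMod.stdAddChar`, `ZMod.stdAddChar_coe`, `ZMod.isPrimitive_stdAddChar`, `AddChar.sum_mulShift`,
   `AddChar.zmodAddEquiv`;  chord/arc comparison  `4 ‖t‖ ≤ |e(t) - 1| = 2 |sin π t| ≤ 2 π ‖t‖`
   (`Real.mul_le_sin`, `Real.sin_le`, `Complex.norm_exp_I_mul_ofReal_sub_one`).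
SECTION K3 (Fourier analysis on ZMod N, unnormalised): orthogonality, Parseval, the `U^2` identity.
SECTION K4 (`pl`, `qs` calculus).
-/
set_option autoImplicit false

namespace Claimed.Agent.R258.U3

open Finset
open scoped ComplexConjugate

variable {N : ℕ} [NeZero N]

/-! ### K1 : arc norm  (PROVED, helper52) -/

theorem kit_Npos : (0 : ℝ) < N := by exact_mod_cast Nat.pos_of_ne_zero (NeZero.ne N)

theorem fr_zero : fr (0 : ZMod N) = 0 := by
  simp [fr, ZMod.valMinAbs_zero]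

theorem nrm_zero : nrm (0 : ZMod N) = 0 := by
  simp [nrm, fr_zero]

theorem nrm_nonneg (a : ZMod N) : 0 ≤ nrm a := abs_nonneg _

theorem kit_nrm_eq (a : ZMod N) : nrm a = (a.valMinAbs.natAbs : ℝ) / N := by
  unfold nrm fr
  rw [abs_div, abs_of_pos (kit_Npos (N := N)), Nat.cast_natAbs, Int.cast_abs]

theorem nrm_le_half (a : ZMod N) : nrm a ≤ 1 / 2 := by
  rw [kit_nrm_eq, div_le_iff₀ kit_Npos]
  have h := ZMod.natAbs_valMinAbs_le a
  have h2 : a.valMinAbs.natAbs * 2 ≤ N := by omega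
  have h3 : (a.valMinAbs.natAbs : ℝ) * 2 ≤ N := by exact_mod_cast h2
  linarith

theorem nrm_neg (a : ZMod N) : nrm (-a) = nrm a := by
  rw [kit_nrm_eq, kit_nrm_eq, ZMod.natAbs_valMinAbs_neg]

/-- `nrm` is the minimum of `|n| / N` over the integer representatives. -/
theorem nrm_intCast_le (n : ℤ) : nrm (n : ZMod N) ≤ |(n : ℝ)| / N := by
  rw [kit_nrm_eq]
  have h := ZMod.natAbs_min_of_le_div_two N ((n : ZMod N).valMinAbs) n (by simp) (ZMod.natAbs_valMinAbs_le _)
  have h2 : (((n : ZMod N).valMinAbs.natAbs : ℕ) : ℝ) ≤ (n.natAbs : ℝ) := by exact_mod_cast h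
  have h3 : ((n.natAbs : ℕ) : ℝ) = |(n : ℝ)| := by rw [Nat.cast_natAbs, Int.cast_abs]
  rw [h3] at h2
  exact div_le_div_of_nonneg_right h2 kit_Npos.le

theorem nrm_add_le (a b : ZMod N) : nrm (a + b) ≤ nrm a + nrm b := by
  have h := nrm_intCast_le (N := N) (a.valMinAbs + b.valMinAbs)
  have e : ((a.valMinAbs + b.valMinAbs : ℤ) : ZMod N) = a + b := by simp
  rw [e] at h
  refine le_trans h ?_
  unfold nrm fr
  rw [abs_div, abs_div, abs_of_pos (kit_Npos (N := N)), ← add_div]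
  apply div_le_div_of_nonneg_right _ kit_Npos.le
  push_cast
  exact abs_add_le _ _

theorem nrm_sub_le (a b : ZMod N) : nrm (a - b) ≤ nrm a + nrm b := by
  rw [sub_eq_add_neg, ← nrm_neg b]
  exact nrm_add_le _ _

theorem nrm_sub_le_abs_fr_sub (a b : ZMod N) : nrm (a - b) ≤ |fr a - fr b| := by
  have h := nrm_intCast_le (N := N) (a.valMinAbs - b.valMinAbs)
  have e : ((a.valMinAbs - b.valMinAbs : ℤ) : ZMod N) = a - b := by simp
  rw [e] at h
  refine le_trans h (le_of_eq ?_)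
  unfold fr
  rw [← sub_div, abs_div, abs_of_pos (kit_Npos (N := N))]
  push_cast
  rfl

theorem nrm_eq_zero {a : ZMod N} : nrm a = 0 ↔ a = 0 := by
  unfold nrm fr
  rw [abs_eq_zero, div_eq_zero_iff]
  constructor
  · rintro (h | h)
    · have : a.valMinAbs = 0 := by exact_mod_cast h
      exact (ZMod.valMinAbs_eq_zero a).1 this
    · exact absurd h kit_Npos.ne'
  · rintro rfl
    left
    simp [ZMod.valMinAbs_zero]

theorem fr_neg (hN : Odd N) (a : ZMod N) : fr (-a) = -fr a := by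
  unfold fr
  rw [ZMod.valMinAbs_neg_of_ne_half]
  · push_cast; ring
  · intro h
    have : Even N := ⟨a.val, by omega⟩
    exact (Nat.not_even_iff_odd.2 hN) this

theorem fr_add {a b : ZMod N} (h : nrm a + nrm b < 1 / 2) : fr (a + b) = fr a + fr b := by
  have hN := kit_Npos (N := N)
  have key : (a + b).valMinAbs = a.valMinAbs + b.valMinAbs := by
    rw [ZMod.valMinAbs_spec]
    refine ⟨by simp, ?_, ?_⟩
    · have h1 : -(1 / 2 : ℝ) < fr a + fr b := by
        have := neg_abs_le (fr a); have := neg_abs_le (fr b)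
        unfold nrm at h; linarith
      unfold fr at h1
      rw [← add_div, lt_div_iff₀ hN] at h1
      have : (-(N : ℤ) : ℝ) < ((a.valMinAbs + b.valMinAbs) * 2 : ℤ) := by push_cast; linarith
      exact_mod_cast this
    · have h1 : fr a + fr b < 1 / 2 := by
        have := le_abs_self (fr a); have := le_abs_self (fr b)
        unfold nrm at h; linarith
      unfold fr at h1
      rw [← add_div, div_lt_iff₀ hN] at h1
      have : (((a.valMinAbs + b.valMinAbs) * 2 : ℤ) : ℝ) ≤ (N : ℤ) := by push_cast; linarith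
      exact_mod_cast this
  unfold fr
  rw [key]
  push_cast
  ring

theorem fr_intCast (n : ℤ) : ∃ m : ℤ, fr (n : ZMod N) = (n : ℝ) / N + m := by
  have h : (((n : ZMod N).valMinAbs : ℤ) : ZMod N) = ((n : ℤ) : ZMod N) := by simp
  rw [ZMod.intCast_eq_intCast_iff_dvd_sub] at h
  obtain ⟨k, hk⟩ := h
  refine ⟨-k, ?_⟩
  unfold fr
  have hN := kit_Npos (N := N)
  have : ((n : ZMod N).valMinAbs : ℝ) = n - N * k := by
    have : ((n - (n : ZMod N).valMinAbs : ℤ) : ℝ) = ((N * k : ℤ) : ℝ) := by rw [hk]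
    push_cast at this
    linarith
  rw [this]
  push_cast
  field_simp
  ring

theorem fr_intCast_eq_sfr (hN : Odd N) (n : ℤ) : fr (n : ZMod N) = sfr ((n : ℝ) / N) := by
  obtain ⟨m, hm⟩ := fr_intCast (N := N) n
  have hNp := kit_Npos (N := N)
  -- strict bounds
  have hlt : |fr (n : ZMod N)| < 1 / 2 := by
    have h1 := nrm_le_half (n : ZMod N)
    rcases lt_or_eq_of_le h1 with h | h
    · exact h
    · exfalso
      rw [kit_nrm_eq, div_eq_iff hNp.ne'] at h
      have : (((n : ZMod N).valMinAbs.natAbs * 2 : ℕ) : ℝ) = (N : ℕ) := by push_cast; linarith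
      have h2 : (n : ZMod N).valMinAbs.natAbs * 2 = N := by exact_mod_cast this
      exact (Nat.not_even_iff_odd.2 hN) ⟨(n : ZMod N).valMinAbs.natAbs, by omega⟩
  unfold sfr
  have hr : round ((n : ℝ) / N) = -m := by
    rw [round_eq, Int.floor_eq_iff]
    rw [abs_lt] at hlt
    push_cast
    constructor <;> linarith [hlt.1, hlt.2]
  rw [hr, hm]
  push_cast
  ring

theorem nrm_nsmul_le (k : ℕ) (a : ZMod N) : nrm (k • a) ≤ k * nrm a := by
  induction k with
  | zero => simp [nrm_zero]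
  | succ k ih =>
    rw [succ_nsmul]
    refine le_trans (nrm_add_le _ _) ?_
    push_cast
    linarith

theorem nrm_le_div_of_nsmul {k : ℕ} (hk : 1 ≤ k) {c : ℝ} (hc : c < 1 / 4) {a : ZMod N}
    (h : ∀ j : ℕ, 1 ≤ j → j ≤ k → nrm (j • a) ≤ c) : nrm a ≤ c / k := by
  have h1 : nrm a ≤ c := by simpa using h 1 le_rfl hk
  have key : ∀ j : ℕ, 1 ≤ j → j ≤ k → fr (j • a) = j * fr a := by
    intro j hj
    induction j, hj using Nat.le_induction with
    | base => intro _; simp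
    | succ j hj ih =>
      intro hjk
      have ihj := ih (by omega)
      rw [succ_nsmul, fr_add, ihj]
      · push_cast; ring
      · have := h j hj (by omega)
        linarith
  have h2 := h k hk le_rfl
  unfold nrm at h2 ⊢
  rw [key k hk le_rfl, abs_mul, Nat.abs_cast] at h2
  have hkpos : (0 : ℝ) < k := by exact_mod_cast hk
  rw [le_div_iff₀ hkpos]
  linarith

/-! ### K2 : the character  (PROVED, helper52) -/

theorem eN_zero : eN (0 : ZMod N) = 1 := by
  unfold eN; exact AddChar.map_zero_eq_one _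

theorem eN_add (a b : ZMod N) : eN (a + b) = eN a * eN b := by
  unfold eN; exact AddChar.map_add_eq_mul _ _ _

theorem eN_neg (a : ZMod N) : eN (-a) = conj (eN a) := by
  unfold eN; exact AddChar.map_neg_eq_conj _ _

theorem eN_sub (a b : ZMod N) : eN (a - b) = eN a * conj (eN b) := by
  rw [sub_eq_add_neg, eN_add, eN_neg]

theorem norm_eN (a : ZMod N) : ‖eN a‖ = 1 := by
  unfold eN; exact AddChar.norm_apply _ _

theorem eN_mul_conj (a : ZMod N) : eN a * conj (eN a) = 1 := by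
  rw [Complex.mul_conj, Complex.normSq_eq_norm_sq, norm_eN]; simp

theorem eN_intCast (n : ℤ) : eN (n : ZMod N) = eR ((n : ℝ) / N) := by
  unfold eN eR
  rw [ZMod.stdAddChar_coe]
  congr 1
  push_cast
  ring

theorem eN_eq_eR_fr (a : ZMod N) : eN a = eR (fr a) := by
  conv_lhs => rw [← ZMod.coe_valMinAbs a]
  rw [eN_intCast]
  rfl

theorem eR_add (s t : ℝ) : eR (s + t) = eR s * eR t := by
  unfold eR
  rw [← Complex.exp_add]
  congr 1
  push_cast
  ring

theorem eR_intCast (m : ℤ) : eR (m : ℝ) = 1 := by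
  unfold eR
  rw [Complex.exp_eq_one_iff]
  exact ⟨m, by push_cast; ring⟩

theorem norm_eR (t : ℝ) : ‖eR t‖ = 1 := by
  unfold eR
  have : (2 * Real.pi * Complex.I * t : ℂ) = ((2 * Real.pi * t : ℝ) : ℂ) * Complex.I := by push_cast; ring
  rw [this, Complex.norm_exp_ofReal_mul_I]

theorem eN_mul_intCast (a : ZMod N) (n : ℤ) : eN (a * (n : ZMod N)) = eR ((n : ℝ) * fr a) := by
  have : a * (n : ZMod N) = ((a.valMinAbs * n : ℤ) : ZMod N) := by simp
  rw [this, eN_intCast]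
  congr 1
  unfold fr
  push_cast
  ring

theorem kit_eR_sub_one (t : ℝ) : ‖eR t - 1‖ = ‖2 * Real.sin (Real.pi * t)‖ := by
  unfold eR
  have : (2 * Real.pi * Complex.I * t : ℂ) = Complex.I * ((2 * Real.pi * t : ℝ) : ℂ) := by push_cast; ring
  rw [this, Complex.norm_exp_I_mul_ofReal_sub_one]
  congr 2
  ring_nf

theorem norm_eN_sub_one_le (a : ZMod N) : ‖eN a - 1‖ ≤ 2 * Real.pi * nrm a := by
  rw [eN_eq_eR_fr]
  unfold eR
  have : (2 * Real.pi * Complex.I * (fr a) : ℂ) = Complex.I * ((2 * Real.pi * fr a : ℝ) : ℂ) := by push_cast; ring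
  rw [this]
  refine le_trans Real.norm_exp_I_mul_ofReal_sub_one_le ?_
  rw [Real.norm_eq_abs, abs_mul, abs_of_pos (by positivity : (0:ℝ) < 2 * Real.pi)]
  rfl

theorem four_nrm_le (a : ZMod N) : 4 * nrm a ≤ ‖eN a - 1‖ := by
  rw [eN_eq_eR_fr, kit_eR_sub_one, Real.norm_eq_abs, abs_mul, abs_of_pos (by norm_num : (0:ℝ) < 2)]
  have hh := nrm_le_half a
  have hpi := Real.pi_pos
  have key : ∀ t : ℝ, 0 ≤ t → t ≤ 1 / 2 → 2 * t ≤ Real.sin (Real.pi * t) := by
    intro t h0 h1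
    have := Real.mul_le_sin (x := Real.pi * t) (by positivity) (by nlinarith)
    have e : 2 / Real.pi * (Real.pi * t) = 2 * t := by field_simp
    rwa [e] at this
  unfold nrm at hh ⊢
  rcases le_total 0 (fr a) with h | h
  · rw [abs_of_nonneg h] at hh ⊢
    have := key _ h hh
    have h2 := le_abs_self (Real.sin (Real.pi * fr a))
    linarith
  · rw [abs_of_nonpos h] at hh ⊢
    have := key (-fr a) (by linarith) hh
    have e : Real.sin (Real.pi * -fr a) = -Real.sin (Real.pi * fr a) := by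
      rw [mul_neg, Real.sin_neg]
    rw [e] at this
    have h2 := neg_le_abs (Real.sin (Real.pi * fr a))
    linarith

theorem sum_eN_mul (a : ZMod N) : ∑ x : ZMod N, eN (a * x) = if a = 0 then (N : ℂ) else 0 := by
  have := AddChar.sum_mulShift (R := ZMod N) (R' := ℂ) a (ZMod.isPrimitive_stdAddChar N)
  unfold eN
  simp only [mul_comm a]
  rw [this, ZMod.card]
  split_ifs <;> simp

theorem exists_eN_of_addChar (ψ : AddChar (ZMod N) ℂ) : ∃ s : ZMod N, ∀ x, ψ x = eN (s * x) := by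
  obtain ⟨s, hs⟩ := (AddChar.zmodAddEquiv (n := N)).surjective ψ
  refine ⟨s, fun x => ?_⟩
  rw [← hs, AddChar.zmodAddEquiv_apply]
  rfl

theorem exists_addChar_of_eN (s : ZMod N) : ∃ ψ : AddChar (ZMod N) ℂ, ∀ x, ψ x = eN (s * x) :=
  ⟨AddChar.mulShift ZMod.stdAddChar s, fun x => by simp [eN, AddChar.mulShift_apply]⟩

/-! ### K3 : Fourier analysis on `ZMod N`  (PROVED, helper52) -/

theorem kit_sum_eN_sub (x y : ZMod N) : ∑ ξ : ZMod N, eN (ξ * (x - y)) = if x = y then (N : ℂ) else 0 := by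
  have := sum_eN_mul (x - y)
  simp only [mul_comm _ (x - y)]
  rw [this]
  simp [sub_eq_zero]

theorem ft_inversion (g : ZMod N → ℂ) (x : ZMod N) : (N : ℂ) * g x = ∑ ξ, ft g ξ * eN (ξ * x) := by
  unfold ft
  simp_rw [Finset.sum_mul]
  rw [Finset.sum_comm]
  have : ∀ y : ZMod N, ∑ ξ : ZMod N, g y * eN (-(ξ * y)) * eN (ξ * x) = g y * (if x = y then (N : ℂ) else 0) := by
    intro y
    rw [← kit_sum_eN_sub, Finset.mul_sum]
    refine Finset.sum_congr rfl fun ξ _ => ?_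
    rw [mul_assoc, ← eN_add]
    congr 2
    ring
  simp_rw [this]
  simp [mul_comm]

theorem kit_norm_sq (z : ℂ) : ((‖z‖ : ℝ) : ℂ) ^ 2 = z * conj z := by
  rw [Complex.mul_conj, Complex.normSq_eq_norm_sq]; push_cast; rfl

theorem ft_parseval (g : ZMod N → ℂ) : ∑ ξ, ‖ft g ξ‖ ^ 2 = N * ∑ x, ‖g x‖ ^ 2 := by
  have h : ((∑ ξ, ‖ft g ξ‖ ^ 2 : ℝ) : ℂ) = ((N * ∑ x, ‖g x‖ ^ 2 : ℝ) : ℂ) := by
    push_cast
    simp_rw [kit_norm_sq]
    have : ∀ ξ : ZMod N, ft g ξ * conj (ft g ξ) = ∑ x, ∑ y, g x * conj (g y) * eN (ξ * (y - x)) := by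
      intro ξ
      unfold ft
      rw [map_sum, Finset.sum_mul_sum]
      refine Finset.sum_congr rfl fun x _ => Finset.sum_congr rfl fun y _ => ?_
      rw [map_mul, ← eN_neg, neg_neg]
      have : eN (ξ * (y - x)) = eN (-(ξ * x)) * eN (ξ * y) := by rw [← eN_add]; congr 1; ring
      rw [this]; ring
    simp_rw [this]
    rw [Finset.sum_comm]
    simp_rw [Finset.sum_comm (s := (univ : Finset (ZMod N))) (t := (univ : Finset (ZMod N)))
      (f := fun ξ y => g _ * conj (g y) * eN (ξ * (y - _)))]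
    simp_rw [← Finset.mul_sum, kit_sum_eN_sub]
    simp [Finset.mul_sum, mul_comm]
  exact_mod_cast h

theorem kit_ft_sq (g : ZMod N → ℂ) (ξ : ZMod N) :
    ft g ξ * ft g ξ = ∑ a, ∑ b, g a * g b * eN (-(ξ * (a + b))) := by
  unfold ft
  rw [Finset.sum_mul_sum]
  refine Finset.sum_congr rfl fun a _ => Finset.sum_congr rfl fun b _ => ?_
  have : eN (-(ξ * (a + b))) = eN (-(ξ * a)) * eN (-(ξ * b)) := by rw [← eN_add]; congr 1; ring
  rw [this]; ring

theorem kit_ft_fourth_aux (g : ZMod N → ℂ) (ξ : ZMod N) :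
    ((‖ft g ξ‖ : ℝ) : ℂ) ^ 4 =
      ∑ a, ∑ b, ∑ c, ∑ d, g a * g b * conj (g c) * conj (g d) * eN (ξ * ((c + d) - (a + b))) := by
  have h1 : ((‖ft g ξ‖ : ℝ) : ℂ) ^ 4 = (ft g ξ * ft g ξ) * conj (ft g ξ * ft g ξ) := by
    have : ((‖ft g ξ‖ : ℝ) : ℂ) ^ 4 = (((‖ft g ξ‖ : ℝ) : ℂ) ^ 2) ^ 2 := by ring
    rw [this, kit_norm_sq, map_mul]; ring
  rw [h1, kit_ft_sq, map_sum, Finset.sum_mul]
  refine Finset.sum_congr rfl fun a _ => ?_
  rw [Finset.sum_mul]
  refine Finset.sum_congr rfl fun b _ => ?_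
  rw [Finset.mul_sum]
  refine Finset.sum_congr rfl fun c _ => ?_
  rw [map_sum, Finset.mul_sum]
  refine Finset.sum_congr rfl fun d _ => ?_
  rw [map_mul, map_mul, ← eN_neg, neg_neg]
  have : eN (ξ * ((c + d) - (a + b))) = eN (-(ξ * (a + b))) * eN (ξ * (c + d)) := by
    rw [← eN_add]; congr 1; ring
  rw [this]; ring

/-- fourth moment = `N` times the weighted count of additive quadruples. -/
theorem ft_fourth (g : ZMod N → ℂ) :
    ((∑ ξ, ‖ft g ξ‖ ^ 4 : ℝ) : ℂ) =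
      N * ∑ a, ∑ b, ∑ c, ∑ d, if a + b = c + d then g a * g b * conj (g c) * conj (g d) else 0 := by
  push_cast
  simp_rw [kit_ft_fourth_aux]
  rw [Finset.sum_comm, Finset.mul_sum]
  refine Finset.sum_congr rfl fun a _ => ?_
  rw [Finset.sum_comm, Finset.mul_sum]
  refine Finset.sum_congr rfl fun b _ => ?_
  rw [Finset.sum_comm, Finset.mul_sum]
  refine Finset.sum_congr rfl fun c _ => ?_
  rw [Finset.sum_comm, Finset.mul_sum]
  refine Finset.sum_congr rfl fun d _ => ?_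
  rw [← Finset.mul_sum, kit_sum_eN_sub]
  by_cases h : a + b = c + d
  · rw [if_pos h, if_pos h.symm]; ring
  · rw [if_neg h, if_neg (fun h' => h h'.symm)]; ring

/-- `∑_ξ |ĝ(ξ)|^4 = N * (raw U^2 sum)`. -/
theorem ft_sq2 (g : ZMod N → ℂ) : ((∑ ξ, ‖ft g ξ‖ ^ 4 : ℝ) : ℂ) = N * sq2 g := by
  rw [ft_fourth]
  congr 1
  unfold sq2
  refine Finset.sum_congr rfl fun a _ => ?_
  -- `b = a + h₁ + h₂`, `c = a + h₁`, `d = a + h₂`
  have h1 : ∀ b : ZMod N, (∑ c, ∑ d, if a + b = c + d then g a * g b * conj (g c) * conj (g d) else 0) =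
      ∑ c, g a * g b * conj (g c) * conj (g (a + b - c)) := by
    intro b
    refine Finset.sum_congr rfl fun c _ => ?_
    rw [Finset.sum_eq_single (a + b - c)]
    · rw [if_pos (by ring)]
    · intro d _ hd
      rw [if_neg]
      intro h
      exact hd (by rw [h]; ring)
    · intro h; exact absurd (Finset.mem_univ _) h
  simp_rw [h1]
  rw [Finset.sum_comm]
  -- now `∑ c, ∑ b`
  rw [← Equiv.sum_comp (Equiv.addLeft a)]
  refine Finset.sum_congr rfl fun h₁ _ => ?_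
  rw [← Equiv.sum_comp (Equiv.addLeft (a + h₁))]
  refine Finset.sum_congr rfl fun h₂ _ => ?_
  simp only [Equiv.coe_addLeft]
  have e : a + (a + h₁ + h₂) - (a + h₁) = a + h₂ := by ring
  rw [e]
  ring

/-! ### K4 : `pl` and `qs` -/

theorem kit_le_pl {C k : ℕ} {X c : ℝ} (hX : 1 ≤ X) (hk : k ≤ C) (hc : c ≤ C) : c * X ^ k ≤ pl C X := by
  unfold pl
  have h1 : X ^ k ≤ X ^ C := pow_le_pow_right₀ hX hk
  have h2 : (0 : ℝ) ≤ X ^ k := by positivity
  calc c * X ^ k ≤ C * X ^ k := mul_le_mul_of_nonneg_right hc h2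
    _ ≤ C * X ^ C := mul_le_mul_of_nonneg_left h1 (by positivity)

theorem pl_nonneg (C : ℕ) {X : ℝ} (hX : 1 ≤ X) : 0 ≤ pl C X := by
  unfold pl
  positivity

theorem pl_mono {C C' : ℕ} (h : C ≤ C') {X : ℝ} (hX : 1 ≤ X) : pl C X ≤ pl C' X :=
  kit_le_pl hX h (by exact_mod_cast h)

theorem natCast_le_pl (C : ℕ) {X : ℝ} (hX : 1 ≤ X) : (C : ℝ) ≤ pl C X := by
  have := kit_le_pl (C := C) (k := 0) (c := C) hX (Nat.zero_le _) le_rfl
  simpa using this

theorem self_le_pl {C : ℕ} (hC : 1 ≤ C) {X : ℝ} (hX : 1 ≤ X) : X ≤ pl C X := by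
  have := kit_le_pl (C := C) (k := 1) (c := 1) hX hC (by exact_mod_cast hC)
  simpa using this

theorem pl_add_le (a b : ℕ) {X : ℝ} (hX : 1 ≤ X) : pl a X + pl b X ≤ pl (a + b) X := by
  unfold pl
  have h1 : X ^ a ≤ X ^ (a + b) := pow_le_pow_right₀ hX (Nat.le_add_right _ _)
  have h2 : X ^ b ≤ X ^ (a + b) := pow_le_pow_right₀ hX (Nat.le_add_left _ _)
  have ha : (0 : ℝ) ≤ a := Nat.cast_nonneg _
  have hb : (0 : ℝ) ≤ b := Nat.cast_nonneg _
  push_cast
  calc (a : ℝ) * X ^ a + b * X ^ b ≤ a * X ^ (a + b) + b * X ^ (a + b) :=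
        add_le_add (mul_le_mul_of_nonneg_left h1 ha) (mul_le_mul_of_nonneg_left h2 hb)
    _ = _ := by ring

theorem pl_mul_le (a b : ℕ) {X : ℝ} (hX : 1 ≤ X) : pl a X * pl b X ≤ pl (a * b + a + b) X := by
  have e : pl a X * pl b X = ((a * b : ℕ) : ℝ) * X ^ (a + b) := by
    unfold pl; push_cast; ring
  rw [e]
  exact kit_le_pl hX (by omega) (by exact_mod_cast (by omega : a * b ≤ a * b + a + b))

theorem pl_pow_le (a k : ℕ) {X : ℝ} (hX : 1 ≤ X) : pl a X ^ k ≤ pl (a ^ k + a * k) X := by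
  have e : pl a X ^ k = ((a ^ k : ℕ) : ℝ) * X ^ (a * k) := by
    unfold pl; push_cast; rw [mul_pow, pow_mul]
  rw [e]
  exact kit_le_pl hX (Nat.le_add_left _ _) (by exact_mod_cast Nat.le_add_right _ _)

/-- composition: a polylog of a polylog is a polylog. -/
theorem pl_comp_le (a b : ℕ) {X : ℝ} (hX : 1 ≤ X) : pl a (pl b X) ≤ pl (a * b ^ a + a * b) X := by
  have e : pl a (pl b X) = ((a * b ^ a : ℕ) : ℝ) * X ^ (a * b) := by
    unfold pl; push_cast; rw [mul_pow, ← pow_mul, mul_comm b a]; ring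
  rw [e]
  exact kit_le_pl hX (Nat.le_add_left _ _) (by exact_mod_cast Nat.le_add_right _ _)

theorem qs_pos (C : ℕ) (X : ℝ) : 0 < qs C X := Real.exp_pos _

theorem qs_le_one (C : ℕ) {X : ℝ} (hX : 1 ≤ X) : qs C X ≤ 1 := by
  unfold qs
  rw [← Real.exp_zero]
  exact Real.exp_le_exp.2 (by linarith [pl_nonneg C hX])

theorem qs_anti {C C' : ℕ} (h : C ≤ C') {X : ℝ} (hX : 1 ≤ X) : qs C' X ≤ qs C X := by
  unfold qs
  exact Real.exp_le_exp.2 (by linarith [pl_mono h hX])

theorem qs_mul_ge (a b : ℕ) {X : ℝ} (hX : 1 ≤ X) : qs (a + b) X ≤ qs a X * qs b X := by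
  unfold qs
  rw [← Real.exp_add]
  exact Real.exp_le_exp.2 (by linarith [pl_add_le a b hX])

/-- `r ≥ qs a X` and `k ≤ pl b X` imply `r ^ k ≥ qs (..) X`. -/
theorem qs_pow_ge (a b : ℕ) {X : ℝ} (hX : 1 ≤ X) {r : ℝ} (hr : qs a X ≤ r) {k : ℕ} (hk : (k : ℝ) ≤ pl b X) :
    qs (a * b + a + b) X ≤ r ^ k := by
  have h1 : qs a X ^ k ≤ r ^ k := pow_le_pow_left₀ (qs_pos _ _).le hr k
  refine le_trans ?_ h1
  unfold qs
  rw [← Real.exp_nat_mul]
  apply Real.exp_le_exp.2
  have h2 := pl_mul_le a b hX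
  have h3 : (k : ℝ) * pl a X ≤ pl b X * pl a X := mul_le_mul_of_nonneg_right hk (pl_nonneg a hX)
  nlinarith

/-- `1 / t ≥ qs` for `1 ≤ t ≤ pl`:  polylogarithmic quantities are quasipolynomially bounded. -/
theorem qs_le_inv_pl (a : ℕ) {X : ℝ} (hX : 1 ≤ X) {t : ℝ} (ht0 : 0 < t) (ht : t ≤ pl a X) : qs a X ≤ 1 / t := by
  unfold qs
  rw [Real.exp_neg, ← one_div]
  apply one_div_le_one_div_of_le ht0
  have := Real.add_one_le_exp (pl a X)
  linarith

/-- `log (1 / r) ≤ pl a X` if `qs a X ≤ r`. -/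
theorem log_inv_le_pl (a : ℕ) {X : ℝ} {r : ℝ} (hr : qs a X ≤ r) : Real.log (1 / r) ≤ pl a X := by
  have h0 : 0 < r := lt_of_lt_of_le (qs_pos _ _) hr
  rw [one_div, Real.log_inv]
  have := Real.log_le_log (qs_pos _ _) hr
  unfold qs at this
  rw [Real.log_exp] at this
  linarith

end Claimed.Agent.R258.U3
end

/- ===== packed: Claimed.Agent.R258.U3.Bohr ===== -/
section
/-
R258 / U3 / Bohr : the Bohr set kit in `ZMod N` (arc norm).  NO Bourgain regularity is needed anywhere in the chain: losses of the form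
`4 ^ (-d)` are allowed (they are quasipolynomial), and the only "regularity" used is ONE-SCALE regularity, a pigeonhole on the radius.
Blueprint owner: helper52.  Every `sorry` is a leaf (sections B1, B2, B3 = three packages); statements verbatim; helper lemmas prefix `bohr_`.

B1 (algebra of Bohr sets): direct from `Kit.lean` K1.
B2 (sizes).
  * `card_zbohr_ge`: let `k = ⌈1 / r⌉ ≤ 2 / r`.  Map `x ↦ (⌊k * (s x).val / N⌋)_{s ∈ S} ∈ (Fin k)^S`.  Some fibre has `≥ N / k^d` points; fix `x₀` in it;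
    `x ↦ x - x₀` is injective from the fibre into `zbohr S r` (two points of a fibre: representatives of `s x`, `s x₀` differ by `< N / k`,
    use `nrm_intCast_le`).
  * `card_zbohr_two_mul_le`: for `x ∈ zbohr S (2 r)` each `fr (s x) ∈ [-2r, 2r]`, cut this interval in 4 closed intervals of length `r`; two points with
    the same 4-adic address differ by an element of `zbohr S r` (`nrm_sub_le_abs_fr_sub`); so a fibre injects in `zbohr S r`.
  * `exists_regular_radius`: put `t = ε r / (16 (d + 1))`, `J = ⌊4 (d + 1) / ε⌋ ≥ 3 (d+1) / ε`, `r_i = r / 2 + (2 i + 1) t` (`0 ≤ i < J`); the intervals `[r_i - t, r_i + t]` are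
    consecutive inside `[r / 2, r]`; if every ratio `#B(r_i + t) / #B(r_i - t)` were `> 1 + ε` then `#B(r) > (1 + ε)^J #B(r / 2) ≥ 4^d #B(r/2)`
    (`(1 + ε)^J ≥ exp (J ε / 2) ≥ exp (3 d / 2) ≥ 4^d`), contradiction with doubling.
B3 (three averaging tools).
  * `cover_trick`: `∑_{h₁ ∈ B(2r)} ∑_i Φ (h₁ + τ i) ≥ ∑_i ∑_{h ∈ B(r)} Φ h` (for fixed `i` substitute `h₁ = h - τ i ∈ B(2r)`, `Φ ≥ 0`), then `≥ #I η #B(r) ≥ #I η 4^{-d} #B(2r)`; pigeonhole.
  * `avg_small`: `∑_{x ∈ B} e(λ(x + t)) = e(λ t) ∑_{x ∈ B} e(λ x)`, and the left side is `∑_{x ∈ B + t} e(λ x)`, which differs from `∑_{x ∈ B} e(λ x)` by at most `#(B Δ (B + t)) ≤ #B(r + r₃) - #B(r - r₃)`.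
  * `exists_large_ft`: with `F = 1_B e(λ ·)`: `∑_ξ |F^(ξ)|^4 = N * E(B)` (`ft_fourth`; the phase of an additive quadruple is trivial since `λ a + λ b = λ (a + b) = λ (c + d) = λ c + λ d`),
    `E(B) ≥ #B^4 / #(B + B) ≥ #B^3 / 4^d` (`Finset.le_card_add_mul_addEnergy`, `B + B ⊆ B(2r)`), `∑_ξ |F^|^4 ≤ max |F^|^2 * N #B` (`ft_parseval`).
-/
set_option autoImplicit false

namespace Claimed.Agent.R258.U3

open Finset
open scoped ComplexConjugate Pointwise

variable {N : ℕ} [NeZero N]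

/-! ### B1 : algebra  (PROVED, helper52) -/

theorem mem_zbohr {S : Finset (ZMod N)} {r : ℝ} {x : ZMod N} : x ∈ zbohr S r ↔ ∀ s ∈ S, nrm (s * x) ≤ r := by
  classical
  simp [zbohr]

theorem zero_mem_zbohr (S : Finset (ZMod N)) {r : ℝ} (hr : 0 ≤ r) : (0 : ZMod N) ∈ zbohr S r := by
  rw [mem_zbohr]; intro s _; rw [mul_zero, nrm_zero]; exact hr

theorem neg_mem_zbohr {S : Finset (ZMod N)} {r : ℝ} {x : ZMod N} (hx : x ∈ zbohr S r) : -x ∈ zbohr S r := by
  rw [mem_zbohr] at hx ⊢; intro s hs; rw [mul_neg, nrm_neg]; exact hx s hs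

theorem add_mem_zbohr {S : Finset (ZMod N)} {r r' : ℝ} {x y : ZMod N} (hx : x ∈ zbohr S r) (hy : y ∈ zbohr S r') :
    x + y ∈ zbohr S (r + r') := by
  rw [mem_zbohr] at hx hy ⊢; intro s hs; rw [mul_add]
  exact le_trans (nrm_add_le _ _) (add_le_add (hx s hs) (hy s hs))

theorem sub_mem_zbohr {S : Finset (ZMod N)} {r r' : ℝ} {x y : ZMod N} (hx : x ∈ zbohr S r) (hy : y ∈ zbohr S r') :
    x - y ∈ zbohr S (r + r') := by
  rw [sub_eq_add_neg]; exact add_mem_zbohr hx (neg_mem_zbohr hy)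

theorem zbohr_mono (S : Finset (ZMod N)) {r r' : ℝ} (h : r ≤ r') : zbohr S r ⊆ zbohr S r' := by
  intro x hx; rw [mem_zbohr] at hx ⊢; exact fun s hs => le_trans (hx s hs) h

theorem zbohr_anti {S S' : Finset (ZMod N)} (h : S ⊆ S') (r : ℝ) : zbohr S' r ⊆ zbohr S r := by
  intro x hx; rw [mem_zbohr] at hx ⊢; exact fun s hs => hx s (h hs)

theorem zbohr_subset {S S' : Finset (ZMod N)} (h : S ⊆ S') {r r' : ℝ} (hr : r' ≤ r) : zbohr S' r' ⊆ zbohr S r :=
  (zbohr_anti h r').trans (zbohr_mono S hr)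

theorem nsmul_mem_zbohr {S : Finset (ZMod N)} {r : ℝ} {x : ZMod N} {k j : ℕ} (hk : 1 ≤ k) (hx : x ∈ zbohr S (r / k)) (hj : j ≤ k) :
    j • x ∈ zbohr S r := by
  rw [mem_zbohr] at hx ⊢
  intro s hs
  have hkpos : (0 : ℝ) < k := by exact_mod_cast hk
  have h1 := hx s hs
  have h0 : 0 ≤ r / k := le_trans (nrm_nonneg _) h1
  rw [mul_smul_comm]
  refine le_trans (nrm_nsmul_le _ _) ?_
  have hjk : (j : ℝ) ≤ k := by exact_mod_cast hj
  calc (j : ℝ) * nrm (s * x) ≤ k * (r / k) := mul_le_mul hjk h1 (nrm_nonneg _) hkpos.le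
    _ = r := by field_simp

theorem zbohr_eq_univ (S : Finset (ZMod N)) {r : ℝ} (hr : 1 / 2 ≤ r) : zbohr S r = univ := by
  ext x; simp only [mem_univ, iff_true]; rw [mem_zbohr]; exact fun s _ => le_trans (nrm_le_half _) hr

theorem half_mem_zbohr [DecidableEq (ZMod N)] {S : Finset (ZMod N)} {r : ℝ} {x : ZMod N}
    (hx : x ∈ zbohr (S ∪ S.image fun s => (2 : ZMod N)⁻¹ * s) r) : (2 : ZMod N)⁻¹ * x ∈ zbohr S r := by
  rw [mem_zbohr] at hx ⊢
  intro s hs
  have := hx ((2 : ZMod N)⁻¹ * s) (Finset.mem_union_right _ (Finset.mem_image_of_mem _ hs))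
  have e : s * ((2 : ZMod N)⁻¹ * x) = (2 : ZMod N)⁻¹ * s * x := by ring
  rwa [e]

theorem LocLin.mono {S S' : Finset (ZMod N)} {r r' : ℝ} {M : ZMod N → ZMod N} (h : LocLin S r M) (hS : S ⊆ S') (hr : r' ≤ r) :
    LocLin S' r' M :=
  fun x hx y hy => h x (zbohr_subset hS hr hx) y (zbohr_subset hS hr hy)

theorem LocLin.map_zero {S : Finset (ZMod N)} {r : ℝ} {M : ZMod N → ZMod N} (h : LocLin S r M) (hr : 0 ≤ r) : M 0 = 0 := by
  have := h 0 (zero_mem_zbohr S hr) 0 (zero_mem_zbohr S hr)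
  rw [add_zero] at this
  exact left_eq_add.1 this

theorem LocLin.map_neg {S : Finset (ZMod N)} {r : ℝ} {M : ZMod N → ZMod N} (h : LocLin S r M) (hr : 0 ≤ r) {x : ZMod N}
    (hx : x ∈ zbohr S r) : M (-x) = -M x := by
  have := h x hx (-x) (neg_mem_zbohr hx)
  rw [add_neg_cancel, h.map_zero hr] at this
  exact (neg_eq_of_add_eq_zero_right this.symm).symm

theorem LocLin.map_sub {S : Finset (ZMod N)} {r : ℝ} {M : ZMod N → ZMod N} (h : LocLin S r M) (hr : 0 ≤ r) {x y : ZMod N}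
    (hx : x ∈ zbohr S r) (hy : y ∈ zbohr S r) : M (x - y) = M x - M y := by
  rw [sub_eq_add_neg, h x hx (-y) (neg_mem_zbohr hy), h.map_neg hr hy, sub_eq_add_neg]

theorem LocLin.map_nsmul {S : Finset (ZMod N)} {r : ℝ} {M : ZMod N → ZMod N} (h : LocLin S r M) (hr : 0 ≤ r) {x : ZMod N} {k : ℕ}
    (hk : 1 ≤ k) (hx : x ∈ zbohr S (r / k)) {j : ℕ} (hj : j ≤ k) : M (j • x) = j • M x := by
  induction j with
  | zero => simp [h.map_zero hr]
  | succ j ih =>
    have h1 : j • x ∈ zbohr S r := nsmul_mem_zbohr hk hx (by omega)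
    have h2 : x ∈ zbohr S r := by simpa using nsmul_mem_zbohr (j := 1) hk hx hk
    rw [succ_nsmul, h _ h1 _ h2, ih (by omega), succ_nsmul]

theorem LocLin.const_mul {S : Finset (ZMod N)} {r : ℝ} {M : ZMod N → ZMod N} (h : LocLin S r M) (c : ZMod N) :
    LocLin S r (fun x => c * M x) :=
  fun x hx y hy => by simp only [h x hx y hy, mul_add]

/-! ### B2 : sizes  (PROVED, helper52) -/

theorem card_zbohr_pos (S : Finset (ZMod N)) {r : ℝ} (hr : 0 ≤ r) : 0 < (zbohr S r).card :=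
  Finset.card_pos.2 ⟨0, zero_mem_zbohr S hr⟩

/-- generic fibre count: if two points of `T` with the same address differ by an element of the Bohr set, then `#T ≤ #B * #addresses`. -/
theorem bohr_card_le_of_addr {β : Type*} [DecidableEq β] (T : Finset (ZMod N)) (f : ZMod N → β) (U : Finset β)
    (hU : ∀ x ∈ T, f x ∈ U) (S : Finset (ZMod N)) (r : ℝ)
    (h : ∀ x ∈ T, ∀ y ∈ T, f x = f y → x - y ∈ zbohr S r) : T.card ≤ (zbohr S r).card * U.card := by
  refine Finset.card_le_mul_card_image_of_maps_to hU _ fun b _ => ?_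
  rcases (T.filter fun a => f a = b).eq_empty_or_nonempty with he | ⟨x₀, hx₀⟩
  · rw [he]; simp
  · rw [Finset.mem_filter] at hx₀
    refine Finset.card_le_card_of_injOn (fun x => x - x₀) ?_ ?_
    · intro x hx
      have hx' := Finset.mem_filter.1 (Finset.mem_coe.1 hx)
      exact Finset.mem_coe.2 (h x hx'.1 x₀ hx₀.1 (hx'.2.trans hx₀.2.symm))
    · intro x _ y _ hxy
      exact sub_left_injective hxy

theorem card_zbohr_ge (S : Finset (ZMod N)) {r : ℝ} (hr : 0 < r) (hr1 : r ≤ 1) :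
    (r / 2) ^ S.card * N ≤ ((zbohr S r).card : ℝ) := by
  classical
  have hNpos : 0 < N := Nat.pos_of_ne_zero (NeZero.ne N)
  have hNR : (0 : ℝ) < N := by exact_mod_cast hNpos
  set k : ℕ := ⌈1 / r⌉₊ with hk
  have hk1 : 1 / r ≤ k := Nat.le_ceil _
  have hkpos : 0 < k := by
    have : (0 : ℝ) < k := lt_of_lt_of_le (by positivity) hk1
    exact_mod_cast this
  have hkR : (0 : ℝ) < k := by exact_mod_cast hkpos
  have hk2 : (k : ℝ) ≤ 2 / r := by
    have h1 : (k : ℝ) < 1 / r + 1 := Nat.ceil_lt_add_one (by positivity)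
    have h2 : 1 ≤ 1 / r := by rw [le_div_iff₀ hr]; linarith
    have : 2 / r = 1 / r + 1 / r := by ring
    linarith
  -- the address map
  let f : ZMod N → ({s // s ∈ S} → Fin k) := fun x s =>
    ⟨k * ((s : ZMod N) * x).val / N, by
      rw [Nat.div_lt_iff_lt_mul hNpos]
      exact Nat.mul_lt_mul_of_pos_left (ZMod.val_lt _) hkpos⟩
  have key := bohr_card_le_of_addr (univ : Finset (ZMod N)) f univ (fun _ _ => Finset.mem_univ _) S r ?_
  · rw [Finset.card_univ, ZMod.card, Finset.card_univ, Fintype.card_fun, Fintype.card_fin, Fintype.card_coe] at key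
    have key' : (N : ℝ) ≤ (zbohr S r).card * (k : ℝ) ^ S.card := by exact_mod_cast key
    have h3 : (k : ℝ) ^ S.card ≤ (2 / r) ^ S.card := pow_le_pow_left₀ hkR.le hk2 _
    have h4 : (N : ℝ) ≤ (zbohr S r).card * (2 / r) ^ S.card :=
      le_trans key' (mul_le_mul_of_nonneg_left h3 (Nat.cast_nonneg _))
    have h5 : (r / 2) ^ S.card * (2 / r) ^ S.card = 1 := by
      rw [← mul_pow]
      have : r / 2 * (2 / r) = 1 := by field_simp
      rw [this, one_pow]
    calc (r / 2) ^ S.card * N ≤ (r / 2) ^ S.card * ((zbohr S r).card * (2 / r) ^ S.card) :=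
          mul_le_mul_of_nonneg_left h4 (by positivity)
      _ = (zbohr S r).card * ((r / 2) ^ S.card * (2 / r) ^ S.card) := by ring
      _ = (zbohr S r).card := by rw [h5, mul_one]
  · intro x _ y _ hxy
    rw [mem_zbohr]
    intro s hs
    have h1 : k * (s * x).val / N = k * (s * y).val / N := by
      have := congrFun hxy ⟨s, hs⟩
      simpa [f] using this
    set u := (s * x).val with hu
    set v := (s * y).val with hv
    set q := k * u / N with hq
    have hu1 : q * N ≤ k * u := Nat.div_mul_le_self _ _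
    have hu2 : k * u < (q + 1) * N := by
      have := Nat.lt_succ_self q
      rw [hq] at this ⊢
      exact (Nat.div_lt_iff_lt_mul hNpos).1 this
    have hv1 : q * N ≤ k * v := by rw [h1]; exact Nat.div_mul_le_self _ _
    have hv2 : k * v < (q + 1) * N := by
      have := Nat.lt_succ_self (k * v / N)
      rw [h1]
      exact (Nat.div_lt_iff_lt_mul hNpos).1 this
    have e : s * (x - y) = (((u : ℤ) - (v : ℤ) : ℤ) : ZMod N) := by
      push_cast
      rw [hu, hv, ZMod.natCast_zmod_val, ZMod.natCast_zmod_val]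
      ring
    rw [e]
    refine le_trans (nrm_intCast_le _) ?_
    rw [div_le_iff₀ hNR]
    have hu1' : (q : ℝ) * N ≤ k * u := by exact_mod_cast hu1
    have hu2' : (k : ℝ) * u < (q + 1) * N := by exact_mod_cast hu2
    have hv1' : (q : ℝ) * N ≤ k * v := by exact_mod_cast hv1
    have hv2' : (k : ℝ) * v < (q + 1) * N := by exact_mod_cast hv2
    have habs : (k : ℝ) * |(u : ℝ) - v| ≤ N := by
      rw [← abs_of_pos hkR, ← abs_mul, abs_le]
      constructor <;> nlinarith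
    have h6 : 1 ≤ r * k := by
      have := hk1
      rw [div_le_iff₀ hr] at this
      linarith
    push_cast
    have h7 : 0 ≤ |(u : ℝ) - v| := abs_nonneg _
    calc |(u : ℝ) - v| = 1 * |(u : ℝ) - v| := (one_mul _).symm
      _ ≤ (r * k) * |(u : ℝ) - v| := mul_le_mul_of_nonneg_right h6 h7
      _ = r * (k * |(u : ℝ) - v|) := by ring
      _ ≤ r * N := mul_le_mul_of_nonneg_left habs hr.le

/-- the 4-adic address of a point of `[-2r, 2r]`. -/
noncomputable def bohrIdx (r t : ℝ) : Fin 4 := if t ≤ -r then 0 else if t ≤ 0 then 1 else if t ≤ r then 2 else 3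

theorem bohrIdx_close {r t t' : ℝ} (ht : |t| ≤ 2 * r) (ht' : |t'| ≤ 2 * r) (h : bohrIdx r t = bohrIdx r t') : |t - t'| ≤ r := by
  rw [abs_le] at ht ht' ⊢
  unfold bohrIdx at h
  split_ifs at h <;> first | (constructor <;> linarith) | (exact absurd h (by decide))

theorem card_zbohr_two_mul_le (S : Finset (ZMod N)) {r : ℝ} (hr : 0 ≤ r) :
    (zbohr S (2 * r)).card ≤ 4 ^ S.card * (zbohr S r).card := by
  classical
  let f : ZMod N → ({s // s ∈ S} → Fin 4) := fun x s => bohrIdx r (fr ((s : ZMod N) * x))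
  have key := bohr_card_le_of_addr (zbohr S (2 * r)) f univ (fun _ _ => Finset.mem_univ _) S r ?_
  · rw [Finset.card_univ, Fintype.card_fun, Fintype.card_fin, Fintype.card_coe] at key
    rw [mul_comm (4 ^ S.card)]; exact key
  · intro x hx y hy hxy
    rw [mem_zbohr] at hx hy ⊢
    intro s hs
    have h1 : bohrIdx r (fr (s * x)) = bohrIdx r (fr (s * y)) := congrFun hxy ⟨s, hs⟩
    rw [mul_sub]
    exact le_trans (nrm_sub_le_abs_fr_sub _ _) (bohrIdx_close (hx s hs) (hy s hs) h1)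

/-- ONE-SCALE REGULARITY. -/
theorem exists_regular_radius (S : Finset (ZMod N)) {r ε : ℝ} (hr : 0 < r) (hε : 0 < ε) (hε1 : ε ≤ 1) :
    ∃ r₁ : ℝ, r / 2 ≤ r₁ - ε * r / (16 * (S.card + 1)) ∧ r₁ + ε * r / (16 * (S.card + 1)) ≤ r ∧
      ((zbohr S (r₁ + ε * r / (16 * (S.card + 1)))).card : ℝ) ≤
        (1 + ε) * (zbohr S (r₁ - ε * r / (16 * (S.card + 1)))).card := by
  by_contra hcon
  push Not at hcon
  set d := S.card with hd
  set t : ℝ := ε * r / (16 * (d + 1)) with ht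
  have htpos : 0 < t := by positivity
  set m : ℕ := ⌈1 / ε⌉₊ with hm
  have hm1 : 1 / ε ≤ m := Nat.le_ceil _
  have hm2 : (m : ℝ) ≤ 2 / ε := by
    have h1 : (m : ℝ) < 1 / ε + 1 := Nat.ceil_lt_add_one (by positivity)
    have h2 : 1 ≤ 1 / ε := by rw [le_div_iff₀ hε]; linarith
    have : 2 / ε = 1 / ε + 1 / ε := by ring
    linarith
  set J : ℕ := 2 * d * m + 1 with hJ
  -- `2 J t ≤ r / 2`
  have hJt : 2 * (J : ℝ) * t ≤ r / 2 := by
    have h1 : (J : ℝ) ≤ 4 * (d + 1) / ε := by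
      have h2 : (1 : ℝ) ≤ 4 / ε := by rw [le_div_iff₀ hε]; linarith
      have h3 : (2 * d * m : ℝ) ≤ 2 * d * (2 / ε) := by gcongr
      have h4 : 4 * ((d : ℝ) + 1) / ε = 2 * d * (2 / ε) + 4 / ε := by ring
      rw [hJ]; push_cast; linarith
    calc 2 * (J : ℝ) * t ≤ 2 * (4 * (d + 1) / ε) * t := by gcongr
      _ = r / 2 := by rw [ht]; field_simp; ring
  -- the sequence of cardinalities
  have hstep : ∀ i : ℕ, i ≤ J → (1 + ε) ^ i * ((zbohr S (r / 2)).card : ℝ) ≤ (zbohr S (r / 2 + 2 * i * t)).card := by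
    intro i
    induction i with
    | zero => intro _; simp
    | succ i ih =>
      intro hi
      have ih' := ih (by omega)
      have hiJ : ((i : ℝ) + 1) ≤ J := by exact_mod_cast hi
      have h1 := hcon (r / 2 + (2 * i + 1) * t) (by nlinarith) (by nlinarith)
      have e1 : r / 2 + (2 * i + 1) * t + t = r / 2 + 2 * ((i + 1 : ℕ) : ℝ) * t := by push_cast; ring
      have e2 : r / 2 + (2 * i + 1) * t - t = r / 2 + 2 * i * t := by ring
      rw [e1, e2] at h1
      calc (1 + ε) ^ (i + 1) * ((zbohr S (r / 2)).card : ℝ)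
          = (1 + ε) * ((1 + ε) ^ i * ((zbohr S (r / 2)).card : ℝ)) := by ring
        _ ≤ (1 + ε) * (zbohr S (r / 2 + 2 * i * t)).card := by gcongr
        _ ≤ _ := h1.le
  have hJ1 := hstep J le_rfl
  have hup : ((zbohr S (r / 2 + 2 * J * t)).card : ℝ) ≤ 4 ^ d * ((zbohr S (r / 2)).card : ℝ) := by
    have h1 : (zbohr S (r / 2 + 2 * J * t)).card ≤ (zbohr S (2 * (r / 2))).card :=
      Finset.card_le_card (zbohr_mono S (by linarith))
    have h2 := card_zbohr_two_mul_le S (r := r / 2) (by positivity)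
    exact_mod_cast le_trans h1 h2
  have ha0 : (0 : ℝ) < (zbohr S (r / 2)).card := by exact_mod_cast card_zbohr_pos S (by positivity)
  have hpow : (4 : ℝ) ^ d < (1 + ε) ^ J := by
    have h2 : (2 : ℝ) ≤ (1 + ε) ^ m := by
      have hb := one_add_mul_le_pow (a := ε) (by linarith) m
      have : 1 ≤ (m : ℝ) * ε := by
        have := hm1; rw [div_le_iff₀ hε] at this; linarith
      linarith
    have h3 : (4 : ℝ) ^ d ≤ (1 + ε) ^ (2 * d * m) := by
      have : (1 + ε) ^ (2 * d * m) = ((1 + ε) ^ m) ^ (2 * d) := by rw [← pow_mul]; ring_nf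
      rw [this]
      calc (4 : ℝ) ^ d = 2 ^ (2 * d) := by rw [pow_mul]; norm_num
        _ ≤ ((1 + ε) ^ m) ^ (2 * d) := pow_le_pow_left₀ (by norm_num) h2 _
    have h4 : (0 : ℝ) < (1 + ε) ^ (2 * d * m) := by positivity
    rw [hJ, pow_succ]
    nlinarith
  have : (1 + ε) ^ J * ((zbohr S (r / 2)).card : ℝ) ≤ 4 ^ d * ((zbohr S (r / 2)).card : ℝ) := le_trans hJ1 hup
  have := le_of_mul_le_mul_right this ha0
  linarith

/-! ### B3 : averaging tools  (PROVED, helper52) -/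

/-- THE COVERING TRICK (replaces regularity when the summand is nonnegative). -/
theorem cover_trick (S : Finset (ZMod N)) {r η : ℝ} (hr : 0 ≤ r) (Φ : ZMod N → ℝ) (hΦ : ∀ h, 0 ≤ Φ h)
    (h : η * (zbohr S r).card ≤ ∑ h ∈ zbohr S r, Φ h) {ι : Type*} (I : Finset ι) (τ : ι → ZMod N)
    (hτ : ∀ i ∈ I, τ i ∈ zbohr S r) :
    ∃ h₁ ∈ zbohr S (2 * r), η / 4 ^ S.card * I.card ≤ ∑ i ∈ I, Φ (h₁ + τ i) := by
  classical
  by_contra hcon
  push Not at hcon
  set c : ℝ := η / 4 ^ S.card * I.card with hc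
  have h0 : 0 ∈ zbohr S (2 * r) := zero_mem_zbohr S (by positivity)
  have hcpos : 0 < c := lt_of_le_of_lt (Finset.sum_nonneg fun i _ => hΦ _) (hcon 0 h0)
  -- lower bound of the double sum
  have hlow : (I.card : ℝ) * ∑ h ∈ zbohr S r, Φ h ≤ ∑ h₁ ∈ zbohr S (2 * r), ∑ i ∈ I, Φ (h₁ + τ i) := by
    rw [Finset.sum_comm, ← nsmul_eq_mul, ← Finset.sum_const]
    refine Finset.sum_le_sum fun i hi => ?_
    have e : ∑ h ∈ zbohr S r, Φ h = ∑ h₁ ∈ (zbohr S r).image (fun h => h - τ i), Φ (h₁ + τ i) := by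
      rw [Finset.sum_image (fun x _ y _ hxy => sub_left_injective hxy)]
      refine Finset.sum_congr rfl fun x _ => by rw [sub_add_cancel]
    rw [e]
    refine Finset.sum_le_sum_of_subset_of_nonneg ?_ (fun _ _ _ => hΦ _)
    intro x hx
    obtain ⟨y, hy, rfl⟩ := Finset.mem_image.1 hx
    have := sub_mem_zbohr hy (hτ i hi)
    rwa [← two_mul] at this
  have hup : ∑ h₁ ∈ zbohr S (2 * r), ∑ i ∈ I, Φ (h₁ + τ i) < ((zbohr S (2 * r)).card : ℝ) * c := by
    rw [← nsmul_eq_mul, ← Finset.sum_const]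
    exact Finset.sum_lt_sum_of_nonempty ⟨0, h0⟩ hcon
  have hdb : ((zbohr S (2 * r)).card : ℝ) ≤ 4 ^ S.card * (zbohr S r).card := by
    exact_mod_cast card_zbohr_two_mul_le S hr
  have h4 : (0 : ℝ) < 4 ^ S.card := by positivity
  have h5 : ((zbohr S (2 * r)).card : ℝ) * c ≤ (I.card : ℝ) * (η * (zbohr S r).card) := by
    calc ((zbohr S (2 * r)).card : ℝ) * c ≤ (4 ^ S.card * (zbohr S r).card) * c :=
          mul_le_mul_of_nonneg_right hdb hcpos.le
      _ = (I.card : ℝ) * (η * (zbohr S r).card) := by rw [hc]; field_simp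
  have h6 : (I.card : ℝ) * (η * (zbohr S r).card) ≤ (I.card : ℝ) * ∑ h ∈ zbohr S r, Φ h :=
    mul_le_mul_of_nonneg_left h (Nat.cast_nonneg _)
  linarith

/-- LARGE AVERAGE OF A LOCALLY ADDITIVE PHASE IMPLIES SMALLNESS ON A SMALLER BOHR SET. -/
theorem avg_small (S : Finset (ZMod N)) {r r₃ c ε : ℝ} (hr : 0 ≤ r) (lam : ZMod N → ZMod N)
    (hlam : ∀ x ∈ zbohr S r, ∀ t ∈ zbohr S r₃, lam (x + t) = lam x + lam t)
    (hc : c * (zbohr S r).card ≤ ‖∑ x ∈ zbohr S r, eN (lam x)‖)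
    (hreg : ((zbohr S (r + r₃)).card : ℝ) - (zbohr S (r - r₃)).card ≤ ε * (zbohr S r).card) :
    ∀ t ∈ zbohr S r₃, c * ‖eN (lam t) - 1‖ ≤ ε := by
  classical
  intro t ht
  set B := zbohr S r with hB
  set T : ℂ := ∑ x ∈ B, eN (lam x) with hT
  have ht' := mem_zbohr.1 ht
  -- shifted sum
  have h1 : eN (lam t) * T = ∑ y : ZMod N, (if y - t ∈ B then (1 : ℂ) else 0) * eN (lam y) := by
    rw [← Equiv.sum_comp (Equiv.addRight t)]
    simp only [Equiv.coe_addRight, add_sub_cancel_right, ite_mul, one_mul, zero_mul]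
    rw [Finset.sum_ite_mem, Finset.univ_inter, hT, Finset.mul_sum]
    refine Finset.sum_congr rfl fun x hx => ?_
    rw [hlam x hx t ht, eN_add, mul_comm]
  have h2 : T = ∑ y : ZMod N, (if y ∈ B then (1 : ℂ) else 0) * eN (lam y) := by
    simp only [ite_mul, one_mul, zero_mul]
    rw [Finset.sum_ite_mem, Finset.univ_inter]
  have key : ∀ y : ZMod N, ‖(if y - t ∈ B then (1 : ℂ) else 0) - (if y ∈ B then (1 : ℂ) else 0)‖ ≤
      (if y ∈ zbohr S (r + r₃) then (1 : ℝ) else 0) - (if y ∈ zbohr S (r - r₃) then (1 : ℝ) else 0) := by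
    intro y
    by_cases hm : y ∈ zbohr S (r - r₃)
    · have hm' := mem_zbohr.1 hm
      have a1 : y ∈ B := mem_zbohr.2 fun s hs => by
        have := hm' s hs; have := ht' s hs; have := nrm_nonneg (s * t); linarith
      have a2 : y - t ∈ B := mem_zbohr.2 fun s hs => by
        rw [mul_sub]
        have := hm' s hs; have := ht' s hs; have := nrm_sub_le (s * y) (s * t); linarith
      have a3 : y ∈ zbohr S (r + r₃) := mem_zbohr.2 fun s hs => by
        have := hm' s hs; have := ht' s hs; have := nrm_nonneg (s * t); linarith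
      simp [hm, a1, a2, a3]
    · rw [if_neg hm, sub_zero]
      by_cases hp : y ∈ zbohr S (r + r₃)
      · rw [if_pos hp]
        split_ifs <;> simp
      · have a1 : y ∉ B := fun hy => hp (mem_zbohr.2 fun s hs => by
          have := mem_zbohr.1 hy s hs; have := ht' s hs; have := nrm_nonneg (s * t); linarith)
        have a2 : y - t ∉ B := fun hy => hp (mem_zbohr.2 fun s hs => by
          have h3 := mem_zbohr.1 hy s hs
          have := ht' s hs
          have h4 := nrm_add_le (s * (y - t)) (s * t)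
          have e : s * (y - t) + s * t = s * y := by ring
          rw [e] at h4
          linarith)
        simp [a1, a2, hp]
  have h3 : ‖eN (lam t) * T - T‖ ≤ ((zbohr S (r + r₃)).card : ℝ) - (zbohr S (r - r₃)).card := by
    have e : eN (lam t) * T - T = ∑ y : ZMod N,
        ((if y - t ∈ B then (1 : ℂ) else 0) - (if y ∈ B then (1 : ℂ) else 0)) * eN (lam y) := by
      rw [h1]
      conv_lhs => rw [h2]
      rw [← Finset.sum_sub_distrib]
      refine Finset.sum_congr rfl fun y _ => by ring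
    rw [e]
    refine le_trans (norm_sum_le _ _) ?_
    calc ∑ y : ZMod N, ‖((if y - t ∈ B then (1 : ℂ) else 0) - (if y ∈ B then (1 : ℂ) else 0)) * eN (lam y)‖
        ≤ ∑ y : ZMod N, ((if y ∈ zbohr S (r + r₃) then (1 : ℝ) else 0) - (if y ∈ zbohr S (r - r₃) then (1 : ℝ) else 0)) := by
          refine Finset.sum_le_sum fun y _ => ?_
          rw [norm_mul, norm_eN, mul_one]
          exact key y
      _ = _ := by
          rw [Finset.sum_sub_distrib, Finset.sum_ite_mem, Finset.sum_ite_mem, Finset.univ_inter, Finset.univ_inter]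
          simp
  have hBpos : (0 : ℝ) < B.card := by exact_mod_cast card_zbohr_pos S hr
  have h4 : ‖eN (lam t) - 1‖ * ‖T‖ ≤ ε * B.card := by
    have : eN (lam t) * T - T = (eN (lam t) - 1) * T := by ring
    rw [this, norm_mul] at h3
    linarith
  have h5 : ‖eN (lam t) - 1‖ * (c * B.card) ≤ ‖eN (lam t) - 1‖ * ‖T‖ :=
    mul_le_mul_of_nonneg_left hc (norm_nonneg _)
  have h6 : (c * ‖eN (lam t) - 1‖) * B.card ≤ ε * B.card := by
    calc (c * ‖eN (lam t) - 1‖) * B.card = ‖eN (lam t) - 1‖ * (c * B.card) := by ring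
      _ ≤ _ := le_trans h5 h4
  exact le_of_mul_le_mul_right h6 hBpos

open scoped Combinatorics.Additive in
/-- the additive energy as a sum over all quadruples. -/
theorem bohr_energy_eq (B : Finset (ZMod N)) (F : ZMod N → ℂ) (hF0 : ∀ x, x ∉ B → F x = 0)
    (hF : ∀ a ∈ B, ∀ b ∈ B, ∀ c ∈ B, ∀ d ∈ B, a + b = c + d → F a * F b * conj (F c) * conj (F d) = 1) :
    ∑ a, ∑ b, ∑ c, ∑ d, (if a + b = c + d then F a * F b * conj (F c) * conj (F d) else 0) = (E[B] : ℂ) := by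
  classical
  unfold Finset.addEnergy
  rw [Finset.card_filter]
  push_cast
  rw [Finset.sum_product]
  simp_rw [Finset.sum_product]
  -- right side: `∑ a ∈ B, ∑ c ∈ B, ∑ b ∈ B, ∑ d ∈ B`
  have hsub : ∀ (g : ZMod N → ℂ), (∀ x, x ∉ B → g x = 0) → ∑ x, g x = ∑ x ∈ B, g x := by
    intro g hg
    exact (Finset.sum_subset (Finset.subset_univ B) fun x _ hx => hg x hx).symm
  rw [hsub _ (fun a ha => by simp [hF0 a ha])]
  refine Finset.sum_congr rfl fun a ha => ?_
  rw [Finset.sum_comm]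
  rw [hsub _ (fun c hc => by simp [hF0 c hc])]
  refine Finset.sum_congr rfl fun c hc => ?_
  rw [hsub _ (fun b hb => by simp [hF0 b hb])]
  refine Finset.sum_congr rfl fun b hb => ?_
  rw [hsub _ (fun d hd => by simp [hF0 d hd])]
  refine Finset.sum_congr rfl fun d hd => ?_
  by_cases h : a + b = c + d
  · rw [if_pos h, if_pos h, hF a ha b hb c hc d hd h]
  · rw [if_neg h, if_neg h]

open scoped Combinatorics.Additive in
/-- A LOCALLY ADDITIVE PHASE ON A BOHR SET HAS A LARGE FOURIER COEFFICIENT. -/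
theorem exists_large_ft (S : Finset (ZMod N)) {r : ℝ} (hr : 0 ≤ r) (lam : ZMod N → ZMod N) (hlam : LocLin S r lam) :
    ∃ ξ : ZMod N, ((zbohr S r).card : ℝ) / 2 ^ S.card ≤ ‖∑ x ∈ zbohr S r, eN (lam x - ξ * x)‖ := by
  classical
  set B := zbohr S r with hB
  set F : ZMod N → ℂ := fun x => if x ∈ B then eN (lam x) else 0 with hF
  have hNR : (0 : ℝ) < N := by exact_mod_cast Nat.pos_of_ne_zero (NeZero.ne N)
  have hft : ∀ ξ, ft F ξ = ∑ x ∈ B, eN (lam x - ξ * x) := by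
    intro ξ
    unfold ft
    simp only [hF, ite_mul, zero_mul]
    rw [Finset.sum_ite_mem, Finset.univ_inter]
    refine Finset.sum_congr rfl fun x _ => ?_
    rw [← eN_add, sub_eq_add_neg]
  obtain ⟨ξ, -, hξ⟩ := Finset.exists_max_image (univ : Finset (ZMod N)) (fun ξ => ‖ft F ξ‖) ⟨0, Finset.mem_univ _⟩
  refine ⟨ξ, ?_⟩
  rw [← hft]
  set m := ‖ft F ξ‖ with hm
  have hm0 : 0 ≤ m := norm_nonneg _
  -- fourth moment
  have h4 : (∑ ξ', ‖ft F ξ'‖ ^ 4 : ℝ) = N * (E[B] : ℝ) := by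
    have h := ft_fourth F
    rw [bohr_energy_eq B F (fun x hx => by simp [hF, hx])] at h
    · exact_mod_cast h
    · intro a ha b hb c hc d hd habcd
      simp only [hF, if_pos ha, if_pos hb, if_pos hc, if_pos hd]
      rw [← eN_neg, ← eN_neg, ← eN_add, ← eN_add, ← eN_add]
      have e : lam a + lam b + -lam c + -lam d = 0 := by
        rw [← hlam a ha b hb, habcd, hlam c hc d hd]; ring
      rw [e, eN_zero]
  have hpars : (∑ ξ', ‖ft F ξ'‖ ^ 2 : ℝ) ≤ N * B.card := by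
    rw [ft_parseval]
    apply mul_le_mul_of_nonneg_left _ hNR.le
    calc ∑ x, ‖F x‖ ^ 2 = ∑ x, (if x ∈ B then (1 : ℝ) else 0) := by
          refine Finset.sum_congr rfl fun x _ => ?_
          by_cases hx : x ∈ B <;> simp [hF, hx, norm_eN]
      _ = B.card := by rw [Finset.sum_ite_mem, Finset.univ_inter]; simp
      _ ≤ B.card := le_rfl
  have h5 : (∑ ξ', ‖ft F ξ'‖ ^ 4 : ℝ) ≤ m ^ 2 * (N * B.card) := by
    calc (∑ ξ', ‖ft F ξ'‖ ^ 4 : ℝ) ≤ ∑ ξ', m ^ 2 * ‖ft F ξ'‖ ^ 2 := by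
          refine Finset.sum_le_sum fun ξ' _ => ?_
          have h6 : ‖ft F ξ'‖ ^ 2 ≤ m ^ 2 := pow_le_pow_left₀ (norm_nonneg _) (hξ ξ' (Finset.mem_univ _)) 2
          calc ‖ft F ξ'‖ ^ 4 = ‖ft F ξ'‖ ^ 2 * ‖ft F ξ'‖ ^ 2 := by ring
            _ ≤ m ^ 2 * ‖ft F ξ'‖ ^ 2 := mul_le_mul_of_nonneg_right h6 (by positivity)
      _ = m ^ 2 * ∑ ξ', ‖ft F ξ'‖ ^ 2 := by rw [Finset.mul_sum]
      _ ≤ _ := mul_le_mul_of_nonneg_left hpars (by positivity)
  have hE : (E[B] : ℝ) ≤ m ^ 2 * B.card := by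
    rw [h4] at h5
    have : (N : ℝ) * (E[B] : ℝ) ≤ N * (m ^ 2 * B.card) := by linarith
    exact le_of_mul_le_mul_left this hNR
  have hBpos : (0 : ℝ) < B.card := by exact_mod_cast card_zbohr_pos S hr
  have hen : (B.card : ℝ) ^ 2 * (B.card : ℝ) ^ 2 ≤ ((B + B).card : ℝ) * (E[B] : ℝ) := by
    exact_mod_cast Finset.le_card_add_mul_addEnergy B B
  have hBB : ((B + B).card : ℝ) ≤ 4 ^ S.card * B.card := by
    have h1 : (B + B).card ≤ (zbohr S (2 * r)).card := by
      refine Finset.card_le_card ?_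
      intro x hx
      obtain ⟨a, ha, b, hb, rfl⟩ := Finset.mem_add.1 hx
      have := add_mem_zbohr ha hb
      rwa [← two_mul] at this
    exact_mod_cast le_trans h1 (card_zbohr_two_mul_le S hr)
  have hfin : (B.card : ℝ) ^ 2 ≤ (2 ^ S.card * m) ^ 2 := by
    have h7 : (B.card : ℝ) ^ 2 * (B.card : ℝ) ^ 2 ≤ (4 ^ S.card * B.card) * (m ^ 2 * B.card) :=
      le_trans hen (mul_le_mul hBB hE (Nat.cast_nonneg _) (by positivity))
    have h8 : (4 ^ S.card * (B.card : ℝ)) * (m ^ 2 * B.card) = (2 ^ S.card * m) ^ 2 * (B.card : ℝ) ^ 2 := by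
      have : (4 : ℝ) ^ S.card = (2 ^ S.card) ^ 2 := by rw [← pow_mul, mul_comm, pow_mul]; norm_num
      rw [this]; ring
    rw [h8] at h7
    exact le_of_mul_le_mul_right h7 (by positivity)
  have h9 : (B.card : ℝ) ≤ 2 ^ S.card * m :=
    (pow_le_pow_iff_left₀ hBpos.le (by positivity) (by norm_num)).1 hfin
  rw [div_le_iff₀ (by positivity)]
  linarith

end Claimed.Agent.R258.U3
end

/- ===== packed: Claimed.Agent.R258.U3.Lin.BSGDefs ===== -/
section
/-
Row 258 (S0498), block U3 (quasipolynomial U^3 inverse theorem, sub-captain helper52), part B2 =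
LINEARISATION (architect helper152).  Files BSGDefs, BSG1-BSG4, BSG: the BALOG-SZEMEREDI-GOWERS theorem in an
arbitrary abelian group, symmetric form, explicit constants.  Mathlib only, no paper.

  `u3l_bsg` : `#A ^ 3 ≤ K * E[A]`  ⟹  `∃ A' ⊆ A, #A ≤ 8 K #A' ∧ #(A' - A') ≤ 2^11 K^3 #A`.

PROOF (dependent random choice inside the group; only "paths of length two").
`R d` = pairs of `A` with difference `d`, `r d = #(R d)`; slice `A_s = A ∩ (A + s)`, `#A_s = r s`.
(F1) `∑_s #A_s = #A^2`, (F2) `∑_s #A_s^2 = E[A]`, (F3) for a set `P` of pairs of `A`: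
`∑_s #(P ∩ A_s × A_s) = ∑_{(a,b) ∈ P} r (a - b)`   (`s ↦ (a - s, b - s)` is a bijection onto `R (a - b)`).
BAD pairs: `16 K r (a - b) < #A`.  By (F3) `∑_s bad(A_s) ≤ #A^3 / (16 K)`, so
`∑_s (#A_s^2 - 8 bad(A_s) - #A #A_s / (4K)) ≥ #A^3 (1/K - 1/(2K) - 1/(4K)) > 0`: some slice `X = A_s` has
`#X > #A / (4K)` and `8 bad(X) < #X^2`  (`u3l_bsg_select`).
`A'` = the `a ∈ X` with fewer than `#X / 4` bad partners in `X`: `#A' > #X / 2`, and two elements `a, a'` of
`A'` have more than `#X / 2` common good partners `b`  (`u3l_bsg_refine`).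
`a - a' = (a - b) - (a' - b)`: every `d ∈ A' - A'` has at least `(#X / 2) (#A / (16 K))^2` representations
`x₁ - x₂ - (x₃ - x₄)`, `xᵢ ∈ A`, and there are `#A^4` quadruples  (`u3l_bsg_count`).
-/
set_option autoImplicit false

namespace Claimed.Agent.R258.U3

open Finset
open scoped Pointwise Combinatorics.Additive

variable {G : Type*} [AddCommGroup G] [DecidableEq G]

/-- The pairs of `A` with difference `d`. -/
def u3lR (A : Finset G) (d : G) : Finset (G × G) := {p ∈ A ×ˢ A | p.1 - p.2 = d}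

/-- The slice `A ∩ (A + s)`. -/
def u3lSl (A : Finset G) (s : G) : Finset G := {a ∈ A | a - s ∈ A}

open Classical in
/-- The bad pairs: the difference has few representations. -/
noncomputable def u3lBad (A : Finset G) (K : ℝ) : Finset (G × G) :=
  {p ∈ A ×ˢ A | 16 * K * (#(u3lR A (p.1 - p.2)) : ℝ) < #A}

end Claimed.Agent.R258.U3
end

/- ===== packed: Claimed.Agent.R258.U3.Lin.BSG1 ===== -/
section
/-
Row 258, U3/B2 (architect helper152), LEAF P-U3L-BSG1: the counting identities (F1)-(F3) of BSGDefs.lean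
(plan in the header of BSGDefs.lean).  Mathlib only.
-/
set_option autoImplicit false

namespace Claimed.Agent.R258.U3

open Finset
open scoped Pointwise Combinatorics.Additive

variable {G : Type*} [AddCommGroup G] [DecidableEq G]

/-- `a ↦ (a, a - s)`. -/
theorem u3l_card_sl (A : Finset G) (s : G) : #(u3lSl A s) = #(u3lR A s) := by
  apply card_bij (fun a _ => (a, a - s))
  · intro a ha
    simp only [u3lSl, mem_filter] at ha
    simp only [u3lR, mem_filter, mem_product]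
    exact ⟨⟨ha.1, ha.2⟩, by abel⟩
  · intro a _ b _ h
    exact (Prod.mk.inj h).1
  · rintro ⟨x, y⟩ h
    simp only [u3lR, mem_filter, mem_product] at h
    obtain ⟨⟨hx, hy⟩, rfl⟩ := h
    refine ⟨x, ?_, ?_⟩
    · simp only [u3lSl, mem_filter]
      exact ⟨hx, by simpa using hy⟩
    · simp

/-- the number of slices containing `a` and `b` -/
theorem u3l_bsg1_slices (A : Finset G) (a b : G) (ha : a ∈ A) :
    #{s ∈ A - A | a - s ∈ A ∧ b - s ∈ A} = #(u3lR A (a - b)) := by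
  apply card_bij (fun s _ => (a - s, b - s))
  · intro s hs
    simp only [mem_filter] at hs
    simp only [u3lR, mem_filter, mem_product]
    exact ⟨⟨hs.2.1, hs.2.2⟩, by abel⟩
  · intro s _ s' _ h
    have := (Prod.mk.inj h).1
    exact sub_right_injective this
  · rintro ⟨x, y⟩ h
    simp only [u3lR, mem_filter, mem_product] at h
    obtain ⟨⟨hx, hy⟩, e⟩ := h
    refine ⟨a - x, ?_, ?_⟩
    · simp only [mem_filter]
      refine ⟨sub_mem_sub ha hx, by simpa using hx, ?_⟩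
      have : b - (a - x) = y := by
        have : y = x - (a - b) := by rw [← e]; abel
        rw [this]; abel
      rw [this]; exact hy
    · have : b - (a - x) = y := by
        have : y = x - (a - b) := by rw [← e]; abel
        rw [this]; abel
      simp [this]

/-- (F3): for fixed `(a, b) ∈ P` the map `s ↦ (a - s, b - s)` is a bijection from
`{s ∈ A - A | a - s ∈ A ∧ b - s ∈ A}` onto `u3lR A (a - b)`. -/
theorem u3l_sum_pairs (A : Finset G) (P : Finset (G × G)) (hP : P ⊆ A ×ˢ A) :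
    ∑ s ∈ A - A, #{p ∈ u3lSl A s ×ˢ u3lSl A s | p ∈ P} = ∑ p ∈ P, #(u3lR A (p.1 - p.2)) := by
  have h1 : ∀ s ∈ A - A, #{p ∈ u3lSl A s ×ˢ u3lSl A s | p ∈ P} =
      ∑ p ∈ P, if p.1 - s ∈ A ∧ p.2 - s ∈ A then 1 else 0 := by
    intro s _
    rw [← card_filter]
    congr 1
    ext p
    simp only [mem_filter, mem_product, u3lSl]
    constructor
    · rintro ⟨⟨⟨_, h1⟩, ⟨_, h2⟩⟩, hp⟩
      exact ⟨hp, h1, h2⟩
    · rintro ⟨hp, h1, h2⟩
      have := mem_product.1 (hP hp)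
      exact ⟨⟨⟨this.1, h1⟩, ⟨this.2, h2⟩⟩, hp⟩
  rw [sum_congr rfl h1, sum_comm]
  apply sum_congr rfl
  intro p hp
  rw [← card_filter]
  exact u3l_bsg1_slices A p.1 p.2 (mem_product.1 (hP hp)).1

/-- (F1) -/
theorem u3l_sum_sl (A : Finset G) : ∑ s ∈ A - A, #(u3lSl A s) = #A ^ 2 := by
  simp_rw [u3l_card_sl, u3lR]
  rw [← card_eq_sum_card_fiberwise (f := fun p : G × G => p.1 - p.2), card_product, sq]
  intro p hp
  have := mem_product.1 hp
  exact sub_mem_sub this.1 this.2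

/-- (F2) -/
theorem u3l_sum_sl_sq (A : Finset G) : ∑ s ∈ A - A, #(u3lSl A s) ^ 2 = E[A] := by
  have h := u3l_sum_pairs A (A ×ˢ A) subset_rfl
  have h1 : ∀ s ∈ A - A, #{p ∈ u3lSl A s ×ˢ u3lSl A s | p ∈ A ×ˢ A} = #(u3lSl A s) ^ 2 := by
    intro s _
    rw [filter_true_of_mem, card_product, sq]
    intro p hp
    have := mem_product.1 hp
    exact mem_product.2 ⟨(mem_filter.1 this.1).1, (mem_filter.1 this.2).1⟩
  rw [sum_congr rfl h1] at h
  rw [h, addEnergy, ← card_sigma]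
  apply card_bij (fun x _ => ((x.1.1, x.2.1), (x.2.2, x.1.2)))
  · rintro ⟨⟨a, b⟩, ⟨x, y⟩⟩ h
    simp only [mem_sigma, mem_product, u3lR, mem_filter] at h
    obtain ⟨⟨ha, hb⟩, ⟨hx, hy⟩, e⟩ := h
    simp only [mem_filter, mem_product]
    refine ⟨⟨⟨ha, hx⟩, hy, hb⟩, ?_⟩
    have : x = a - b + y := by rw [← e]; abel
    rw [this]; abel
  · rintro ⟨⟨a, b⟩, ⟨x, y⟩⟩ _ ⟨⟨a', b'⟩, ⟨x', y'⟩⟩ _ h
    simp only [Prod.mk.injEq] at h
    obtain ⟨⟨rfl, rfl⟩, rfl, rfl⟩ := h
    rfl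
  · rintro ⟨⟨a, x⟩, ⟨y, b⟩⟩ h
    simp only [mem_filter, mem_product] at h
    obtain ⟨⟨⟨ha, hx⟩, hy, hb⟩, e⟩ := h
    refine ⟨⟨(a, b), (x, y)⟩, ?_, rfl⟩
    simp only [mem_sigma, mem_product, u3lR, mem_filter]
    refine ⟨⟨ha, hb⟩, ⟨hx, hy⟩, ?_⟩
    have : a = x + b - y := by rw [← e]; abel
    rw [this]; abel

end Claimed.Agent.R258.U3
end

/- ===== packed: Claimed.Agent.R258.U3.Lin.BSG2 ===== -/
section
/-
Row 258, U3/B2 (architect helper152), LEAF P-U3L-BSG2: a good slice (plan in the header of BSGDefs.lean).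
Uses (F1)-(F3) of BSG1.lean.  In ℝ: `∑_s (#A_s^2 - 8 bad(A_s) - #A #A_s / (4K)) > 0`, then
`Finset.exists_lt_of_sum_lt` / `Finset.sum_pos'`-type argument.
-/
set_option autoImplicit false

namespace Claimed.Agent.R258.U3

open Finset
open scoped Pointwise Combinatorics.Additive

variable {G : Type*} [AddCommGroup G] [DecidableEq G]

theorem u3l_bsg_select (A : Finset G) (K : ℝ) (hK : 0 < K) (hA : A.Nonempty)
    (hE : (#A : ℝ) ^ 3 ≤ K * E[A]) :
    ∃ s, (#A : ℝ) < 4 * K * #(u3lSl A s) ∧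
      8 * #{p ∈ u3lSl A s ×ˢ u3lSl A s | p ∈ u3lBad A K} < #(u3lSl A s) ^ 2 := by
  have hn : (0 : ℝ) < #A := by exact_mod_cast hA.card_pos
  have hBadsub : u3lBad A K ⊆ A ×ˢ A := filter_subset _ _
  -- the three sums, in `ℝ`
  have S1 : ∑ s ∈ A - A, (#(u3lSl A s) : ℝ) ^ 2 = E[A] := by exact_mod_cast u3l_sum_sl_sq A
  have S3 : ∑ s ∈ A - A, (#(u3lSl A s) : ℝ) = (#A : ℝ) ^ 2 := by exact_mod_cast u3l_sum_sl A
  have S2 : 16 * K * ∑ s ∈ A - A, (#{p ∈ u3lSl A s ×ˢ u3lSl A s | p ∈ u3lBad A K} : ℝ) ≤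
      (#A : ℝ) ^ 3 := by
    have h1 : ∑ s ∈ A - A, (#{p ∈ u3lSl A s ×ˢ u3lSl A s | p ∈ u3lBad A K} : ℝ) =
        ∑ p ∈ u3lBad A K, (#(u3lR A (p.1 - p.2)) : ℝ) := by
      exact_mod_cast u3l_sum_pairs A (u3lBad A K) hBadsub
    rw [h1, mul_sum]
    calc ∑ p ∈ u3lBad A K, 16 * K * (#(u3lR A (p.1 - p.2)) : ℝ)
        ≤ ∑ _p ∈ u3lBad A K, (#A : ℝ) := by
          apply sum_le_sum
          intro p hp
          exact (mem_filter.1 hp).2.le
      _ = #(u3lBad A K) * (#A : ℝ) := by rw [sum_const, nsmul_eq_mul]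
      _ ≤ (#A * #A : ℕ) * (#A : ℝ) := by
          have : #(u3lBad A K) ≤ #A * #A := by
            rw [← card_product]; exact card_le_card hBadsub
          gcongr
      _ = (#A : ℝ) ^ 3 := by push_cast; ring
  -- the weighted sum is positive
  have hpos : 0 < ∑ s ∈ A - A, (4 * K * (#(u3lSl A s) : ℝ) ^ 2 -
      32 * K * (#{p ∈ u3lSl A s ×ˢ u3lSl A s | p ∈ u3lBad A K} : ℝ) - #A * #(u3lSl A s)) := by
    rw [sum_sub_distrib, sum_sub_distrib, ← mul_sum, ← mul_sum, ← mul_sum, S1, S3]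
    have : (0 : ℝ) < (#A : ℝ) ^ 3 := by positivity
    nlinarith
  obtain ⟨s, _, hs⟩ := exists_lt_of_sum_lt (s := A - A) (f := fun _ => (0 : ℝ))
    (g := fun s => 4 * K * (#(u3lSl A s) : ℝ) ^ 2 -
      32 * K * (#{p ∈ u3lSl A s ×ˢ u3lSl A s | p ∈ u3lBad A K} : ℝ) - #A * #(u3lSl A s))
    (by rw [sum_const_zero]; exact hpos)
  refine ⟨s, ?_, ?_⟩
  · have hb : (0 : ℝ) ≤ #{p ∈ u3lSl A s ×ˢ u3lSl A s | p ∈ u3lBad A K} := by positivity
    have hx : (0 : ℝ) ≤ #(u3lSl A s) := by positivity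
    have h1 : (#A : ℝ) * #(u3lSl A s) < 4 * K * (#(u3lSl A s) : ℝ) * #(u3lSl A s) := by nlinarith
    exact lt_of_mul_lt_mul_right h1 hx
  · have hx : (0 : ℝ) ≤ (#A : ℝ) * #(u3lSl A s) := by positivity
    have h1 : 4 * K * (8 * (#{p ∈ u3lSl A s ×ˢ u3lSl A s | p ∈ u3lBad A K} : ℝ)) <
        4 * K * (#(u3lSl A s) : ℝ) ^ 2 := by nlinarith
    have h2 := lt_of_mul_lt_mul_left h1 (by positivity)
    exact_mod_cast h2

end Claimed.Agent.R258.U3
end

/- ===== packed: Claimed.Agent.R258.U3.Lin.BSG3 ===== -/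
section
/-
Row 258, U3/B2 (architect helper152), LEAF P-U3L-BSG3: few bad pairs ⟹ a large subset in which any two
elements have many common good partners.  Pure finite combinatorics, Mathlib only.
`A' = {a ∈ X | 4 * #{b ∈ X | (a, b) ∈ P} < #X}`; `∑_{a ∈ X} #{b ∈ X | (a,b) ∈ P} = #{p ∈ X ×ˢ X | p ∈ P}`.
-/
set_option autoImplicit false

namespace Claimed.Agent.R258.U3

open Finset
open scoped Pointwise Combinatorics.Additive

theorem u3l_bsg_refine {α : Type*} [DecidableEq α] (X : Finset α) (P : Finset (α × α))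
    (h : 8 * #{p ∈ X ×ˢ X | p ∈ P} < #X ^ 2) :
    ∃ A' ⊆ X, #X < 2 * #A' ∧
      ∀ a ∈ A', ∀ a' ∈ A', #X < 2 * #{b ∈ X | (a, b) ∉ P ∧ (a', b) ∉ P} := by
  -- number of bad partners
  set bc : α → ℕ := fun a => #{b ∈ X | (a, b) ∈ P} with hbc
  have hsum : ∑ a ∈ X, bc a = #{p ∈ X ×ˢ X | p ∈ P} := by
    rw [card_filter, sum_product]
    apply sum_congr rfl
    intro a _
    exact card_filter _ _
  refine ⟨{a ∈ X | 4 * bc a < #X}, filter_subset _ _, ?_, ?_⟩
  · -- Markov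
    have h1 : #{a ∈ X | ¬ 4 * bc a < #X} * #X ≤ 4 * ∑ a ∈ X, bc a := by
      calc #{a ∈ X | ¬ 4 * bc a < #X} * #X = ∑ _a ∈ {a ∈ X | ¬ 4 * bc a < #X}, #X := by
            rw [sum_const, smul_eq_mul]
        _ ≤ ∑ a ∈ {a ∈ X | ¬ 4 * bc a < #X}, 4 * bc a := by
            apply sum_le_sum
            intro a ha
            exact not_lt.1 (mem_filter.1 ha).2
        _ ≤ ∑ a ∈ X, 4 * bc a := sum_le_sum_of_subset (filter_subset _ _)
        _ = 4 * ∑ a ∈ X, bc a := by rw [mul_sum]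
    have h2 := card_filter_add_card_filter_not (s := X) (fun a => 4 * bc a < #X)
    rw [hsum] at h1
    have hX : 0 < #X := by
      rcases Nat.eq_zero_or_pos #X with h0 | h0
      · rw [h0] at h; simp at h
      · exact h0
    have h3 : 2 * #{a ∈ X | ¬ 4 * bc a < #X} * #X < #X * #X := by nlinarith
    have h4 : 2 * #{a ∈ X | ¬ 4 * bc a < #X} < #X := lt_of_mul_lt_mul_right h3 (Nat.zero_le _)
    omega
  · intro a ha a' ha'
    have h1 := (mem_filter.1 ha).2
    have h2 := (mem_filter.1 ha').2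
    have h3 : #X ≤ #{b ∈ X | (a, b) ∉ P ∧ (a', b) ∉ P} + (bc a + bc a') := by
      calc #X ≤ #({b ∈ X | (a, b) ∉ P ∧ (a', b) ∉ P} ∪ ({b ∈ X | (a, b) ∈ P} ∪ {b ∈ X | (a', b) ∈ P})) := by
            apply card_le_card
            intro b hb
            simp only [mem_union, mem_filter]
            by_cases c1 : (a, b) ∈ P
            · exact Or.inr (Or.inl ⟨hb, c1⟩)
            · by_cases c2 : (a', b) ∈ P
              · exact Or.inr (Or.inr ⟨hb, c2⟩)
              · exact Or.inl ⟨hb, c1, c2⟩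
        _ ≤ _ := (card_union_le _ _).trans (Nat.add_le_add_left (card_union_le _ _) _)
    omega

end Claimed.Agent.R258.U3
end

/- ===== packed: Claimed.Agent.R258.U3.Lin.BSG4 ===== -/
section
/-
Row 258, U3/B2 (architect helper152), LEAF P-U3L-BSG4: counting representations `d = (x₁ - x₂) - (x₃ - x₄)`.
For `d = a - a'` the sets `u3lR A (a - b) ×ˢ u3lR A (a' - b)`, `b ∈ Y`, are pairwise disjoint subsets of
`Q d = {q ∈ (A ×ˢ A) ×ˢ A ×ˢ A | (q.1.1 - q.1.2) - (q.2.1 - q.2.2) = d}`, so `n t^2 ≤ #(Q d)`; the `Q d` are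
disjoint subsets of `(A ×ˢ A) ×ˢ A ×ˢ A` (`Finset.card_eq_sum_card_fiberwise` / `card_biUnion`).
-/
set_option autoImplicit false

namespace Claimed.Agent.R258.U3

open Finset
open scoped Pointwise Combinatorics.Additive

variable {G : Type*} [AddCommGroup G] [DecidableEq G]

/-- the quadruples representing `d` -/
def u3lBsg4Q (A : Finset G) (d : G) : Finset ((G × G) × G × G) :=
  {q ∈ (A ×ˢ A) ×ˢ A ×ˢ A | (q.1.1 - q.1.2) - (q.2.1 - q.2.2) = d}

theorem u3l_bsg4_lower (A : Finset G) (a a' : G) (Y : Finset G) (t : ℝ) (ht : 0 ≤ t)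
    (h : ∀ b ∈ Y, t ≤ #(u3lR A (a - b)) ∧ t ≤ #(u3lR A (a' - b))) :
    (#Y : ℝ) * t ^ 2 ≤ #(u3lBsg4Q A (a - a')) := by
  have hsub : Y.biUnion (fun b => u3lR A (a - b) ×ˢ u3lR A (a' - b)) ⊆ u3lBsg4Q A (a - a') := by
    intro q hq
    obtain ⟨b, _, hq⟩ := mem_biUnion.1 hq
    obtain ⟨h1, h2⟩ := mem_product.1 hq
    obtain ⟨h1, e1⟩ := mem_filter.1 h1
    obtain ⟨h2, e2⟩ := mem_filter.1 h2
    refine mem_filter.2 ⟨mem_product.2 ⟨h1, h2⟩, ?_⟩
    rw [e1, e2]; abel
  have hdisj : ∀ b ∈ Y, ∀ b' ∈ Y, b ≠ b' →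
      Disjoint (u3lR A (a - b) ×ˢ u3lR A (a' - b)) (u3lR A (a - b') ×ˢ u3lR A (a' - b')) := by
    intro b _ b' _ hne
    rw [disjoint_left]
    intro q hq hq'
    have e1 := (mem_filter.1 (mem_product.1 hq).1).2
    have e2 := (mem_filter.1 (mem_product.1 hq').1).2
    exact hne (sub_right_injective (e1.symm.trans e2))
  have hcard := card_le_card hsub
  rw [card_biUnion hdisj] at hcard
  calc (#Y : ℝ) * t ^ 2 = ∑ _b ∈ Y, t ^ 2 := by rw [sum_const, nsmul_eq_mul]
    _ ≤ ∑ b ∈ Y, ((#(u3lR A (a - b) ×ˢ u3lR A (a' - b)) : ℕ) : ℝ) := by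
        apply sum_le_sum
        intro b hb
        rw [card_product, sq]
        push_cast
        exact mul_le_mul (h b hb).1 (h b hb).2 ht (by positivity)
    _ ≤ #(u3lBsg4Q A (a - a')) := by exact_mod_cast hcard

theorem u3l_bsg_count (A A' : Finset G) (n t : ℝ) (hn : 0 ≤ n) (ht : 0 ≤ t)
    (h : ∀ a ∈ A', ∀ a' ∈ A', ∃ Y : Finset G, n ≤ #Y ∧
      ∀ b ∈ Y, t ≤ #(u3lR A (a - b)) ∧ t ≤ #(u3lR A (a' - b))) :
    (#(A' - A') : ℝ) * (n * t ^ 2) ≤ (#A : ℝ) ^ 4 := by
  have h1 : ∀ d ∈ A' - A', n * t ^ 2 ≤ #(u3lBsg4Q A d) := by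
    intro d hd
    obtain ⟨a, ha, a', ha', rfl⟩ := mem_sub.1 hd
    obtain ⟨Y, hY, hb⟩ := h a ha a' ha'
    calc n * t ^ 2 ≤ (#Y : ℝ) * t ^ 2 := by gcongr
      _ ≤ _ := u3l_bsg4_lower A a a' Y t ht hb
  have h2 : ∑ d ∈ A' - A', #(u3lBsg4Q A d) ≤ #((A ×ˢ A) ×ˢ A ×ˢ A) := by
    rw [← card_biUnion]
    · apply card_le_card
      intro q hq
      obtain ⟨d, _, hq⟩ := mem_biUnion.1 hq
      exact (mem_filter.1 hq).1
    · intro d _ d' _ hne
      show Disjoint (u3lBsg4Q A d) (u3lBsg4Q A d')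
      rw [disjoint_left]
      intro q hq hq'
      exact hne ((mem_filter.1 hq).2.symm.trans (mem_filter.1 hq').2)
  calc (#(A' - A') : ℝ) * (n * t ^ 2) = ∑ _d ∈ A' - A', n * t ^ 2 := by
        rw [sum_const, nsmul_eq_mul]
    _ ≤ ∑ d ∈ A' - A', (#(u3lBsg4Q A d) : ℝ) := sum_le_sum h1
    _ ≤ (#((A ×ˢ A) ×ˢ A ×ˢ A) : ℝ) := by exact_mod_cast h2
    _ = (#A : ℝ) ^ 4 := by
        simp only [card_product]; push_cast; ring

end Claimed.Agent.R258.U3
end

/- ===== packed: Claimed.Agent.R258.U3.Lin.BSG ===== -/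
section
/-
Row 258, U3/B2 (architect helper152): ASSEMBLY of the Balog-Szemeredi-Gowers theorem from BSG1-BSG4
(plan in the header of BSGDefs.lean).
-/
set_option autoImplicit false

namespace Claimed.Agent.R258.U3

open Finset
open scoped Pointwise Combinatorics.Additive

variable {G : Type*} [AddCommGroup G] [DecidableEq G]

/-- **Balog-Szemeredi-Gowers.** -/
theorem u3l_bsg (A : Finset G) (K : ℝ) (hK : 0 < K) (hE : (#A : ℝ) ^ 3 ≤ K * E[A]) :
    ∃ A' ⊆ A, (#A : ℝ) ≤ 8 * K * #A' ∧ (#(A' - A') : ℝ) ≤ 2 ^ 11 * K ^ 3 * #A := by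
  rcases A.eq_empty_or_nonempty with rfl | hA
  · exact ⟨∅, subset_rfl, by simp, by simp⟩
  obtain ⟨s, h1, h2⟩ := u3l_bsg_select A K hK hA hE
  obtain ⟨A', hA'X, h3, h4⟩ := u3l_bsg_refine (u3lSl A s) (u3lBad A K) h2
  have hXA : u3lSl A s ⊆ A := filter_subset _ _
  have hApos : (0 : ℝ) < #A := by exact_mod_cast hA.card_pos
  have h3' : (#(u3lSl A s) : ℝ) < 2 * #A' := by exact_mod_cast h3
  refine ⟨A', hA'X.trans hXA, ?_, ?_⟩
  · nlinarith
  have hc := u3l_bsg_count A A' ((#(u3lSl A s) : ℝ) / 2) ((#A : ℝ) / (16 * K)) (by positivity)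
    (by positivity) (by
      intro a ha a' ha'
      refine ⟨{b ∈ u3lSl A s | (a, b) ∉ u3lBad A K ∧ (a', b) ∉ u3lBad A K}, ?_, ?_⟩
      · have : (#(u3lSl A s) : ℝ) <
            2 * #{b ∈ u3lSl A s | (a, b) ∉ u3lBad A K ∧ (a', b) ∉ u3lBad A K} := by
          exact_mod_cast h4 a ha a' ha'
        linarith
      · intro b hb
        rw [mem_filter] at hb
        obtain ⟨hbX, hb1, hb2⟩ := hb
        have key : ∀ c ∈ A', (c, b) ∉ u3lBad A K → (#A : ℝ) / (16 * K) ≤ #(u3lR A (c - b)) := by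
          intro c hc hcb
          rw [u3lBad, mem_filter, not_and, not_lt] at hcb
          have := hcb (mem_product.2 ⟨hXA (hA'X hc), hXA hbX⟩)
          rw [div_le_iff₀ (by positivity)]
          simpa [mul_comm] using this
        exact ⟨key a ha hb1, key a' ha' hb2⟩)
  have hD : (0 : ℝ) ≤ #(A' - A') := by positivity
  have h5 : (#A : ℝ) ^ 3 / (2 ^ 11 * K ^ 3) ≤
      (#(u3lSl A s) : ℝ) / 2 * ((#A : ℝ) / (16 * K)) ^ 2 := by
    have h6 : (#A : ℝ) / (4 * K) ≤ #(u3lSl A s) := by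
      rw [div_le_iff₀ (by positivity)]; nlinarith
    calc (#A : ℝ) ^ 3 / (2 ^ 11 * K ^ 3) = (#A : ℝ) / (4 * K) / 2 * ((#A : ℝ) / (16 * K)) ^ 2 := by
          field_simp; ring
      _ ≤ _ := by gcongr
  have h7 : (#(A' - A') : ℝ) * ((#A : ℝ) ^ 3 / (2 ^ 11 * K ^ 3)) ≤ (#A : ℝ) ^ 4 :=
    (mul_le_mul_of_nonneg_left h5 hD).trans hc
  have h8 : (#(A' - A') : ℝ) * (#A : ℝ) ^ 3 ≤ (2 ^ 11 * K ^ 3 * #A) * (#A : ℝ) ^ 3 := by
    rw [mul_div_assoc', div_le_iff₀ (by positivity)] at h7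
    nlinarith
  exact le_of_mul_le_mul_right h8 (by positivity)

end Claimed.Agent.R258.U3
end
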