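/- Packed by merge_tool.py (helper293): 10 modules of Claimed.Agent.R258 in one file, same declarations.
   Old modules, in this order: S7.ShortBlock, S7.Abs, Geo.Defs, Geo.Min, Geo.Riesz, Geo.Dirichlet, S10.Ctrl, S7b.Defs, S7b.Four, S7b.Hold -/
import Mathlib
import Claimed.Agent.R258.Pack001
import Claimed.Agent.R258.Pack008
import Claimed.Agent.R258.Pack018

/- ===== packed: Claimed.Agent.R258.S7.ShortBlock ===== -/
section
/-
Row 258, Sec. 7 (home architect: helper244).  STATEMENT of Lemma 7.2 (short-block comparison, sides.tex `lem:short-block`).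
Block [S7b]: whoever takes it owns this file and cuts the proof into leaves (folder R258/S7b/).

Formalisation choices:
* the probability space of the signs is a finite type `Ω` with weights `pr` (sum one);
* the deterministic Hilbert-space-valued stack `𝐳_j` enters only through its pointwise norm `m j y = ‖𝐳_j(y)‖`;
* the moment hypothesis is imposed at the exponent `8` only (lower moments follow by Jensen; the proof uses 2, 4, 8);
* a tree piece = finite set `leaves` of pairwise disjoint cells partitioning the root + finite set `int` of internal cells,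
  every leaf meeting an internal cell is a strict descendant of it; internal depths in `[s1, s1+K)`, leaf depths in `[s1, s1+K]`.
-/
set_option autoImplicit false
open MeasureTheory

namespace Claimed.Agent.R258

/-- A finite dyadic tree piece with root `R`, internal cells `int`, terminal cells `leaves`, in the depth block `[s1, s1+K)`. -/
structure TreePiece (R : Cell) (int leaves : Finset Cell) (s1 : ℤ) (K : ℕ) : Prop where
  leaf_le : ∀ L ∈ leaves, L ≤ R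
  leaf_disj : ∀ L ∈ leaves, ∀ L' ∈ leaves, L ≤ L' → L = L'
  leaf_cover : ∀ y ∈ R.set, ∃ L ∈ leaves, y ∈ L.set
  int_le : ∀ I ∈ int, I ≤ R
  /-- a leaf is never an ancestor-or-equal of an internal cell -/
  int_leaf : ∀ I ∈ int, ∀ L ∈ leaves, ¬ I ≤ L
  int_depth : ∀ I ∈ int, s1 ≤ I.depth ∧ I.depth < s1 + K
  leaf_depth : ∀ L ∈ leaves, s1 ≤ L.depth ∧ L.depth ≤ s1 + K

/-- **Lemma 7.2** (short-block comparison), display (16).  The exponent `C` is absolute (independent of `q`). -/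
def ShortBlockGoal (c0 C0 : ℝ) : Prop :=
  ∃ C : ℝ, 0 < C ∧ ∀ q : ℝ, 2 < q → q < 3 → ∀ Cm : ℝ, 1 ≤ Cm → ∃ Cq : ℝ, 0 < Cq ∧
  ∀ (N : ℕ) (CN : ℝ) (s0 : ℤ), 0 ≤ CN → LocalBound c0 C0 q N CN →
  ∀ (R : Cell) (int leaves : Finset Cell) (s1 : ℤ) (K : ℕ), TreePiece R int leaves s1 K →
    (∀ I ∈ int, s0 ≤ I.depth ∧ I.depth < s0 + N) →
  ∀ (w : Cell → ℝ × ℝ → ℂ), (∀ I ∈ int, Admissible c0 C0 I (w I)) →
  ∀ (Ω : Type) [Fintype Ω] (pr : Ω → ℝ), (∀ σ, 0 ≤ pr σ) → ∑ σ, pr σ = 1 →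
  ∀ (z : Ω → Fin 4 → ℝ → ℂ) (m : Fin 4 → ℝ → ℝ) (s : Fin 4 → ℝ),
    (∀ σ j, Measurable (z σ j)) → (∀ j, Measurable (m j)) → (∀ j y, 0 ≤ m j y) → (∀ j, 0 ≤ s j) →
    (∀ σ j y, y ∉ R.set → z σ j y = 0) →
    (∀ j, IntegrableOn (fun y => m j y ^ 2) R.set) →
    (∀ j, ∀ L ∈ leaves, ∫ y in L.set, m j y ^ 2 ≤ s j ^ 2 * L.len) →
    (∀ j y, ∑ σ, pr σ * ‖z σ j y‖ ^ 8 ≤ (Cm * m j y) ^ 8) →
  ∀ (sgn : Ω → Cell → ℂ), (∀ σ I, ‖sgn σ I‖ ≤ 1) →
    ∑ σ, pr σ * ‖∑ I ∈ int, (I.len : ℂ) * sgn σ I * form I (w I) (z σ)‖ ≤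
      (1 + CN) * Cq * (1 + Real.log ((K : ℝ) + 2)) ^ C * ((K : ℝ) + 2) ^ (C * (q - 2)) * R.len * ∏ j, s j

end Claimed.Agent.R258
end

/- ===== packed: Claimed.Agent.R258.S7.Abs ===== -/
section
/-
Row 258, Sec. 7 (home architect: helper244).  ABSTRACT PACKAGES of Sec. 7 that depend only on `Defs.lean` and on Lemma 7.2.

* `StopSet R stops ε`   : the common shape of all stopping families of one attempt.
* `PowerGoal`  [S7-PW]  : Sec. 7.3, three strong factors at a power `p ∈ [2/3,1]` (path caps by first-crossing stops).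
* `NearBandGoal` [S7-NB]: Secs. 7.4 (randomisation), 7.5 (hull maxima, common cuts), 7.6 (sparse pieces + Lemma 7.2):
  from fixed stacks with energies `Ea, Eb`, bounded frozen complements on the hulls, use multiplicity `M0`
  to the absolute bound (19).
-/
set_option autoImplicit false
open MeasureTheory

namespace Claimed.Agent.R258

/-- A family of stopping cells below `R` of total length at most `ε |R|`. -/
structure StopSet (R : Cell) (stops : Finset Cell) (ε : ℝ) : Prop where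
  le : ∀ S ∈ stops, S ≤ R
  len : ∑ S ∈ stops, S.len ≤ ε * R.len

/-- `I` is retained: it does not lie in (or equal) a stopping cell. -/
def Retained (stops : Finset Cell) (I : Cell) : Prop := ∀ S ∈ stops, ¬ I ≤ S

open Classical in
/-- **[S7-PW]** three strong factors.  `A B C` are cell arrays (already aggregated over the groups) with integrated square
budgets; after stops of total length `≤ ε|R|` the `p`-th powers of the products are summable. -/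
def PowerGoal : Prop :=
  ∀ (R : Cell) (cells : Finset Cell), (∀ I ∈ cells, I ≤ R) →
  ∀ (A B C : Cell → ℝ), (∀ I, 0 ≤ A I) → (∀ I, 0 ≤ B I) → (∀ I, 0 ≤ C I) →
  ∀ (Ea Eb Ec : ℝ), 0 ≤ Ea → 0 ≤ Eb → 0 ≤ Ec →
    ∑ I ∈ cells, I.len * A I ^ 2 ≤ Ea * R.len →
    ∑ I ∈ cells, I.len * B I ^ 2 ≤ Eb * R.len →
    ∑ I ∈ cells, I.len * C I ^ 2 ≤ Ec * R.len →
  ∀ (ε : ℝ), 0 < ε → ε < 1 →
  ∃ stops : Finset Cell, StopSet R stops ε ∧
    (∀ I ∈ cells, Retained stops I → A I ^ 2 ≤ 3 * Ea / ε ∧ B I ^ 2 ≤ 3 * Eb / ε ∧ C I ^ 2 ≤ 3 * Ec / ε) ∧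
    ∀ p : ℝ, 2 / 3 ≤ p → p ≤ 1 →
      ∑ I ∈ cells.filter (Retained stops), I.len * (A I * B I * C I) ^ p
        ≤ (27 * Ea * Eb * Ec / ε ^ 3) ^ (p / 2) * R.len

/-- the four arguments of a near-band term in role order `a, b, c, d`, placed into the slots by `e : slot ≃ role` -/
def placeArgs (e : Fin 4 ≃ Fin 4) (xa xb xc xd : ℝ → ℂ) : Fin 4 → ℝ → ℂ :=
  fun j => ![xa, xb, xc, xd] (e j)

open Classical in
/-- **[S7-NB]** the abstract near-band estimate (19).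
`ι` = indices `ν = (G, b, configuration)`, `α, β` = positions of the two side stacks, `γ` = band indices.
`X ν i p` banded side stack, `Y ν j` untouched side stack, `Cc ν p` frozen complementary band stack (already shifted by the
fixed offset), `Dd ν` the other frozen complement; at a use `I ∈ U ν` the positions `ia ν I`, `ib ν I` are selected. -/
def NearBandGoal (c0 C0 : ℝ) : Prop :=
  ∃ C : ℝ, 0 < C ∧ ∀ q : ℝ, 2 < q → q < 3 → ∃ Cq : ℝ, 0 < Cq ∧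
  ∀ (N : ℕ) (CN : ℝ) (s0 : ℤ), 0 ≤ CN → LocalBound c0 C0 q N CN →
  ∀ (R : Cell) (K : ℕ) (w : Cell → ℝ × ℝ → ℂ) (e : Fin 4 ≃ Fin 4)
    (ι α β γ : Type) [Fintype ι] [Fintype α] [Fintype β] [Fintype γ]
    (b : ι → ℤ) (U : ι → Finset Cell)
    (X : ι → α → γ → ℝ → ℂ) (Y : ι → β → ℝ → ℂ) (Cc : ι → γ → ℝ → ℂ) (Dd : ι → ℝ → ℂ)
    (ia : ι → Cell → α) (ib : ι → Cell → β) (Ea Eb M0 cc : ℝ),
    (∀ ν, ∀ I ∈ U ν, I ≤ R ∧ b ν ≤ I.depth ∧ I.depth < b ν + K ∧ s0 ≤ I.depth ∧ I.depth < s0 + N ∧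
      Admissible c0 C0 I (w I)) →
    (∀ ν i p, Measurable (X ν i p)) → (∀ ν j, Measurable (Y ν j)) → (∀ ν p, Measurable (Cc ν p)) →
    (∀ ν, Measurable (Dd ν)) →
    (∀ ν i p, IntegrableOn (fun y => ‖X ν i p y‖ ^ 2) R.set) → (∀ ν j, IntegrableOn (fun y => ‖Y ν j y‖ ^ 2) R.set) →
    (∀ ν p, IntegrableOn (fun y => ‖Cc ν p y‖ ^ 2) R.set) → (∀ ν, IntegrableOn (fun y => ‖Dd ν y‖ ^ 2) R.set) →
    0 ≤ Ea → 0 ≤ Eb → 1 ≤ M0 → 0 ≤ cc →
    ∑ ν, ∑ i, ∑ p, ∫ y in R.set, ‖X ν i p y‖ ^ 2 ≤ Ea * R.len →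
    ∑ ν, ∑ j, ∫ y in R.set, ‖Y ν j y‖ ^ 2 ≤ Eb * R.len →
    (∀ y ∈ R.set, (((Finset.univ : Finset ι).filter fun ν => ∃ I ∈ U ν, y ∈ I.set).card : ℝ) ≤ M0) →
    (∀ ν, ∀ J : Cell, (∃ I ∈ U ν, I ≤ J) → (∃ I' ∈ U ν, J ≤ I') →
      ∑ p, ∫ y in J.set, ‖Cc ν p y‖ ^ 2 ≤ cc ^ 2 * J.len ∧ ∫ y in J.set, ‖Dd ν y‖ ^ 2 ≤ cc ^ 2 * J.len) →
  ∀ ε : ℝ, 0 < ε → ε < 1 →
  ∃ stops : Finset Cell, StopSet R stops ε ∧
    ∑ ν, ∑ I ∈ (U ν).filter (Retained stops),
        I.len * ‖∑ p, form I (w I) (placeArgs e (X ν (ia ν I) p) (Y ν (ib ν I)) (Cc ν p) (Dd ν))‖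
      ≤ (1 + CN) * Cq * (1 + Real.log ((K : ℝ) + 2)) ^ C * ((K : ℝ) + 2) ^ (C * (q - 2)) * cc ^ 2 *
          Real.sqrt (Ea * Eb) * ((1 + Real.log (2 + M0 / ε)) / ε) * R.len

end Claimed.Agent.R258
end

/- ===== packed: Claimed.Agent.R258.Geo.Defs ===== -/
section
/-
Row 258 (S0498).  [MK2] geometry of numbers for Lemma 4.3 (charts.tex l.236-310).  DEFINITIONS (prefix `geo4_`).
Architect: helper197.

REPLACEMENT OF MINKOWSKI II / POLAR BODIES.  The paper uses successive minima of `K = P⁻¹V[-1,1]^k + [-1,1]^d`, the transference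
bound `λ_j μ_{d+1-j} ≤ (d!)²` (Minkowski's second theorem + a volume product bound) and a gap pigeonhole.  We use instead the following
elementary *reduced basis dichotomy* (hint of helper78), proved by induction on the dimension:

  for a coercive quadratic form `y ↦ ‖Φ y‖²` on `ℝ^ι` (`Φ` linear into an inner product space) and ANY threshold `T > 0` there are a
  unimodular pair `g h = h g = 1` of integer matrices and a set `S ⊆ ι` with
     `‖Φ (row i of g)‖² ≤ K T`                      for `i ∈ S`      (short lattice vectors), and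
     `T (y · column j of h)² ≤ K ‖Φ y‖²  ∀ y`       for `j ∉ S`      (short DUAL vectors: the functional `y ↦ y · h^j` is small),
  `K = ((d+1)!)²`.

Since rows of `g` and columns of `h` are biorthogonal, orthogonality of the two families is automatic and no gap is needed.
-/
set_option autoImplicit false
open Matrix

namespace Claimed.Agent.R258

/-- the loss `((d+1)!)²` of the dichotomy in dimension `d` -/
def geo4_C (d : ℕ) : ℝ := (((d + 1).factorial : ℕ) : ℝ) ^ 2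

section
variable {ι : Type*} {E : Type*} [NormedAddCommGroup E] [InnerProductSpace ℝ E]

/-- coercivity: every coordinate is controlled by `‖Φ y‖` -/
def geo4_Coer (Φ : (ι → ℝ) →ₗ[ℝ] E) : Prop :=
  ∃ ε : ℝ, 0 < ε ∧ ∀ (y : ι → ℝ) (l : ι), ε * y l ^ 2 ≤ ‖Φ y‖ ^ 2

/-- the reduced basis dichotomy for `y ↦ ‖Φ y‖²` at the threshold `T` with loss `K` -/
def geo4_Dich [Fintype ι] [DecidableEq ι] (Φ : (ι → ℝ) →ₗ[ℝ] E) (T K : ℝ) : Prop :=
  ∃ (g h : Matrix ι ι ℤ) (S : Set ι), g * h = 1 ∧ h * g = 1 ∧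
    (∀ i ∈ S, ‖Φ (fun l => (g i l : ℝ))‖ ^ 2 ≤ K * T) ∧
    (∀ j, j ∉ S → ∀ y : ι → ℝ, T * (∑ l, y l * (h l j : ℝ)) ^ 2 ≤ K * ‖Φ y‖ ^ 2)

end

/-- the height bound of the orthogonal projection onto the row space of an integer `s × d` matrix with entries `≤ Bq` -/
def geo4_K (s d : ℕ) (Bq : ℝ) : ℝ :=
  2 * ((s.factorial : ℕ) : ℝ) * ((s : ℝ) + 1) ^ 2 * (((d : ℝ) + 1) * Bq ^ 2) ^ (s + 1)

theorem geo4_C_zero : geo4_C 0 = 1 := by simp [geo4_C]

theorem geo4_C_succ (d : ℕ) : geo4_C (d + 1) = ((d : ℝ) + 2) ^ 2 * geo4_C d := by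
  unfold geo4_C
  rw [Nat.factorial_succ (d + 1)]
  push_cast
  ring

theorem geo4_C_one_le (d : ℕ) : 1 ≤ geo4_C d := by
  unfold geo4_C
  have h : (1 : ℝ) ≤ (((d + 1).factorial : ℕ) : ℝ) := by
    exact_mod_cast Nat.succ_le_of_lt (Nat.factorial_pos _)
  nlinarith

end Claimed.Agent.R258
end

/- ===== packed: Claimed.Agent.R258.Geo.Min ===== -/
section
/-
Row 258, [MK2].  Leaf P-GEO4-MIN: an almost shortest row of a unimodular matrix.   PROVED (helper197).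
-/
set_option autoImplicit false
open Matrix

namespace Claimed.Agent.R258

variable {ι : Type*} [Fintype ι] [DecidableEq ι] {E : Type*} [NormedAddCommGroup E] [InnerProductSpace ℝ E]

/-- Among all rows of all unimodular integer matrices there is one, placed in the row `i0`, which is shortest up to the factor `4/3`.
PLAN: `A = {‖Φ (row i of g)‖² : g h = h g = 1, i}` is nonempty and bounded below by the `ε` of `geo4_Coer` (a row of a unimodular matrix is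
a nonzero integer vector: `∑ l, g i l * h l i = 1`, so some `|g i l| ≥ 1`).  `m = sInf A ≥ ε > 0`; pick `a ∈ A`, `a < 4/3 m`
(`exists_lt_of_csInf_lt`).  Move the row to `i0`: `g0 = g.submatrix (Equiv.swap i i0) id`, `h0 = h.submatrix id (Equiv.swap i i0)`
(`Matrix.submatrix_mul_equiv`, `Matrix.submatrix_one_equiv`). -/
theorem geo4_min (Φ : (ι → ℝ) →ₗ[ℝ] E) (hΦ : geo4_Coer Φ) (i0 : ι) :
    ∃ g0 h0 : Matrix ι ι ℤ, g0 * h0 = 1 ∧ h0 * g0 = 1 ∧
      ∀ g h : Matrix ι ι ℤ, g * h = 1 → h * g = 1 → ∀ i,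
        ‖Φ (fun l => (g0 i0 l : ℝ))‖ ^ 2 ≤ 4 / 3 * ‖Φ (fun l => (g i l : ℝ))‖ ^ 2 := by
  obtain ⟨ε, hε, hco⟩ := hΦ
  let A : Set ℝ := {a | ∃ (g h : Matrix ι ι ℤ) (i : ι), g * h = 1 ∧ h * g = 1 ∧ a = ‖Φ (fun l => (g i l : ℝ))‖ ^ 2}
  have hlow : ∀ a ∈ A, ε ≤ a := by
    rintro a ⟨g, h, i, hgh, -, rfl⟩
    -- some entry of the row is nonzero
    have h1 : ∑ l, g i l * h l i = 1 := by
      have := congrFun (congrFun hgh i) i
      rwa [Matrix.mul_apply, Matrix.one_apply_eq] at this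
    have h2 : ∃ l, g i l ≠ 0 := by
      by_contra hcon
      push Not at hcon
      simp [hcon] at h1
    obtain ⟨l, hl⟩ := h2
    have h3 : (1 : ℝ) ≤ ((g i l : ℤ) : ℝ) ^ 2 := by
      have : (1 : ℤ) ≤ (g i l) ^ 2 := by
        have := Int.one_le_abs hl
        rw [← sq_abs]
        nlinarith
      exact_mod_cast this
    have h4 := hco (fun l => (g i l : ℝ)) l
    nlinarith
  have hne : A.Nonempty := ⟨_, 1, 1, i0, by simp, by simp, rfl⟩
  have hbdd : BddBelow A := ⟨ε, fun a ha => hlow a ha⟩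
  have hm : ε ≤ sInf A := le_csInf hne hlow
  have hlt : sInf A < 4 / 3 * sInf A := by linarith
  obtain ⟨a, ⟨g, h, i, hgh, hhg, rfl⟩, ha⟩ := exists_lt_of_csInf_lt hne hlt
  refine ⟨g.submatrix (Equiv.swap i i0) id, h.submatrix id (Equiv.swap i i0), ?_, ?_, ?_⟩
  · have := Matrix.submatrix_mul_equiv g h (Equiv.swap i i0) (Equiv.refl ι) (Equiv.swap i i0)
    simp only [Equiv.coe_refl] at this
    rw [this, hgh, Matrix.submatrix_one_equiv]
  · have := Matrix.submatrix_mul_equiv h g id (Equiv.swap i i0) id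
    rw [this, hhg]
    simp
  · intro g1 h1 e1 e2 i1
    have hmem : ‖Φ (fun l => (g1 i1 l : ℝ))‖ ^ 2 ∈ A := ⟨g1, h1, i1, e1, e2, rfl⟩
    have hle := csInf_le hbdd hmem
    have : (fun l => ((g.submatrix (Equiv.swap i i0) id) i0 l : ℝ)) = fun l => (g i l : ℝ) := by
      funext l; simp
    rw [this]
    linarith

end Claimed.Agent.R258
end

/- ===== packed: Claimed.Agent.R258.Geo.Riesz ===== -/
section
/-
Row 258, [MK2].  Leaf P-GEO4-RIESZ: a functional bounded by the form `|y|² + |Wᵀy|²` is represented by a short pair `(u, w)`;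
small returns are orthogonal to short dual vectors.   Mathlib only.   PROVED (helper197).
-/
set_option autoImplicit false
open Matrix

namespace Claimed.Agent.R258

variable {ι κ : Type*} [Fintype ι] [DecidableEq ι] [Fintype κ]

theorem geo4_rz_mulVec (W : Matrix ι κ ℝ) (y : ι → ℝ) (l : ι) :
    ((1 + W * Wᵀ) *ᵥ y) l = ∑ a, W l a * (∑ l', y l' * W l' a) + y l := by
  rw [Matrix.add_mulVec, Matrix.one_mulVec, Pi.add_apply, ← Matrix.mulVec_mulVec, add_comm]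
  congr 1
  simp only [Matrix.mulVec, dotProduct, Matrix.transpose_apply]
  apply Finset.sum_congr rfl
  intro a _
  congr 1
  apply Finset.sum_congr rfl
  intro l' _
  ring

theorem geo4_rz_quad (W : Matrix ι κ ℝ) (y : ι → ℝ) :
    ∑ l, y l * ((1 + W * Wᵀ) *ᵥ y) l = ∑ l, y l ^ 2 + ∑ a, (∑ l, y l * W l a) ^ 2 := by
  simp only [geo4_rz_mulVec, mul_add, Finset.sum_add_distrib]
  rw [add_comm]
  congr 1
  · apply Finset.sum_congr rfl
    intro l _
    ring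
  · simp only [Finset.mul_sum]
    rw [Finset.sum_comm]
    apply Finset.sum_congr rfl
    intro a _
    rw [sq, Finset.sum_mul]
    apply Finset.sum_congr rfl
    intro l _
    rw [Finset.mul_sum]
    apply Finset.sum_congr rfl
    intro l' _
    ring

/-- PLAN: `M = 1 + W Wᵀ` is positive definite (`Matrix.PosDef.one.add_posSemidef (Matrix.posSemidef_self_mul_conjTranspose W)`, or directly:
`M *ᵥ y = 0 → y ⬝ᵥ M *ᵥ y = |y|² + |Wᵀy|² = 0 → y = 0`, then `Matrix.exists_mulVec_eq_zero_iff`), so `M.det ≠ 0`.  `y₀ = M⁻¹ *ᵥ n`, `w = y₀`,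
`u = Wᵀ *ᵥ y₀`.  Then `W u + w = M y₀ = n` and `s := |u|² + |w|² = y₀ ⬝ᵥ M y₀ = y₀ ⬝ᵥ n`; the hypothesis at `y = y₀` reads `s² ≤ R s`, so `s ≤ R`
(`s ≥ 0`; if `s = 0` use `0 ≤ R`). -/
theorem geo4_riesz (W : Matrix ι κ ℝ) (n : ι → ℝ) (R : ℝ) (hR : 0 ≤ R)
    (h : ∀ y : ι → ℝ, (∑ l, y l * n l) ^ 2 ≤ R * (∑ l, y l ^ 2 + ∑ a, (∑ l, y l * W l a) ^ 2)) :
    ∃ (u : κ → ℝ) (w : ι → ℝ), (∀ l, n l = ∑ a, W l a * u a + w l) ∧ ∑ a, u a ^ 2 + ∑ l, w l ^ 2 ≤ R := by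
  set M : Matrix ι ι ℝ := 1 + W * Wᵀ with hM
  have hdet : M.det ≠ 0 := by
    intro h0
    obtain ⟨v, hv, hMv⟩ := Matrix.exists_mulVec_eq_zero_iff.mpr h0
    have h1 := geo4_rz_quad W v
    rw [← hM, hMv] at h1
    simp only [Pi.zero_apply, mul_zero, Finset.sum_const_zero] at h1
    have h2 : 0 ≤ ∑ a, (∑ l, v l * W l a) ^ 2 := Finset.sum_nonneg fun a _ => sq_nonneg _
    have h3 : ∑ l, v l ^ 2 = 0 := by
      have : 0 ≤ ∑ l, v l ^ 2 := Finset.sum_nonneg fun a _ => sq_nonneg _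
      linarith
    apply hv
    funext l
    have := (Finset.sum_eq_zero_iff_of_nonneg (fun l _ => sq_nonneg (v l))).mp h3 l (Finset.mem_univ l)
    simpa using this
  set y0 := M⁻¹ *ᵥ n with hy0
  have hMy : M *ᵥ y0 = n := by
    rw [hy0, Matrix.mulVec_mulVec, Matrix.mul_nonsing_inv _ (isUnit_iff_ne_zero.mpr hdet), Matrix.one_mulVec]
  refine ⟨fun a => ∑ l, y0 l * W l a, y0, fun l => ?_, ?_⟩
  · rw [← hMy, hM, geo4_rz_mulVec]
  · have h1 := geo4_rz_quad W y0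
    rw [← hM, hMy] at h1
    have h2 := h y0
    rw [h1] at h2
    set s := ∑ l, y0 l ^ 2 + ∑ a, (∑ l, y0 l * W l a) ^ 2 with hs
    have hs0 : 0 ≤ s := add_nonneg (Finset.sum_nonneg fun a _ => sq_nonneg _) (Finset.sum_nonneg fun a _ => sq_nonneg _)
    have : ∑ a, (∑ l, y0 l * W l a) ^ 2 + ∑ l, y0 l ^ 2 = s := by rw [hs, add_comm]
    rw [this]
    by_contra hcon
    push Not at hcon
    nlinarith

omit [DecidableEq ι] in
/-- small returns are orthogonal to the short dual vectors.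
PLAN: `∑ q_l n_l = ∑_a (∑_l q_l W_la) u_a + ∑_l q_l w_l` (real numbers), Cauchy-Schwarz (`Finset.sum_mul_sq_le_sq_mul_sq` on each sum, or once on `ι ⊕ κ`):
`(∑ q_l n_l)² ≤ (|q|² + |Wᵀq|²)(|u|² + |w|²) ≤ A B < 1`; an integer of square `< 1` is `0`. -/
theorem geo4_small_return (W : Matrix ι κ ℝ) (q n : ι → ℤ) (u : κ → ℝ) (w : ι → ℝ) (A B : ℝ)
    (hq : ∑ l, (q l : ℝ) ^ 2 + ∑ a, (∑ l, (q l : ℝ) * W l a) ^ 2 ≤ A)
    (hn : ∀ l, (n l : ℝ) = ∑ a, W l a * u a + w l) (huw : ∑ a, u a ^ 2 + ∑ l, w l ^ 2 ≤ B) (hAB : A * B < 1) :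
    ∑ l, q l * n l = 0 := by
  set p : κ → ℝ := fun a => ∑ l, (q l : ℝ) * W l a with hp
  have e1 : ((∑ l, q l * n l : ℤ) : ℝ) = ∑ a, p a * u a + ∑ l, (q l : ℝ) * w l := by
    push_cast
    simp only [hn, mul_add, Finset.sum_add_distrib]
    congr 1
    simp only [hp, Finset.mul_sum, Finset.sum_mul]
    rw [Finset.sum_comm]
    apply Finset.sum_congr rfl
    intro a _
    apply Finset.sum_congr rfl
    intro l _
    ring
  have c1 : (∑ a, p a * u a) ^ 2 ≤ (∑ a, p a ^ 2) * ∑ a, u a ^ 2 := Finset.sum_mul_sq_le_sq_mul_sq _ _ _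
  have c2 : (∑ l, (q l : ℝ) * w l) ^ 2 ≤ (∑ l, (q l : ℝ) ^ 2) * ∑ l, w l ^ 2 := Finset.sum_mul_sq_le_sq_mul_sq _ _ _
  set P2 := ∑ a, p a ^ 2 with hP2
  set U2 := ∑ a, u a ^ 2 with hU2
  set Q2 := ∑ l, (q l : ℝ) ^ 2 with hQ2
  set W2 := ∑ l, w l ^ 2 with hW2
  have p0 : 0 ≤ P2 := Finset.sum_nonneg fun a _ => sq_nonneg _
  have u0 : 0 ≤ U2 := Finset.sum_nonneg fun a _ => sq_nonneg _
  have q0 : 0 ≤ Q2 := Finset.sum_nonneg fun a _ => sq_nonneg _
  have w0 : 0 ≤ W2 := Finset.sum_nonneg fun a _ => sq_nonneg _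
  set x := ∑ a, p a * u a with hx
  set y := ∑ l, (q l : ℝ) * w l with hy
  -- (x + y)^2 ≤ (P2 + Q2)(U2 + W2)
  have c3 : (x + y) ^ 2 ≤ (Q2 + P2) * (U2 + W2) := by
    have hxy : 2 * (x * y) ≤ P2 * W2 + Q2 * U2 := by
      have h1 : (x * y) ^ 2 ≤ (P2 * W2) * (Q2 * U2) := by
        calc (x * y) ^ 2 = x ^ 2 * y ^ 2 := by ring
          _ ≤ (P2 * U2) * (Q2 * W2) := mul_le_mul c1 c2 (sq_nonneg _) (by positivity)
          _ = _ := by ring
      have h2 : 0 ≤ P2 * W2 := by positivity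
      have h3 : 0 ≤ Q2 * U2 := by positivity
      by_contra hcon
      push Not at hcon
      have h4 : (P2 * W2 + Q2 * U2) ^ 2 < (2 * (x * y)) ^ 2 := by
        apply pow_lt_pow_left₀ hcon (by positivity) (by norm_num)
      nlinarith [sq_nonneg (P2 * W2 - Q2 * U2)]
    nlinarith
  have c4 : (Q2 + P2) * (U2 + W2) ≤ A * B := mul_le_mul hq huw (by positivity) (by linarith [add_nonneg q0 p0])
  have c5 : ((∑ l, q l * n l : ℤ) : ℝ) ^ 2 < 1 := by
    rw [e1]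
    linarith
  have c6 : (∑ l, q l * n l : ℤ) ^ 2 < 1 := by exact_mod_cast c5
  by_contra hne
  have := Int.one_le_abs hne
  have h7 : (1 : ℤ) ≤ (∑ l, q l * n l : ℤ) ^ 2 := by
    rw [← sq_abs]
    nlinarith
  linarith

end Claimed.Agent.R258
end

/- ===== packed: Claimed.Agent.R258.Geo.Dirichlet ===== -/
section
/-
Row 258, [MK2].  Leaf P-GEO4-DIRICHLET: simultaneous Dirichlet approximation (pigeonhole).   PROVED (helper197).
-/
set_option autoImplicit false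

namespace Claimed.Agent.R258

/-- PLAN: map `q ∈ {0,…,N^d}` (`N^d + 1` points) to the box `l ↦ ⌊N * Int.fract (q α_l)⌋₊ ∈ Fin N`; `card (ι → Fin N) = N^d`
(`Fintype.exists_ne_map_eq_of_card_lt`).  Two points `q₁ < q₂` in the same box: `q = q₂ - q₁`, `n l = ⌊q₂ α_l⌋ - ⌊q₁ α_l⌋`,
`|q α_l - n l| = |fract (q₂ α_l) - fract (q₁ α_l)| < 1/N`. -/
theorem geo4_dirichlet {ι : Type*} [Fintype ι] (α : ι → ℝ) (N : ℕ) (hN : 0 < N) :
    ∃ q : ℕ, 0 < q ∧ q ≤ N ^ Fintype.card ι ∧ ∃ n : ι → ℤ, ∀ l, |(q : ℝ) * α l - (n l : ℝ)| ≤ 1 / (N : ℝ) := by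
  classical
  have hNr : (0 : ℝ) < N := by exact_mod_cast hN
  -- the box of a point
  have hbox : ∀ (q : ℕ) (l : ι), ⌊(N : ℝ) * Int.fract ((q : ℝ) * α l)⌋₊ < N := by
    intro q l
    rw [Nat.floor_lt (by have := Int.fract_nonneg ((q : ℝ) * α l); positivity)]
    have := Int.fract_lt_one ((q : ℝ) * α l)
    nlinarith
  let f : Fin (N ^ Fintype.card ι + 1) → (ι → Fin N) := fun q l => ⟨_, hbox q l⟩
  have hcard : Fintype.card (ι → Fin N) < Fintype.card (Fin (N ^ Fintype.card ι + 1)) := by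
    simp
  obtain ⟨q1, q2, hne, hf⟩ := Fintype.exists_ne_map_eq_of_card_lt f hcard
  -- wlog q1 < q2
  have key : ∀ q1 q2 : Fin (N ^ Fintype.card ι + 1), q1 < q2 → f q1 = f q2 →
      ∃ q : ℕ, 0 < q ∧ q ≤ N ^ Fintype.card ι ∧ ∃ n : ι → ℤ, ∀ l, |(q : ℝ) * α l - (n l : ℝ)| ≤ 1 / (N : ℝ) := by
    intro q1 q2 hlt hf
    have hlt' : (q1 : ℕ) < (q2 : ℕ) := hlt
    refine ⟨(q2 : ℕ) - (q1 : ℕ), by omega, by have := q2.2; omega,
      fun l => ⌊((q2 : ℕ) : ℝ) * α l⌋ - ⌊((q1 : ℕ) : ℝ) * α l⌋, fun l => ?_⟩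
    have h1 : ⌊(N : ℝ) * Int.fract (((q1 : ℕ) : ℝ) * α l)⌋₊ = ⌊(N : ℝ) * Int.fract (((q2 : ℕ) : ℝ) * α l)⌋₊ := by
      have := congrFun hf l
      simpa [f] using this
    set x1 := Int.fract (((q1 : ℕ) : ℝ) * α l) with hx1
    set x2 := Int.fract (((q2 : ℕ) : ℝ) * α l) with hx2
    have p1 : 0 ≤ (N : ℝ) * x1 := by have := Int.fract_nonneg (((q1 : ℕ) : ℝ) * α l); positivity
    have p2 : 0 ≤ (N : ℝ) * x2 := by have := Int.fract_nonneg (((q2 : ℕ) : ℝ) * α l); positivity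
    have a1 := Nat.floor_le p1
    have a2 := Nat.lt_floor_add_one ((N : ℝ) * x1)
    have b1 := Nat.floor_le p2
    have b2 := Nat.lt_floor_add_one ((N : ℝ) * x2)
    rw [h1] at a1 a2
    have hdiff : |(N : ℝ) * (x2 - x1)| ≤ 1 := by
      rw [abs_le]
      constructor <;> nlinarith
    have e : (((q2 : ℕ) - (q1 : ℕ) : ℕ) : ℝ) * α l - ((⌊((q2 : ℕ) : ℝ) * α l⌋ - ⌊((q1 : ℕ) : ℝ) * α l⌋ : ℤ) : ℝ) = x2 - x1 := by
      rw [Nat.cast_sub hlt'.le, hx1, hx2, Int.fract, Int.fract]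
      push_cast
      ring
    rw [e, le_div_iff₀ hNr]
    rw [abs_mul, abs_of_pos hNr] at hdiff
    linarith
  rcases lt_or_gt_of_ne hne with h | h
  · exact key q1 q2 h hf
  · exact key q2 q1 h hf.symm

end Claimed.Agent.R258
end

/- ===== packed: Claimed.Agent.R258.S10.Ctrl ===== -/
section
/-
Row 258, Sec. 10.2 (home architect: helper244).  THE CALCULUS OF CONTROLLED CELL QUANTITIES.

Every estimate inside one attempt (Secs. 6.5, 7, 8.7, 9) is stated as `Ctrl R cells t Xabs Xpow p ε`: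
after stops of total length `≤ ε|R|`, the nonnegative cell quantity `t` splits on the retained cells as `t ≤ u + v` where `u` is
summable absolutely (`≤ Xabs |R|`) and `v` at the power `p` (`≤ Xpow |R|`).  The quantity `t` never depends on the stops.
`Ctrl` is stable under finite sums (union of the stops) and gives
`∑_{retained} |I| min(η, t I) ≤ (Xabs + η^{1-p} Xpow) |R|`, which is how the cell minimum of (11) is used.
-/
set_option autoImplicit false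

namespace Claimed.Agent.R258

open Classical in
/-- controlled cell quantity -/
def Ctrl (R : Cell) (cells : Finset Cell) (t : Cell → ℝ) (Xabs Xpow p ε : ℝ) : Prop :=
  ∃ (stops : Finset Cell) (u v : Cell → ℝ), StopSet R stops ε ∧ (∀ I, 0 ≤ u I) ∧ (∀ I, 0 ≤ v I) ∧
    (∀ I ∈ cells, Retained stops I → t I ≤ u I + v I) ∧
    ∑ I ∈ cells.filter (Retained stops), I.len * u I ≤ Xabs * R.len ∧
    ∑ I ∈ cells.filter (Retained stops), I.len * v I ^ p ≤ Xpow * R.len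

theorem ctrl_len_nonneg (I : Cell) : 0 ≤ I.len := by
  unfold Cell.len
  positivity

/-- monotonicity in the quantity and the budgets.  LEAF P-S10-CTRL -/
theorem Ctrl.mono {R : Cell} {cells : Finset Cell} {t t' : Cell → ℝ} {Xabs Xpow Xabs' Xpow' p ε ε' : ℝ}
    (h : Ctrl R cells t Xabs Xpow p ε) (ht : ∀ I ∈ cells, t' I ≤ t I) (ha : Xabs ≤ Xabs') (hp : Xpow ≤ Xpow')
    (hε : ε ≤ ε') : Ctrl R cells t' Xabs' Xpow' p ε' := by
  obtain ⟨stops, u, v, hs, hu, hv, htuv, h1, h2⟩ := h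
  have hR := ctrl_len_nonneg R
  exact ⟨stops, u, v, ⟨hs.le, hs.len.trans (mul_le_mul_of_nonneg_right hε hR)⟩, hu, hv,
    fun I hI hr => (ht I hI).trans (htuv I hI hr), h1.trans (mul_le_mul_of_nonneg_right ha hR),
    h2.trans (mul_le_mul_of_nonneg_right hp hR)⟩

theorem ctrl_retained_union {s₁ s₂ : Finset Cell} {I : Cell} :
    Retained (s₁ ∪ s₂) I ↔ Retained s₁ I ∧ Retained s₂ I := by
  unfold Retained
  constructor
  · intro h
    exact ⟨fun S hS => h S (Finset.mem_union_left _ hS), fun S hS => h S (Finset.mem_union_right _ hS)⟩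
  · rintro ⟨h1, h2⟩ S hS
    rcases Finset.mem_union.mp hS with h | h
    · exact h1 S h
    · exact h2 S h

theorem ctrl_stopSet_union {R : Cell} {s₁ s₂ : Finset Cell} {ε₁ ε₂ : ℝ} (h₁ : StopSet R s₁ ε₁)
    (h₂ : StopSet R s₂ ε₂) : StopSet R (s₁ ∪ s₂) (ε₁ + ε₂) := by
  refine ⟨fun S hS => ?_, ?_⟩
  · rcases Finset.mem_union.mp hS with h | h
    · exact h₁.le S h
    · exact h₂.le S h
  · have h := Finset.sum_union_inter (s₁ := s₁) (s₂ := s₂) (f := fun S : Cell => S.len)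
    have h0 : 0 ≤ ∑ S ∈ s₁ ∩ s₂, S.len := Finset.sum_nonneg fun S _ => ctrl_len_nonneg S
    have := h₁.len
    have := h₂.len
    rw [add_mul]
    linarith

theorem ctrl_zero (R : Cell) (cells : Finset Cell) {p : ℝ} (hp0 : 0 < p) :
    Ctrl R cells (fun _ => 0) 0 0 p 0 := by
  refine ⟨∅, fun _ => 0, fun _ => 0, ⟨fun S hS => absurd hS (Finset.notMem_empty S), by simp⟩,
    fun _ => le_rfl, fun _ => le_rfl, fun I _ _ => by simp, by simp, ?_⟩
  simp [Real.zero_rpow hp0.ne']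

theorem Ctrl.add {R : Cell} {cells : Finset Cell} {t₁ t₂ : Cell → ℝ} {A₁ A₂ P₁ P₂ p ε₁ ε₂ : ℝ}
    (hp0 : 0 < p) (hp1 : p ≤ 1)
    (h₁ : Ctrl R cells t₁ A₁ P₁ p ε₁) (h₂ : Ctrl R cells t₂ A₂ P₂ p ε₂) :
    Ctrl R cells (fun I => t₁ I + t₂ I) (A₁ + A₂) (P₁ + P₂) p (ε₁ + ε₂) := by
  classical
  obtain ⟨s₁, u₁, v₁, hs₁, hu₁, hv₁, ht₁, ha₁, hb₁⟩ := h₁
  obtain ⟨s₂, u₂, v₂, hs₂, hu₂, hv₂, ht₂, ha₂, hb₂⟩ := h₂
  have sub₁ : cells.filter (Retained (s₁ ∪ s₂)) ⊆ cells.filter (Retained s₁) := by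
    intro I hI
    rw [Finset.mem_filter] at hI ⊢
    exact ⟨hI.1, (ctrl_retained_union.mp hI.2).1⟩
  have sub₂ : cells.filter (Retained (s₁ ∪ s₂)) ⊆ cells.filter (Retained s₂) := by
    intro I hI
    rw [Finset.mem_filter] at hI ⊢
    exact ⟨hI.1, (ctrl_retained_union.mp hI.2).2⟩
  refine ⟨s₁ ∪ s₂, fun I => u₁ I + u₂ I, fun I => v₁ I + v₂ I, ctrl_stopSet_union hs₁ hs₂,
    fun I => add_nonneg (hu₁ I) (hu₂ I), fun I => add_nonneg (hv₁ I) (hv₂ I), ?_, ?_, ?_⟩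
  · intro I hI hr
    have := ht₁ I hI (ctrl_retained_union.mp hr).1
    have := ht₂ I hI (ctrl_retained_union.mp hr).2
    simp only
    linarith
  · simp only [mul_add, Finset.sum_add_distrib, add_mul]
    refine add_le_add (le_trans ?_ ha₁) (le_trans ?_ ha₂)
    · exact Finset.sum_le_sum_of_subset_of_nonneg sub₁ fun I _ _ =>
        mul_nonneg (ctrl_len_nonneg I) (hu₁ I)
    · exact Finset.sum_le_sum_of_subset_of_nonneg sub₂ fun I _ _ =>
        mul_nonneg (ctrl_len_nonneg I) (hu₂ I)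
  · have hle : ∑ I ∈ cells.filter (Retained (s₁ ∪ s₂)), I.len * (v₁ I + v₂ I) ^ p
        ≤ ∑ I ∈ cells.filter (Retained (s₁ ∪ s₂)), (I.len * v₁ I ^ p + I.len * v₂ I ^ p) := by
      refine Finset.sum_le_sum fun I _ => ?_
      rw [← mul_add]
      exact mul_le_mul_of_nonneg_left (Real.rpow_add_le_add_rpow (hv₁ I) (hv₂ I) hp0.le hp1)
        (ctrl_len_nonneg I)
    refine hle.trans ?_
    rw [Finset.sum_add_distrib, add_mul]
    refine add_le_add (le_trans ?_ hb₁) (le_trans ?_ hb₂)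
    · exact Finset.sum_le_sum_of_subset_of_nonneg sub₁ fun I _ _ =>
        mul_nonneg (ctrl_len_nonneg I) (Real.rpow_nonneg (hv₁ I) _)
    · exact Finset.sum_le_sum_of_subset_of_nonneg sub₂ fun I _ _ =>
        mul_nonneg (ctrl_len_nonneg I) (Real.rpow_nonneg (hv₂ I) _)

/-- finite sums: the stops are united.  LEAF P-S10-CTRL -/
theorem Ctrl.sum {R : Cell} {cells : Finset Cell} {ι : Type} (s : Finset ι) (t : ι → Cell → ℝ)
    (Xabs Xpow ε : ι → ℝ) (p : ℝ) (hp0 : 0 < p) (hp1 : p ≤ 1)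
    (h : ∀ i ∈ s, Ctrl R cells (t i) (Xabs i) (Xpow i) p (ε i)) :
    Ctrl R cells (fun I => ∑ i ∈ s, t i I) (∑ i ∈ s, Xabs i) (∑ i ∈ s, Xpow i) p (∑ i ∈ s, ε i) := by
  classical
  induction s using Finset.induction_on with
  | empty =>
    simp only [Finset.sum_empty]
    exact ctrl_zero R cells hp0
  | insert a s ha ih =>
    simp only [Finset.sum_insert ha]
    exact Ctrl.add hp0 hp1 (h a (Finset.mem_insert_self a s))
      (ih fun i hi => h i (Finset.mem_insert_of_mem hi))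

/-- scaling by a constant `c ≥ 0`.  LEAF P-S10-CTRL -/
theorem Ctrl.smul {R : Cell} {cells : Finset Cell} {t : Cell → ℝ} {Xabs Xpow p ε c : ℝ} (hc : 0 ≤ c) (hp0 : 0 < p)
    (h : Ctrl R cells t Xabs Xpow p ε) : Ctrl R cells (fun I => c * t I) (c * Xabs) (c ^ p * Xpow) p ε := by
  obtain ⟨stops, u, v, hs, hu, hv, htuv, h1, h2⟩ := h
  refine ⟨stops, fun I => c * u I, fun I => c * v I, hs, fun I => mul_nonneg hc (hu I),
    fun I => mul_nonneg hc (hv I), fun I hI hr => ?_, ?_, ?_⟩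
  · simp only
    rw [← mul_add]
    exact mul_le_mul_of_nonneg_left (htuv I hI hr) hc
  · have e : ∀ I : Cell, I.len * (c * u I) = c * (I.len * u I) := fun I => by ring
    simp only [e]
    rw [← Finset.mul_sum, mul_assoc]
    exact mul_le_mul_of_nonneg_left h1 hc
  · have e : ∀ I : Cell, I.len * (c * v I) ^ p = c ^ p * (I.len * v I ^ p) := fun I => by
      rw [Real.mul_rpow hc (hv I)]
      ring
    simp only [e]
    rw [← Finset.mul_sum, mul_assoc]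
    exact mul_le_mul_of_nonneg_left h2 (Real.rpow_nonneg hc _)

/-- an absolutely summable quantity is controlled without stops.  LEAF P-S10-CTRL -/
theorem Ctrl.of_abs {R : Cell} {cells : Finset Cell} {t : Cell → ℝ} {Xabs p : ℝ} (ht : ∀ I, 0 ≤ t I)
    (h : ∑ I ∈ cells, I.len * t I ≤ Xabs * R.len) (hp0 : 0 < p) : Ctrl R cells t Xabs 0 p 0 := by
  classical
  have hf : cells.filter (Retained ∅) = cells := by
    refine Finset.filter_true_of_mem fun I _ S hS => absurd hS (Finset.notMem_empty S)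
  refine ⟨∅, t, fun _ => 0, ⟨fun S hS => absurd hS (Finset.notMem_empty S), by simp⟩, ht,
    fun _ => le_rfl, fun I _ _ => by simp, ?_, ?_⟩
  · rw [hf]
    exact h
  · simp [Real.zero_rpow hp0.ne']

theorem ctrl_min_le {η u v t p : ℝ} (hp0 : 0 < p) (hp1 : p ≤ 1) (hη : 0 < η) (hu : 0 ≤ u)
    (hv : 0 ≤ v) (ht : t ≤ u + v) : min η t ≤ u + η ^ (1 - p) * v ^ p := by
  have h1p : 0 ≤ 1 - p := by linarith
  rcases le_total v η with h | h
  · have e : v = v ^ (1 - p) * v ^ p := by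
      rw [← Real.rpow_add_of_nonneg hv h1p hp0.le]
      simp
    have h2 : v ≤ η ^ (1 - p) * v ^ p := by
      calc v = v ^ (1 - p) * v ^ p := e
        _ ≤ η ^ (1 - p) * v ^ p :=
          mul_le_mul_of_nonneg_right (Real.rpow_le_rpow hv h h1p) (Real.rpow_nonneg hv _)
    calc min η t ≤ t := min_le_right _ _
      _ ≤ u + v := ht
      _ ≤ _ := by linarith
  · have e : η = η ^ (1 - p) * η ^ p := by
      rw [← Real.rpow_add hη]
      simp
    have h2 : η ≤ η ^ (1 - p) * v ^ p := by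
      calc η = η ^ (1 - p) * η ^ p := e
        _ ≤ η ^ (1 - p) * v ^ p :=
          mul_le_mul_of_nonneg_left (Real.rpow_le_rpow hη.le h hp0.le) (Real.rpow_nonneg hη.le _)
    calc min η t ≤ η := min_le_left _ _
      _ ≤ _ := by linarith

open Classical in
/-- the use of the cell minimum: `min(η, u+v) ≤ u + η^{1-p} v^p`.  LEAF P-S10-CTRL -/
theorem Ctrl.min_bound {R : Cell} {cells : Finset Cell} {t : Cell → ℝ} {Xabs Xpow p ε η : ℝ}
    (h : Ctrl R cells t Xabs Xpow p ε) (hp0 : 0 < p) (hp1 : p ≤ 1) (hη : 0 < η) :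
    ∃ stops : Finset Cell, StopSet R stops ε ∧
      ∑ I ∈ cells.filter (Retained stops), I.len * min η (t I) ≤ (Xabs + η ^ (1 - p) * Xpow) * R.len := by
  obtain ⟨stops, u, v, hs, hu, hv, htuv, h1, h2⟩ := h
  refine ⟨stops, hs, ?_⟩
  calc ∑ I ∈ cells.filter (Retained stops), I.len * min η (t I)
      ≤ ∑ I ∈ cells.filter (Retained stops), (I.len * u I + η ^ (1 - p) * (I.len * v I ^ p)) := by
        refine Finset.sum_le_sum fun I hI => ?_
        rw [Finset.mem_filter] at hI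
        have := ctrl_min_le hp0 hp1 hη (hu I) (hv I) (htuv I hI.1 hI.2)
        calc I.len * min η (t I) ≤ I.len * (u I + η ^ (1 - p) * v I ^ p) :=
              mul_le_mul_of_nonneg_left this (ctrl_len_nonneg I)
          _ = _ := by ring
    _ = ∑ I ∈ cells.filter (Retained stops), I.len * u I
          + η ^ (1 - p) * ∑ I ∈ cells.filter (Retained stops), I.len * v I ^ p := by
        rw [Finset.sum_add_distrib, Finset.mul_sum]
    _ ≤ Xabs * R.len + η ^ (1 - p) * (Xpow * R.len) :=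
        add_le_add h1 (mul_le_mul_of_nonneg_left h2 (Real.rpow_nonneg hη.le _))
    _ = _ := by ring

/-- three strong factors (from `PowerGoal`): if `t I ≤ c * A I * B I * C I` with integrated square budgets.
LEAF P-S10-CTRL -/
theorem Ctrl.of_three (hPW : PowerGoal) {R : Cell} {cells : Finset Cell} (hc : ∀ I ∈ cells, I ≤ R)
    {t A B C : Cell → ℝ} {Ea Eb Ec c p ε : ℝ}
    (hA : ∀ I, 0 ≤ A I) (hB : ∀ I, 0 ≤ B I) (hC : ∀ I, 0 ≤ C I) (hEa : 0 ≤ Ea) (hEb : 0 ≤ Eb) (hEc : 0 ≤ Ec)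
    (hc0 : 0 ≤ c) (ht : ∀ I ∈ cells, t I ≤ c * (A I * B I * C I))
    (h1 : ∑ I ∈ cells, I.len * A I ^ 2 ≤ Ea * R.len) (h2 : ∑ I ∈ cells, I.len * B I ^ 2 ≤ Eb * R.len)
    (h3 : ∑ I ∈ cells, I.len * C I ^ 2 ≤ Ec * R.len) (hp : 2 / 3 ≤ p) (hp1 : p ≤ 1) (hε : 0 < ε) (hε1 : ε < 1) :
    Ctrl R cells t 0 (c ^ p * (27 * Ea * Eb * Ec / ε ^ 3) ^ (p / 2)) p ε := by
  obtain ⟨stops, hs, -, hpow⟩ := hPW R cells hc A B C hA hB hC Ea Eb Ec hEa hEb hEc h1 h2 h3 ε hε hε1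
  have hABC : ∀ I, 0 ≤ A I * B I * C I := fun I => mul_nonneg (mul_nonneg (hA I) (hB I)) (hC I)
  refine ⟨stops, fun _ => 0, fun I => c * (A I * B I * C I), hs, fun _ => le_rfl,
    fun I => mul_nonneg hc0 (hABC I), fun I hI _ => ?_, by simp, ?_⟩
  · simp only [zero_add]
    exact ht I hI
  · have e : ∀ I : Cell, I.len * (c * (A I * B I * C I)) ^ p
        = c ^ p * (I.len * (A I * B I * C I) ^ p) := fun I => by
      rw [Real.mul_rpow hc0 (hABC I)]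
      ring
    simp only [e]
    rw [← Finset.mul_sum, mul_assoc]
    exact mul_le_mul_of_nonneg_left (hpow p hp hp1) (Real.rpow_nonneg hc0 _)

end Claimed.Agent.R258
end

/- ===== packed: Claimed.Agent.R258.S7b.Defs ===== -/
section
/-
Row 258, block [S7b] (architect: helper243).  LEMMA 7.2, SHORT-BLOCK COMPARISON (sides.tex l.95-470).  DEFINITIONS.  No sorry in this file.

DESIGN (deviations from the paper, all checked on paper; everything below the top level is FINITE):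
 (0) Approx.lean   the inputs are replaced by their averages on the dyadic cells of a very fine depth `ℓ` (`L²` limit at the very end).  The moment hypothesis
                   survives in the form: per fine cell `a`,  `E_σ (μ |Z^σ_j(a)|²)⁴ ≤ (Cm² ρ_j(a))⁴`,  `ρ_j(a) = ∫_{cell a} m_j²`, `μ = 2^{-ℓ}`  (Minkowski).
 (1) Rect.lean     rectangles of leaf depths (pure combinatorics), Tree.lean: what a rectangle gives (`SbStepHyp`).
 (2) Cont.lean     one rectangle, continuous -> discrete: the kernel is sampled on the slow lattice `δ ℤ`, `δ = 2^{-(t+b0)}`; for STEP inputs the form with the sampled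
                   kernel is EXACTLY a convex combination (over bounded shifts `κ`) of finite sums; the fast variable lives in `ZMod M`, `M` a PRIME in
                   `(16 M₀, 32 M₀]`, `M₀ = δ/μ` (no torus, no Fourier series, no measurability in `γ, u, v`).
 (3) Four.lean     quadratic randomisation = finite Fourier analysis on the field `ZMod M`: unitarity, invariance of the progression sum, fourth moment `≤ 2`.
 (4) Disc.lean     the discrete core `sb_disc`: invariance, clipping of the slot `a` (ALWAYS clipped: a regular slot is a special heavy slot), bursts, `LocalBound`,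
                   Hoelder + Lemma 7.1 (`mx_mixed_Mq`) with FINITE `X = Ω × ZMod M`, `W = ZMod M`.
                   The fast progression Hoelder estimate is only needed at `(2,2,2,2)` (Cauchy-Schwarz, pairs (0,1), (2,3)) and `(1,3,3,3)` (Hoelder in the difference).
 (5) Sum.lean      summation over the rectangles, normalisation `s_j = 1`;  Top.lean: `sb_shortBlock : ShortBlockGoal c0 C0` for `0 < c0`, `1 ≤ C0`.
-/
set_option autoImplicit false
open MeasureTheory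
open scoped ENNReal

namespace Claimed.Agent.R258

noncomputable section

/-! ## Progressions, meshes, index sets -/

/-- the `j`-th term `x0 + j (x1 - x0)` of the progression through `x0`, `x1`. -/
def sbAp {A : Type*} [Ring A] (x0 x1 : A) (j : Fin 4) : A := x0 + ((j : ℕ) : A) * (x1 - x0)

/-- the mesh `2^{-τ}`. -/
def sbDel (τ : ℤ) : ℝ := (2 : ℝ) ^ (-τ)

/-- the integers `n` with `2^{-τ} n ∈ I` (for `I.depth ≤ τ`). -/
def sbIdx (τ : ℤ) (I : Cell) : Finset ℤ :=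
  Finset.Ico (I.idx * 2 ^ (τ - I.depth).toNat) ((I.idx + 1) * 2 ^ (τ - I.depth).toNat)

/-- the interior indices: `2^{-τ} [n - 6, n + 6] ⊆ I`. -/
def sbInn (τ : ℤ) (I : Cell) : Finset ℤ :=
  Finset.Ico (I.idx * 2 ^ (τ - I.depth).toNat + 6) ((I.idx + 1) * 2 ^ (τ - I.depth).toNat - 6)

/-- the step function of depth `ℓ` with the values `Z`. -/
def sbStep (ℓ : ℤ) (Z : ℤ → ℂ) (y : ℝ) : ℂ := Z ⌊y * (2 : ℝ) ^ ℓ⌋

/-- the average of `f` on the cells of depth `ℓ`, as a sequence. -/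
def sbAvg (ℓ : ℤ) (f : ℝ → ℂ) (a : ℤ) : ℂ :=
  (((sbDel ℓ)⁻¹ : ℝ) : ℂ) * ∫ y in Set.Ico (sbDel ℓ * a) (sbDel ℓ * (a + 1)), f y

/-- the mass of `g` on the cells of depth `ℓ`, as a sequence. -/
def sbMass (ℓ : ℤ) (g : ℝ → ℝ) (a : ℤ) : ℝ := ∫ y in Set.Ico (sbDel ℓ * a) (sbDel ℓ * (a + 1)), g y

/-! ## The sampled forms -/

/-- the form with the kernel sampled on the slow lattice, applied to four sequences:
`(δ/|I|)² ∑_{n0,n1} w(δ n0, δ (n1 - n0)) ∏_j c_j(n_j)`. -/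
def sbSamp (τ : ℤ) (I : Cell) (w : ℝ × ℝ → ℂ) (c : Fin 4 → ℤ → ℂ) : ℂ :=
  (((sbDel τ / I.len) ^ 2 : ℝ) : ℂ) * ∑ n0 ∈ sbIdx τ I, ∑ n1 ∈ sbIdx τ I,
    w (sbDel τ * n0, sbDel τ * (n1 - n0)) * ∏ j : Fin 4, c j (sbAp n0 n1 j)

/-- the discrete form on `ℤ × ZMod M`: average of `sbSamp` over the fast progressions. -/
def sbDisc (τ : ℤ) (M : ℕ) [NeZero M] (I : Cell) (w : ℝ × ℝ → ℂ) (F : Fin 4 → ℤ → ZMod M → ℂ) : ℂ :=
  ((((M : ℝ) ^ 2)⁻¹ : ℝ) : ℂ) * ∑ u : ZMod M, ∑ v : ZMod M, sbSamp τ I w (fun j n => F j n (sbAp u v j))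

/-- the absolute lattice sum over the interior progressions. -/
def sbAbs (τ : ℤ) (I : Cell) (c : Fin 4 → ℤ → ℝ) : ℝ :=
  (sbDel τ / I.len) ^ 2 * ∑ n0 ∈ sbInn τ I, ∑ n1 ∈ sbInn τ I,
    if ∀ j : Fin 4, sbAp n0 n1 j ∈ sbInn τ I then ∏ j : Fin 4, c j (sbAp n0 n1 j) else 0

/-- the kernel sampled on the slow lattice, as a function on `ℝ × ℝ`. -/
def sbKer (τ : ℤ) (w : ℝ × ℝ → ℂ) (p : ℝ × ℝ) : ℂ :=
  w (sbDel τ * ⌊p.1 * (2 : ℝ) ^ τ⌋, sbDel τ * (⌊(p.1 + p.2) * (2 : ℝ) ^ τ⌋ - ⌊p.1 * (2 : ℝ) ^ τ⌋))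

/-! ## The lift to the fast group `ZMod M` -/

/-- the shifts of the four slots. -/
def sbSh (κ : ℤ × ℤ) (j : Fin 4) : ℤ := ![0, 0, κ.1, κ.2] j

/-- the lift intervals: `[0, M₀)` in the slots `0, 1`, `[-2 M₀, 3 M₀)` in the slots `2, 3`; `M₀ = 2^e`. -/
def sbLiftSet (e : ℕ) (j : Fin 4) : Finset ℤ :=
  if (j : ℕ) < 2 then Finset.Ico 0 (2 ^ e) else Finset.Ico (-(2 * 2 ^ e)) (3 * 2 ^ e)

/-- `F_j(n, x) = Z_j(M₀ n + x + κ_j)` for `x` in the lift interval, `0` elsewhere. -/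
def sbLift (e M : ℕ) (κ : ℤ × ℤ) (Z : Fin 4 → ℤ → ℂ) (j : Fin 4) (n : ℤ) (x : ZMod M) : ℂ :=
  if x.valMinAbs ∈ sbLiftSet e j then Z j (2 ^ e * n + x.valMinAbs + sbSh κ j) else 0

/-- the normalised mass of the sampling window of the slow index `n`. -/
def sbLiftMs (e M : ℕ) (ℓ : ℤ) (κ : ℤ × ℤ) (ρ : Fin 4 → ℤ → ℝ) (j : Fin 4) (n : ℤ) : ℝ :=
  ((M : ℝ) * sbDel ℓ)⁻¹ * ∑ k ∈ sbLiftSet e j, ρ j (2 ^ e * n + k + sbSh κ j)

/-! ## Quadratic randomisation, clipping, bursts -/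

/-- Fourier coefficient on `ZMod M`. -/
def sbHat {M : ℕ} [NeZero M] (F : ZMod M → ℂ) (m : ZMod M) : ℂ :=
  (M : ℂ)⁻¹ * ∑ x : ZMod M, F x * ZMod.stdAddChar (-(m * x))

/-- the unitary map `F̂(m) ↦ e(γ m²/c) F̂(m)`. -/
def sbU {M : ℕ} [NeZero M] (c γ : ZMod M) (F : ZMod M → ℂ) (x : ZMod M) : ℂ :=
  ∑ m : ZMod M, sbHat F m * ZMod.stdAddChar (γ * m ^ 2 * c⁻¹) * ZMod.stdAddChar (m * x)

/-- `c = (-1, 3, -3, 1)`. -/
def sbC (M : ℕ) (j : Fin 4) : ZMod M := ![-1, 3, -3, 1] j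

/-- radial clipping at height `A`. -/
def sbClip (A : ℝ) (z : ℂ) : ℂ := if ‖z‖ ≤ A then z else ((A / ‖z‖ : ℝ) : ℂ) * z

/-- the randomised functions. -/
def sbG0 {M : ℕ} [NeZero M] (γ : ZMod M) (F : Fin 4 → ℤ → ZMod M → ℂ) (j : Fin 4) (n : ℤ) (x : ZMod M) : ℂ :=
  sbU (sbC M j) γ (F j n) x

/-- the randomised functions, the slot `a` clipped at `A`. -/
def sbG {M : ℕ} [NeZero M] (a : Fin 4) (A : ℝ) (γ : ZMod M) (F : Fin 4 → ℤ → ZMod M → ℂ) (j : Fin 4) (n : ℤ)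
    (x : ZMod M) : ℂ :=
  if j = a then sbClip A (sbG0 γ F j n x) else sbG0 γ F j n x

/-- the burst function `∑_n c(n) 1_{|y - δ n| < δ/32}`. -/
def sbBurst (τ : ℤ) (Nall : Finset ℤ) (c : ℤ → ℂ) (y : ℝ) : ℂ :=
  ∑ n ∈ Nall, if |y - sbDel τ * n| < sbDel τ / 32 then c n else 0

/-- the polygon of the real progressions which meet the four bursts of the centres `δ n_j`. -/
def sbPol (τ : ℤ) (n0 n1 : ℤ) : Set (ℝ × ℝ) :=
  {p | ∀ j : Fin 4, |p.1 + (j : ℝ) * p.2 - sbDel τ * (sbAp n0 n1 j : ℤ)| < sbDel τ / 32}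

/-- the normalised area of the offset polygon (`1/4096 ≤ sbAr τ ≤ 1/256`, see `Burst.lean`). -/
def sbAr (τ : ℤ) : ℝ := (volume (sbPol τ 0 0)).toReal / sbDel τ ^ 2

/-! ## Normalised fast and local means, kernel constants -/

/-- the normalised `k`-th power mean `M⁻¹ ∑_x ‖F x‖^k` of a fast function. -/
def sbFp {M : ℕ} [NeZero M] (k : ℕ) (F : ZMod M → ℂ) : ℝ := (M : ℝ)⁻¹ * ∑ x : ZMod M, ‖F x‖ ^ k

/-- the normalised local sum `(δ/|I|) ∑_{n ∈ sbInn τ I} g n`. -/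
def sbLoc (τ : ℤ) (I : Cell) (g : ℤ → ℝ) : ℝ := sbDel τ / I.len * ∑ n ∈ sbInn τ I, g n

/-- sup bound of an admissible kernel. -/
def sbB0 (C0 : ℝ) : ℝ := (C0 * (((0 : ℕ) : ℝ) + 2)) ^ (C0 * (((0 : ℕ) : ℝ) + 2))

/-- `|I| ×` Lipschitz bound of an admissible kernel. -/
def sbB1 (C0 : ℝ) : ℝ := (C0 * (((1 : ℕ) : ℝ) + 2)) ^ (C0 * (((1 : ℕ) : ℝ) + 2))

/-- the slow indices whose sampling windows can meet the fine indices of `Fall`. -/
def sbNall (e : ℕ) (Fall : Finset ℤ) : Finset ℤ := Fall.biUnion fun k => Finset.Icc (k / 2 ^ e - 6) (k / 2 ^ e + 6)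

/-! ## Exponents and the bound of one rectangle -/

/-- `p_* = 2 + 2 (q - 2)`. -/
def sbP (q : ℝ) : ℝ := 2 * (q - 1)

/-- `2 p_* / (p_* - 2)`. -/
def sbP' (q : ℝ) : ℝ := 2 * (q - 1) / (q - 2)

/-- the spatial exponents. -/
def sbPj (q : ℝ) (a b j : Fin 4) : ℝ := if j = a ∨ j = b then sbP q else sbP' q

/-- the fast exponents. -/
def sbHj (q : ℝ) (a j : Fin 4) : ℝ := if j = a then sbP q else 4

/-- the bound of one rectangle (up to a constant): sampling errors, clipping error, main term. -/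
def sbBd (q CN A V : ℝ) (a b : Fin 4) (E : Fin 4 → ℝ) : ℝ :=
  Real.sqrt (E a * E b) + V / A + CN * (A ^ (1 - 2 / sbP q) * ∏ j : Fin 4, E j ^ (1 / sbPj q a b j))

/-- the weights of the probability space `Ω × ZMod M` of the pairs `(σ, γ)`. -/
def sbWt {Ω : Type} (pr : Ω → ℝ) (M : ℕ) (ξ : Ω × ZMod M) : ℝ≥0∞ := ENNReal.ofReal (pr ξ.1) * (M : ℝ≥0∞)⁻¹

/-! ## Hypotheses of the discrete core and of one rectangle -/

/-- Data of the discrete core.  `δ = 2^{-(t+b0)}`; `F σ j n` = fast function of the slow index `n`; `ms j n` = normalised deterministic mass of its window. -/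
structure SbDiscHyp (c0 C0 : ℝ) (t : ℤ) (b0 : ℕ) (S : Finset Cell) (w : Cell → ℝ × ℝ → ℂ)
    {Ω : Type} [Fintype Ω] (pr : Ω → ℝ) (M : ℕ) [NeZero M] (F : Ω → Fin 4 → ℤ → ZMod M → ℂ)
    (ms : Fin 4 → ℤ → ℝ) (a b : Fin 4) (Cm : ℝ) (Nall : Finset ℤ) (E : Fin 4 → ℝ) : Prop where
  prime : M.Prime
  M_gt : 3 < M
  depth_lt : ∀ I ∈ S, I.depth < t
  adm : ∀ I ∈ S, Admissible c0 C0 I (w I)
  pr_nonneg : ∀ σ, 0 ≤ pr σ
  pr_sum : ∑ σ, pr σ = 1
  ab : a ≠ b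
  ms_nonneg : ∀ j n, 0 ≤ ms j n
  supp : ∀ σ j n, n ∉ Nall → F σ j n = 0
  ms_supp : ∀ j n, n ∉ Nall → ms j n = 0
  sub : ∀ I ∈ S, sbInn (t + b0) I ⊆ Nall
  mom : ∀ j n, ∑ σ, pr σ * (sbFp 2 (F σ j n)) ^ 4 ≤ (Cm ^ 2 * ms j n) ^ 4
  reg : ∀ j, j ≠ a → ∀ n, ms j n ≤ 2 ^ b0
  loc : ∀ I ∈ S, ∀ j, sbLoc (t + b0) I (ms j) ≤ 1
  tot : ∀ j, sbDel (t + b0) * ∑ n ∈ Nall, ms j n ≤ E j

/-- Data of one rectangle, step inputs of depth `ℓ`: `Z σ j` = values of the masked input, `ρ j` = masses of the masked `m_j²` on the fine cells. -/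
structure SbStepHyp (c0 C0 : ℝ) (t ℓ : ℤ) (S : Finset Cell) (w : Cell → ℝ × ℝ → ℂ)
    {Ω : Type} [Fintype Ω] (pr : Ω → ℝ) (Z : Ω → Fin 4 → ℤ → ℂ) (ρ : Fin 4 → ℤ → ℝ) (a b : Fin 4) (Cm : ℝ)
    (Fall : Finset ℤ) (E : Fin 4 → ℝ) : Prop where
  depth_lt : ∀ I ∈ S, I.depth < t
  adm : ∀ I ∈ S, Admissible c0 C0 I (w I)
  pr_nonneg : ∀ σ, 0 ≤ pr σ
  pr_sum : ∑ σ, pr σ = 1
  ab : a ≠ b
  ρ_nonneg : ∀ j k, 0 ≤ ρ j k
  Z_supp : ∀ σ j k, k ∉ Fall → Z σ j k = 0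
  ρ_supp : ∀ j k, k ∉ Fall → ρ j k = 0
  sub : ∀ I ∈ S, sbIdx ℓ I ⊆ Fall
  mom : ∀ j k, ∑ σ, pr σ * (sbDel ℓ * ‖Z σ j k‖ ^ 2) ^ 4 ≤ (Cm ^ 2 * ρ j k) ^ 4
  reg : ∀ j, j ≠ a → ∀ J : Cell, J.depth = t → ∑ k ∈ sbIdx ℓ J, ρ j k ≤ J.len
  loc : ∀ I ∈ S, ∀ j, ∑ k ∈ sbIdx ℓ I, ρ j k ≤ I.len
  tot : ∀ j, ∑ k ∈ Fall, ρ j k ≤ E j

/-! ## Rectangles of leaf depths -/

/-- A rectangle of (relative) leaf depths: family, designated slots, threshold, the four sets of depths. -/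
structure SbRect where
  fam : ℕ
  a : Fin 4
  b : Fin 4
  t : ℕ
  D : Fin 4 → Finset ℕ
deriving DecidableEq

open Classical in
/-- the fine cell `k` lies in a leaf whose relative depth belongs to `D`. -/
def sbMask (leaves : Finset Cell) (s1 ℓ : ℤ) (D : Finset ℕ) (k : ℤ) : Prop :=
  ∃ L ∈ leaves, (L.depth - s1).toNat ∈ D ∧ k ∈ sbIdx ℓ L

open Classical in
/-- masked sequence. -/
def sbMaskC (leaves : Finset Cell) (s1 ℓ : ℤ) (D : Finset ℕ) (Z : ℤ → ℂ) (k : ℤ) : ℂ :=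
  if sbMask leaves s1 ℓ D k then Z k else 0

open Classical in
/-- masked mass. -/
def sbMaskR (leaves : Finset Cell) (s1 ℓ : ℤ) (D : Finset ℕ) (ρ : ℤ → ℝ) (k : ℤ) : ℝ :=
  if sbMask leaves s1 ℓ D k then ρ k else 0

/-- total length of the leaves whose relative depth belongs to `D`. -/
def sbLen (leaves : Finset Cell) (s1 : ℤ) (D : Finset ℕ) : ℝ :=
  ∑ L ∈ leaves.filter (fun L => (L.depth - s1).toNat ∈ D), L.len

end

end Claimed.Agent.R258
end

/- ===== packed: Claimed.Agent.R258.S7b.Four ===== -/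
section
/-
Row 258, block [S7b] (architect: helper243).  FILE Four: QUADRATIC RANDOMISATION = finite Fourier analysis on `ZMod M`.  Paper-free, Mathlib only.
Leaves: P-SB-FOUR1 (`sb_hat_inv`, `sb_U_zero`, `sb_U_norm`), P-SB-FOUR2 (`sb_U_invariant`), P-SB-FOUR3 (`sb_U_fourth`).

Notation: `e = ZMod.stdAddChar` (primitive: `ZMod.isPrimitive_stdAddChar`; `‖e x‖ = 1`: `AddChar.norm_apply`; orthogonality `∑_x e(k x) = M [k = 0]`:
`AddChar.sum_eq_ite` / `AddChar.sum_mulShift`), `F̂ = sbHat F`, `sbU c γ F x = ∑_m F̂(m) e(γ m² / c) e(m x)`.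

PROOFS.
* `sb_hat_inv`: Fourier inversion, orthogonality.
* `sb_U_norm`: Parseval twice: `∑_x |∑_m a_m e(m x)|² = M ∑_m |a_m|²`, `∑_m |F̂(m)|² = M⁻¹ ∑_x |F x|²`, the multiplier has modulus one.
* `sb_U_invariant`: expand the four factors: LHS `= ∑_{m : Fin 4 → ZMod M} ∏ F̂_j(m_j) e(γ ∑ m_j²/c_j) ∑_{u,v} e(u ∑ (1-j) m_j + v ∑ j m_j)`; the inner sum is `M²` if
  `∑ m_j = 0 = ∑ j m_j` and `0` otherwise; on that set `m_1 = -2 m_2 - 3 m_3`, `m_0 = m_2 + 2 m_3`, hence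
  `-m_0² + m_1²/3 - m_2²/3 + m_3² = 0` (`field_simp; ring`, `3 ≠ 0` in `ZMod M` as `M` is a prime `> 3`).  The RHS is the same expression with `γ = 0` (`sb_hat_inv`).
* `sb_U_fourth`: `(U F x)² = ∑_{s,r} b(s,r) e(γ r / c) e(s x)`, `b(s,r) = ∑_{m_1+m_2 = s, m_1²+m_2² = r} a_{m_1} a_{m_2}`, `a = F̂`.  Parseval in `(γ, x)` (`γ ↦ γ/c` is a bijection):
  `∑_{γ,x} |U F x|⁴ = M² ∑_{s,r} |b(s,r)|²`.  In a field of characteristic `≠ 2` a fibre `{m_1+m_2 = s, m_1²+m_2² = r}` is `{(m_1,m_2),(m_2,m_1)}` (the two numbers are the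
  roots of `X² - s X + (s² - r)/2`), so `|b|² ≤ 2 ∑_fibre |a_{m_1} a_{m_2}|²` and the total is `≤ 2 M² (∑ |a|²)² = 2 (∑_x |F x|²)²`.
-/
set_option autoImplicit false
open MeasureTheory
open scoped ENNReal

namespace Claimed.Agent.R258

variable {M : ℕ} [NeZero M]

open scoped ComplexConjugate in
theorem sb_four_hat_eq (F : ZMod M → ℂ) (m : ZMod M) : sbHat F m = (M : ℂ)⁻¹ * U3.ft F m := rfl

theorem sb_four_M_ne : (M : ℂ) ≠ 0 := by exact_mod_cast NeZero.ne M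

/-- Fourier inversion. -/
theorem sb_hat_inv (F : ZMod M → ℂ) (x : ZMod M) :
    ∑ m : ZMod M, sbHat F m * ZMod.stdAddChar (m * x) = F x := by
  have h := U3.ft_inversion F x
  have e : ∑ m : ZMod M, sbHat F m * ZMod.stdAddChar (m * x)
      = (M : ℂ)⁻¹ * ∑ m, U3.ft F m * U3.eN (m * x) := by
    rw [Finset.mul_sum]
    refine Finset.sum_congr rfl fun m _ => ?_
    rw [sb_four_hat_eq, mul_assoc]
    rfl
  rw [e, ← h, ← mul_assoc, inv_mul_cancel₀ sb_four_M_ne, one_mul]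

theorem sb_U_zero (c γ : ZMod M) : sbU c γ (0 : ZMod M → ℂ) = 0 := by
  funext x
  simp [sbU, sbHat]

/-- Parseval for `sbHat`. -/
theorem sb_four_parseval (F : ZMod M → ℂ) :
    (M : ℝ) * ∑ m : ZMod M, ‖sbHat F m‖ ^ 2 = ∑ x : ZMod M, ‖F x‖ ^ 2 := by
  have hM : (M : ℝ) ≠ 0 := by exact_mod_cast NeZero.ne M
  have h := U3.ft_parseval F
  have e : ∀ m, ‖sbHat F m‖ ^ 2 = ((M : ℝ)⁻¹) ^ 2 * ‖U3.ft F m‖ ^ 2 := by
    intro m
    rw [sb_four_hat_eq, norm_mul, mul_pow, norm_inv, Complex.norm_natCast]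
  simp_rw [e]
  rw [← Finset.mul_sum, h]
  field_simp

/-- `sbU` as a Fourier transform. -/
theorem sb_four_U_eq (c γ : ZMod M) (F : ZMod M → ℂ) (x : ZMod M) :
    sbU c γ F x = U3.ft (fun m => sbHat F m * U3.eN (γ * m ^ 2 * c⁻¹)) (-x) := by
  unfold sbU U3.ft
  refine Finset.sum_congr rfl fun m _ => ?_
  have : -(-x * m) = m * x := by ring
  rw [this]
  rfl

/-- unitarity. -/
theorem sb_U_norm (c γ : ZMod M) (F : ZMod M → ℂ) :
    ∑ x : ZMod M, ‖sbU c γ F x‖ ^ 2 = ∑ x : ZMod M, ‖F x‖ ^ 2 := by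
  simp_rw [sb_four_U_eq]
  have hneg := Equiv.sum_comp (Equiv.neg (ZMod M))
    (fun x => ‖U3.ft (fun m => sbHat F m * U3.eN (γ * m ^ 2 * c⁻¹)) x‖ ^ 2)
  simp only [Equiv.neg_apply] at hneg
  rw [hneg, U3.ft_parseval, ← sb_four_parseval F]
  simp only [norm_mul, U3.norm_eN, mul_one]

theorem sb_four_U_gamma_zero (c : ZMod M) (F : ZMod M → ℂ) : sbU c 0 F = F := by
  funext x
  rw [← sb_hat_inv F x]
  unfold sbU
  refine Finset.sum_congr rfl fun m _ => ?_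
  simp

omit [NeZero M] in
theorem sb_four_three_ne (hM : 3 < M) : (3 : ZMod M) ≠ 0 := by
  intro h
  have h2 : ((3 : ℕ) : ZMod M) = 0 := by exact_mod_cast h
  rw [ZMod.natCast_eq_zero_iff] at h2
  have := Nat.le_of_dvd (by norm_num) h2
  omega

omit [NeZero M] in
theorem sb_four_two_ne (hM : 2 < M) : (2 : ZMod M) ≠ 0 := by
  intro h
  have h2 : ((2 : ℕ) : ZMod M) = 0 := by exact_mod_cast h
  rw [ZMod.natCast_eq_zero_iff] at h2
  have := Nat.le_of_dvd (by norm_num) h2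
  omega

theorem sb_C_ne_zero (hp : M.Prime) (hM : 3 < M) (j : Fin 4) : sbC M j ≠ 0 := by
  have := Fact.mk hp
  have h3 := sb_four_three_ne hM
  fin_cases j <;> simp [sbC, h3]

theorem sb_four_eN_sum {ι : Type*} (s : Finset ι) (f : ι → ZMod M) :
    U3.eN (∑ i ∈ s, f i) = ∏ i ∈ s, U3.eN (f i) := by
  classical
  induction s using Finset.induction_on with
  | empty => simp [U3.eN_zero]
  | insert a s ha ih => rw [Finset.sum_insert ha, Finset.prod_insert ha, U3.eN_add, ih]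

/-- the kernel sum. -/
theorem sb_four_K (p : Fin 4 → ZMod M) :
    ∑ u : ZMod M, ∑ v : ZMod M, U3.eN (∑ j : Fin 4, p j * sbAp u v j)
      = (if p 0 - p 2 - 2 * p 3 = 0 then (M : ℂ) else 0) * (if p 1 + 2 * p 2 + 3 * p 3 = 0 then (M : ℂ) else 0) := by
  rw [← U3.sum_eN_mul, ← U3.sum_eN_mul, Finset.sum_mul_sum]
  refine Finset.sum_congr rfl fun u _ => Finset.sum_congr rfl fun v _ => ?_
  rw [← U3.eN_add]
  congr 1
  rw [Fin.sum_univ_four]
  simp only [sbAp]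
  simp
  ring

/-- the quadratic form vanishes on the support of the kernel. -/
theorem sb_four_Q (hp : M.Prime) (hM : 3 < M) (γ : ZMod M) (p : Fin 4 → ZMod M)
    (h1 : p 0 - p 2 - 2 * p 3 = 0) (h2 : p 1 + 2 * p 2 + 3 * p 3 = 0) :
    ∑ j : Fin 4, γ * p j ^ 2 * (sbC M j)⁻¹ = 0 := by
  have := Fact.mk hp
  have h3 := sb_four_three_ne hM
  have e0 : p 0 = p 2 + 2 * p 3 := by linear_combination h1
  have e1 : p 1 = -(2 * p 2) - 3 * p 3 := by linear_combination h2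
  rw [Fin.sum_univ_four]
  simp only [sbC]
  simp
  rw [e0, e1]
  field_simp
  ring

/-- expansion of the progression sum. -/
theorem sb_four_expand (γ : ZMod M) (F : Fin 4 → ZMod M → ℂ) :
    ∑ u : ZMod M, ∑ v : ZMod M, ∏ j : Fin 4, sbU (sbC M j) γ (F j) (sbAp u v j)
      = ∑ p : Fin 4 → ZMod M, (∏ j, sbHat (F j) (p j)) * (U3.eN (∑ j : Fin 4, γ * p j ^ 2 * (sbC M j)⁻¹) *
          ∑ u : ZMod M, ∑ v : ZMod M, U3.eN (∑ j : Fin 4, p j * sbAp u v j)) := by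
  have h : ∀ u v : ZMod M, ∏ j : Fin 4, sbU (sbC M j) γ (F j) (sbAp u v j)
      = ∑ p : Fin 4 → ZMod M, (∏ j, sbHat (F j) (p j)) * (U3.eN (∑ j : Fin 4, γ * p j ^ 2 * (sbC M j)⁻¹) *
          U3.eN (∑ j : Fin 4, p j * sbAp u v j)) := by
    intro u v
    unfold sbU
    rw [Finset.prod_univ_sum, Fintype.piFinset_univ]
    refine Finset.sum_congr rfl fun p _ => ?_
    rw [Finset.prod_mul_distrib, Finset.prod_mul_distrib, mul_assoc]
    congr 1
    rw [sb_four_eN_sum, sb_four_eN_sum]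
    rfl
  simp_rw [h]
  have h2 : ∀ u : ZMod M, ∑ v : ZMod M, ∑ p : Fin 4 → ZMod M, (∏ j, sbHat (F j) (p j)) *
      (U3.eN (∑ j : Fin 4, γ * p j ^ 2 * (sbC M j)⁻¹) * U3.eN (∑ j : Fin 4, p j * sbAp u v j))
      = ∑ p : Fin 4 → ZMod M, ∑ v : ZMod M, (∏ j, sbHat (F j) (p j)) *
      (U3.eN (∑ j : Fin 4, γ * p j ^ 2 * (sbC M j)⁻¹) * U3.eN (∑ j : Fin 4, p j * sbAp u v j)) :=
    fun u => Finset.sum_comm
  simp_rw [h2]
  rw [Finset.sum_comm]
  refine Finset.sum_congr rfl fun p _ => ?_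
  simp_rw [Finset.mul_sum]

/-- the progression sum is invariant under the quadratic randomisation. -/
theorem sb_U_invariant (hp : M.Prime) (hM : 3 < M) (γ : ZMod M) (F : Fin 4 → ZMod M → ℂ) :
    ∑ u : ZMod M, ∑ v : ZMod M, ∏ j : Fin 4, sbU (sbC M j) γ (F j) (sbAp u v j)
      = ∑ u : ZMod M, ∑ v : ZMod M, ∏ j : Fin 4, F j (sbAp u v j) := by
  have key : ∀ γ' : ZMod M, ∑ u : ZMod M, ∑ v : ZMod M, ∏ j : Fin 4, sbU (sbC M j) γ' (F j) (sbAp u v j)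
      = ∑ p : Fin 4 → ZMod M, (∏ j, sbHat (F j) (p j)) *
          ∑ u : ZMod M, ∑ v : ZMod M, U3.eN (∑ j : Fin 4, p j * sbAp u v j) := by
    intro γ'
    rw [sb_four_expand]
    refine Finset.sum_congr rfl fun p _ => ?_
    congr 1
    rw [sb_four_K]
    by_cases h1 : p 0 - p 2 - 2 * p 3 = 0
    · by_cases h2 : p 1 + 2 * p 2 + 3 * p 3 = 0
      · rw [sb_four_Q hp hM γ' p h1 h2, U3.eN_zero, one_mul]
      · rw [if_neg h2]; simp
    · rw [if_neg h1]; simp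
  rw [key γ, ← key 0]
  simp_rw [sb_four_U_gamma_zero]

omit [NeZero M] in
theorem sb_four_pair (hp : M.Prime) (hM : 2 < M) {a b c d : ZMod M} (h1 : a + b = c + d)
    (h2 : a ^ 2 + b ^ 2 = c ^ 2 + d ^ 2) : (c = a ∧ d = b) ∨ (c = b ∧ d = a) := by
  have := Fact.mk hp
  have h20 := sb_four_two_ne hM
  have h : 2 * ((a - c) * (a - d)) = 0 := by
    linear_combination (2 * a - (c + d) - (a + b)) * h1 + h2
  rcases mul_eq_zero.1 ((mul_eq_zero.1 h).resolve_left h20) with h | h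
  · left
    have hc : c = a := (sub_eq_zero.1 h).symm
    refine ⟨hc, ?_⟩
    rw [hc] at h1
    exact (add_left_cancel h1).symm
  · right
    have hd : d = a := (sub_eq_zero.1 h).symm
    refine ⟨?_, hd⟩
    rw [hd] at h1
    have : a + b = a + c := by rw [h1]; ring
    exact (add_left_cancel this).symm

open scoped ComplexConjugate in
/-- the fourth moment in `x`, for fixed `γ`. -/
theorem sb_four_fourth_x (c γ : ZMod M) (F : ZMod M → ℂ) :
    ((∑ x : ZMod M, ‖sbU c γ F x‖ ^ 4 : ℝ) : ℂ) = M * ∑ a, ∑ b, ∑ c', ∑ d,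
      if a + b = c' + d then sbHat F a * sbHat F b * conj (sbHat F c') * conj (sbHat F d) *
        U3.eN (((a ^ 2 + b ^ 2 - c' ^ 2 - d ^ 2) * c⁻¹) * γ) else 0 := by
  simp_rw [sb_four_U_eq]
  have hneg := Equiv.sum_comp (Equiv.neg (ZMod M))
    (fun x => ‖U3.ft (fun m => sbHat F m * U3.eN (γ * m ^ 2 * c⁻¹)) x‖ ^ 4)
  simp only [Equiv.neg_apply] at hneg
  rw [hneg, U3.ft_fourth]
  congr 1
  refine Finset.sum_congr rfl fun a _ => Finset.sum_congr rfl fun b _ =>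
    Finset.sum_congr rfl fun c' _ => Finset.sum_congr rfl fun d _ => ?_
  by_cases h : a + b = c' + d
  · rw [if_pos h, if_pos h]
    have e : U3.eN (((a ^ 2 + b ^ 2 - c' ^ 2 - d ^ 2) * c⁻¹) * γ)
        = U3.eN (γ * a ^ 2 * c⁻¹) * U3.eN (γ * b ^ 2 * c⁻¹) * conj (U3.eN (γ * c' ^ 2 * c⁻¹)) *
          conj (U3.eN (γ * d ^ 2 * c⁻¹)) := by
      rw [← U3.eN_neg, ← U3.eN_neg, ← U3.eN_add, ← U3.eN_add, ← U3.eN_add]
      congr 1
      ring
    rw [e, map_mul, map_mul]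
    ring
  · rw [if_neg h, if_neg h]

open scoped ComplexConjugate in
/-- the fourth moment. -/
theorem sb_U_fourth (hp : M.Prime) (hM : 2 < M) (c : ZMod M) (hc : c ≠ 0) (F : ZMod M → ℂ) :
    ∑ γ : ZMod M, ∑ x : ZMod M, ‖sbU c γ F x‖ ^ 4 ≤ 2 * (∑ x : ZMod M, ‖F x‖ ^ 2) ^ 2 := by
  have := Fact.mk hp
  set A := sbHat F with hA
  have hMpos : (0 : ℝ) ≤ M := Nat.cast_nonneg M
  -- the total as a complex number
  have e1 : ((∑ γ : ZMod M, ∑ x : ZMod M, ‖sbU c γ F x‖ ^ 4 : ℝ) : ℂ) = M * ∑ a, ∑ b, ∑ c', ∑ d,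
      if a + b = c' + d then A a * A b * conj (A c') * conj (A d) *
        (if a ^ 2 + b ^ 2 = c' ^ 2 + d ^ 2 then (M : ℂ) else 0) else 0 := by
    rw [Complex.ofReal_sum]
    simp_rw [sb_four_fourth_x]
    rw [← Finset.mul_sum]
    congr 1
    rw [Finset.sum_comm]
    refine Finset.sum_congr rfl fun a _ => ?_
    rw [Finset.sum_comm]
    refine Finset.sum_congr rfl fun b _ => ?_
    rw [Finset.sum_comm]
    refine Finset.sum_congr rfl fun c' _ => ?_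
    rw [Finset.sum_comm]
    refine Finset.sum_congr rfl fun d _ => ?_
    by_cases h : a + b = c' + d
    · simp only [if_pos h]
      rw [← Finset.mul_sum, U3.sum_eN_mul]
      congr 1
      have : ((a ^ 2 + b ^ 2 - c' ^ 2 - d ^ 2) * c⁻¹ = 0) ↔ a ^ 2 + b ^ 2 = c' ^ 2 + d ^ 2 := by
        rw [mul_eq_zero]
        constructor
        · rintro (h | h)
          · linear_combination h
          · exact absurd (inv_eq_zero.1 h) hc
        · intro h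
          left
          linear_combination h
      simp only [this]
    · simp only [if_neg h, Finset.sum_const_zero]
  -- termwise bound
  have e2 : ∀ a b c' d : ZMod M, ‖(if a + b = c' + d then A a * A b * conj (A c') * conj (A d) *
        (if a ^ 2 + b ^ 2 = c' ^ 2 + d ^ 2 then (M : ℂ) else 0) else 0 : ℂ)‖ ≤
      (if c' = a then (if d = b then (M : ℝ) * (‖A a‖ ^ 2 * ‖A b‖ ^ 2) else 0) else 0) +
      (if c' = b then (if d = a then (M : ℝ) * (‖A a‖ ^ 2 * ‖A b‖ ^ 2) else 0) else 0) := by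
    intro a b c' d
    have hw : 0 ≤ (M : ℝ) * (‖A a‖ ^ 2 * ‖A b‖ ^ 2) := by positivity
    have hn1 : 0 ≤ (if c' = a then (if d = b then (M : ℝ) * (‖A a‖ ^ 2 * ‖A b‖ ^ 2) else 0) else 0) := by
      split_ifs <;> first | exact hw | exact le_rfl
    have hn2 : 0 ≤ (if c' = b then (if d = a then (M : ℝ) * (‖A a‖ ^ 2 * ‖A b‖ ^ 2) else 0) else 0) := by
      split_ifs <;> first | exact hw | exact le_rfl
    by_cases h1 : a + b = c' + d
    · by_cases h2 : a ^ 2 + b ^ 2 = c' ^ 2 + d ^ 2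
      · rw [if_pos h1, if_pos h2]
        rcases sb_four_pair hp hM h1 h2 with ⟨rfl, rfl⟩ | ⟨rfl, rfl⟩
        · rw [if_pos rfl, if_pos rfl]
          refine le_trans (le_of_eq ?_) (le_add_of_nonneg_right hn2)
          simp only [norm_mul, RCLike.norm_conj, Complex.norm_natCast]
          ring
        · rw [if_pos rfl, if_pos rfl] at hn2 ⊢
          refine le_trans (le_of_eq ?_) (le_add_of_nonneg_left hn1)
          simp only [norm_mul, RCLike.norm_conj, Complex.norm_natCast]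
          ring
      · rw [if_pos h1, if_neg h2, mul_zero, norm_zero]
        exact add_nonneg hn1 hn2
    · rw [if_neg h1, norm_zero]
      exact add_nonneg hn1 hn2
  have e3 : ‖((∑ γ : ZMod M, ∑ x : ZMod M, ‖sbU c γ F x‖ ^ 4 : ℝ) : ℂ)‖ ≤
      M * ∑ a : ZMod M, ∑ b : ZMod M, 2 * ((M : ℝ) * (‖A a‖ ^ 2 * ‖A b‖ ^ 2)) := by
    rw [e1, norm_mul, Complex.norm_natCast]
    refine mul_le_mul_of_nonneg_left ?_ hMpos
    refine (norm_sum_le _ _).trans (Finset.sum_le_sum fun a _ => ?_)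
    refine (norm_sum_le _ _).trans (Finset.sum_le_sum fun b _ => ?_)
    calc _ ≤ ∑ c' : ZMod M, ∑ d : ZMod M, ‖(if a + b = c' + d then A a * A b * conj (A c') * conj (A d) *
        (if a ^ 2 + b ^ 2 = c' ^ 2 + d ^ 2 then (M : ℂ) else 0) else 0 : ℂ)‖ :=
          (norm_sum_le _ _).trans (Finset.sum_le_sum fun c' _ => norm_sum_le _ _)
      _ ≤ ∑ c' : ZMod M, ∑ d : ZMod M,
        ((if c' = a then (if d = b then (M : ℝ) * (‖A a‖ ^ 2 * ‖A b‖ ^ 2) else 0) else 0) +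
        (if c' = b then (if d = a then (M : ℝ) * (‖A a‖ ^ 2 * ‖A b‖ ^ 2) else 0) else 0)) :=
          Finset.sum_le_sum fun c' _ => Finset.sum_le_sum fun d _ => e2 a b c' d
      _ = 2 * ((M : ℝ) * (‖A a‖ ^ 2 * ‖A b‖ ^ 2)) := by
          simp only [Finset.sum_add_distrib]
          simp [Finset.sum_ite_eq', Finset.sum_ite_eq]
          ring
  rw [Complex.norm_real, Real.norm_eq_abs, abs_of_nonneg
    (Finset.sum_nonneg fun _ _ => Finset.sum_nonneg fun _ _ => by positivity)] at e3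
  refine e3.trans (le_of_eq ?_)
  rw [← sb_four_parseval F, ← hA]
  have : ∑ a : ZMod M, ∑ b : ZMod M, 2 * ((M : ℝ) * (‖A a‖ ^ 2 * ‖A b‖ ^ 2))
      = 2 * M * ((∑ a, ‖A a‖ ^ 2) * ∑ b, ‖A b‖ ^ 2) := by
    rw [Finset.sum_mul_sum, Finset.mul_sum]
    refine Finset.sum_congr rfl fun a _ => ?_
    rw [Finset.mul_sum]
    refine Finset.sum_congr rfl fun b _ => ?_
    ring
  rw [this]
  ring

end Claimed.Agent.R258
end

/- ===== packed: Claimed.Agent.R258.S7b.Hold ===== -/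
section
/-
Row 258, block [S7b] (architect: helper243).  FILE Hold: FINITE INEQUALITIES (progression Hoelder estimates, moments over a finite probability space, covering).
Paper-free, Mathlib only.  Leaves: P-SB-H1 (`sb_H1`, `sb_H1_enn`), P-SB-H2 (`sb_H2`), P-SB-MOM (`sb_mink`, `sb_hold4`, `sb_jensen24`, `sb_prod_le_two`, `sb_prod_sqrt_mom`),
P-SB-COVER (`sb_cs_cover`, `sb_geom_le`, `sb_cover_le`).

PROOFS.
* `sb_H1`: Cauchy-Schwarz on `P ×ˢ P` for `(H0 x0 · H1 x1) · (H2 (2x1-x0) · H3 (3x1-2x0))`.  First square: product of two sums.  Second square: `(x0,x1) ↦ (2x1-x0, 3x1-2x0)` is injective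
  (`x1 - x0 = y3 - y2`, `x0 = y2 - 2 (y3 - y2)`), terms with an image outside `P` vanish (`hs`), so it is `≤ ∑_{P ×ˢ P} H2² H3²`.
* `sb_H1_enn`: same on `ZMod M` with `ENNReal.inner_le_Lp_mul_Lq` (`p = q = 2`); both maps are bijections of `ZMod M × ZMod M`.
* `sb_H2`: substitute `(y,d) = (sbAp x0 x1 a, x1 - x0)`; for fixed `y` Hoelder `(3,3,3)` in `d` (twice `Real.inner_le_Lp_mul_Lq`, or AM-GM after normalisation);
  `d ↦ y + (j - a) d` is injective because `j - a ∈ {±1,±2,±3}` (`h2`, `h3`).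
* `sb_mink`: triangle inequality of the weighted `ℓ⁴` norm (`Real.Lp_add_le` applied to `pr σ ^ (1/4) * x σ`), induction on `N`.
* `sb_hold4`: Cauchy-Schwarz twice.   * `sb_jensen24`: Cauchy-Schwarz against `1` (`∑ pr = 1`).
* `sb_prod_sqrt_mom`: `X_j σ = √(c ∑ f)`; `sb_hold4`; `E X_j⁴ = E (c ∑ f)² ≤ (E (c ∑ f)⁴)^{1/2} ≤ (Cm² c ∑ g_j)²` (`sb_jensen24`, `sb_mink`); so the LHS is `≤ Cm⁴ ∏_j √(c ∑ g_j)`;
  `sb_prod_le_two` with `hloc`.
* `sb_cs_cover`: `λ √(X Y) = √(λ X) √(λ Y)`, Cauchy-Schwarz in `i`, then exchange the sums: `∑_i λ_i ∑_{n ∈ N_i} x n = ∑_n x n ∑_{i ∋ n} λ_i ≤ ∑_n x n`.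
* `sb_cover_le`: for fixed `n` the map `I ↦ I.depth` is injective on `{I ∈ S | n ∈ sbIdx τ I}` (the cell of depth `s ≤ τ` with `n ∈ sbIdx τ I` has `idx = n / 2^(τ-s)`), `I.len⁻¹ = 2^depth`, `sb_geom_le`.
-/
set_option autoImplicit false
open MeasureTheory
open scoped ENNReal

namespace Claimed.Agent.R258

/-- Hoelder for a finite family with equal exponents. -/
theorem sb_hold_fam {ι κ : Type*} (s : Finset κ) (hs : s.Nonempty) (D : Finset ι) (f : κ → ι → ℝ)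
    (hf : ∀ j ∈ s, ∀ d ∈ D, 0 ≤ f j d) :
    ∑ d ∈ D, ∏ j ∈ s, f j d ≤ ∏ j ∈ s, (∑ d ∈ D, f j d ^ s.card) ^ ((s.card : ℝ)⁻¹) := by
  set n := s.card with hn
  have hn0 : n ≠ 0 := by rw [hn]; exact hs.card_pos.ne'
  have hnR : (0 : ℝ) < n := by exact_mod_cast Nat.pos_of_ne_zero hn0
  set T : κ → ℝ := fun j => ∑ d ∈ D, f j d ^ n with hT
  have hT0 : ∀ j ∈ s, 0 ≤ T j := fun j hj => Finset.sum_nonneg fun d hd => pow_nonneg (hf j hj d hd) n
  have hR0 : 0 ≤ ∏ j ∈ s, T j ^ ((n : ℝ)⁻¹) :=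
    Finset.prod_nonneg fun j hj => Real.rpow_nonneg (hT0 j hj) _
  by_cases hz : ∃ j ∈ s, T j = 0
  · obtain ⟨j, hj, hj0⟩ := hz
    have hfz : ∀ d ∈ D, f j d = 0 := by
      intro d hd
      have := (Finset.sum_eq_zero_iff_of_nonneg (fun d hd => pow_nonneg (hf j hj d hd) n)).1 hj0 d hd
      exact pow_eq_zero_iff hn0 |>.1 this
    have : ∑ d ∈ D, ∏ j ∈ s, f j d = 0 :=
      Finset.sum_eq_zero fun d hd => Finset.prod_eq_zero hj (hfz d hd)
    rw [this]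
    exact hR0
  · have hTpos : ∀ j ∈ s, 0 < T j := by
      intro j hj
      rcases (hT0 j hj).lt_or_eq with h | h
      · exact h
      · exact absurd ⟨j, hj, h.symm⟩ hz
    have hpt : ∀ d ∈ D, ∏ j ∈ s, f j d ≤ (∏ j ∈ s, T j ^ ((n : ℝ)⁻¹)) *
        ∑ j ∈ s, (n : ℝ)⁻¹ * (f j d ^ n / T j) := by
      intro d hd
      have hag := Real.geom_mean_le_arith_mean_weighted s (fun _ => (n : ℝ)⁻¹) (fun j => f j d ^ n / T j)
        (fun _ _ => by positivity) (by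
          rw [Finset.sum_const, nsmul_eq_mul, ← hn]
          exact mul_inv_cancel₀ hnR.ne')
        (fun j hj => div_nonneg (pow_nonneg (hf j hj d hd) n) (hT0 j hj))
      have e : ∏ j ∈ s, f j d = (∏ j ∈ s, T j ^ ((n : ℝ)⁻¹)) * ∏ j ∈ s, (f j d ^ n / T j) ^ ((n : ℝ)⁻¹) := by
        rw [← Finset.prod_mul_distrib]
        refine Finset.prod_congr rfl fun j hj => ?_
        rw [Real.div_rpow (pow_nonneg (hf j hj d hd) n) (hT0 j hj),
          Real.pow_rpow_inv_natCast (hf j hj d hd) hn0]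
        have : T j ^ ((n : ℝ)⁻¹) ≠ 0 := (Real.rpow_pos_of_pos (hTpos j hj) _).ne'
        rw [mul_div_cancel₀ _ this]
      rw [e]
      exact mul_le_mul_of_nonneg_left hag hR0
    calc ∑ d ∈ D, ∏ j ∈ s, f j d ≤ ∑ d ∈ D, (∏ j ∈ s, T j ^ ((n : ℝ)⁻¹)) *
        ∑ j ∈ s, (n : ℝ)⁻¹ * (f j d ^ n / T j) := Finset.sum_le_sum hpt
      _ = (∏ j ∈ s, T j ^ ((n : ℝ)⁻¹)) * ∑ j ∈ s, (n : ℝ)⁻¹ * (T j / T j) := by
          rw [← Finset.mul_sum, Finset.sum_comm]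
          congr 1
          refine Finset.sum_congr rfl fun j _ => ?_
          rw [← Finset.mul_sum, ← Finset.sum_div]
      _ = ∏ j ∈ s, T j ^ ((n : ℝ)⁻¹) := by
          have : ∑ j ∈ s, (n : ℝ)⁻¹ * (T j / T j) = 1 := by
            rw [Finset.sum_congr rfl fun j hj => by rw [div_self (hTpos j hj).ne', mul_one]]
            rw [Finset.sum_const, nsmul_eq_mul, ← hn]
            exact mul_inv_cancel₀ hnR.ne'
          rw [this, mul_one]

/-! ## Progression estimates -/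

theorem sb_hold_ap0 {A : Type*} [Ring A] (x0 x1 : A) : sbAp x0 x1 0 = x0 := by simp [sbAp]
theorem sb_hold_ap1 {A : Type*} [Ring A] (x0 x1 : A) : sbAp x0 x1 1 = x1 := by simp [sbAp]

/-- `(x0, x1) ↦ (x_2, x_3)` is injective. -/
theorem sb_hold_inj23 {A : Type*} [CommRing A] :
    Function.Injective (fun p : A × A => (sbAp p.1 p.2 2, sbAp p.1 p.2 3)) := by
  rintro ⟨x0, x1⟩ ⟨y0, y1⟩ h
  simp only [Prod.mk.injEq, sbAp] at h
  obtain ⟨h2, h3⟩ := h
  have e2 : (((2 : Fin 4) : ℕ) : A) = 2 := by simp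
  have e3 : (((3 : Fin 4) : ℕ) : A) = 3 := by simp
  rw [e2] at h2
  rw [e3] at h3
  have a0 : x0 = y0 := by linear_combination 3 * h2 - 2 * h3
  have a1 : x1 = y1 := by linear_combination 2 * h2 - h3
  rw [a0, a1]

/-- a sum along an injective map is bounded by the full sum. -/
theorem sb_hold_sum_inj {α β : Type*} [DecidableEq β] (s : Finset α) (t : Finset β) (φ : α → β)
    (hφ : Set.InjOn φ s) (G : β → ℝ) (hG : ∀ q, 0 ≤ G q) (hG0 : ∀ p ∈ s, φ p ∉ t → G (φ p) = 0) :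
    ∑ p ∈ s, G (φ p) ≤ ∑ q ∈ t, G q := by
  rw [← Finset.sum_image (f := G) hφ]
  rw [← Finset.sum_filter_of_ne (p := fun q => q ∈ t) (s := s.image φ) (f := G)]
  · exact Finset.sum_le_sum_of_subset_of_nonneg (fun q hq => (Finset.mem_filter.1 hq).2) fun q _ _ => hG q
  · intro q hq hne
    obtain ⟨p, hp, rfl⟩ := Finset.mem_image.1 hq
    by_contra hcon
    exact hne (hG0 p hp hcon)

/-- `(2,2,2,2)` -/
theorem sb_H1 {A : Type*} [CommRing A] [DecidableEq A] (P : Finset A) (H : Fin 4 → A → ℝ)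
    (hH : ∀ j x, 0 ≤ H j x) (hs : ∀ j x, x ∉ P → H j x = 0) :
    ∑ x0 ∈ P, ∑ x1 ∈ P, ∏ j : Fin 4, H j (sbAp x0 x1 j) ≤ ∏ j : Fin 4, Real.sqrt (∑ x ∈ P, H j x ^ 2) := by
  have e1 : ∑ x0 ∈ P, ∑ x1 ∈ P, ∏ j : Fin 4, H j (sbAp x0 x1 j) = ∑ p ∈ P ×ˢ P,
      (H 0 p.1 * H 1 p.2) * (H 2 (sbAp p.1 p.2 2) * H 3 (sbAp p.1 p.2 3)) := by
    rw [Finset.sum_product]
    refine Finset.sum_congr rfl fun x0 _ => Finset.sum_congr rfl fun x1 _ => ?_
    rw [Fin.prod_univ_four, sb_hold_ap0, sb_hold_ap1]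
    ring
  have hprod : ∀ F G : A → ℝ, ∑ p ∈ P ×ˢ P, (F p.1 * G p.2) ^ 2 = (∑ x ∈ P, F x ^ 2) * ∑ x ∈ P, G x ^ 2 := by
    intro F G
    rw [Finset.sum_product, Finset.sum_mul_sum]
    exact Finset.sum_congr rfl fun x0 _ => Finset.sum_congr rfl fun x1 _ => mul_pow _ _ _
  have e2 : ∑ p ∈ P ×ˢ P, (H 2 (sbAp p.1 p.2 2) * H 3 (sbAp p.1 p.2 3)) ^ 2 ≤
      (∑ x ∈ P, H 2 x ^ 2) * ∑ x ∈ P, H 3 x ^ 2 := by
    rw [← hprod]
    refine sb_hold_sum_inj (P ×ˢ P) (P ×ˢ P) (fun p : A × A => (sbAp p.1 p.2 2, sbAp p.1 p.2 3))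
      (sb_hold_inj23.injOn) (fun q => (H 2 q.1 * H 3 q.2) ^ 2) (fun q => by positivity) ?_
    intro p _ hp
    simp only [Finset.mem_product, not_and_or] at hp
    rcases hp with hp | hp
    · simp [hs 2 _ hp]
    · simp [hs 3 _ hp]
  rw [e1, Fin.prod_univ_four]
  refine (Real.sum_mul_le_sqrt_mul_sqrt _ _ _).trans ?_
  rw [hprod, Real.sqrt_mul (Finset.sum_nonneg fun _ _ => by positivity), mul_assoc (Real.sqrt _ * Real.sqrt _)]
  refine mul_le_mul_of_nonneg_left ?_ (by positivity)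
  rw [← Real.sqrt_mul (Finset.sum_nonneg fun _ _ => by positivity)]
  exact Real.sqrt_le_sqrt e2

/-- `(2,2,2,2)` on the fast group, `ℝ≥0∞`-valued, normalised. -/
theorem sb_H1_enn {M : ℕ} [NeZero M] (H : Fin 4 → ZMod M → ℝ≥0∞) :
    ((M : ℝ≥0∞) ^ 2)⁻¹ * ∑ u : ZMod M, ∑ v : ZMod M, ∏ j : Fin 4, H j (sbAp u v j)
      ≤ ∏ j : Fin 4, ((M : ℝ≥0∞)⁻¹ * ∑ x : ZMod M, H j x ^ (2 : ℝ)) ^ (1 / 2 : ℝ) := by
  have e1 : ∑ u : ZMod M, ∑ v : ZMod M, ∏ j : Fin 4, H j (sbAp u v j) = ∑ p : ZMod M × ZMod M,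
      (H 0 p.1 * H 1 p.2) * (H 2 (sbAp p.1 p.2 2) * H 3 (sbAp p.1 p.2 3)) := by
    rw [← Finset.univ_product_univ, Finset.sum_product]
    refine Finset.sum_congr rfl fun x0 _ => Finset.sum_congr rfl fun x1 _ => ?_
    rw [Fin.prod_univ_four, sb_hold_ap0, sb_hold_ap1]
    ring
  have hprod : ∀ F G : ZMod M → ℝ≥0∞, ∑ p : ZMod M × ZMod M, (F p.1 * G p.2) ^ (2 : ℝ)
      = (∑ x, F x ^ (2 : ℝ)) * ∑ x, G x ^ (2 : ℝ) := by
    intro F G
    rw [← Finset.univ_product_univ, Finset.sum_product, Finset.sum_mul_sum]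
    exact Finset.sum_congr rfl fun x0 _ => Finset.sum_congr rfl fun x1 _ =>
      ENNReal.mul_rpow_of_nonneg _ _ (by norm_num)
  have e2 : ∑ p : ZMod M × ZMod M, (H 2 (sbAp p.1 p.2 2) * H 3 (sbAp p.1 p.2 3)) ^ (2 : ℝ) ≤
      (∑ x, H 2 x ^ (2 : ℝ)) * ∑ x, H 3 x ^ (2 : ℝ) := by
    rw [← hprod]
    rw [← Finset.sum_image (f := fun q : ZMod M × ZMod M => (H 2 q.1 * H 3 q.2) ^ (2 : ℝ))
      (g := fun p : ZMod M × ZMod M => (sbAp p.1 p.2 2, sbAp p.1 p.2 3)) (sb_hold_inj23.injOn)]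
    exact Finset.sum_le_sum_of_subset (Finset.subset_univ _)
  have hcs := ENNReal.inner_le_Lp_mul_Lq (Finset.univ : Finset (ZMod M × ZMod M))
    (fun p => H 0 p.1 * H 1 p.2) (fun p => H 2 (sbAp p.1 p.2 2) * H 3 (sbAp p.1 p.2 3))
    Real.HolderConjugate.two_two
  rw [hprod] at hcs
  have hc : ((M : ℝ≥0∞) ^ 2)⁻¹ = ((M : ℝ≥0∞)⁻¹ ^ (1 / 2 : ℝ)) ^ 4 := by
    rw [← ENNReal.rpow_natCast ((M : ℝ≥0∞)⁻¹ ^ (1 / 2 : ℝ)) 4, ← ENNReal.rpow_mul]
    have : (1 / 2 : ℝ) * ((4 : ℕ) : ℝ) = 2 := by norm_num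
    rw [this, ENNReal.rpow_two, ENNReal.inv_pow]
  rw [e1, Fin.prod_univ_four]
  simp only [ENNReal.mul_rpow_of_nonneg _ _ (show (0 : ℝ) ≤ 1 / 2 by norm_num)]
  rw [hc]
  calc ((M : ℝ≥0∞)⁻¹ ^ (1 / 2 : ℝ)) ^ 4 * ∑ p : ZMod M × ZMod M,
        (H 0 p.1 * H 1 p.2) * (H 2 (sbAp p.1 p.2 2) * H 3 (sbAp p.1 p.2 3))
      ≤ ((M : ℝ≥0∞)⁻¹ ^ (1 / 2 : ℝ)) ^ 4 * (((∑ x, H 0 x ^ (2 : ℝ)) * ∑ x, H 1 x ^ (2 : ℝ)) ^ (1 / 2 : ℝ) *
          ((∑ x, H 2 x ^ (2 : ℝ)) * ∑ x, H 3 x ^ (2 : ℝ)) ^ (1 / 2 : ℝ)) := by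
        gcongr
        exact hcs.trans (by gcongr)
    _ = _ := by
        simp only [ENNReal.mul_rpow_of_nonneg _ _ (show (0 : ℝ) ≤ 1 / 2 by norm_num)]
        ring

theorem sb_hold_tors {A : Type*} [CommRing A] (h2 : ∀ x : A, 2 * x = 0 → x = 0) (h3 : ∀ x : A, 3 * x = 0 → x = 0)
    (j a : Fin 4) (hja : j ≠ a) (x : A) (h : (((j : ℕ) : A) - ((a : ℕ) : A)) * x = 0) : x = 0 := by
  fin_cases j <;> fin_cases a <;> simp only [Fin.zero_eta, Fin.mk_one, Fin.reduceFinMk,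
      Nat.cast_zero, Nat.cast_one, Nat.cast_ofNat] at h hja <;>
    first
    | exact absurd rfl hja
    | linear_combination h
    | linear_combination -h
    | (apply h2; linear_combination h)
    | (apply h2; linear_combination -h)
    | (apply h3; linear_combination h)
    | (apply h3; linear_combination -h)

/-- `(1,3,3,3)`, the slot `a` in `ℓ¹`. -/
theorem sb_H2 {A : Type*} [CommRing A] [DecidableEq A] (h2 : ∀ x : A, 2 * x = 0 → x = 0) (h3 : ∀ x : A, 3 * x = 0 → x = 0)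
    (P : Finset A) (a : Fin 4) (H : Fin 4 → A → ℝ) (hH : ∀ j x, 0 ≤ H j x) (hs : ∀ j x, x ∉ P → H j x = 0) :
    ∑ x0 ∈ P, ∑ x1 ∈ P, ∏ j : Fin 4, H j (sbAp x0 x1 j)
      ≤ (∑ x ∈ P, H a x) * ∏ j ∈ Finset.univ.erase a, (∑ x ∈ P, H j x ^ 3) ^ (1 / 3 : ℝ) := by
  set cf : Fin 4 → A := fun j => ((j : ℕ) : A) - ((a : ℕ) : A) with hcf
  set T : A × A → ℝ := fun q => H a q.1 * ∏ j ∈ Finset.univ.erase a, H j (q.1 + cf j * q.2) with hT
  set φ : A × A → A × A := fun p => (sbAp p.1 p.2 a, p.2 - p.1) with hφ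
  set D : Finset A := (P ×ˢ P).image (fun p => p.2 - p.1) with hD
  have hcard : (Finset.univ.erase a : Finset (Fin 4)).card = 3 := by
    rw [Finset.card_erase_of_mem (Finset.mem_univ a)]; simp
  have hne : (Finset.univ.erase a : Finset (Fin 4)).Nonempty := by
    rw [← Finset.card_pos, hcard]; norm_num
  have e1 : ∑ x0 ∈ P, ∑ x1 ∈ P, ∏ j : Fin 4, H j (sbAp x0 x1 j) = ∑ p ∈ P ×ˢ P, T (φ p) := by
    rw [Finset.sum_product]
    refine Finset.sum_congr rfl fun x0 _ => Finset.sum_congr rfl fun x1 _ => ?_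
    rw [← Finset.mul_prod_erase Finset.univ _ (Finset.mem_univ a)]
    simp only [hT, hφ]
    congr 1
    refine Finset.prod_congr rfl fun j _ => ?_
    congr 1
    simp only [hcf, sbAp]
    ring
  have hφinj : Function.Injective φ := by
    rintro ⟨x0, x1⟩ ⟨y0, y1⟩ h
    simp only [hφ, Prod.mk.injEq, sbAp] at h
    obtain ⟨ha, hd⟩ := h
    have a0 : x0 = y0 := by linear_combination ha - ((a : ℕ) : A) * hd
    have a1 : x1 = y1 := by linear_combination hd + a0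
    rw [a0, a1]
  have hT0 : ∀ q, 0 ≤ T q := fun q => mul_nonneg (hH _ _) (Finset.prod_nonneg fun j _ => hH _ _)
  have e2 : ∑ p ∈ P ×ˢ P, T (φ p) ≤ ∑ q ∈ P ×ˢ D, T q := by
    refine sb_hold_sum_inj _ _ φ hφinj.injOn T hT0 ?_
    intro p hp hq
    simp only [Finset.mem_product, not_and_or] at hq
    rcases hq with hq | hq
    · simp only [hT]
      rw [hs a _ hq, zero_mul]
    · exact absurd (Finset.mem_image_of_mem (fun p : A × A => p.2 - p.1) hp) hq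
  have e3 : ∀ y : A, ∑ d ∈ D, ∏ j ∈ Finset.univ.erase a, H j (y + cf j * d) ≤
      ∏ j ∈ Finset.univ.erase a, (∑ x ∈ P, H j x ^ 3) ^ (1 / 3 : ℝ) := by
    intro y
    have h := sb_hold_fam (Finset.univ.erase a) hne D (fun j d => H j (y + cf j * d)) (fun j _ d _ => hH _ _)
    rw [hcard] at h
    refine h.trans ?_
    refine Finset.prod_le_prod (fun j _ => Real.rpow_nonneg (Finset.sum_nonneg fun d _ => pow_nonneg (hH _ _) 3) _)
      fun j hj => ?_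
    have e : (((3 : ℕ) : ℝ))⁻¹ = (1 / 3 : ℝ) := by norm_num
    rw [e]
    refine Real.rpow_le_rpow (Finset.sum_nonneg fun d _ => pow_nonneg (hH _ _) 3) ?_ (by norm_num)
    refine sb_hold_sum_inj D P (fun d => y + cf j * d) ?_ (fun x => H j x ^ 3) (fun x => pow_nonneg (hH _ _) 3) ?_
    · intro d _ d' _ hdd
      simp only at hdd
      have h0 : cf j * (d - d') = 0 := by linear_combination hdd
      exact sub_eq_zero.1 (sb_hold_tors h2 h3 j a (Finset.ne_of_mem_erase hj) _ h0)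
    · intro d _ hd
      rw [hs j _ hd]
      norm_num
  rw [e1]
  refine e2.trans ?_
  rw [Finset.sum_product, Finset.sum_mul]
  refine Finset.sum_le_sum fun y _ => ?_
  simp only [hT]
  rw [← Finset.mul_sum]
  exact mul_le_mul_of_nonneg_left (e3 y) (hH _ _)

/-! ## Moments over a finite probability space -/

/-- Hoelder with four factors. -/
theorem sb_hold4 {Ω : Type*} [Fintype Ω] (pr : Ω → ℝ) (hpr : ∀ σ, 0 ≤ pr σ) (X : Fin 4 → Ω → ℝ) (hX : ∀ j σ, 0 ≤ X j σ) :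
    ∑ σ, pr σ * ∏ j : Fin 4, X j σ ≤ ∏ j : Fin 4, (∑ σ, pr σ * X j σ ^ 4) ^ (1 / 4 : ℝ) := by
  have h := sb_hold_fam (Finset.univ : Finset (Fin 4)) Finset.univ_nonempty (Finset.univ : Finset Ω)
    (fun j σ => pr σ ^ ((4 : ℝ)⁻¹) * X j σ)
    (fun j _ σ _ => mul_nonneg (Real.rpow_nonneg (hpr σ) _) (hX j σ))
  have hc : (Finset.univ : Finset (Fin 4)).card = 4 := by simp
  rw [hc] at h
  have e4 : ∀ σ, (pr σ ^ ((4 : ℝ)⁻¹)) ^ 4 = pr σ := by
    intro σ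
    have := Real.rpow_inv_natCast_pow (hpr σ) (show (4 : ℕ) ≠ 0 by norm_num)
    simpa using this
  refine le_trans (le_of_eq ?_) (h.trans (le_of_eq ?_))
  · refine Finset.sum_congr rfl fun σ _ => ?_
    rw [Finset.prod_mul_distrib, Finset.prod_const, hc, e4]
  · refine Finset.prod_congr rfl fun j _ => ?_
    have : ((4 : ℕ) : ℝ)⁻¹ = (1 / 4 : ℝ) := by norm_num
    rw [this]
    congr 1
    refine Finset.sum_congr rfl fun σ _ => ?_
    rw [mul_pow, e4]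

theorem sb_jensen24 {Ω : Type*} [Fintype Ω] (pr : Ω → ℝ) (hpr : ∀ σ, 0 ≤ pr σ) (h1 : ∑ σ, pr σ = 1) (X : Ω → ℝ) :
    ∑ σ, pr σ * X σ ^ 2 ≤ Real.sqrt (∑ σ, pr σ * X σ ^ 4) := by
  apply Real.le_sqrt_of_sq_le
  have h := Finset.sum_mul_sq_le_sq_mul_sq (Finset.univ : Finset Ω) (fun σ => Real.sqrt (pr σ))
    (fun σ => Real.sqrt (pr σ) * X σ ^ 2)
  have e1 : ∀ σ, Real.sqrt (pr σ) * (Real.sqrt (pr σ) * X σ ^ 2) = pr σ * X σ ^ 2 := by
    intro σ
    rw [← mul_assoc, Real.mul_self_sqrt (hpr σ)]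
  have e2 : ∀ σ, Real.sqrt (pr σ) ^ 2 = pr σ := fun σ => Real.sq_sqrt (hpr σ)
  have e3 : ∀ σ, (Real.sqrt (pr σ) * X σ ^ 2) ^ 2 = pr σ * X σ ^ 4 := by
    intro σ
    rw [mul_pow, e2]
    ring
  simp only [e1, e2, e3, h1, one_mul] at h
  exact h

theorem sb_prod_le_two (y : Fin 4 → ℝ) (hy : ∀ j, 0 ≤ y j) (a b : Fin 4) (hab : a ≠ b) (h : ∀ j, j ≠ a → j ≠ b → y j ≤ 1) :
    ∏ j : Fin 4, y j ≤ y a * y b := by
  rw [← Finset.mul_prod_erase Finset.univ y (Finset.mem_univ a),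
    ← Finset.mul_prod_erase (Finset.univ.erase a) y (Finset.mem_erase.2 ⟨hab.symm, Finset.mem_univ b⟩),
    ← mul_assoc]
  refine mul_le_of_le_one_right (mul_nonneg (hy a) (hy b)) ?_
  refine Finset.prod_le_one (fun j _ => hy j) fun j hj => ?_
  rw [Finset.mem_erase, Finset.mem_erase] at hj
  exact h j hj.2.1 hj.1

/-- Minkowski in `L⁴(pr)`. -/
theorem sb_mink {Ω ι : Type*} [Fintype Ω] (pr : Ω → ℝ) (hpr : ∀ σ, 0 ≤ pr σ) (N : Finset ι) (c : ι → ℝ)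
    (hc : ∀ n ∈ N, 0 ≤ c n) (f : Ω → ι → ℝ) (g : ι → ℝ) (hf : ∀ σ, ∀ n ∈ N, 0 ≤ f σ n) (hg : ∀ n ∈ N, 0 ≤ g n)
    (h : ∀ n ∈ N, ∑ σ, pr σ * f σ n ^ 4 ≤ g n ^ 4) :
    ∑ σ, pr σ * (∑ n ∈ N, c n * f σ n) ^ 4 ≤ (∑ n ∈ N, c n * g n) ^ 4 := by
  have hexp : ∀ a : ι → ℝ, (∑ n ∈ N, a n) ^ 4 = ∑ p ∈ Fintype.piFinset (fun _ : Fin 4 => N), ∏ i, a (p i) := by
    intro a
    rw [← Finset.prod_univ_sum]
    simp
  -- truncate `f` to make it globally nonnegative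
  have key : ∀ p ∈ Fintype.piFinset (fun _ : Fin 4 => N),
      ∑ σ, pr σ * ∏ i, f σ (p i) ≤ ∏ i, g (p i) := by
    intro p hp
    have hpN : ∀ i, p i ∈ N := fun i => Fintype.mem_piFinset.1 hp i
    refine (sb_hold4 pr hpr (fun i σ => f σ (p i)) (fun i σ => hf σ _ (hpN i))).trans ?_
    refine Finset.prod_le_prod (fun i _ => Real.rpow_nonneg
      (Finset.sum_nonneg fun σ _ => mul_nonneg (hpr σ) (pow_nonneg (hf σ _ (hpN i)) 4)) _) fun i _ => ?_
    calc (∑ σ, pr σ * f σ (p i) ^ 4) ^ (1 / 4 : ℝ) ≤ (g (p i) ^ 4) ^ (1 / 4 : ℝ) :=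
          Real.rpow_le_rpow (Finset.sum_nonneg fun σ _ => mul_nonneg (hpr σ) (pow_nonneg (hf σ _ (hpN i)) 4))
            (h _ (hpN i)) (by norm_num)
      _ = g (p i) := by
          have := Real.pow_rpow_inv_natCast (hg _ (hpN i)) (show (4 : ℕ) ≠ 0 by norm_num)
          have e : (1 / 4 : ℝ) = ((4 : ℕ) : ℝ)⁻¹ := by norm_num
          rw [e, this]
  simp_rw [hexp, Finset.mul_sum]
  rw [Finset.sum_comm]
  refine Finset.sum_le_sum fun p hp => ?_
  have hpN : ∀ i, p i ∈ N := fun i => Fintype.mem_piFinset.1 hp i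
  simp_rw [Finset.prod_mul_distrib]
  calc ∑ σ, pr σ * ((∏ i, c (p i)) * ∏ i, f σ (p i)) = (∏ i, c (p i)) * ∑ σ, pr σ * ∏ i, f σ (p i) := by
        rw [Finset.mul_sum]
        exact Finset.sum_congr rfl fun σ _ => by ring
    _ ≤ (∏ i, c (p i)) * ∏ i, g (p i) :=
        mul_le_mul_of_nonneg_left (key p hp) (Finset.prod_nonneg fun i _ => hc _ (hpN i))

/-- the expected product of the four local `L²` sizes. -/
theorem sb_prod_sqrt_mom {Ω ι : Type*} [Fintype Ω] (pr : Ω → ℝ) (hpr : ∀ σ, 0 ≤ pr σ) (h1 : ∑ σ, pr σ = 1) (N : Finset ι) (c Cm : ℝ)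
    (hc : 0 ≤ c) (hCm : 0 ≤ Cm) (f : Ω → Fin 4 → ι → ℝ) (g : Fin 4 → ι → ℝ) (hf : ∀ σ j, ∀ n ∈ N, 0 ≤ f σ j n) (hg : ∀ j, ∀ n ∈ N, 0 ≤ g j n)
    (hmom : ∀ j, ∀ n ∈ N, ∑ σ, pr σ * f σ j n ^ 4 ≤ (Cm ^ 2 * g j n) ^ 4) (a b : Fin 4) (hab : a ≠ b)
    (hloc : ∀ j, c * ∑ n ∈ N, g j n ≤ 1) :
    ∑ σ, pr σ * ∏ j : Fin 4, Real.sqrt (c * ∑ n ∈ N, f σ j n)
      ≤ Cm ^ 4 * (c * Real.sqrt ((∑ n ∈ N, g a n) * ∑ n ∈ N, g b n)) := by
  have hG0 : ∀ j, 0 ≤ ∑ n ∈ N, g j n := fun j => Finset.sum_nonneg (hg j)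
  have hF0 : ∀ σ j, 0 ≤ c * ∑ n ∈ N, f σ j n := fun σ j => mul_nonneg hc (Finset.sum_nonneg (hf σ j))
  have s1 := sb_hold4 pr hpr (fun j σ => Real.sqrt (c * ∑ n ∈ N, f σ j n)) (fun j σ => Real.sqrt_nonneg _)
  have s2 : ∀ j, (∑ σ, pr σ * Real.sqrt (c * ∑ n ∈ N, f σ j n) ^ 4) ^ (1 / 4 : ℝ)
      ≤ Cm * Real.sqrt (c * ∑ n ∈ N, g j n) := by
    intro j
    have e1 : ∀ σ, Real.sqrt (c * ∑ n ∈ N, f σ j n) ^ 4 = (c * ∑ n ∈ N, f σ j n) ^ 2 := by
      intro σ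
      have : Real.sqrt (c * ∑ n ∈ N, f σ j n) ^ 4 = (Real.sqrt (c * ∑ n ∈ N, f σ j n) ^ 2) ^ 2 := by ring
      rw [this, Real.sq_sqrt (hF0 σ j)]
    simp_rw [e1]
    have m1 := sb_mink pr hpr N (fun _ => c) (fun _ _ => hc) (fun σ n => f σ j n) (fun n => Cm ^ 2 * g j n)
      (fun σ n hn => hf σ j n hn) (fun n hn => mul_nonneg (by positivity) (hg j n hn)) (hmom j)
    have m2 := sb_jensen24 pr hpr h1 (fun σ => c * ∑ n ∈ N, f σ j n)
    have e2 : ∀ σ, ∑ n ∈ N, c * f σ j n = c * ∑ n ∈ N, f σ j n := fun σ => (Finset.mul_sum _ _ _).symm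
    have e3 : ∑ n ∈ N, c * (Cm ^ 2 * g j n) = Cm ^ 2 * (c * ∑ n ∈ N, g j n) := by
      rw [Finset.mul_sum, Finset.mul_sum]
      exact Finset.sum_congr rfl fun n _ => by ring
    simp only [e2, e3] at m1
    set Y := Cm ^ 2 * (c * ∑ n ∈ N, g j n) with hY
    have hY0 : 0 ≤ Y := mul_nonneg (by positivity) (mul_nonneg hc (hG0 j))
    have m3 : ∑ σ, pr σ * (c * ∑ n ∈ N, f σ j n) ^ 2 ≤ Y ^ 2 := by
      refine m2.trans ((Real.sqrt_le_sqrt m1).trans (le_of_eq ?_))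
      have : Y ^ 4 = (Y ^ 2) ^ 2 := by ring
      rw [this, Real.sqrt_sq (by positivity)]
    have m4 : (∑ σ, pr σ * (c * ∑ n ∈ N, f σ j n) ^ 2) ^ (1 / 4 : ℝ) ≤ (Y ^ 2) ^ (1 / 4 : ℝ) :=
      Real.rpow_le_rpow (Finset.sum_nonneg fun σ _ => mul_nonneg (hpr σ) (by positivity)) m3 (by norm_num)
    refine m4.trans (le_of_eq ?_)
    have e4 : (Y ^ 2) ^ (1 / 4 : ℝ) = Real.sqrt Y := by
      rw [← Real.rpow_natCast, ← Real.rpow_mul hY0, Real.sqrt_eq_rpow]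
      norm_num
    rw [e4, hY, Real.sqrt_mul (by positivity), Real.sqrt_sq hCm]
  have s3 : ∏ j : Fin 4, (Cm * Real.sqrt (c * ∑ n ∈ N, g j n))
      ≤ Cm ^ 4 * (c * Real.sqrt ((∑ n ∈ N, g a n) * ∑ n ∈ N, g b n)) := by
    rw [Finset.prod_mul_distrib, Finset.prod_const]
    have hc4 : (Finset.univ : Finset (Fin 4)).card = 4 := by simp
    rw [hc4]
    refine mul_le_mul_of_nonneg_left ?_ (by positivity)
    refine (sb_prod_le_two (fun j => Real.sqrt (c * ∑ n ∈ N, g j n)) (fun j => Real.sqrt_nonneg _) a b hab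
      (fun j _ _ => Real.sqrt_le_one.2 (hloc j))).trans (le_of_eq ?_)
    rw [← Real.sqrt_mul (mul_nonneg hc (hG0 a))]
    have e5 : (c * ∑ n ∈ N, g a n) * (c * ∑ n ∈ N, g b n) = c ^ 2 * ((∑ n ∈ N, g a n) * ∑ n ∈ N, g b n) := by
      ring
    rw [e5, Real.sqrt_mul (by positivity), Real.sqrt_sq hc]
  refine s1.trans (le_trans ?_ s3)
  exact Finset.prod_le_prod (fun j _ => Real.rpow_nonneg (Finset.sum_nonneg fun σ _ =>
    mul_nonneg (hpr σ) (by positivity)) _) fun j _ => s2 j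

/-! ## Covering -/

open Classical in
/-- Cauchy-Schwarz over a family of index sets with bounded weighted overlap. -/
theorem sb_cs_cover {ι κ : Type*} (S : Finset ι) (Nall : Finset κ) (N : ι → Finset κ) (lam : ι → ℝ) (x y : κ → ℝ)
    (hlam : ∀ i ∈ S, 0 ≤ lam i) (hx : ∀ n ∈ Nall, 0 ≤ x n) (hy : ∀ n ∈ Nall, 0 ≤ y n) (hN : ∀ i ∈ S, N i ⊆ Nall)
    (hcov : ∀ n ∈ Nall, ∑ i ∈ S.filter (fun i => n ∈ N i), lam i ≤ 1) :
    ∑ i ∈ S, lam i * Real.sqrt ((∑ n ∈ N i, x n) * ∑ n ∈ N i, y n) ≤ Real.sqrt ((∑ n ∈ Nall, x n) * ∑ n ∈ Nall, y n) := by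
  have hsw : ∀ z : κ → ℝ, (∀ n ∈ Nall, 0 ≤ z n) → ∑ i ∈ S, lam i * ∑ n ∈ N i, z n ≤ ∑ n ∈ Nall, z n := by
    intro z hz
    have e : ∑ i ∈ S, lam i * ∑ n ∈ N i, z n = ∑ n ∈ Nall, z n * ∑ i ∈ S.filter (fun i => n ∈ N i), lam i := by
      have e1 : ∀ i ∈ S, lam i * ∑ n ∈ N i, z n = ∑ n ∈ Nall, if n ∈ N i then lam i * z n else 0 := by
        intro i hi
        rw [Finset.mul_sum, ← Finset.sum_filter]
        refine Finset.sum_congr ?_ fun _ _ => rfl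
        ext n
        simp only [Finset.mem_filter]
        exact ⟨fun h => ⟨hN i hi h, h⟩, fun h => h.2⟩
      rw [Finset.sum_congr rfl e1, Finset.sum_comm]
      refine Finset.sum_congr rfl fun n _ => ?_
      rw [Finset.mul_sum, Finset.sum_filter]
      refine Finset.sum_congr rfl fun i _ => ?_
      split_ifs <;> ring
    rw [e]
    refine Finset.sum_le_sum fun n hn => ?_
    exact mul_le_of_le_one_right (hz n hn) (hcov n hn)
  have hX0 : ∀ i ∈ S, 0 ≤ ∑ n ∈ N i, x n := fun i hi => Finset.sum_nonneg fun n hn => hx n (hN i hi hn)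
  have hY0 : ∀ i ∈ S, 0 ≤ ∑ n ∈ N i, y n := fun i hi => Finset.sum_nonneg fun n hn => hy n (hN i hi hn)
  calc ∑ i ∈ S, lam i * Real.sqrt ((∑ n ∈ N i, x n) * ∑ n ∈ N i, y n)
      = ∑ i ∈ S, Real.sqrt (lam i * ∑ n ∈ N i, x n) * Real.sqrt (lam i * ∑ n ∈ N i, y n) := by
        refine Finset.sum_congr rfl fun i hi => ?_
        rw [← Real.sqrt_mul (mul_nonneg (hlam i hi) (hX0 i hi))]
        have e5 : (lam i * ∑ n ∈ N i, x n) * (lam i * ∑ n ∈ N i, y n) =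
            lam i ^ 2 * ((∑ n ∈ N i, x n) * ∑ n ∈ N i, y n) := by ring
        rw [e5, Real.sqrt_mul (sq_nonneg (lam i)), Real.sqrt_sq (hlam i hi)]
    _ ≤ Real.sqrt (∑ i ∈ S, Real.sqrt (lam i * ∑ n ∈ N i, x n) ^ 2) *
        Real.sqrt (∑ i ∈ S, Real.sqrt (lam i * ∑ n ∈ N i, y n) ^ 2) :=
        Real.sum_mul_le_sqrt_mul_sqrt _ _ _
    _ = Real.sqrt (∑ i ∈ S, lam i * ∑ n ∈ N i, x n) * Real.sqrt (∑ i ∈ S, lam i * ∑ n ∈ N i, y n) := by
        rw [Finset.sum_congr rfl fun i hi => Real.sq_sqrt (mul_nonneg (hlam i hi) (hX0 i hi)),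
          Finset.sum_congr rfl fun i hi => Real.sq_sqrt (mul_nonneg (hlam i hi) (hY0 i hi))]
    _ ≤ Real.sqrt (∑ n ∈ Nall, x n) * Real.sqrt (∑ n ∈ Nall, y n) :=
        mul_le_mul (Real.sqrt_le_sqrt (hsw x hx)) (Real.sqrt_le_sqrt (hsw y hy)) (Real.sqrt_nonneg _)
          (Real.sqrt_nonneg _)
    _ = _ := (Real.sqrt_mul (Finset.sum_nonneg hx) _).symm

theorem sb_geom_le (D : Finset ℤ) (t : ℤ) (hD : ∀ s ∈ D, s < t) : ∑ s ∈ D, (2 : ℝ) ^ s ≤ (2 : ℝ) ^ t := by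
  have e : ∀ s ∈ D, (2 : ℝ) ^ s = (2 : ℝ) ^ (t - 1) * (1 / 2 : ℝ) ^ (t - 1 - s).toNat := by
    intro s hs
    have h1 : ((t - 1 - s).toNat : ℤ) = t - 1 - s := Int.toNat_of_nonneg (by have := hD s hs; omega)
    rw [one_div, inv_pow, ← zpow_natCast, h1, ← zpow_neg, ← zpow_add₀ (by norm_num)]
    congr 1
    ring
  rw [Finset.sum_congr rfl e, ← Finset.mul_sum]
  have hinj : Set.InjOn (fun s : ℤ => (t - 1 - s).toNat) D := by
    intro s hs s' hs' h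
    have h1 := hD s hs
    have h2 := hD s' hs'
    simp only at h
    omega
  rw [← Finset.sum_image (f := fun k : ℕ => (1 / 2 : ℝ) ^ k) hinj]
  have h2 : ∑ k ∈ D.image (fun s : ℤ => (t - 1 - s).toNat), (1 / 2 : ℝ) ^ k ≤ 2 := by
    have := summable_geometric_two.sum_le_tsum (D.image (fun s : ℤ => (t - 1 - s).toNat))
      (fun _ _ => by positivity)
    rwa [tsum_geometric_two] at this
  calc (2 : ℝ) ^ (t - 1) * ∑ k ∈ D.image (fun s : ℤ => (t - 1 - s).toNat), (1 / 2 : ℝ) ^ k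
      ≤ (2 : ℝ) ^ (t - 1) * 2 := mul_le_mul_of_nonneg_left h2 (by positivity)
    _ = (2 : ℝ) ^ t := by
        rw [← zpow_add_one₀ (by norm_num)]
        congr 1
        ring

/-- the cells of depth `< t` through a given lattice point have total inverse length `≤ 2^t`. -/
theorem sb_cover_le (S : Finset Cell) (t τ : ℤ) (htτ : t ≤ τ) (hS : ∀ I ∈ S, I.depth < t) (n : ℤ) :
    ∑ I ∈ S.filter (fun I => n ∈ sbIdx τ I), I.len⁻¹ ≤ (2 : ℝ) ^ t := by
  have hinj : Set.InjOn (fun I : Cell => I.depth) (S.filter (fun I => n ∈ sbIdx τ I)) := by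
    intro I hI J hJ h
    simp only at h
    have hI' := (Finset.mem_filter.1 hI).2
    have hJ' := (Finset.mem_filter.1 hJ).2
    unfold sbIdx at hI' hJ'
    rw [Finset.mem_Ico] at hI' hJ'
    rw [← h] at hJ'
    have hpos : (0 : ℤ) < 2 ^ (τ - I.depth).toNat := by positivity
    set q : ℤ := 2 ^ (τ - I.depth).toNat with hq
    have : I.idx = J.idx := by
      by_contra hne
      rcases lt_or_gt_of_ne hne with hlt | hlt
      · have : (I.idx + 1) * q ≤ J.idx * q := mul_le_mul_of_nonneg_right (by omega) hpos.le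
        linarith [hI'.2, hJ'.1]
      · have : (J.idx + 1) * q ≤ I.idx * q := mul_le_mul_of_nonneg_right (by omega) hpos.le
        linarith [hI'.1, hJ'.2]
    exact Cell.ext h this
  have e : ∀ I : Cell, I.len⁻¹ = (2 : ℝ) ^ I.depth := by
    intro I
    unfold Cell.len
    rw [zpow_neg, inv_inv]
  simp_rw [e]
  rw [← Finset.sum_image (f := fun s : ℤ => (2 : ℝ) ^ s) hinj]
  refine sb_geom_le _ t fun s hs => ?_
  obtain ⟨I, hI, rfl⟩ := Finset.mem_image.1 hs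
  exact hS I (Finset.mem_filter.1 hI).1

end Claimed.Agent.R258
end
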