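/- Packed by merge_tool.py (helper293): 8 modules of Claimed.Agent.R258 in one file, same declarations.
   Old modules, in this order: S3.Hilb, S3.Prefix, S9a.Defs, S9a.Roles, S9a.Near, S9a.Basic, S9a.CovPath, S3.Sys -/
import Mathlib
import Claimed.Agent.R258.S3.Word

/- ===== packed: Claimed.Agent.R258.S3.Hilb ===== -/
section
/-
Row 258 (S0498), block [S3] (architect helper93).  Small Hilbert space toolkit (paper-free): Pythagoras and Bessel for pairwise orthogonal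
vectors, symmetric idempotents.
-/
set_option autoImplicit false
set_option linter.unusedSectionVars false

namespace Claimed.Agent.R258

open scoped InnerProductSpace

variable {𝕜 X : Type*} [RCLike 𝕜] [NormedAddCommGroup X] [InnerProductSpace 𝕜 X]

/-- Pythagoras for pairwise orthogonal vectors -/
theorem s3_normsq_sum_orth {κ : Type*} (t : Finset κ) (v : κ → X)
    (h : ∀ k ∈ t, ∀ k' ∈ t, k ≠ k' → ⟪v k, v k'⟫_𝕜 = 0) : ‖∑ k ∈ t, v k‖ ^ 2 = ∑ k ∈ t, ‖v k‖ ^ 2 := by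
  classical
  induction t using Finset.induction_on with
  | empty => simp
  | insert a t ha ih =>
    rw [Finset.sum_insert ha, Finset.sum_insert ha, norm_add_sq (𝕜 := 𝕜),
      ih fun k hk k' hk' => h k (Finset.mem_insert_of_mem hk) k' (Finset.mem_insert_of_mem hk')]
    have : ⟪v a, ∑ k ∈ t, v k⟫_𝕜 = 0 := by
      rw [inner_sum]
      refine Finset.sum_eq_zero fun k hk => h a (Finset.mem_insert_self _ _) k (Finset.mem_insert_of_mem hk) ?_
      rintro rfl; exact ha hk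
    rw [this]; simp

/-- abstract Bessel inequality -/
theorem s3_bessel_orth {κ : Type*} (t : Finset κ) (v : κ → X) (x : X)
    (h1 : ∀ k ∈ t, ⟪x, v k⟫_𝕜 = ((‖v k‖ ^ 2 : ℝ) : 𝕜))
    (h2 : ∀ k ∈ t, ∀ k' ∈ t, k ≠ k' → ⟪v k, v k'⟫_𝕜 = 0) : ∑ k ∈ t, ‖v k‖ ^ 2 ≤ ‖x‖ ^ 2 := by
  have h3 := norm_sub_sq (𝕜 := 𝕜) x (∑ k ∈ t, v k)
  rw [s3_normsq_sum_orth t v h2, inner_sum, Finset.sum_congr rfl h1] at h3
  have h4 : RCLike.re (∑ k ∈ t, ((‖v k‖ ^ 2 : ℝ) : 𝕜)) = ∑ k ∈ t, ‖v k‖ ^ 2 := by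
    rw [← RCLike.ofReal_sum, RCLike.ofReal_re]
  rw [h4] at h3
  nlinarith [sq_nonneg ‖x - ∑ k ∈ t, v k‖]

/-- `⟨x, Q x⟩ = ‖Q x‖²` for a symmetric idempotent -/
theorem s3_inner_self_proj (Q : X →ₗ[𝕜] X) (hs : ∀ x y, ⟪Q x, y⟫_𝕜 = ⟪x, Q y⟫_𝕜) (hi : ∀ x, Q (Q x) = Q x) (x : X) :
    ⟪x, Q x⟫_𝕜 = ((‖Q x‖ ^ 2 : ℝ) : 𝕜) := by
  rw [← hi x, ← hs, hi, inner_self_eq_norm_sq_to_K]; norm_cast

/-- Pythagoras for a symmetric idempotent -/
theorem s3_normsq_proj_add (Q : X →ₗ[𝕜] X) (hs : ∀ x y, ⟪Q x, y⟫_𝕜 = ⟪x, Q y⟫_𝕜) (hi : ∀ x, Q (Q x) = Q x) (x : X) :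
    ‖Q x‖ ^ 2 + ‖x - Q x‖ ^ 2 = ‖x‖ ^ 2 := by
  have h3 := norm_sub_sq (𝕜 := 𝕜) x (Q x)
  rw [s3_inner_self_proj Q hs hi, RCLike.ofReal_re] at h3
  linarith

theorem s3_norm_proj_le (Q : X →ₗ[𝕜] X) (hs : ∀ x y, ⟪Q x, y⟫_𝕜 = ⟪x, Q y⟫_𝕜) (hi : ∀ x, Q (Q x) = Q x) (x : X) :
    ‖Q x‖ ≤ ‖x‖ := by
  have := s3_normsq_proj_add Q hs hi x
  exact abs_le_of_sq_le_sq' (by nlinarith [sq_nonneg ‖x - Q x‖]) (norm_nonneg _) |>.2

theorem s3_norm_compl_le (Q : X →ₗ[𝕜] X) (hs : ∀ x y, ⟪Q x, y⟫_𝕜 = ⟪x, Q y⟫_𝕜) (hi : ∀ x, Q (Q x) = Q x) (x : X) :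
    ‖x - Q x‖ ≤ ‖x‖ := by
  have := s3_normsq_proj_add Q hs hi x
  exact abs_le_of_sq_le_sq' (by nlinarith [sq_nonneg ‖Q x‖]) (norm_nonneg _) |>.2

end Claimed.Agent.R258
end

/- ===== packed: Claimed.Agent.R258.S3.Prefix ===== -/
section
/-
Row 258 (S0498), block [S3] = Sec. 3 compression.tex (architect helper93).
`lem:projection-prefixes` (Products of nested prefixes; Rademacher-Menshov binary decomposition), ABSTRACT form.

Formalisation choices:
* a nested family of orthogonal projections is a family of linear maps `P n` that are symmetric and satisfy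
  `P n' (P n x) = P n x` for `n ≤ n'` (`s3_Nested`);
* layers are indexed by `ℕ` (layer `i` is applied after the layers `< i`): `s3_Z P m n = P (m-1) n ∘ ... ∘ P 0 n`;
* the rows `B_ν : X → Y_ν` enter only through the seminorms `h ↦ ‖B_ν h‖`.
-/
set_option autoImplicit false
set_option linter.unusedSectionVars false

namespace Claimed.Agent.R258

open scoped InnerProductSpace

variable {𝕜 X : Type*} [RCLike 𝕜] [NormedAddCommGroup X] [InnerProductSpace 𝕜 X]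

/-- a nested family of orthogonal projections `P 0 ≤ P 1 ≤ ...` -/
structure s3_Nested (P : ℕ → X →ₗ[𝕜] X) : Prop where
  symm : ∀ n x y, ⟪P n x, y⟫_𝕜 = ⟪x, P n y⟫_𝕜
  fix : ∀ n n' x, n ≤ n' → P n' (P n x) = P n x

/-- `Z_n = P_n^{m} ⋯ P_n^{1}` (layer `i` of the paper is `P (i-1)`). -/
def s3_Z (P : ℕ → ℕ → X →ₗ[𝕜] X) : ℕ → ℕ → X →ₗ[𝕜] X
  | 0, _ => LinearMap.id
  | m + 1, n => (P m n).comp (s3_Z P m n)

/-- `L_T = 1 + ⌈log₂ (T+1)⌉` -/
def s3_LT (T : ℕ) : ℕ := 1 + Nat.clog 2 (T + 1)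

theorem s3_Nested.fix' {P : ℕ → X →ₗ[𝕜] X} (h : s3_Nested P) (n n' : ℕ) (x : X) (hn : n ≤ n') :
    P n (P n' x) = P n x := by
  refine ext_inner_right 𝕜 fun y => ?_
  rw [h.symm, h.symm, h.fix n n' y hn, ← h.symm]

theorem s3_Nested.norm_le {P : ℕ → X →ₗ[𝕜] X} (h : s3_Nested P) (n : ℕ) (x : X) : ‖P n x‖ ≤ ‖x‖ :=
  s3_norm_proj_le (P n) (h.symm n) (fun x => h.fix n n x le_rfl) x

/-- Bessel inequality for the increments over pairwise disjoint index blocks `(a k, b k]`. -/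
theorem s3_Nested.bessel {P : ℕ → X →ₗ[𝕜] X} (h : s3_Nested P) {κ : Type*} (t : Finset κ) (a b : κ → ℕ)
    (hab : ∀ k ∈ t, a k ≤ b k)
    (hdisj : ∀ k ∈ t, ∀ k' ∈ t, k ≠ k' → b k ≤ a k' ∨ b k' ≤ a k) (x : X) :
    ∑ k ∈ t, ‖P (b k) x - P (a k) x‖ ^ 2 ≤ ‖x‖ ^ 2 := by
  have hs : ∀ k y z, ⟪(P (b k) - P (a k)) y, z⟫_𝕜 = ⟪y, (P (b k) - P (a k)) z⟫_𝕜 := by
    intro k y z
    simp only [LinearMap.sub_apply, inner_sub_left, inner_sub_right, h.symm]
  refine s3_bessel_orth (𝕜 := 𝕜) t (fun k => P (b k) x - P (a k) x) x ?_ ?_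
  · intro k hk
    refine s3_inner_self_proj (P (b k) - P (a k)) (hs k) ?_ x
    intro y
    simp only [LinearMap.sub_apply, map_sub]
    rw [h.fix _ _ _ le_rfl, h.fix _ _ _ (hab k hk), h.fix' _ _ _ (hab k hk), h.fix _ _ _ le_rfl]
    abel
  · intro k hk k' hk' hne
    have : ⟪P (b k) x - P (a k) x, P (b k') x - P (a k') x⟫_𝕜
        = ⟪x, (P (b k) - P (a k)) ((P (b k') - P (a k')) x)⟫_𝕜 := by
      rw [← hs]; rfl
    rw [this]
    have h0 : (P (b k) - P (a k)) ((P (b k') - P (a k')) x) = 0 := by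
      simp only [LinearMap.sub_apply, map_sub]
      have hk1 := hab k hk
      have hk2 := hab k' hk'
      rcases hdisj k hk k' hk' hne with h1 | h1
      · rw [h.fix' _ _ _ (h1.trans hk2), h.fix' _ _ _ h1, h.fix' _ _ _ ((hk1.trans h1).trans hk2),
          h.fix' _ _ _ (hk1.trans h1)]
        abel
      · rw [h.fix _ _ _ (h1.trans hk1), h.fix _ _ _ ((hk2.trans h1).trans hk1), h.fix _ _ _ h1,
          h.fix _ _ _ (hk2.trans h1)]
        abel
    rw [h0, inner_zero_right]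

/-- the family shifted by one, starting with `0` -/
def s3_shift (P : ℕ → X →ₗ[𝕜] X) : ℕ → X →ₗ[𝕜] X
  | 0 => 0
  | k + 1 => P k

theorem s3_Nested.shift {P : ℕ → X →ₗ[𝕜] X} (h : s3_Nested P) : s3_Nested (s3_shift P) := by
  constructor
  · intro n x y
    cases n with
    | zero => simp [s3_shift]
    | succ k => exact h.symm k x y
  · intro n n' x hn
    cases n with
    | zero => simp [s3_shift]
    | succ k =>
      cases n' with
      | zero => omega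
      | succ k' => exact h.fix k k' x (by omega)

/-- one dyadic level of the binary decomposition -/
theorem s3_prefix_level (P : ℕ → X →ₗ[𝕜] X) (hP : s3_Nested P) (j : ℕ)
    {ι : Type*} (s : Finset ι) (B : ι → Seminorm 𝕜 X) (hB : ∀ h, ∑ ν ∈ s, (B ν h) ^ 2 ≤ ‖h‖ ^ 2)
    (M : ι → ℕ) (g : X) :
    ∑ ν ∈ s, (B ν (P (M ν / 2 ^ j * 2 ^ j) g - P (M ν / 2 ^ (j + 1) * 2 ^ (j + 1)) g)) ^ 2 ≤ ‖g‖ ^ 2 := by
  classical
  set t : Finset ℕ := s.image fun ν => M ν / 2 ^ j with ht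
  have hbes := hP.bessel t (fun q => q / 2 * 2 ^ (j + 1)) (fun q => q * 2 ^ j)
    (by
      intro q _
      have : q / 2 * 2 ^ (j + 1) = (q / 2 * 2) * 2 ^ j := by ring
      rw [this]
      exact Nat.mul_le_mul_right _ (Nat.div_mul_le_self q 2))
    (by
      intro q _ q' _ hne
      have key : ∀ q q' : ℕ, q < q' → q * 2 ^ j ≤ q' / 2 * 2 ^ (j + 1) := by
        intro q q' hlt
        have : q' / 2 * 2 ^ (j + 1) = (q' / 2 * 2) * 2 ^ j := by ring
        rw [this]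
        exact Nat.mul_le_mul_right _ (by omega)
      rcases Nat.lt_or_gt_of_ne hne with h1 | h1
      · left; exact key q q' h1
      · right; exact key q' q h1) g
  have hq : ∀ ν, M ν / 2 ^ (j + 1) = M ν / 2 ^ j / 2 := by
    intro ν; rw [pow_succ, Nat.div_div_eq_div_mul]
  calc ∑ ν ∈ s, (B ν (P (M ν / 2 ^ j * 2 ^ j) g - P (M ν / 2 ^ (j + 1) * 2 ^ (j + 1)) g)) ^ 2
      = ∑ q ∈ t, ∑ ν ∈ s.filter (fun ν => M ν / 2 ^ j = q),
          (B ν (P (M ν / 2 ^ j * 2 ^ j) g - P (M ν / 2 ^ (j + 1) * 2 ^ (j + 1)) g)) ^ 2 :=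
        (Finset.sum_fiberwise_of_maps_to (fun ν hν => Finset.mem_image_of_mem _ hν) _).symm
    _ ≤ ∑ q ∈ t, ‖P (q * 2 ^ j) g - P (q / 2 * 2 ^ (j + 1)) g‖ ^ 2 := by
        refine Finset.sum_le_sum fun q _ => ?_
        calc ∑ ν ∈ s.filter (fun ν => M ν / 2 ^ j = q),
              (B ν (P (M ν / 2 ^ j * 2 ^ j) g - P (M ν / 2 ^ (j + 1) * 2 ^ (j + 1)) g)) ^ 2
            = ∑ ν ∈ s.filter (fun ν => M ν / 2 ^ j = q),
              (B ν (P (q * 2 ^ j) g - P (q / 2 * 2 ^ (j + 1)) g)) ^ 2 := by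
              refine Finset.sum_congr rfl fun ν hν => ?_
              rw [hq ν, (Finset.mem_filter.mp hν).2]
          _ ≤ ∑ ν ∈ s, (B ν (P (q * 2 ^ j) g - P (q / 2 * 2 ^ (j + 1)) g)) ^ 2 :=
              Finset.sum_le_sum_of_subset_of_nonneg (Finset.filter_subset _ _) fun _ _ _ => sq_nonneg _
          _ ≤ _ := hB _
    _ ≤ ‖g‖ ^ 2 := hbes

/-- The single layer case of the first assertion. -/
theorem s3_prefix_one (P : ℕ → X →ₗ[𝕜] X) (hP : s3_Nested P) (T : ℕ)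
    {ι : Type*} (s : Finset ι) (B : ι → Seminorm 𝕜 X) (hB : ∀ h, ∑ ν ∈ s, (B ν h) ^ 2 ≤ ‖h‖ ^ 2)
    (n : ι → ℕ) (hn : ∀ ν ∈ s, n ν ≤ T) (g : X) :
    ∑ ν ∈ s, (B ν (P (n ν) g)) ^ 2 ≤ (s3_LT T : ℝ) ^ 2 * ‖g‖ ^ 2 := by
  set L := s3_LT T with hL
  set P' := s3_shift P with hP'
  have hlt : T + 1 < 2 ^ L := by
    have h1 : T + 1 ≤ 2 ^ Nat.clog 2 (T + 1) := Nat.le_pow_clog (by norm_num) _
    have h2 : 2 ^ Nat.clog 2 (T + 1) < 2 ^ L := by
      apply Nat.pow_lt_pow_right (by norm_num)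
      rw [hL]; unfold s3_LT; omega
    omega
  have htel : ∀ ν ∈ s, P (n ν) g = ∑ j ∈ Finset.range L,
      (P' ((n ν + 1) / 2 ^ j * 2 ^ j) g - P' ((n ν + 1) / 2 ^ (j + 1) * 2 ^ (j + 1)) g) := by
    intro ν hν
    rw [Finset.sum_range_sub' (fun j => P' ((n ν + 1) / 2 ^ j * 2 ^ j) g)]
    have h0 : (n ν + 1) / 2 ^ L = 0 := Nat.div_eq_of_lt (by have := hn ν hν; omega)
    simp [h0, hP', s3_shift]
  have hlev := fun j => s3_prefix_level P' hP.shift j s B hB (fun ν => n ν + 1) g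
  calc ∑ ν ∈ s, (B ν (P (n ν) g)) ^ 2
      ≤ ∑ ν ∈ s, (L : ℝ) * ∑ j ∈ Finset.range L,
          (B ν (P' ((n ν + 1) / 2 ^ j * 2 ^ j) g - P' ((n ν + 1) / 2 ^ (j + 1) * 2 ^ (j + 1)) g)) ^ 2 := by
        refine Finset.sum_le_sum fun ν hν => ?_
        rw [htel ν hν]
        have h1 : B ν (∑ j ∈ Finset.range L,
            (P' ((n ν + 1) / 2 ^ j * 2 ^ j) g - P' ((n ν + 1) / 2 ^ (j + 1) * 2 ^ (j + 1)) g))
            ≤ ∑ j ∈ Finset.range L,
              B ν (P' ((n ν + 1) / 2 ^ j * 2 ^ j) g - P' ((n ν + 1) / 2 ^ (j + 1) * 2 ^ (j + 1)) g) :=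
          Finset.le_sum_of_subadditive (B ν) (map_zero _).le (map_add_le_add _) _ _
        refine (pow_le_pow_left₀ (apply_nonneg _ _) h1 2).trans ?_
        have := sq_sum_le_card_mul_sum_sq (s := Finset.range L)
          (f := fun j => B ν (P' ((n ν + 1) / 2 ^ j * 2 ^ j) g - P' ((n ν + 1) / 2 ^ (j + 1) * 2 ^ (j + 1)) g))
        simpa using this
    _ = (L : ℝ) * ∑ j ∈ Finset.range L, ∑ ν ∈ s,
          (B ν (P' ((n ν + 1) / 2 ^ j * 2 ^ j) g - P' ((n ν + 1) / 2 ^ (j + 1) * 2 ^ (j + 1)) g)) ^ 2 := by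
        rw [← Finset.mul_sum, Finset.sum_comm]
    _ ≤ (L : ℝ) * ∑ j ∈ Finset.range L, ‖g‖ ^ 2 := by
        gcongr with j _
        exact hlev j
    _ = (L : ℝ) ^ 2 * ‖g‖ ^ 2 := by simp; ring

theorem s3_LT_pos (T : ℕ) : (1 : ℝ) ≤ (s3_LT T : ℝ) := by
  unfold s3_LT; push_cast; linarith [Nat.cast_nonneg (α := ℝ) (Nat.clog 2 (T + 1))]

/-- **Lemma 3.3, first assertion.** -/
theorem s3_prefix_rows (P : ℕ → ℕ → X →ₗ[𝕜] X) (m T : ℕ) (hP : ∀ i < m, s3_Nested (P i))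
    {ι : Type*} (s : Finset ι) (B : ι → Seminorm 𝕜 X) (hB : ∀ h, ∑ ν ∈ s, (B ν h) ^ 2 ≤ ‖h‖ ^ 2)
    (n : ι → ℕ) (hn : ∀ ν ∈ s, n ν ≤ T) (g : X) :
    ∑ ν ∈ s, (B ν (s3_Z P m (n ν) g)) ^ 2 ≤ ((s3_LT T : ℝ) ^ m) ^ 2 * ‖g‖ ^ 2 := by
  induction m generalizing B with
  | zero => simpa [s3_Z] using hB g
  | succ m ih =>
    have hL : (1 : ℝ) ≤ (s3_LT T : ℝ) := s3_LT_pos T
    have hL0 : (0 : ℝ) < (s3_LT T : ℝ) := by linarith
    set L : ℝ := (s3_LT T : ℝ) with hLdef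
    let B' : ι → Seminorm 𝕜 X := fun ν => (Real.toNNReal L⁻¹) • (B ν).comp (P m (n ν))
    have hB'v : ∀ ν h, B' ν h = L⁻¹ * B ν (P m (n ν) h) := by
      intro ν h
      simp only [B', smul_apply, Seminorm.comp_apply, NNReal.smul_def, smul_eq_mul]
      rw [Real.coe_toNNReal _ (by positivity)]
    have hB' : ∀ h, ∑ ν ∈ s, (B' ν h) ^ 2 ≤ ‖h‖ ^ 2 := by
      intro h
      have h1 := s3_prefix_one (P m) (hP m (Nat.lt_succ_self m)) T s B hB n hn h
      have : ∑ ν ∈ s, (B' ν h) ^ 2 = (L⁻¹) ^ 2 * ∑ ν ∈ s, (B ν (P m (n ν) h)) ^ 2 := by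
        rw [Finset.mul_sum]; refine Finset.sum_congr rfl fun ν _ => ?_
        rw [hB'v, mul_pow]
      rw [this]
      calc (L⁻¹) ^ 2 * ∑ ν ∈ s, (B ν (P m (n ν) h)) ^ 2 ≤ (L⁻¹) ^ 2 * (L ^ 2 * ‖h‖ ^ 2) := by gcongr
        _ = ‖h‖ ^ 2 := by field_simp
    have h2 := ih (fun i hi => hP i (Nat.lt_succ_of_lt hi)) B' hB'
    have : ∑ ν ∈ s, (B ν (s3_Z P (m + 1) (n ν) g)) ^ 2 = L ^ 2 * ∑ ν ∈ s, (B' ν (s3_Z P m (n ν) g)) ^ 2 := by
      rw [Finset.mul_sum]; refine Finset.sum_congr rfl fun ν _ => ?_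
      rw [hB'v, mul_pow]; simp only [s3_Z, LinearMap.comp_apply]; field_simp
    rw [this]
    calc L ^ 2 * ∑ ν ∈ s, (B' ν (s3_Z P m (n ν) g)) ^ 2 ≤ L ^ 2 * ((L ^ m) ^ 2 * ‖g‖ ^ 2) := by gcongr
      _ = (L ^ (m + 1)) ^ 2 * ‖g‖ ^ 2 := by ring

/-- Minkowski in `ℓ²` for two summands, squared form. -/
theorem s3_sum_sq_add_le {ι : Type*} (s : Finset ι) (z x y : ι → ℝ) (A B : ℝ) (hA : 0 ≤ A) (hB : 0 ≤ B)
    (hz : ∀ i ∈ s, 0 ≤ z i) (hzxy : ∀ i ∈ s, z i ≤ x i + y i)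
    (hx : ∑ i ∈ s, x i ^ 2 ≤ A ^ 2) (hy : ∑ i ∈ s, y i ^ 2 ≤ B ^ 2) :
    ∑ i ∈ s, z i ^ 2 ≤ (A + B) ^ 2 := by
  have h1 : ∑ i ∈ s, z i ^ 2 ≤ ∑ i ∈ s, (x i + y i) ^ 2 :=
    Finset.sum_le_sum fun i hi => pow_le_pow_left₀ (hz i hi) (hzxy i hi) 2
  have h2 : (∑ i ∈ s, x i * y i) ^ 2 ≤ (A * B) ^ 2 := by
    calc (∑ i ∈ s, x i * y i) ^ 2 ≤ (∑ i ∈ s, x i ^ 2) * ∑ i ∈ s, y i ^ 2 := Finset.sum_mul_sq_le_sq_mul_sq _ _ _
      _ ≤ A ^ 2 * B ^ 2 := by
          apply mul_le_mul hx hy (Finset.sum_nonneg fun i _ => sq_nonneg _) (sq_nonneg _)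
      _ = (A * B) ^ 2 := by ring
  have h3 : ∑ i ∈ s, x i * y i ≤ A * B := abs_le_of_sq_le_sq' h2 (by positivity) |>.2
  have h4 : ∑ i ∈ s, (x i + y i) ^ 2 = ∑ i ∈ s, x i ^ 2 + 2 * ∑ i ∈ s, x i * y i + ∑ i ∈ s, y i ^ 2 := by
    rw [Finset.mul_sum, ← Finset.sum_add_distrib, ← Finset.sum_add_distrib]
    exact Finset.sum_congr rfl fun i _ => by ring
  nlinarith

theorem s3_prefix_diff_aux (P : ℕ → ℕ → X →ₗ[𝕜] X) (m T : ℕ) (hP : ∀ i < m, s3_Nested (P i)) (g : X) :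
    ∑ n ∈ Finset.range T, ‖s3_Z P m (n + 1) g - s3_Z P m n g‖ ^ 2
      ≤ ((∑ i ∈ Finset.range m, (s3_LT T : ℝ) ^ i) * ‖g‖) ^ 2 := by
  induction m with
  | zero => simp [s3_Z]
  | succ m ih =>
    have hL : (1 : ℝ) ≤ (s3_LT T : ℝ) := s3_LT_pos T
    have hPm := hP m (Nat.lt_succ_self m)
    have ih' := ih (fun i hi => hP i (Nat.lt_succ_of_lt hi))
    let B : ℕ → Seminorm 𝕜 X := fun n => (normSeminorm 𝕜 X).comp (P m (n + 1) - P m n)
    have hBv : ∀ n h, B n h = ‖P m (n + 1) h - P m n h‖ := fun n h => rfl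
    have hB : ∀ h, ∑ n ∈ Finset.range T, (B n h) ^ 2 ≤ ‖h‖ ^ 2 := by
      intro h
      simp only [hBv]
      refine hPm.bessel (Finset.range T) (fun n => n) (fun n => n + 1) (fun k _ => Nat.le_succ k) ?_ h
      intro k _ k' _ hkk'
      rcases Nat.lt_or_gt_of_ne hkk' with h1 | h1
      · left; exact h1
      · right; exact h1
    have h2 := s3_prefix_rows P m T (fun i hi => hP i (Nat.lt_succ_of_lt hi)) (Finset.range T) B hB
      (fun n => n) (fun n hn => (Finset.mem_range.mp hn).le) g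
    rw [Finset.sum_range_succ, add_mul]
    refine s3_sum_sq_add_le (Finset.range T) _ (fun n => ‖s3_Z P m (n + 1) g - s3_Z P m n g‖)
      (fun n => B n (s3_Z P m n g)) _ _ (by positivity) (by positivity) (fun _ _ => norm_nonneg _) ?_ ih' ?_
    · intro n _
      have : s3_Z P (m + 1) (n + 1) g - s3_Z P (m + 1) n g
          = P m (n + 1) (s3_Z P m (n + 1) g - s3_Z P m n g)
            + (P m (n + 1) (s3_Z P m n g) - P m n (s3_Z P m n g)) := by
        simp only [s3_Z, LinearMap.comp_apply, map_sub]; abel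
      rw [this, hBv]
      exact (norm_add_le _ _).trans (add_le_add_left (hPm.norm_le _ _) _)
    · rw [mul_pow]; exact h2

/-- **Lemma 3.3, second assertion.** -/
theorem s3_prefix_diff (P : ℕ → ℕ → X →ₗ[𝕜] X) (m T : ℕ) (hP : ∀ i < m, s3_Nested (P i)) (g : X) :
    ∑ n ∈ Finset.range T, ‖s3_Z P m (n + 1) g - s3_Z P m n g‖ ^ 2
      ≤ ((m : ℝ) * (s3_LT T : ℝ) ^ (m - 1)) ^ 2 * ‖g‖ ^ 2 := by
  refine (s3_prefix_diff_aux P m T hP g).trans ?_
  rw [← mul_pow]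
  have hL : (1 : ℝ) ≤ (s3_LT T : ℝ) := s3_LT_pos T
  have : ∑ i ∈ Finset.range m, (s3_LT T : ℝ) ^ i ≤ (m : ℝ) * (s3_LT T : ℝ) ^ (m - 1) := by
    calc ∑ i ∈ Finset.range m, (s3_LT T : ℝ) ^ i ≤ ∑ i ∈ Finset.range m, (s3_LT T : ℝ) ^ (m - 1) := by
          refine Finset.sum_le_sum fun i hi => pow_le_pow_right₀ hL ?_
          have := Finset.mem_range.mp hi; omega
      _ = (m : ℝ) * (s3_LT T : ℝ) ^ (m - 1) := by simp
  gcongr

end Claimed.Agent.R258
end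

/- ===== packed: Claimed.Agent.R258.S9a.Defs ===== -/
section
/-
R258 / block [S9a] = Lemma 9.1 (counting.tex, `lem:finite-sparse-count`): "Sparse mass of separated progression tests".
Architect: helper261.   DEFINITIONS ONLY.  Msg helper261 for changes.

The lemma is proved in its GRID FORM (labels in `6ℤ`, frequencies `ζ ∈ ℤ^d`, grid step `1`); the real form is reduced to it in `Grid.lean`.
An OCCURRENCE is a pair `(s, a)`: scale index `s : ℤ` (`R_s = R0 * 2 ^ s`) and a tuple `a : Fin 4 → ℤ` (`a i = 0` for the side role).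
All hypotheses are stated for ONE finite set `O` of occurrences and are HEREDITARY (`ScPar.Ok.mono`).

EXPLICIT CONSTANTS (paper: `c, C`):  reserve `C_res = 10^6` (grid form), `N₀ = ⌈32 B⌉`, `ε(sp) = ⌈16 ν R_sp⌉`,
`K₁ = 160000 (L/κ)^6`, gap exponent `g = ⌈log₂ (2^19 (d+1)² ν/μ)⌉` (`Γ ≤ 2^g`), growth scale `H ≤ 100 (d+1)²`.
-/
set_option autoImplicit false

namespace Claimed.Agent.R258

open Finset
open scoped Pointwise

/-- an occurrence: (scale index, tuple of labels) -/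
abbrev ScOcc : Type := ℤ × (Fin 4 → ℤ)

/-- the progression coefficient `α_i = i - l'` -/
def scAl (l' i : Fin 4) : ℤ := ((i : ℕ) : ℤ) - ((l' : ℕ) : ℤ)

/-- the linear form `∑_i (i - l') a_i` of the triple excluding the role `l'` -/
def scLin (l' : Fin 4) (a : Fin 4 → ℤ) : ℤ := ∑ i : Fin 4, scAl l' i * a i

/-- Parameters of the grid form of Lemma 9.1. -/
structure ScPar where
  /-- dimension of the shifts -/
  d : ℕ
  /-- the frequencies -/
  ζ : Fin d → ℤ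
  /-- the core roles -/
  J : Finset (Fin 4)
  /-- bound of the label counts -/
  M : ℝ
  /-- bound of the scale occurrences of a tuple -/
  L : ℝ
  /-- size of the witnesses of the annular relations -/
  B : ℝ
  /-- lower annular constant -/
  μ : ℝ
  /-- upper annular constant -/
  ν : ℝ
  /-- reserve of shifts -/
  Q : ℝ
  /-- separation constant `Σ` -/
  Sg : ℝ
  /-- `R_s = R0 * 2 ^ s` -/
  R0 : ℝ
  /-- the side budget -/
  w : ℤ → ℝ

namespace ScPar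

variable (p : ScPar)

/-- reciprocal scale -/
noncomputable def R (s : ℤ) : ℝ := p.R0 * (2 : ℝ) ^ s

/-- `n · ζ` -/
def dot (n : Fin p.d → ℤ) : ℤ := ∑ k, n k * p.ζ k

/-- `(d+1)²` -/
noncomputable def D : ℝ := ((p.d : ℝ) + 1) ^ 2

/-- `x = n · ζ + e` with `|n|_∞ ≤ N`, `|e| ≤ ε` -/
def Near (N ε : ℝ) (x : ℤ) : Prop :=
  ∃ n : Fin p.d → ℤ, (∀ k, |(n k : ℝ)| ≤ N) ∧ |((x - p.dot n : ℤ) : ℝ)| ≤ ε

/-- **The hypotheses of the grid form** for the set `O` of occurrences. -/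
structure Ok (O : Finset ScOcc) : Prop where
  hJ : 3 ≤ p.J.card
  hM : 1 ≤ p.M
  hL : 1 ≤ p.L
  hB : 1 ≤ p.B
  hμ0 : 0 < p.μ
  hμ1 : p.μ ≤ 1
  hν : 1 ≤ p.ν
  hR0 : 0 < p.R0
  hQ : 10 ^ 6 * p.D * p.B ≤ p.Q
  hSg : 10 ^ 6 * p.D * p.ν ≤ p.Sg
  /-- the grid is fine -/
  fine : ∀ o ∈ O, 1 ≤ p.R o.1
  /-- the labels are divisible by `6` -/
  six : ∀ o ∈ O, ∀ i, (6 : ℤ) ∣ o.2 i
  /-- the side coordinate is a dummy -/
  zero : ∀ o ∈ O, ∀ i, i ∉ p.J → o.2 i = 0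
  /-- label counts -/
  card : ∀ i ∈ p.J, ((O.image fun o => o.2 i).card : ℝ) ≤ p.M
  /-- hypothesis 1: pair determination -/
  pair : ∀ o ∈ O, ∀ o' ∈ O, ∀ i ∈ p.J, ∀ j ∈ p.J, i ≠ j → o.2 i = o'.2 i → o.2 j = o'.2 j → o.2 = o'.2
  /-- hypothesis 1: scale occurrences -/
  mult : ∀ a : Fin 4 → ℤ, ((O.filter fun o => o.2 = a).card : ℝ) ≤ p.L
  /-- hypothesis 2: the side budget -/
  w_nonneg : ∀ s, 0 ≤ p.w s
  w_sum : p.J.card = 3 → ∑ s ∈ O.image Prod.fst, p.w s ≤ p.M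
  side : p.J.card = 3 → ∀ s : ℤ, ∀ i ∈ p.J, ∀ x : ℤ,
    ((O.filter fun o => o.1 = s ∧ o.2 i = x).card : ℝ) ≤ p.w s
  /-- hypothesis 3: separation modulo the reserved shifts -/
  sep : ∀ o ∈ O, ∀ o' ∈ O, ∀ i ∈ p.J, o.2 i ≠ o'.2 i →
    ¬ p.Near p.Q (p.Sg * max (p.R o.1) (p.R o'.1)) (o.2 i - o'.2 i)
  /-- hypothesis 4: the annular relations -/
  ann : ∀ l' : Fin 4, (∀ i, i ≠ l' → i ∈ p.J) → ∀ o ∈ O, ∃ n : Fin p.d → ℤ, (∀ k, |(n k : ℝ)| ≤ p.B) ∧
    p.μ * p.R o.1 ≤ |((scLin l' o.2 + 36 * p.dot n : ℤ) : ℝ)| ∧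
      |((scLin l' o.2 + 36 * p.dot n : ℤ) : ℝ)| ≤ p.ν * p.R o.1
  /-- hypothesis 5: the pure-shift gap -/
  gap : ∀ o ∈ O, ∀ n : Fin p.d → ℤ, (∀ k, |(n k : ℝ)| ≤ p.Q) →
    ¬ (p.μ * p.R o.1 / 100 ≤ |((p.dot n : ℤ) : ℝ)| ∧ |((p.dot n : ℤ) : ℝ)| ≤ 100 * p.ν * p.R o.1)

/-- every scale bin has mass at most `δ M²` -/
def Bin (O : Finset ScOcc) (δ : ℝ) : Prop :=
  ∀ s : ℤ, ((O.filter fun o => o.1 = s).card : ℝ) ≤ δ * p.M ^ 2

/-- `N₀ = ⌈32 B⌉` -/
noncomputable def N0 : ℕ := ⌈32 * p.B⌉₊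

/-- the width `ε = ⌈16 ν R_sp⌉` of the neighbourhoods of a block with top scale `sp` -/
noncomputable def eps (sp : ℤ) : ℕ := ⌈16 * p.ν * p.R sp⌉₊

/-- the neighbourhood `U_b(t) = {6 n·ζ + u : |n|_∞ ≤ t N₀, |u| ≤ t ε}` -/
noncomputable def U (sp : ℤ) (t : ℕ) : Finset ℤ :=
  ((Fintype.piFinset fun _ : Fin p.d => Finset.Icc (-((t * p.N0 : ℕ) : ℤ)) ((t * p.N0 : ℕ) : ℤ)) ×ˢ
    Finset.Icc (-((t * p.eps sp : ℕ) : ℤ)) ((t * p.eps sp : ℕ) : ℤ)).image fun z => 6 * p.dot z.1 + z.2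

/-- `K₁ = 160000 (L/κ)^6` -/
noncomputable def K1 (κ : ℝ) : ℝ := 160000 * (p.L / κ) ^ 6

/-- the gap exponent: `Γ = 2^19 (d+1)² ν/μ ≤ 2^g` -/
noncomputable def g : ℕ := ⌈Real.logb 2 (2 ^ 19 * p.D * p.ν / p.μ)⌉₊

end ScPar

end Claimed.Agent.R258
end

/- ===== packed: Claimed.Agent.R258.S9a.Roles ===== -/
section
/-
R258 / block [S9a] (Lemma 9.1 = counting.tex `lem:finite-sparse-count`), file Roles: the roles and the scales.  Blueprint + proofs: helper261.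
-/
set_option autoImplicit false

namespace Claimed.Agent.R258

open Finset
open scoped Pointwise

/-! ### roles -/

section roles

theorem sc_al_self (l' : Fin 4) : scAl l' l' = 0 := by
  unfold scAl
  ring

theorem sc_al_dvd {l' i : Fin 4} (h : i ≠ l') : scAl l' i ∣ 6 := by
  revert h
  revert l' i
  decide

theorem sc_al_ne {l' i : Fin 4} (h : i ≠ l') : scAl l' i ≠ 0 := by
  revert h
  revert l' i
  decide

theorem sc_al_abs (l' i : Fin 4) : |scAl l' i| ≤ 3 := by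
  revert l' i
  decide

/-- the three other roles -/
theorem sc_roles (l' : Fin 4) : ∃ i1 i2 i3 : Fin 4, i1 ≠ l' ∧ i2 ≠ l' ∧ i3 ≠ l' ∧ i1 ≠ i2 ∧ i1 ≠ i3 ∧
    i2 ≠ i3 ∧ ∀ i, i = l' ∨ i = i1 ∨ i = i2 ∨ i = i3 := by
  revert l'
  decide

/-- four distinct roles exhaust `Fin 4` -/
theorem sc_roles_cases {l' i1 i2 i3 : Fin 4} (h1 : i1 ≠ l') (h2 : i2 ≠ l') (h3 : i3 ≠ l') (h12 : i1 ≠ i2)
    (h13 : i1 ≠ i3) (h23 : i2 ≠ i3) (i : Fin 4) : i = l' ∨ i = i1 ∨ i = i2 ∨ i = i3 := by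
  revert h1 h2 h3 h12 h13 h23
  revert l' i1 i2 i3 i
  decide

theorem sc_lin_eq {l' i1 i2 i3 : Fin 4} (h1 : i1 ≠ l') (h2 : i2 ≠ l') (h3 : i3 ≠ l') (h12 : i1 ≠ i2)
    (h13 : i1 ≠ i3) (h23 : i2 ≠ i3) (a : Fin 4 → ℤ) :
    scLin l' a = scAl l' i1 * a i1 + scAl l' i2 * a i2 + scAl l' i3 * a i3 := by
  have huniv : (Finset.univ : Finset (Fin 4)) = {l', i1, i2, i3} := by
    ext i
    simp only [Finset.mem_univ, Finset.mem_insert, Finset.mem_singleton, true_iff]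
    exact sc_roles_cases h1 h2 h3 h12 h13 h23 i
  unfold scLin
  rw [huniv, Finset.sum_insert, Finset.sum_insert, Finset.sum_insert, Finset.sum_singleton, sc_al_self]
  · ring
  · simpa using h23
  · simp only [Finset.mem_insert, Finset.mem_singleton, not_or]
    exact ⟨h12, h13⟩
  · simp only [Finset.mem_insert, Finset.mem_singleton, not_or]
    exact ⟨h1.symm, h2.symm, h3.symm⟩

theorem sc_lin_add (l' : Fin 4) (a b : Fin 4 → ℤ) : scLin l' (a + b) = scLin l' a + scLin l' b := by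
  unfold scLin
  rw [← Finset.sum_add_distrib]
  refine Finset.sum_congr rfl fun i _ => ?_
  simp only [Pi.add_apply]
  ring

theorem sc_lin_sub (l' : Fin 4) (a b : Fin 4 → ℤ) : scLin l' (a - b) = scLin l' a - scLin l' b := by
  unfold scLin
  rw [← Finset.sum_sub_distrib]
  refine Finset.sum_congr rfl fun i _ => ?_
  simp only [Pi.sub_apply]
  ring

/-- at most one role is not core -/
theorem sc_side_unique {J : Finset (Fin 4)} (hJ : 3 ≤ J.card) {i j : Fin 4} (hi : i ∉ J) (hj : j ∉ J) :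
    i = j := by
  by_contra hij
  have hsub : J ⊆ (Finset.univ.erase i).erase j := by
    intro x hx
    rw [Finset.mem_erase, Finset.mem_erase]
    exact ⟨fun h => hj (h ▸ hx), fun h => hi (h ▸ hx), Finset.mem_univ _⟩
  have hc := Finset.card_le_card hsub
  rw [Finset.card_erase_of_mem (by
    rw [Finset.mem_erase]
    exact ⟨fun h => hij h.symm, Finset.mem_univ _⟩), Finset.card_erase_of_mem (Finset.mem_univ _)] at hc
  simp at hc
  omega

theorem sc_side_card {J : Finset (Fin 4)} (hJ : 3 ≤ J.card) {i : Fin 4} (hi : i ∉ J) : J.card = 3 := by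
  have hsub : J ⊆ Finset.univ.erase i := by
    intro x hx
    rw [Finset.mem_erase]
    exact ⟨fun h => hi (h ▸ hx), Finset.mem_univ _⟩
  have hc := Finset.card_le_card hsub
  rw [Finset.card_erase_of_mem (Finset.mem_univ _)] at hc
  simp at hc
  omega

/-- a triple of core roles containing a given core role -/
theorem sc_exists_excl {J : Finset (Fin 4)} (hJ : 3 ≤ J.card) {i : Fin 4} (hi : i ∈ J) :
    ∃ l' : Fin 4, l' ≠ i ∧ ∀ i', i' ≠ l' → i' ∈ J := by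
  by_cases hall : ∀ i', i' ∈ J
  · obtain ⟨l', hl'⟩ : ∃ l' : Fin 4, l' ≠ i := by
      have : ∀ i : Fin 4, ∃ l' : Fin 4, l' ≠ i := by decide
      exact this i
    exact ⟨l', hl', fun i' _ => hall i'⟩
  · push Not at hall
    obtain ⟨l', hl'⟩ := hall
    refine ⟨l', fun h => hl' (h ▸ hi), fun i' hi' => ?_⟩
    by_contra hcon
    exact hi' (sc_side_unique hJ hcon hl')

/-- another core role -/
theorem sc_exists_other {J : Finset (Fin 4)} (hJ : 3 ≤ J.card) (i : Fin 4) : ∃ j ∈ J, j ≠ i := by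
  by_contra hcon
  push Not at hcon
  have hsub : J ⊆ {i} := fun x hx => Finset.mem_singleton.2 (hcon x hx)
  have hc := Finset.card_le_card hsub
  rw [Finset.card_singleton] at hc
  omega

end roles

namespace ScPar

variable (p : ScPar)

/-! ### scales -/

section scales

theorem R_pos (h : 0 < p.R0) (s : ℤ) : 0 < p.R s := by
  unfold R
  positivity

theorem R_mono (h : 0 < p.R0) {s s' : ℤ} (hs : s ≤ s') : p.R s ≤ p.R s' := by
  unfold R
  exact mul_le_mul_of_nonneg_left (zpow_le_zpow_right₀ (by norm_num) hs) h.le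

theorem R_add (s : ℤ) (k : ℕ) : p.R (s + k) = p.R s * 2 ^ k := by
  unfold R
  rw [zpow_add₀ (by norm_num), zpow_natCast]
  ring

theorem D_ge_one : 1 ≤ p.D := by
  unfold D
  have : (0 : ℝ) ≤ p.d := Nat.cast_nonneg _
  nlinarith

/-- `Γ ≤ 2^g` -/
theorem le_two_pow_g (hμ : 0 < p.μ) (hν : 1 ≤ p.ν) : 2 ^ 19 * p.D * p.ν / p.μ ≤ (2 : ℝ) ^ p.g := by
  have hD := p.D_ge_one
  have hpos : 0 < 2 ^ 19 * p.D * p.ν / p.μ := by positivity
  have h1 : Real.logb 2 (2 ^ 19 * p.D * p.ν / p.μ) ≤ (p.g : ℝ) := Nat.le_ceil _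
  calc 2 ^ 19 * p.D * p.ν / p.μ = (2 : ℝ) ^ Real.logb 2 (2 ^ 19 * p.D * p.ν / p.μ) :=
        (Real.rpow_logb (by norm_num) (by norm_num) hpos).symm
    _ ≤ (2 : ℝ) ^ (p.g : ℝ) := Real.rpow_le_rpow_of_exponent_le (by norm_num) h1
    _ = (2 : ℝ) ^ p.g := Real.rpow_natCast _ _

theorem g_ge_one (hμ0 : 0 < p.μ) (hμ1 : p.μ ≤ 1) (hν : 1 ≤ p.ν) : 1 ≤ p.g := by
  by_contra hcon
  have h0 : p.g = 0 := by omega
  have h1 := p.le_two_pow_g hμ0 hν
  rw [h0, pow_zero, div_le_one hμ0] at h1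
  have hD := p.D_ge_one
  have : (1 : ℝ) ≤ p.D * p.ν := one_le_mul_of_one_le_of_one_le hD hν
  nlinarith

/-- a gap of `g` scale indices -/
theorem R_gap (h0 : 0 < p.R0) (hμ : 0 < p.μ) (hν : 1 ≤ p.ν) {s s' : ℤ} (h : s + p.g ≤ s') :
    2 ^ 19 * p.D * p.ν * p.R s ≤ p.μ * p.R s' := by
  have h1 := p.le_two_pow_g hμ hν
  rw [div_le_iff₀ hμ] at h1
  have h2 := p.R_mono h0 h
  rw [R_add] at h2
  have h3 := p.R_pos h0 s
  calc 2 ^ 19 * p.D * p.ν * p.R s ≤ (2 ^ p.g * p.μ) * p.R s := mul_le_mul_of_nonneg_right h1 h3.le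
    _ = p.μ * (p.R s * 2 ^ p.g) := by ring
    _ ≤ p.μ * p.R s' := mul_le_mul_of_nonneg_left h2 hμ.le

theorem N0_le (hB : 1 ≤ p.B) : (p.N0 : ℝ) ≤ 33 * p.B := by
  unfold N0
  have := Nat.ceil_lt_add_one (show 0 ≤ 32 * p.B by linarith)
  linarith

theorem le_N0 : 32 * p.B ≤ (p.N0 : ℝ) := Nat.le_ceil _

theorem eps_le (hν : 1 ≤ p.ν) {sp : ℤ} (h : 1 ≤ p.R sp) : (p.eps sp : ℝ) ≤ 17 * p.ν * p.R sp := by
  unfold eps
  have h1 : 1 ≤ p.ν * p.R sp := one_le_mul_of_one_le_of_one_le hν h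
  have := Nat.ceil_lt_add_one (show 0 ≤ 16 * p.ν * p.R sp by nlinarith)
  nlinarith

theorem le_eps (sp : ℤ) : 16 * p.ν * p.R sp ≤ (p.eps sp : ℝ) := Nat.le_ceil _

end scales

end ScPar

end Claimed.Agent.R258
end

/- ===== packed: Claimed.Agent.R258.S9a.Near ===== -/
section
/-
R258 / block [S9a] (Lemma 9.1 = counting.tex `lem:finite-sparse-count`), file Near: the relation `Near` and the neighbourhoods `U sp t`.  Blueprint + proofs: helper261.
-/
set_option autoImplicit false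

namespace Claimed.Agent.R258

open Finset
open scoped Pointwise

namespace ScPar

variable (p : ScPar)

/-! ### `dot` and `Near` -/

section near

theorem dot_add (n m : Fin p.d → ℤ) : p.dot (n + m) = p.dot n + p.dot m := by
  unfold dot
  rw [← Finset.sum_add_distrib]
  refine Finset.sum_congr rfl fun k _ => ?_
  simp only [Pi.add_apply]
  ring

theorem dot_neg (n : Fin p.d → ℤ) : p.dot (-n) = -p.dot n := by
  unfold dot
  rw [← Finset.sum_neg_distrib]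
  refine Finset.sum_congr rfl fun k _ => ?_
  simp only [Pi.neg_apply]
  ring

theorem dot_sub (n m : Fin p.d → ℤ) : p.dot (n - m) = p.dot n - p.dot m := by
  rw [sub_eq_add_neg, dot_add, dot_neg, ← sub_eq_add_neg]

theorem dot_smul (c : ℤ) (n : Fin p.d → ℤ) : p.dot (c • n) = c * p.dot n := by
  unfold dot
  rw [Finset.mul_sum]
  refine Finset.sum_congr rfl fun k _ => ?_
  simp only [Pi.smul_apply, smul_eq_mul]
  ring

theorem dot_zero : p.dot 0 = 0 := by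
  unfold dot
  simp

variable {p}

theorem Near.mono {N N' ε ε' : ℝ} {x : ℤ} (h : p.Near N ε x) (hN : N ≤ N') (hε : ε ≤ ε') :
    p.Near N' ε' x := by
  obtain ⟨n, hn, he⟩ := h
  exact ⟨n, fun k => (hn k).trans hN, he.trans hε⟩

theorem Near.neg {N ε : ℝ} {x : ℤ} (h : p.Near N ε x) : p.Near N ε (-x) := by
  obtain ⟨n, hn, he⟩ := h
  refine ⟨-n, fun k => ?_, ?_⟩
  · simp only [Pi.neg_apply, Int.cast_neg, abs_neg]
    exact hn k
  · rw [dot_neg]
    have : (-x - -p.dot n : ℤ) = -(x - p.dot n) := by ring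
    rw [this, Int.cast_neg, abs_neg]
    exact he

theorem Near.add {N N' ε ε' : ℝ} {x y : ℤ} (h : p.Near N ε x) (h' : p.Near N' ε' y) :
    p.Near (N + N') (ε + ε') (x + y) := by
  obtain ⟨n, hn, he⟩ := h
  obtain ⟨n', hn', he'⟩ := h'
  refine ⟨n + n', fun k => ?_, ?_⟩
  · simp only [Pi.add_apply, Int.cast_add]
    exact (abs_add_le _ _).trans (add_le_add (hn k) (hn' k))
  · rw [dot_add]
    have : (x + y - (p.dot n + p.dot n') : ℤ) = (x - p.dot n) + (y - p.dot n') := by ring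
    rw [this, Int.cast_add]
    exact (abs_add_le _ _).trans (add_le_add he he')

theorem Near.sub {N N' ε ε' : ℝ} {x y : ℤ} (h : p.Near N ε x) (h' : p.Near N' ε' y) :
    p.Near (N + N') (ε + ε') (x - y) := by
  rw [sub_eq_add_neg]
  exact h.add h'.neg

theorem Near.smul {N ε : ℝ} {x : ℤ} (c : ℤ) (h : p.Near N ε x) :
    p.Near (|(c : ℝ)| * N) (|(c : ℝ)| * ε) (c * x) := by
  obtain ⟨n, hn, he⟩ := h
  refine ⟨c • n, fun k => ?_, ?_⟩
  · simp only [Pi.smul_apply, smul_eq_mul, Int.cast_mul, abs_mul]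
    exact mul_le_mul_of_nonneg_left (hn k) (abs_nonneg _)
  · rw [dot_smul]
    have : (c * x - c * p.dot n : ℤ) = c * (x - p.dot n) := by ring
    rw [this, Int.cast_mul, abs_mul]
    exact mul_le_mul_of_nonneg_left he (abs_nonneg _)

/-- division by a divisor of `6` -/
theorem near_of_mul {c x e : ℤ} {m : Fin p.d → ℤ} {N : ℝ} (hc : c ∣ 6)
    (h : c * x = 6 * p.dot m + e) (hm : ∀ k, |(m k : ℝ)| ≤ N) : p.Near (6 * N) |(e : ℝ)| x := by
  obtain ⟨β, hβ⟩ := hc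
  have hc0 : c ≠ 0 := by
    rintro rfl
    simp at hβ
  have hβ0 : β ≠ 0 := by
    rintro rfl
    simp at hβ
  have hc1 : 1 ≤ |c| := Int.one_le_abs hc0
  have hβ6 : |β| ≤ 6 := by
    have h1 : |c| * |β| = 6 := by rw [← abs_mul, ← hβ]; rfl
    have h2 : 0 ≤ |β| := abs_nonneg _
    nlinarith
  refine ⟨β • m, fun k => ?_, ?_⟩
  · simp only [Pi.smul_apply, smul_eq_mul, Int.cast_mul, abs_mul]
    have h1 : |(β : ℝ)| ≤ 6 := by exact_mod_cast hβ6
    exact mul_le_mul h1 (hm k) (abs_nonneg _) (by norm_num)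
  · rw [dot_smul]
    have h1 : c * (x - β * p.dot m) = e := by
      have : c * (x - β * p.dot m) = c * x - (c * β) * p.dot m := by ring
      rw [this, ← hβ, h]
      ring
    have h2 : |x - β * p.dot m| ≤ |e| := by
      rw [← h1, abs_mul]
      have := abs_nonneg (x - β * p.dot m)
      nlinarith
    exact_mod_cast h2

end near

/-! ### the neighbourhoods -/

section U

variable {p}

theorem mem_U {sp : ℤ} {t : ℕ} {x : ℤ} : x ∈ p.U sp t ↔
    ∃ n : Fin p.d → ℤ, (∀ k, |n k| ≤ ((t * p.N0 : ℕ) : ℤ)) ∧ |x - 6 * p.dot n| ≤ ((t * p.eps sp : ℕ) : ℤ) := by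
  unfold U
  simp only [Finset.mem_image, Finset.mem_product, Fintype.mem_piFinset, Finset.mem_Icc, Prod.exists]
  constructor
  · rintro ⟨n, u, ⟨hn, hu⟩, rfl⟩
    refine ⟨n, fun k => abs_le.2 (hn k), ?_⟩
    have : 6 * p.dot n + u - 6 * p.dot n = u := by ring
    rw [this]
    exact abs_le.2 hu
  · rintro ⟨n, hn, hu⟩
    exact ⟨n, x - 6 * p.dot n, ⟨fun k => abs_le.1 (hn k), abs_le.1 hu⟩, by ring⟩

theorem zero_mem_U (sp : ℤ) (t : ℕ) : (0 : ℤ) ∈ p.U sp t := by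
  rw [mem_U]
  refine ⟨0, fun k => ?_, ?_⟩
  · simp only [Pi.zero_apply, abs_zero]
    exact Int.natCast_nonneg _
  · rw [dot_zero]
    simp only [mul_zero, sub_zero, abs_zero]
    exact Int.natCast_nonneg _

theorem neg_mem_U {sp : ℤ} {t : ℕ} {x : ℤ} (h : x ∈ p.U sp t) : -x ∈ p.U sp t := by
  rw [mem_U] at h ⊢
  obtain ⟨n, hn, hu⟩ := h
  refine ⟨-n, fun k => ?_, ?_⟩
  · simp only [Pi.neg_apply, abs_neg]
    exact hn k
  · rw [dot_neg]
    have : -x - 6 * -p.dot n = -(x - 6 * p.dot n) := by ring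
    rw [this, abs_neg]
    exact hu

theorem U_add_subset (sp : ℤ) (t t' : ℕ) : p.U sp t + p.U sp t' ⊆ p.U sp (t + t') := by
  intro z hz
  obtain ⟨x, hx, y, hy, rfl⟩ := Finset.mem_add.1 hz
  rw [mem_U] at hx hy ⊢
  obtain ⟨n, hn, hu⟩ := hx
  obtain ⟨n', hn', hu'⟩ := hy
  refine ⟨n + n', fun k => ?_, ?_⟩
  · simp only [Pi.add_apply]
    refine (abs_add_le _ _).trans ?_
    have := add_le_add (hn k) (hn' k)
    push_cast at this ⊢
    linarith
  · rw [dot_add]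
    have : x + y - 6 * (p.dot n + p.dot n') = (x - 6 * p.dot n) + (y - 6 * p.dot n') := by ring
    rw [this]
    refine (abs_add_le _ _).trans ?_
    have := add_le_add hu hu'
    push_cast at this ⊢
    linarith

theorem U_sub_subset (sp : ℤ) (t t' : ℕ) : p.U sp t - p.U sp t' ⊆ p.U sp (t + t') := by
  intro z hz
  obtain ⟨x, hx, y, hy, rfl⟩ := Finset.mem_sub.1 hz
  rw [sub_eq_add_neg]
  exact U_add_subset sp t t' (Finset.add_mem_add hx (neg_mem_U hy))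

theorem U_mono (sp : ℤ) {t t' : ℕ} (h : t ≤ t') : p.U sp t ⊆ p.U sp t' := by
  intro x hx
  rw [mem_U] at hx ⊢
  obtain ⟨n, hn, hu⟩ := hx
  refine ⟨n, fun k => (hn k).trans ?_, hu.trans ?_⟩
  · exact_mod_cast Nat.mul_le_mul_right _ h
  · exact_mod_cast Nat.mul_le_mul_right _ h

/-- exact form: `x = 6 n·ζ + u` -/
theorem exists_of_mem_U {sp : ℤ} {t : ℕ} {x : ℤ} (h : x ∈ p.U sp t) :
    ∃ (n : Fin p.d → ℤ) (u : ℤ), x = 6 * p.dot n + u ∧ (∀ k, |(n k : ℝ)| ≤ (t * p.N0 : ℕ)) ∧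
      |(u : ℝ)| ≤ (t * p.eps sp : ℕ) := by
  rw [mem_U] at h
  obtain ⟨n, hn, hu⟩ := h
  refine ⟨n, x - 6 * p.dot n, by ring, fun k => ?_, ?_⟩
  · exact_mod_cast hn k
  · exact_mod_cast hu

/-- the members of `U sp t` are near shifts -/
theorem near_of_mem_U {sp : ℤ} {t : ℕ} {x : ℤ} (h : x ∈ p.U sp t) :
    p.Near (6 * (t * p.N0 : ℕ)) ((t * p.eps sp : ℕ) : ℝ) x := by
  obtain ⟨n, u, rfl, hn, hu⟩ := exists_of_mem_U h
  refine ⟨(6 : ℤ) • n, fun k => ?_, ?_⟩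
  · simp only [Pi.smul_apply, smul_eq_mul, Int.cast_mul, abs_mul]
    have : |((6 : ℤ) : ℝ)| = 6 := by norm_num
    rw [this]
    exact mul_le_mul_of_nonneg_left (hn k) (by norm_num)
  · rw [dot_smul]
    have : 6 * p.dot n + u - 6 * p.dot n = u := by ring
    rw [this]
    exact hu

/-- the same with the explicit bounds: `t ≤ T` -/
theorem near_of_mem_U' (hB : 1 ≤ p.B) (hν : 1 ≤ p.ν) {sp : ℤ} (hsp : 1 ≤ p.R sp) {t : ℕ} {T : ℝ}
    (ht : (t : ℝ) ≤ T) {x : ℤ} (h : x ∈ p.U sp t) :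
    p.Near (198 * T * p.B) (17 * T * p.ν * p.R sp) x := by
  have ht0 : (0 : ℝ) ≤ t := Nat.cast_nonneg _
  refine (near_of_mem_U h).mono ?_ ?_
  · have h1 := p.N0_le hB
    push_cast
    have h2 : (t : ℝ) * p.N0 ≤ T * (33 * p.B) :=
      mul_le_mul ht h1 (Nat.cast_nonneg _) (ht0.trans ht)
    linarith
  · have h1 := p.eps_le hν hsp
    push_cast
    have h2 : (t : ℝ) * p.eps sp ≤ T * (17 * p.ν * p.R sp) :=
      mul_le_mul ht h1 (Nat.cast_nonneg _) (ht0.trans ht)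
    linarith

/-- exact form with the explicit bounds: `t ≤ T` -/
theorem exists_of_mem_U' (hB : 1 ≤ p.B) (hν : 1 ≤ p.ν) {sp : ℤ} (hsp : 1 ≤ p.R sp) {t : ℕ} {T : ℝ}
    (ht : (t : ℝ) ≤ T) {x : ℤ} (h : x ∈ p.U sp t) :
    ∃ (n : Fin p.d → ℤ) (u : ℤ), x = 6 * p.dot n + u ∧ (∀ k, |(n k : ℝ)| ≤ 33 * T * p.B) ∧
      |(u : ℝ)| ≤ 17 * T * p.ν * p.R sp := by
  have ht0 : (0 : ℝ) ≤ t := Nat.cast_nonneg _
  obtain ⟨n, u, hx, hn, hu⟩ := exists_of_mem_U h
  refine ⟨n, u, hx, fun k => (hn k).trans ?_, hu.trans ?_⟩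
  · have h1 := p.N0_le hB
    push_cast
    have h2 : (t : ℝ) * p.N0 ≤ T * (33 * p.B) :=
      mul_le_mul ht h1 (Nat.cast_nonneg _) (ht0.trans ht)
    linarith
  · have h1 := p.eps_le hν hsp
    push_cast
    have h2 : (t : ℝ) * p.eps sp ≤ T * (17 * p.ν * p.R sp) :=
      mul_le_mul ht h1 (Nat.cast_nonneg _) (ht0.trans ht)
    linarith

end U

end ScPar

end Claimed.Agent.R258
end

/- ===== packed: Claimed.Agent.R258.S9a.Basic ===== -/
section
/-
R258 / block [S9a] (Lemma 9.1), file Basic: first consequences of `ScPar.Ok` (heredity, counting by fibres).  Blueprint + proofs: helper261.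
-/
set_option autoImplicit false

namespace Claimed.Agent.R258

open Finset
open scoped Pointwise

/-- counting by fibres, real form -/
theorem sc_card_le_fibre {α β : Type*} [DecidableEq β] (S : Finset α) (T : Finset β) (f : α → β)
    (hf : ∀ a ∈ S, f a ∈ T) (c : ℝ) (hc : ∀ b ∈ T, ((S.filter fun a => f a = b).card : ℝ) ≤ c) :
    (S.card : ℝ) ≤ c * T.card := by
  rw [Finset.card_eq_sum_card_fiberwise (f := f) (t := T) (fun a ha => hf a ha)]
  push_cast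
  calc ∑ b ∈ T, ((S.filter fun a => f a = b).card : ℝ) ≤ ∑ _b ∈ T, c := Finset.sum_le_sum hc
    _ = c * T.card := by rw [Finset.sum_const, nsmul_eq_mul]; ring

namespace ScPar

variable {p : ScPar} {O O' : Finset ScOcc}

theorem Ok.mono (h : p.Ok O) (hs : O' ⊆ O) : p.Ok O' where
  hJ := h.hJ
  hM := h.hM
  hL := h.hL
  hB := h.hB
  hμ0 := h.hμ0
  hμ1 := h.hμ1
  hν := h.hν
  hR0 := h.hR0
  hQ := h.hQ
  hSg := h.hSg
  fine := fun o ho => h.fine o (hs ho)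
  six := fun o ho => h.six o (hs ho)
  zero := fun o ho => h.zero o (hs ho)
  card := fun i hi => le_trans (by exact_mod_cast Finset.card_le_card (Finset.image_subset_image hs)) (h.card i hi)
  pair := fun o ho o' ho' => h.pair o (hs ho) o' (hs ho')
  mult := fun a => le_trans (by exact_mod_cast Finset.card_le_card (Finset.filter_subset_filter _ hs)) (h.mult a)
  w_nonneg := h.w_nonneg
  w_sum := fun hJ => le_trans
    (Finset.sum_le_sum_of_subset_of_nonneg (Finset.image_subset_image hs) fun s _ _ => h.w_nonneg s) (h.w_sum hJ)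
  side := fun hJ s i hi x =>
    le_trans (by exact_mod_cast Finset.card_le_card (Finset.filter_subset_filter _ hs)) (h.side hJ s i hi x)
  sep := fun o ho o' ho' => h.sep o (hs ho) o' (hs ho')
  ann := fun l' hl o ho => h.ann l' hl o (hs ho)
  gap := fun o ho => h.gap o (hs ho)

theorem Bin.mono {δ : ℝ} (h : p.Bin O δ) (hs : O' ⊆ O) : p.Bin O' δ := fun s =>
  le_trans (by exact_mod_cast Finset.card_le_card (Finset.filter_subset_filter _ hs)) (h s)

theorem sc_pair_fibre (h : p.Ok O) {i j : Fin 4} (hi : i ∈ p.J) (hj : j ∈ p.J) (hij : i ≠ j) (x y : ℤ) :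
    ((O.filter fun o => o.2 i = x ∧ o.2 j = y).card : ℝ) ≤ p.L := by
  rcases (O.filter fun o => o.2 i = x ∧ o.2 j = y).eq_empty_or_nonempty with he | ⟨o0, ho0⟩
  · rw [he, Finset.card_empty, Nat.cast_zero]
    linarith [h.hL]
  · obtain ⟨ho0, hx, hy⟩ := Finset.mem_filter.1 ho0
    refine le_trans ?_ (h.mult o0.2)
    have : (O.filter fun o => o.2 i = x ∧ o.2 j = y) ⊆ O.filter fun o => o.2 = o0.2 := by
      intro o ho
      obtain ⟨ho, hx', hy'⟩ := Finset.mem_filter.1 ho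
      exact Finset.mem_filter.2 ⟨ho, h.pair o ho o0 ho0 i hi j hj hij (hx'.trans hx.symm) (hy'.trans hy.symm)⟩
    exact_mod_cast Finset.card_le_card this

/-- two distinct core roles -/
theorem sc_two_core (h : p.Ok O) : ∃ i ∈ p.J, ∃ j ∈ p.J, i ≠ j := by
  obtain ⟨i, hi, -⟩ := sc_exists_other h.hJ 0
  obtain ⟨j, hj, hji⟩ := sc_exists_other h.hJ i
  exact ⟨i, hi, j, hj, hji.symm⟩

/-- total mass -/
theorem sc_total (h : p.Ok O) : (O.card : ℝ) ≤ p.L * p.M ^ 2 := by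
  obtain ⟨i, hi, j, hj, hij⟩ := sc_two_core h
  have h1 := sc_card_le_fibre O ((O.image fun o => o.2 i) ×ˢ (O.image fun o => o.2 j))
    (fun o => (o.2 i, o.2 j))
    (fun o ho => Finset.mem_product.2 ⟨Finset.mem_image_of_mem _ ho, Finset.mem_image_of_mem _ ho⟩) p.L
    (fun b _ => by
      have := sc_pair_fibre h hi hj hij b.1 b.2
      simpa only [Prod.ext_iff] using this)
  rw [Finset.card_product] at h1
  push_cast at h1
  have h2 := h.card i hi
  have h3 := h.card j hj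
  have hL := h.hL
  have hM := h.hM
  have h4 : ((O.image fun o => o.2 i).card : ℝ) * ((O.image fun o => o.2 j).card : ℝ) ≤ p.M * p.M :=
    mul_le_mul h2 h3 (Nat.cast_nonneg _) (by linarith)
  calc (O.card : ℝ) ≤ p.L * (((O.image fun o => o.2 i).card : ℝ) * ((O.image fun o => o.2 j).card : ℝ)) := h1
    _ ≤ p.L * (p.M * p.M) := mul_le_mul_of_nonneg_left h4 (by linarith)
    _ = p.L * p.M ^ 2 := by ring

/-- a fixed label is incident to at most `L M` occurrences -/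
theorem sc_label_inc (h : p.Ok O) {i : Fin 4} (hi : i ∈ p.J) (x : ℤ) :
    ((O.filter fun o => o.2 i = x).card : ℝ) ≤ p.L * p.M := by
  obtain ⟨j, hj, hji⟩ := sc_exists_other h.hJ i
  have h1 := sc_card_le_fibre (O.filter fun o => o.2 i = x) (O.image fun o => o.2 j) (fun o => o.2 j)
    (fun o ho => Finset.mem_image_of_mem _ (Finset.mem_filter.1 ho).1) p.L
    (fun b _ => by
      have := sc_pair_fibre h hi hj hji.symm x b
      rwa [Finset.filter_filter])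
  exact h1.trans (mul_le_mul_of_nonneg_left (h.card j hj) (by linarith [h.hL]))

/-- many occurrences have many labels -/
theorem sc_labels_ge (h : p.Ok O) {i : Fin 4} (hi : i ∈ p.J) :
    (O.card : ℝ) ≤ p.L * p.M * ((O.image fun o => o.2 i).card : ℝ) := by
  refine sc_card_le_fibre O (O.image fun o => o.2 i) (fun o => o.2 i) ?_ (p.L * p.M) ?_
  · intro o ho
    exact Finset.mem_image_of_mem _ ho
  · intro b _
    exact sc_label_inc h hi b

/-- many occurrences have many tuples: one scale witness for each tuple -/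
theorem sc_tuples_ge (h : p.Ok O) : ∃ F ⊆ O, (∀ f ∈ F, ∀ f' ∈ F, f.2 = f'.2 → f = f') ∧
    (O.card : ℝ) ≤ p.L * F.card := by
  classical
  have hex : ∀ a ∈ O.image Prod.snd, ∃ o ∈ O, o.2 = a := by
    intro a ha
    obtain ⟨o, ho, rfl⟩ := Finset.mem_image.1 ha
    exact ⟨o, ho, rfl⟩
  choose! rep hrep1 hrep2 using hex
  refine ⟨(O.image Prod.snd).image rep, ?_, ?_, ?_⟩
  · intro f hf
    obtain ⟨a, ha, rfl⟩ := Finset.mem_image.1 hf
    exact hrep1 a ha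
  · intro f hf f' hf' he
    obtain ⟨a, ha, rfl⟩ := Finset.mem_image.1 hf
    obtain ⟨a', ha', rfl⟩ := Finset.mem_image.1 hf'
    rw [hrep2 a ha, hrep2 a' ha'] at he
    rw [he]
  · have hcard : ((O.image Prod.snd).image rep).card = (O.image Prod.snd).card := by
      apply Finset.card_image_of_injOn
      intro a ha a' ha' he
      have := congrArg Prod.snd he
      rwa [hrep2 a ha, hrep2 a' ha'] at this
    rw [hcard]
    refine sc_card_le_fibre O (O.image Prod.snd) Prod.snd ?_ p.L ?_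
    · intro o ho
      exact Finset.mem_image_of_mem _ ho
    · intro b _
      exact h.mult b

/-- many occurrences occupy many scales -/
theorem sc_scales_ge {δ : ℝ} (h : p.Bin O δ) :
    (O.card : ℝ) ≤ δ * p.M ^ 2 * ((O.image Prod.fst).card : ℝ) := by
  refine sc_card_le_fibre O (O.image Prod.fst) Prod.fst ?_ (δ * p.M ^ 2) ?_
  · intro o ho
    exact Finset.mem_image_of_mem _ ho
  · intro b _
    exact h b

/-- two different tuples differ in some role of every triple of core roles -/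
theorem sc_tuple_ne (h : p.Ok O) {l' : Fin 4} (hcore : ∀ i, i ≠ l' → i ∈ p.J) {o o' : ScOcc} (ho : o ∈ O)
    (ho' : o' ∈ O) (hne : o.2 ≠ o'.2) : ∃ i, i ≠ l' ∧ o.2 i ≠ o'.2 i := by
  by_contra hcon
  push Not at hcon
  obtain ⟨i1, i2, i3, h1, h2, h3, h12, -, -, -⟩ := sc_roles l'
  exact hne (h.pair o ho o' ho' i1 (hcore i1 h1) i2 (hcore i2 h2) h12 (hcon i1 h1) (hcon i2 h2))

end ScPar

end Claimed.Agent.R258
end

/- ===== packed: Claimed.Agent.R258.S9a.CovPath ===== -/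
section
/-
R258 / block [S9a] (Lemma 9.1 = counting.tex `lem:finite-sparse-count`), file CovPath: the relation of a four-step path ("Counting blocks and difference covers").  Blueprint + proofs: helper261.
-/
set_option autoImplicit false

namespace Claimed.Agent.R258

open Finset
open scoped Pointwise

/-- the centre `q(c₁,c₂,c₃,c₄) = -(α_k/α_i)(c₁ - c₂ + c₃ - c₄)` -/
def scQ (l' i k : Fin 4) (c : ℤ × ℤ × ℤ × ℤ) : ℤ :=
  -(scAl l' k * ((c.1 - c.2.1 + c.2.2.1 - c.2.2.2) / scAl l' i))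

/-- a cofactor of a divisor of `6` -/
theorem sc_cofactor {c : ℤ} (hc : c ∣ 6) : ∃ β : ℤ, 6 = c * β ∧ |β| ≤ 6 ∧ 1 ≤ |c| := by
  obtain ⟨β, hβ⟩ := hc
  have hc0 : c ≠ 0 := by
    rintro rfl
    simp at hβ
  have hc1 : 1 ≤ |c| := Int.one_le_abs hc0
  refine ⟨β, hβ, ?_, hc1⟩
  have h1 : |c| * |β| = 6 := by rw [← abs_mul, ← hβ]; rfl
  have h2 : 0 ≤ |β| := abs_nonneg _
  nlinarith

namespace ScPar

variable {p : ScPar} {O : Finset ScOcc}

/-- the upper annular relation, with the scale replaced by an upper bound -/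
theorem sc_ann_upper (h : p.Ok O) {l' : Fin 4} (hcore : ∀ i', i' ≠ l' → i' ∈ p.J) {o : ScOcc} (ho : o ∈ O)
    {sp : ℤ} (hsp : o.1 ≤ sp) : ∃ n : Fin p.d → ℤ, (∀ k, |(n k : ℝ)| ≤ p.B) ∧
      |((scLin l' o.2 + 36 * p.dot n : ℤ) : ℝ)| ≤ p.ν * p.R sp := by
  obtain ⟨n, hn, -, e⟩ := h.ann l' hcore o ho
  exact ⟨n, hn, e.trans (mul_le_mul_of_nonneg_left (p.R_mono h.hR0 hsp) (by linarith [h.hν]))⟩

/-- the relation of a four-step path -/
theorem sc_path_rel (h : p.Ok O) {sp : ℤ} (hsp : ∀ o ∈ O, o.1 ≤ sp) {l' i j k : Fin 4}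
    (hcore : ∀ i', i' ≠ l' → i' ∈ p.J) (hi : i ≠ l') (hj : j ≠ l') (hk : k ≠ l') (hij : i ≠ j)
    (hik : i ≠ k) (hjk : j ≠ k) {o1 o2 o3 o4 : ScOcc} (h1 : o1 ∈ O) (h2 : o2 ∈ O) (h3 : o3 ∈ O)
    (h4 : o4 ∈ O) (h12 : o1.2 j = o2.2 j) (h23 : o2.2 i = o3.2 i) (h34 : o3.2 j = o4.2 j) :
    o1.2 i - o4.2 i - scQ l' i k (o1.2 k, o2.2 k, o3.2 k, o4.2 k) ∈ p.U sp 1 := by
  obtain ⟨n1, hn1, e1⟩ := sc_ann_upper h hcore h1 (hsp _ h1)
  obtain ⟨n2, hn2, e2⟩ := sc_ann_upper h hcore h2 (hsp _ h2)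
  obtain ⟨n3, hn3, e3⟩ := sc_ann_upper h hcore h3 (hsp _ h3)
  obtain ⟨n4, hn4, e4⟩ := sc_ann_upper h hcore h4 (hsp _ h4)
  rw [sc_lin_eq hi hj hk hij hik hjk] at e1 e2 e3 e4
  obtain ⟨β, hβ, hβ6, hα1⟩ := sc_cofactor (sc_al_dvd hi)
  have hα0 := sc_al_ne hi
  have h6c : (6 : ℤ) ∣ o1.2 k - o2.2 k + o3.2 k - o4.2 k :=
    dvd_sub (dvd_add (dvd_sub (h.six _ h1 k) (h.six _ h2 k)) (h.six _ h3 k)) (h.six _ h4 k)
  obtain ⟨c', hc'⟩ := (sc_al_dvd hi).trans h6c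
  have hdiv : (o1.2 k - o2.2 k + o3.2 k - o4.2 k) / scAl l' i = c' := by
    rw [hc']
    exact Int.mul_ediv_cancel_left _ hα0
  have hQ : scQ l' i k (o1.2 k, o2.2 k, o3.2 k, o4.2 k) = -(scAl l' k * c') := by
    unfold scQ
    simp only
    rw [hdiv]
  rw [hQ, mem_U]
  refine ⟨-(β • (n1 - n2 + n3 - n4)), fun k' => ?_, ?_⟩
  · -- the index
    have hb : |(β : ℝ)| ≤ 6 := by exact_mod_cast hβ6
    have hs : |((n1 k' - n2 k' + n3 k' - n4 k' : ℤ) : ℝ)| ≤ 4 * p.B := by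
      push_cast
      have a1 := abs_le.1 (hn1 k')
      have a2 := abs_le.1 (hn2 k')
      have a3 := abs_le.1 (hn3 k')
      have a4 := abs_le.1 (hn4 k')
      rw [abs_le]
      constructor <;> linarith [a1.1, a1.2, a2.1, a2.2, a3.1, a3.2, a4.1, a4.2]
    have hfin : |((-(β • (n1 - n2 + n3 - n4))) k' : ℤ)| ≤ ((1 * p.N0 : ℕ) : ℤ) := by
      have : (|((-(β • (n1 - n2 + n3 - n4))) k' : ℤ)| : ℝ) ≤ ((1 * p.N0 : ℕ) : ℝ) := by
        simp only [Pi.neg_apply, Pi.smul_apply, Pi.add_apply, Pi.sub_apply, smul_eq_mul]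
        rw [Int.cast_neg, abs_neg, Int.cast_mul, abs_mul]
        have h5 : |(β : ℝ)| * |((n1 k' - n2 k' + n3 k' - n4 k' : ℤ) : ℝ)| ≤ 6 * (4 * p.B) :=
          mul_le_mul hb hs (abs_nonneg _) (by norm_num)
        have h6 := p.le_N0
        have h7 := h.hB
        push_cast at h5 ⊢
        linarith
      exact_mod_cast this
    exact hfin
  · -- the error
    set y : ℤ := o1.2 i - o4.2 i - -(scAl l' k * c') - 6 * p.dot (-(β • (n1 - n2 + n3 - n4))) with hy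
    set E1 : ℤ := scAl l' i * o1.2 i + scAl l' j * o1.2 j + scAl l' k * o1.2 k + 36 * p.dot n1 with hE1
    set E2 : ℤ := scAl l' i * o2.2 i + scAl l' j * o2.2 j + scAl l' k * o2.2 k + 36 * p.dot n2 with hE2
    set E3 : ℤ := scAl l' i * o3.2 i + scAl l' j * o3.2 j + scAl l' k * o3.2 k + 36 * p.dot n3 with hE3
    set E4 : ℤ := scAl l' i * o4.2 i + scAl l' j * o4.2 j + scAl l' k * o4.2 k + 36 * p.dot n4 with hE4
    have hkey : scAl l' i * y = E1 - E2 + E3 - E4 := by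
      rw [hy, hE1, hE2, hE3, hE4, dot_neg, dot_smul, dot_sub, dot_add, dot_sub, h12, h23, h34]
      have h36 : (36 : ℤ) = 6 * (scAl l' i * β) := by rw [← hβ]; norm_num
      rw [h36]
      linear_combination (-(scAl l' k)) * hc'
    have hyE : |y| ≤ |E1 - E2 + E3 - E4| := by
      rw [← hkey, abs_mul]
      have := abs_nonneg y
      nlinarith
    have hE : (|E1 - E2 + E3 - E4| : ℝ) ≤ 4 * (p.ν * p.R sp) := by
      have a1 := abs_le.1 e1
      have a2 := abs_le.1 e2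
      have a3 := abs_le.1 e3
      have a4 := abs_le.1 e4
      rw [abs_le]
      constructor <;> linarith [a1.1, a1.2, a2.1, a2.2, a3.1, a3.2, a4.1, a4.2]
    have hfin : (|y| : ℝ) ≤ ((1 * p.eps sp : ℕ) : ℝ) := by
      have h5 : (|y| : ℝ) ≤ (|E1 - E2 + E3 - E4| : ℝ) := by exact_mod_cast hyE
      have h6 := p.le_eps sp
      have h7 : 0 ≤ p.ν * p.R sp := mul_nonneg (by linarith [h.hν]) (p.R_pos h.hR0 sp).le
      push_cast
      linarith
    exact_mod_cast hfin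

end ScPar

end Claimed.Agent.R258
end

/- ===== packed: Claimed.Agent.R258.S3.Sys ===== -/
section
/-
Row 258 (S0498), block [S3] = Sec. 3 compression.tex (architect helper93).
THE ABSTRACT COLUMN SYSTEM (Sec. 3.2) and the calculus of the cell projections `E w` ("multiplication by `1_w`").

Model: `X = L²(J;𝓗)`, cells = words (see `Word.lean`), `E w z = 1_w z`, `len w = |w|`, `col v = 1_{J_v} Φ_v`,
`birth v = J_v`, `L1 z w = ∫_w ‖z‖`.  The fields are exactly what the proof of the Compression lemma uses: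
  `col_lower` = private coordinates (integrated lower bound of Lemma 3.2), `col_upper` = `‖Φ_v‖_∞ ≤ D`,
  `card_le` = at most `D` labels on a path, `col_pair` = Hölder `L¹-L^∞`, `L1_sq_le` = Cauchy-Schwarz.
"`v` is available on `w`" is `birth v <:+ w`.
-/
set_option autoImplicit false
set_option linter.unusedSectionVars false

namespace Claimed.Agent.R258

open scoped InnerProductSpace

/-- abstract column system with budget `D` on the infinite binary tree of words -/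
structure s3_Sys (𝕜 X V : Type*) [RCLike 𝕜] [NormedAddCommGroup X] [InnerProductSpace 𝕜 X] where
  E : List Bool → X →ₗ[𝕜] X
  E_symm : ∀ w x y, ⟪E w x, y⟫_𝕜 = ⟪x, E w y⟫_𝕜
  E_idem : ∀ w x, E w (E w x) = E w x
  E_split : ∀ w x, E w x = E (false :: w) x + E (true :: w) x
  E_orth : ∀ w x, E (false :: w) (E (true :: w) x) = 0
  len : List Bool → ℝ
  len_pos : ∀ w, 0 < len w
  len_half : ∀ b w, len (b :: w) = len w / 2
  birth : V → List Bool
  col : V → X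
  col_supp : ∀ v, E (birth v) (col v) = col v
  D : ℝ
  two_le_D : 2 ≤ D
  col_lower : ∀ (w : List Bool) (A : Finset V), (∀ v ∈ A, birth v <:+ w) → ∀ c : V → 𝕜,
    len w * ∑ v ∈ A, ‖c v‖ ^ 2 ≤ D ^ 2 * ‖∑ v ∈ A, c v • E w (col v)‖ ^ 2
  col_upper : ∀ (w : List Bool) (v : V), birth v <:+ w → ‖E w (col v)‖ ^ 2 ≤ D ^ 2 * len w
  card_le : ∀ (w : List Bool) (A : Finset V), (∀ v ∈ A, birth v <:+ w) → (A.card : ℝ) ≤ D
  L1 : X → List Bool → ℝ
  L1_nonneg : ∀ z w, 0 ≤ L1 z w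
  L1_split : ∀ z w, L1 z w = L1 z (false :: w) + L1 z (true :: w)
  L1_sq_le : ∀ z w, L1 z w ^ 2 ≤ len w * ‖E w z‖ ^ 2
  col_pair : ∀ (w : List Bool) (v : V) (z : X), birth v <:+ w → ‖⟪E w (col v), z⟫_𝕜‖ ≤ D * L1 z w

/-- two incomparable words branch at some cell -/
theorem s3_branch {w w' : List Bool} (h1 : ¬ w <:+ w') (h2 : ¬ w' <:+ w) :
    ∃ (u : List Bool) (b : Bool), (b :: u) <:+ w ∧ ((!b) :: u) <:+ w' := by
  induction w with
  | nil => exact absurd List.nil_suffix h1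
  | cons a v ih =>
    by_cases hv : v <:+ w'
    · obtain ⟨t, rfl⟩ := hv
      rcases List.eq_nil_or_concat t with rfl | ⟨t', c, rfl⟩
      · exact absurd (List.suffix_cons a v) h2
      · refine ⟨v, a, List.suffix_refl _, ?_⟩
        have hc : c = !a := by
          by_contra hne
          have : c = a := by cases c <;> cases a <;> simp_all
          subst this
          exact h1 ⟨t', by simp⟩
        subst hc
        exact ⟨t', by simp⟩
    · have hv' : ¬ w' <:+ v := fun h => h2 (h.trans (List.suffix_cons a v))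
      obtain ⟨u, b, hb, hb'⟩ := ih hv hv'
      exact ⟨u, b, hb.trans (List.suffix_cons a v), hb'⟩

variable {𝕜 X V : Type*} [RCLike 𝕜] [NormedAddCommGroup X] [InnerProductSpace 𝕜 X]

namespace s3_Sys

variable (S : s3_Sys 𝕜 X V)

/-! ## Calculus of the `E w` -/

theorem E_orth' (w : List Bool) (x : X) : S.E (true :: w) (S.E (false :: w) x) = 0 := by
  rw [← inner_self_eq_zero (𝕜 := 𝕜), S.E_symm, S.E_idem, S.E_symm, S.E_orth, inner_zero_right]

theorem E_orth_ne (b : Bool) (w : List Bool) (x : X) : S.E (b :: w) (S.E ((!b) :: w) x) = 0 := by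
  cases b
  · exact S.E_orth w x
  · exact S.E_orth' w x

theorem E_child_comp (b : Bool) (w : List Bool) (x : X) : S.E (b :: w) (S.E w x) = S.E (b :: w) x := by
  rw [S.E_split w x, map_add]
  cases b
  · rw [S.E_idem, S.E_orth, add_zero]
  · rw [S.E_idem, S.E_orth', zero_add]

theorem E_comp_child (b : Bool) (w : List Bool) (x : X) : S.E w (S.E (b :: w) x) = S.E (b :: w) x := by
  rw [S.E_split w]
  cases b
  · rw [S.E_idem, S.E_orth', add_zero]
  · rw [S.E_idem, S.E_orth, zero_add]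

theorem E_sub_comp {w w' : List Bool} (h : w <:+ w') (x : X) : S.E w' (S.E w x) = S.E w' x := by
  obtain ⟨t, rfl⟩ := h
  induction t with
  | nil => exact S.E_idem w x
  | cons b t ih =>
    rw [List.cons_append, ← S.E_child_comp b (t ++ w) (S.E w x), ih, S.E_child_comp]

theorem E_comp_sub {w w' : List Bool} (h : w <:+ w') (x : X) : S.E w (S.E w' x) = S.E w' x := by
  obtain ⟨t, rfl⟩ := h
  induction t generalizing x with
  | nil => exact S.E_idem w x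
  | cons b t ih =>
    rw [List.cons_append, ← S.E_comp_child b (t ++ w) x, ih]

theorem E_incomp {w w' : List Bool} (h1 : ¬ w <:+ w') (h2 : ¬ w' <:+ w) (x : X) : S.E w (S.E w' x) = 0 := by
  obtain ⟨u, b, hb, hb'⟩ := s3_branch h1 h2
  rw [← S.E_sub_comp hb, ← S.E_comp_sub hb' x, S.E_orth_ne, map_zero]

theorem normsq_split (w : List Bool) (x : X) :
    ‖S.E w x‖ ^ 2 = ‖S.E (false :: w) x‖ ^ 2 + ‖S.E (true :: w) x‖ ^ 2 := by
  have h0 : ⟪S.E (false :: w) x, S.E (true :: w) x⟫_𝕜 = 0 := by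
    rw [S.E_symm, S.E_orth, inner_zero_right]
  have := norm_add_sq_eq_norm_sq_add_norm_sq_of_inner_eq_zero (𝕜 := 𝕜) _ _ h0
  rw [S.E_split w x]
  nlinarith [this]

theorem norm_E_le (w : List Bool) (x : X) : ‖S.E w x‖ ≤ ‖x‖ := by
  have h1 : ⟪S.E w x, S.E w x⟫_𝕜 = ⟪x, S.E w x⟫_𝕜 := by rw [S.E_symm, S.E_idem]
  have h2 : ‖S.E w x‖ * ‖S.E w x‖ ≤ ‖x‖ * ‖S.E w x‖ := by
    have h3 := norm_inner_le_norm (𝕜 := 𝕜) x (S.E w x)
    rw [← h1, inner_self_eq_norm_sq_to_K, norm_pow, RCLike.norm_ofReal, abs_of_nonneg (norm_nonneg _)] at h3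
    nlinarith [h3]
  by_cases h0 : ‖S.E w x‖ = 0
  · rw [h0]; exact norm_nonneg x
  · exact le_of_mul_le_mul_right h2 (lt_of_le_of_ne (norm_nonneg _) (Ne.symm h0))

theorem norm_E_mono {w w' : List Bool} (h : w <:+ w') (x : X) : ‖S.E w' x‖ ≤ ‖S.E w x‖ := by
  rw [← S.E_sub_comp h x]
  exact S.norm_E_le w' _

theorem len_split (w : List Bool) : S.len w = S.len (false :: w) + S.len (true :: w) := by
  rw [S.len_half, S.len_half]; ring

theorem D_pos : 0 < S.D := by linarith [S.two_le_D]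

/-- the average `⨍_w ‖z‖` -/
noncomputable def avg (z : X) (w : List Bool) : ℝ := S.L1 z w / S.len w

theorem avg_nonneg (z : X) (w : List Bool) : 0 ≤ S.avg z w := div_nonneg (S.L1_nonneg z w) (S.len_pos w).le

/-- a child average is at most twice the average of its parent -/
theorem avg_child_le (z : X) (b : Bool) (w : List Bool) : S.avg z (b :: w) ≤ 2 * S.avg z w := by
  unfold avg
  rw [S.len_half]
  have hl := S.len_pos w
  have h1 : S.L1 z (b :: w) ≤ S.L1 z w := by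
    rw [S.L1_split z w]
    cases b
    · linarith [S.L1_nonneg z (true :: w)]
    · linarith [S.L1_nonneg z (false :: w)]
  rw [div_div_eq_mul_div, mul_div_assoc', mul_comm]
  exact div_le_div_of_nonneg_right (by linarith) hl.le

theorem sum_E {w : List Bool} {π : Finset (List Bool)} (h : s3_Part w π) (x : X) : ∑ Q ∈ π, S.E Q x = S.E w x :=
  h.sum_eq (fun Q => S.E Q x) (fun w => S.E_split w x)

theorem sum_len {w : List Bool} {π : Finset (List Bool)} (h : s3_Part w π) : ∑ Q ∈ π, S.len Q = S.len w :=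
  h.sum_eq S.len S.len_split

theorem sum_normsq {w : List Bool} {π : Finset (List Bool)} (h : s3_Part w π) (x : X) :
    ∑ Q ∈ π, ‖S.E Q x‖ ^ 2 = ‖S.E w x‖ ^ 2 :=
  h.sum_eq (fun Q => ‖S.E Q x‖ ^ 2) (fun w => S.normsq_split w x)

theorem sum_L1 {w : List Bool} {π : Finset (List Bool)} (h : s3_Part w π) (z : X) :
    ∑ Q ∈ π, S.L1 z Q = S.L1 z w :=
  h.sum_eq (S.L1 z) (S.L1_split z)

/-- the pathwise budget in its integral form: `∑_v ‖1_w Φ̃_v‖² ≤ D³ |w|`, for ANY finite set of labels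
(available on `w`, born inside `w`, or elsewhere). -/
theorem sum_col_le (F : Finset V) (w : List Bool) : ∑ v ∈ F, ‖S.E w (S.col v)‖ ^ 2 ≤ S.D ^ 3 * S.len w := by
  classical
  revert w
  apply s3_induct_up (F.sup fun v => (S.birth v).length)
  · intro w hw
    have hD := S.D_pos
    have hl := S.len_pos w
    have hzero : ∀ v ∈ F, ¬ S.birth v <:+ w → ‖S.E w (S.col v)‖ ^ 2 = 0 := by
      intro v hv hnot
      have hlen : (S.birth v).length ≤ w.length :=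
        (Finset.le_sup (f := fun v => (S.birth v).length) hv).trans hw
      have hnot' : ¬ w <:+ S.birth v := by
        intro h
        have := h.eq_of_length_le hlen
        exact hnot (this ▸ List.suffix_refl _)
      rw [← S.col_supp v, S.E_incomp hnot' hnot, norm_zero]; norm_num
    have h1 : ∑ v ∈ F, ‖S.E w (S.col v)‖ ^ 2 = ∑ v ∈ F.filter (fun v => S.birth v <:+ w), ‖S.E w (S.col v)‖ ^ 2 := by
      rw [Finset.sum_filter]
      apply Finset.sum_congr rfl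
      intro v hv
      by_cases h : S.birth v <:+ w
      · rw [if_pos h]
      · rw [if_neg h, hzero v hv h]
    rw [h1]
    have h2 : ∑ v ∈ F.filter (fun v => S.birth v <:+ w), ‖S.E w (S.col v)‖ ^ 2 ≤
        ((F.filter (fun v => S.birth v <:+ w)).card : ℝ) * (S.D ^ 2 * S.len w) := by
      rw [← nsmul_eq_mul]
      apply Finset.sum_le_card_nsmul
      intro v hv
      exact S.col_upper w v (Finset.mem_filter.1 hv).2
    have h3 := S.card_le w (F.filter (fun v => S.birth v <:+ w)) (fun v hv => (Finset.mem_filter.1 hv).2)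
    calc _ ≤ ((F.filter (fun v => S.birth v <:+ w)).card : ℝ) * (S.D ^ 2 * S.len w) := h2
      _ ≤ S.D * (S.D ^ 2 * S.len w) := mul_le_mul_of_nonneg_right h3 (by positivity)
      _ = S.D ^ 3 * S.len w := by ring
  · intro w h0 h1
    have : ∑ v ∈ F, ‖S.E w (S.col v)‖ ^ 2 =
        ∑ v ∈ F, ‖S.E (false :: w) (S.col v)‖ ^ 2 + ∑ v ∈ F, ‖S.E (true :: w) (S.col v)‖ ^ 2 := by
      rw [← Finset.sum_add_distrib]
      exact Finset.sum_congr rfl fun v _ => S.normsq_split w _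
    rw [this, S.len_split w]
    linarith

end s3_Sys

end Claimed.Agent.R258
end
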