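/- Packed by merge_tool.py (helper293): 12 modules of Claimed.Agent.R258 in one file, same declarations.
   Old modules, in this order: Loc.Basic, Loc.Forest, Loc.ColourSys, Loc.CellInst, Loc.Iface, Weyl.Defs, S6a.Defs, Loc.TagSys, Loc.IfaceTag, Weyl.Qp, Weyl.Ee, Weyl.Frame -/
import Mathlib
import Claimed.Agent.R258.S5.Base
import Claimed.Agent.R258.Pack006
import Claimed.Agent.R258.Pack009
import Claimed.Agent.R258.Pack016

/- ===== packed: Claimed.Agent.R258.Loc.Basic ===== -/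
section
/-!
# Row 258, Section 6 (localization), layer 6.A/6.B: basic objects

Abstract forest of cells, abstract distance systems (`LocTagSys`), the numerical parameters of
Section 6.2, vertex systems with admission order, delay arrays, scores and clips.
Everything here is finite combinatorics: no analysis.
-/

namespace Claimed.Agent.R258

/-- A forest of cells in which every cell has an ancestor at every smaller depth
(model: dyadic intervals, `J ≤ I` meaning `J ⊆ I`, `depth I = -log₂ |I|`). -/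
class LocForest (Cell : Type*) extends PartialOrder Cell where
  /-- depth of a cell (finer cells have larger depth) -/
  depth : Cell → ℤ
  /-- `anc I s` is the ancestor of `I` at depth `s` (meaningful for `s ≤ depth I`) -/
  anc : Cell → ℤ → Cell
  depth_anc : ∀ I s, s ≤ depth I → depth (anc I s) = s
  le_iff : ∀ J I, J ≤ I ↔ depth I ≤ depth J ∧ anc J (depth I) = I

export LocForest (depth anc)

/-- Scale dependent extended pseudometrics on tags: the ambient graph distances `d_s`. -/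
structure LocTagSys (Tag : Type*) where
  d : ℤ → Tag → Tag → ℕ∞
  d_self : ∀ s a, d s a a = 0
  d_symm : ∀ s a b, d s a b = d s b a
  d_tri : ∀ s a b c, d s a c ≤ d s a b + d s b c
  d_anti : ∀ s s' a b, s ≤ s' → d s' a b ≤ d s a b

/-- The free numerical parameters of Section 6.2.  In the application
`d0 = ⌈1000 log (2 D)⌉`. -/
structure LocParams where
  D : ℕ
  P : ℕ
  d0 : ℕ

namespace LocParams

/-- number of colours `𝓛 = d0^30` -/
def L (p : LocParams) : ℕ := p.d0 ^ 30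
/-- maximal pad `H_max = 100 P (𝓛+1)` -/
def Hmax (p : LocParams) : ℕ := 100 * p.P * (p.L + 1)
/-- the small distance scale `b₂ = 100 (H_max+1)` -/
def b2 (p : LocParams) : ℕ := 100 * (p.Hmax + 1)
/-- the large distance scale `b₁ = d0^10 b₂ (H_max+1)` -/
def b1 (p : LocParams) : ℕ := p.d0 ^ 10 * p.b2 * (p.Hmax + 1)
/-- the radii `R_l = 10 l (d0+1) b₂` -/
def Rl (p : LocParams) (l : ℕ) : ℕ := 10 * l * (p.d0 + 1) * p.b2
/-- the step `b₁ / (2 d0)` of the clipping thresholds (an exact division) -/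
def step (p : LocParams) : ℕ := p.b1 / (2 * p.d0)

/-- The inequalities between `D` and `d0` used by the combinatorial part
(all follow from `d0 ≥ 1000 log (2 D)`). -/
structure Adm (p : LocParams) : Prop where
  d0_ge : 10 ≤ p.d0
  D_pos : 1 ≤ p.D
  D_lt : p.D * 2 ^ (p.d0 - 1) < 3 ^ (p.d0 - 1)
  D_le : 64 * p.D ≤ 2 ^ p.d0

end LocParams

/-- quantized score `D - ⌊x / b⌋`, equal to `⊥` at infinite distance -/
noncomputable def loc_qsc (b D : ℕ) (x : ℕ∞) : WithBot ℤ :=
  if x = ⊤ then ⊥ else (((D : ℤ) - ((x.toNat / b : ℕ) : ℤ) : ℤ) : WithBot ℤ)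

/-- true score `b D - x`, equal to `⊥` at infinite distance -/
noncomputable def loc_tsc (b D : ℕ) (x : ℕ∞) : WithBot ℤ :=
  if x = ⊤ then ⊥ else ((((b * D : ℕ) : ℤ) - (x.toNat : ℤ) : ℤ) : WithBot ℤ)

/-- the clip `C(x) = min (hi, max (lo, x))`, including the value at `-∞` -/
def loc_clip (lo hi : ℤ) (x : WithBot ℤ) : ℤ := min hi (max lo (x.unbotD lo))

/-- `n = ⌊log_{3/2} N⌋` -/
def loc_isFlog (N n : ℕ) : Prop := 3 ^ n ≤ N * 2 ^ n ∧ N * 2 ^ (n + 1) < 3 ^ (n + 1)

theorem loc_lev_exists (i j : ℕ) : ∃ m, i / 2 ^ m = j / 2 ^ m := by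
  refine ⟨max i j, ?_⟩
  have h1 : i < 2 ^ max i j :=
    lt_of_le_of_lt (le_max_left i j) (Nat.lt_two_pow_self)
  have h2 : j < 2 ^ max i j :=
    lt_of_le_of_lt (le_max_right i j) (Nat.lt_two_pow_self)
  rw [Nat.div_eq_of_lt h1, Nat.div_eq_of_lt h2]

/-- separating length level of the admission index `i` of a winner and the current list size `j`:
`0` in the equality case, otherwise `2 ^ lev` is the length of the smallest dyadic block
containing `i` and `j`. -/
def loc_lev (i j : ℕ) : ℕ := Nat.find (loc_lev_exists i j)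

/-- Everything that is fixed before the delays are drawn: distance system, vertices with tags,
birth cells and admission indices, present lists, parameters. -/
structure LocBase (Cell V Tag : Type*) [LocForest Cell] where
  T : LocTagSys Tag
  tag : V → Tag
  /-- the actual vertices (the type `V` may contain junk elements, e.g. `V = ℕ`) -/
  verts : Set V
  birth : V → Cell
  /-- admission index (position in the increasing vertex lists) -/
  adm : V → ℕ
  /-- the list `𝒱(I)` of present vertices -/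
  pres : Cell → Finset V
  mem_pres : ∀ I v, v ∈ pres I ↔ v ∈ verts ∧ I ≤ birth v
  adm_bij : ∀ I, Set.BijOn adm (pres I : Set V) (Set.Icc 1 (pres I).card)
  p : LocParams
  card_le : ∀ I, (pres I).card ≤ p.D

/-- A base together with primary and high delay arrays (round, vertex), truncated to `[0,d0]`. -/
structure LocSetup (Cell V Tag : Type*) [LocForest Cell] extends LocBase Cell V Tag where
  Dp : ℕ → V → ℕ
  Dh : ℕ → V → ℕ
  Dp_le : ∀ ρ v, Dp ρ v ≤ p.d0
  Dh_le : ∀ ρ v, Dh ρ v ≤ p.d0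

end Claimed.Agent.R258
end

/- ===== packed: Claimed.Agent.R258.Loc.Forest ===== -/
section
/-!
# Row 258, Section 6: elementary lemmas on forests of cells and present lists
-/

namespace Claimed.Agent.R258

section Forest

variable {Cell : Type*} [LocForest Cell]

theorem loc_depth_le {J I : Cell} (h : J ≤ I) : depth I ≤ depth J :=
  ((LocForest.le_iff J I).1 h).1

theorem loc_anc_of_le {J I : Cell} (h : J ≤ I) : anc J (depth I) = I :=
  ((LocForest.le_iff J I).1 h).2

theorem loc_anc_self (I : Cell) : anc I (depth I) = I := loc_anc_of_le le_rfl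

theorem loc_depth_anc (I : Cell) {s : ℤ} (h : s ≤ depth I) : depth (anc I s) = s :=
  LocForest.depth_anc I s h

theorem loc_le_anc (I : Cell) {s : ℤ} (h : s ≤ depth I) : I ≤ anc I s := by
  rw [LocForest.le_iff, loc_depth_anc I h]
  exact ⟨h, rfl⟩

theorem loc_anc_anc (I : Cell) {s s' : ℤ} (h : s ≤ depth I) (h' : s' ≤ s) :
    anc (anc I s) s' = anc I s' := by
  have h1 : I ≤ anc I s := loc_le_anc I h
  have h2 : anc I s ≤ anc (anc I s) s' := loc_le_anc _ (by rw [loc_depth_anc I h]; exact h')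
  have h3 := loc_anc_of_le (h1.trans h2)
  rw [loc_depth_anc _ (by rw [loc_depth_anc I h]; exact h')] at h3
  exact h3.symm

theorem loc_anc_mono (I : Cell) {s s' : ℤ} (h : s ≤ depth I) (h' : s' ≤ s) :
    anc I s ≤ anc I s' := by
  rw [← loc_anc_anc I h h']
  exact loc_le_anc _ (by rw [loc_depth_anc I h]; exact h')

theorem loc_anc_eq_of_le {J I : Cell} (h : J ≤ I) {s : ℤ} (hs : s ≤ depth I) :
    anc J s = anc I s := by
  rw [← loc_anc_of_le h, loc_anc_anc J (loc_depth_le h) hs]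

theorem loc_le_of_depth_le {J I I' : Cell} (h : J ≤ I) (h' : J ≤ I')
    (hd : depth I' ≤ depth I) : I ≤ I' := by
  rw [LocForest.le_iff]
  refine ⟨hd, ?_⟩
  rw [← loc_anc_eq_of_le h hd]
  exact loc_anc_of_le h'

theorem loc_le_total {J I I' : Cell} (h : J ≤ I) (h' : J ≤ I') : I ≤ I' ∨ I' ≤ I := by
  rcases le_total (depth I') (depth I) with hd | hd
  · exact Or.inl (loc_le_of_depth_le h h' hd)
  · exact Or.inr (loc_le_of_depth_le h' h hd)

theorem loc_eq_of_depth_eq {J I I' : Cell} (h : J ≤ I) (h' : J ≤ I')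
    (hd : depth I = depth I') : I = I' :=
  le_antisymm (loc_le_of_depth_le h h' hd.ge) (loc_le_of_depth_le h' h hd.le)

theorem loc_depth_lt {J I : Cell} (h : J < I) : depth I < depth J := by
  rcases (loc_depth_le h.le).lt_or_eq with h1 | h1
  · exact h1
  · exact absurd (loc_eq_of_depth_eq le_rfl h.le h1.symm) h.ne

/-- every cell above `J` is one of its ancestors -/
theorem loc_eq_anc {J I : Cell} (h : J ≤ I) : I = anc J (depth I) := (loc_anc_of_le h).symm

end Forest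

section Base

variable {Cell V Tag : Type*} [LocForest Cell] (B : LocBase Cell V Tag)

theorem LocBase.pres_mono {J I : Cell} (h : J ≤ I) : B.pres I ⊆ B.pres J := by
  intro v hv
  rw [B.mem_pres] at hv ⊢
  exact ⟨hv.1, h.trans hv.2⟩

theorem LocBase.card_mono {J I : Cell} (h : J ≤ I) : (B.pres I).card ≤ (B.pres J).card :=
  Finset.card_le_card (B.pres_mono h)

theorem LocBase.adm_pos {I : Cell} {v : V} (hv : v ∈ B.pres I) : 1 ≤ B.adm v :=
  ((B.adm_bij I).mapsTo (Finset.mem_coe.2 hv)).1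

theorem LocBase.adm_le {I : Cell} {v : V} (hv : v ∈ B.pres I) : B.adm v ≤ (B.pres I).card :=
  ((B.adm_bij I).mapsTo (Finset.mem_coe.2 hv)).2

theorem LocBase.adm_inj {I : Cell} {v w : V} (hv : v ∈ B.pres I) (hw : w ∈ B.pres I)
    (h : B.adm v = B.adm w) : v = w :=
  (B.adm_bij I).injOn (Finset.mem_coe.2 hv) (Finset.mem_coe.2 hw) h

/-- the lists grow by appending: the list of an ancestor is a prefix -/
theorem LocBase.mem_pres_iff_adm_le {J I : Cell} (h : J ≤ I) {v : V} (hv : v ∈ B.pres J) :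
    v ∈ B.pres I ↔ B.adm v ≤ (B.pres I).card := by
  refine ⟨fun h' => B.adm_le h', fun h' => ?_⟩
  obtain ⟨w, hw, hwv⟩ := (B.adm_bij I).surjOn (⟨B.adm_pos hv, h'⟩ : B.adm v ∈ Set.Icc 1 _)
  have hw' : w ∈ B.pres I := Finset.mem_coe.1 hw
  have : w = v := B.adm_inj (B.pres_mono h hw') hv hwv
  exact this ▸ hw'

theorem LocBase.exists_adm_eq {I : Cell} {i : ℕ} (h1 : 1 ≤ i) (h2 : i ≤ (B.pres I).card) :
    ∃ v ∈ B.pres I, B.adm v = i := by
  obtain ⟨w, hw, hwv⟩ := (B.adm_bij I).surjOn (⟨h1, h2⟩ : i ∈ Set.Icc 1 _)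
  exact ⟨w, Finset.mem_coe.1 hw, hwv⟩

end Base

end Claimed.Agent.R258
end

/- ===== packed: Claimed.Agent.R258.Loc.ColourSys ===== -/
section
/-!
# Row 258, Section 6.2/6.3: the abstract colouring interface

`LocColourSys` is what all later constructions (Sections 6.4 - 10) consume from the colouring:
colours, current groups, historical ball masks and the conclusions of Lemmas 6.3 and 6.4.
The construction of Section 6.2 provides an instance (`LocSetup.colourSys`).
-/

namespace Claimed.Agent.R258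

variable {Cell V Tag : Type*} [LocForest Cell]

/-- the data of a colouring -/
structure LocColourData (B : LocBase Cell V Tag) (Grp : Type*) where
  /-- colour of a present vertex -/
  colour : Cell → V → ℕ
  /-- current successful group of a present (central) vertex; `none` = failed marking -/
  cen : Cell → V → Option Grp
  /-- colour of a group -/
  gcol : Grp → ℕ
  /-- primary centre `z` of a group -/
  centre : Grp → V
  /-- historical ball mask `𝓜_{G,h}(I)` -/
  mask : Grp → ℕ → Cell → Set V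

namespace LocColourData

variable {B : LocBase Cell V Tag} {Grp : Type*} (X : LocColourData B Grp)

/-- actual use of `G` on `I`: some current central vertex is assigned to `G` -/
def use (G : Grp) (I : Cell) : Prop := ∃ v ∈ B.pres I, X.cen I v = some G

/-- usable endpoint: nonempty pad mask and an actual use at or below the cell -/
def usable (G : Grp) (I : Cell) : Prop :=
  (∃ h ≤ B.p.Hmax, (X.mask G h I).Nonempty) ∧ ∃ u, u ≤ I ∧ X.use G u

/-- no required marking fails at or above `I` -/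
def good (I : Cell) : Prop := ∀ I', I ≤ I' → ∀ v ∈ B.pres I', (X.cen I' v).isSome

/-- cumulative mask `𝒰_{m,h}(I)` -/
def cumMask (m h : ℕ) (I : Cell) : Set V :=
  {v | v ∈ B.pres I ∧ ∃ w ∈ B.pres I, X.colour I w ≤ m ∧
    B.T.d (depth I) (B.tag v) (B.tag w) ≤ h}

end LocColourData

/-- A colouring with the conclusions of Lemma 6.3 (deterministic part) and Lemma 6.4. -/
structure LocColourSys (B : LocBase Cell V Tag) (Grp : Type*) extends LocColourData B Grp where
  colour_pos : ∀ I v, v ∈ B.pres I → 1 ≤ colour I v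
  colour_le : ∀ I v, v ∈ B.pres I → colour I v ≤ B.p.L
  colour_anti : ∀ I J v, J ≤ I → v ∈ B.pres I → colour J v ≤ colour I v
  gcol_cen : ∀ I v G, v ∈ B.pres I → cen I v = some G → gcol G = colour I v
  mask_pres : ∀ G h I, mask G h I ⊆ (B.pres I : Set V)
  mask_pad : ∀ G h h' I, h ≤ h' → mask G h I ⊆ mask G h' I
  mask_depth : ∀ G h I J, J ≤ I → mask G h I ⊆ mask G h J
  /-- a nonempty mask has a historical central assignment at or above the cell -/
  mask_hist : ∀ G h I, (mask G h I).Nonempty → ∃ I0, I ≤ I0 ∧ toLocColourData.use G I0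
  centre_pres : ∀ G I, toLocColourData.use G I → centre G ∈ B.pres I
  /-- Lemma 6.4 (1) -/
  mask_incl : ∀ I v G b h, v ∈ B.pres I → cen I v = some G → b ∈ B.pres I → h ≤ B.p.Hmax →
    B.T.d (depth I) (B.tag b) (B.tag v) ≤ h → b ∈ mask G h I
  /-- Lemma 6.4 (2), neighbour closure at an actual use -/
  mask_nbr : ∀ G I h b b', toLocColourData.use G I → h < B.p.Hmax → b ∈ mask G h I →
    b' ∈ B.pres I → B.T.d (depth I) (B.tag b) (B.tag b') ≤ 1 → b' ∈ mask G (h + 1) I
  /-- Lemma 6.4 (2), short path to the primary centre -/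
  mask_path : ∀ G h I b, h ≤ B.p.Hmax → b ∈ mask G h I →
    B.T.d (depth I) (B.tag (centre G)) (B.tag b) ≤ (((B.p.d0 + 1) * B.p.b1 + B.p.Hmax : ℕ) : ℕ∞)
  /-- Lemma 6.4 (3), separation on overlapping usable endpoints, `J` the finer one -/
  mask_sep : ∀ G G' I J h h' b b', G ≠ G' → gcol G = gcol G' → J ≤ I →
    ((toLocColourData.usable G I ∧ toLocColourData.usable G' J ∧ b ∈ mask G h I ∧ b' ∈ mask G' h' J) ∨
     (toLocColourData.usable G J ∧ toLocColourData.usable G' I ∧ b ∈ mask G h J ∧ b' ∈ mask G' h' I)) →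
    h ≤ B.p.Hmax → h' ≤ B.p.Hmax → 1 < B.T.d (depth J) (B.tag b) (B.tag b')
  /-- at most `D (d0^8+1)` groups are ever used on a path -/
  grp_count : ∀ J, ∃ F : Finset Grp, F.card ≤ B.p.D * (B.p.d0 ^ 8 + 1) ∧
    ∀ G I, J ≤ I → toLocColourData.use G I → G ∈ F

namespace LocColourSys

variable {B : LocBase Cell V Tag} {Grp : Type*} (X : LocColourSys B Grp)

theorem cumMask_pres (m h : ℕ) (I : Cell) : X.cumMask m h I ⊆ (B.pres I : Set V) :=
  fun _ hv => hv.1

theorem cumMask_mono_col {m m' : ℕ} (hm : m ≤ m') (h : ℕ) (I : Cell) :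
    X.cumMask m h I ⊆ X.cumMask m' h I := by
  rintro v ⟨hv, w, hw, hc, hd⟩
  exact ⟨hv, w, hw, hc.trans hm, hd⟩

theorem cumMask_mono_pad (m : ℕ) {h h' : ℕ} (hh : h ≤ h') (I : Cell) :
    X.cumMask m h I ⊆ X.cumMask m h' I := by
  rintro v ⟨hv, w, hw, hc, hd⟩
  exact ⟨hv, w, hw, hc, hd.trans (by exact_mod_cast hh)⟩

/-- cumulative masks increase in depth: distances decrease, colours do not increase, vertices are
inherited -/
theorem cumMask_depth (m h : ℕ) {I J : Cell} (hJ : J ≤ I) :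
    X.cumMask m h I ⊆ X.cumMask m h J := by
  rintro v ⟨hv, w, hw, hc, hd⟩
  exact ⟨B.pres_mono hJ hv, w, B.pres_mono hJ hw, (X.colour_anti I J w hJ hw).trans hc,
    (B.T.d_anti _ _ _ _ (loc_depth_le hJ)).trans hd⟩

/-- neighbour closure of cumulative masks -/
theorem cumMask_nbr (m h : ℕ) (I : Cell) {b b' : V} (hb : b ∈ X.cumMask m h I)
    (hb' : b' ∈ B.pres I) (hd : B.T.d (depth I) (B.tag b) (B.tag b') ≤ 1) :
    b' ∈ X.cumMask m (h + 1) I := by
  obtain ⟨_, w, hw, hc, hdw⟩ := hb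
  refine ⟨hb', w, hw, hc, ?_⟩
  calc B.T.d (depth I) (B.tag b') (B.tag w)
      ≤ B.T.d (depth I) (B.tag b') (B.tag b) + B.T.d (depth I) (B.tag b) (B.tag w) :=
        B.T.d_tri _ _ _ _
    _ ≤ 1 + h := add_le_add (by rw [B.T.d_symm]; exact hd) hdw
    _ = ((h + 1 : ℕ) : ℕ∞) := by push_cast; rw [add_comm]

theorem good_mono {I J : Cell} (hJ : J ≤ I) (h : X.good J) : X.good I :=
  fun I' hI' v hv => h I' (hJ.trans hI') v hv

end LocColourSys

end Claimed.Agent.R258
end

/- ===== packed: Claimed.Agent.R258.Loc.CellInst ===== -/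
section
/-!
# Row 258, Section 6: the dyadic cells of `Defs.lean` form a `LocForest`
-/

namespace Claimed.Agent.R258

/-- the dyadic cells as an instance of the abstract forest used by the colouring layer -/
instance locForestCell : LocForest Cell where
  toPartialOrder := cellPartialOrder
  depth := Cell.depth
  anc := fun I s => I.anc (I.depth - s).toNat
  depth_anc := by
    intro I s h
    simp only [cell_depth_anc]
    omega
  le_iff := fun _ _ => cell_le_iff_toNat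

@[simp] theorem loc_depth_cell (I : Cell) : depth I = I.depth := rfl

theorem loc_anc_cell (I : Cell) (s : ℤ) : anc I s = I.anc (I.depth - s).toNat := rfl

end Claimed.Agent.R258
end

/- ===== packed: Claimed.Agent.R258.Loc.Iface ===== -/
section
/-
Row 258 (S0498), DESIGN CREW, home section 6 (architect helper68).
THE INTERFACE OF Sec. 6 (localization.tex), part 1: catalogs, filters, histories, search leaves, the localized arguments `Z`,
bands, transfer steps, and the Prop-valued goals P2-P5, P7-P9 of `R258/Design/Sec6.md`.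
Everything here is generic in the type `Tag` of curvature tags (part 2, `Loc/IfaceTag.lean`, specializes to `LocTag` of [S6a]).

Conventions.
* vertices = labels of the ORIGINAL BASIC columns = `ℕ`; groups = `ℕ`; labels of all columns = `ℕ` (`Col.lab`).
* `LocSys` = base segment + pattern + vertex system/distances (`LocBase`) + colouring (`LocColourSys`) + MAIN catalog (ranks `0 … 𝓛+4`).
* a HELPER catalog is a second `LocCat` extending the main one by columns of rank `𝓛+5`; it is built per search leaf, after the side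
  states are fixed (Secs. 7, 8, 10.1).
* all cell-local operators are operators on `XV = L²(ℝ;HV)`: input restricted to `I`, output extended by zero; the identity of
  `L²(I)` is `restr I.set`.
* in a history (a list) the HEAD is the OUTERMOST filter.
-/
set_option autoImplicit false
open MeasureTheory

namespace Claimed.Agent.R258

/-! ## Catalogs and vertex-mask projections (Sec. 6.4) -/

/-- A catalog: a finite set of columns; slot, attached original vertex, rank and chart data are functions of the label. -/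
structure LocCat where
  cols : Finset Col
  slot : ℕ → Fin 4
  vtx : ℕ → ℕ
  rank : ℕ → ℕ
  chart : ℕ → Chart

namespace LocCat

open Classical in
/-- the label mask "available on `I`, slot `l`, rank `≤ r`, attached vertex in the vertex mask `M`" -/
noncomputable def lm (c : LocCat) (l : Fin 4) (r : ℕ) (M : Set ℕ) (I : Cell) : Finset Col :=
  c.cols.filter fun Φ => I ≤ Φ.birth ∧ c.slot Φ.lab = l ∧ c.rank Φ.lab ≤ r ∧ c.vtx Φ.lab ∈ M

/-- "a projection of rank `r` and a vertex mask": cell-local orthogonal projection onto all available columns of ranks `≤ r` whose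
tags belong to the mask -/
noncomputable def Q (c : LocCat) (l : Fin 4) (r : ℕ) (M : Set ℕ) (I : Cell) : XV →L[ℂ] XV := cproj (c.lm l r M I) I

open Classical in
/-- all columns available on `I` -/
noncomputable def avail (c : LocCat) (I : Cell) : Finset Col := c.cols.filter fun Φ => I ≤ Φ.birth

/-- `c'` extends `c` by columns of rank exactly `r` -/
structure Ext (c c' : LocCat) (r : ℕ) : Prop where
  sub : c.cols ⊆ c'.cols
  slot : ∀ Φ ∈ c.cols, c'.slot Φ.lab = c.slot Φ.lab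
  vtx : ∀ Φ ∈ c.cols, c'.vtx Φ.lab = c.vtx Φ.lab
  rank : ∀ Φ ∈ c.cols, c'.rank Φ.lab = c.rank Φ.lab
  chart : ∀ Φ ∈ c.cols, c'.chart Φ.lab = c.chart Φ.lab
  new : ∀ Φ ∈ c'.cols, Φ ∉ c.cols → c'.rank Φ.lab = r

end LocCat

/-! ## Filter names, ranks, pads -/

/-- names of the smeared filters: cumulative filter at the split `m`; ball filter number `j ∈ {1,2,3,4}` of the group `G` -/
inductive LocFilt
  | cum (m : ℕ)
  | ball (j : ℕ) (G : ℕ)
deriving DecidableEq

namespace LocFilt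

/-- rank: `𝓛 - m + 1` for the cumulative filter at the split `m`, `𝓛 + j` for the `j`-th ball filter -/
def rank (p : LocParams) : LocFilt → ℕ
  | cum m => p.L - m + 1
  | ball j _ => p.L + j

/-- base pad: `10 P (𝓛 - m + 1)`, resp. `20 P (𝓛+1) + 10 (j-1) P` -/
def pad0 (p : LocParams) : LocFilt → ℕ
  | cum m => 10 * p.P * (p.L - m + 1)
  | ball j _ => 20 * p.P * (p.L + 1) + 10 * (j - 1) * p.P

end LocFilt

/-- a history: list of (filter, complement?) with the outermost factor first -/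
abbrev LocHist := List (LocFilt × Bool)

/-! ## The binary search over the colours (proof of Prop. 6.8): fixed search leaves -/

/-- state of the search: colour range `[lo,hi]`, upper primal guard, lower residual guard, histories of the four slots -/
structure LocSt where
  lo : ℕ
  hi : ℕ
  up : Fin 4
  low : Option (Fin 4)
  hist : Fin 4 → LocHist

/-- the deterministic slot-choice rule: the least slot distinct from the guards -/
def loc_third (u : Fin 4) (w : Option (Fin 4)) : Fin 4 :=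
  if (0 : Fin 4) ≠ u ∧ some (0 : Fin 4) ≠ w then 0
  else if (1 : Fin 4) ≠ u ∧ some (1 : Fin 4) ≠ w then 1 else 2

/-- one split at the midpoint, following the branch that contains the colour `κ` -/
def loc_step (κ : ℕ) (st : LocSt) : LocSt :=
  if st.lo < st.hi then
    if κ ≤ (st.lo + st.hi) / 2 then
      { st with
        hi := (st.lo + st.hi) / 2
        up := loc_third st.up st.low
        hist := Function.update st.hist (loc_third st.up st.low)
          ((LocFilt.cum ((st.lo + st.hi) / 2), false) :: st.hist (loc_third st.up st.low)) }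
    else
      { st with
        lo := (st.lo + st.hi) / 2 + 1
        low := some (loc_third st.up st.low)
        hist := Function.update st.hist (loc_third st.up st.low)
          ((LocFilt.cum ((st.lo + st.hi) / 2), true) :: st.hist (loc_third st.up st.low)) }
  else st

/-- the search leaf of the colour `κ ∈ [1,L]`, initial upper guard `u0` -/
def loc_leaf (L : ℕ) (u0 : Fin 4) (κ : ℕ) : LocSt := (loc_step κ)^[L] ⟨1, L, u0, none, fun _ => []⟩

/-- the initial upper guard: the least basic-`B` slot of the pattern -/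
def loc_u0 (pat : Fin 4 → Bool) : Fin 4 := if pat 0 = false then 0 else 1

/-- number of the ball filter of the slot `l` at a leaf: the third slot gets the first ball rank, the other three slots the ranks
`2,3,4` in increasing order -/
def loc_jb (st : LocSt) (l : Fin 4) : ℕ :=
  if l = loc_third st.up st.low then 1
  else 2 + ((Finset.univ : Finset (Fin 4)).filter fun l' => l' < l ∧ l' ≠ loc_third st.up st.low).card

/-! ## Expansion of complements and the transfer schedule (Lemma 6.9) -/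

/-- `∏ (Q̄ or 1 - Q̄) = ∑ ± ∏ Q̄`: signed list of positive histories -/
def loc_expand : LocHist → List (ℤ × List LocFilt)
  | [] => [(1, [])]
  | (f, false) :: t => (loc_expand t).map fun x => (x.1, f :: x.2)
  | (f, true) :: t => loc_expand t ++ (loc_expand t).map fun x => (-x.1, f :: x.2)

/-- one transfer step: the outgoing filter `f` sits on the slot `c` (`fromC = true`) or `d`; `ha` = helper averages already transferred
to the slot `a`, `hc`, `hd` = remaining positive histories AFTER deleting the outgoing filter -/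
structure LocTStep where
  fromC : Bool
  f : LocFilt
  ha : List LocFilt
  hc : List LocFilt
  hd : List LocFilt

/-- the schedule: always remove the larger rank among the current outermost filters of `c`, `d` -/
def loc_tsteps (p : LocParams) : List LocFilt → List LocFilt → List LocFilt → List LocTStep
  | _, [], [] => []
  | ha, f :: hc, [] => ⟨true, f, ha, hc, []⟩ :: loc_tsteps p (f :: ha) hc []
  | ha, [], g :: hd => ⟨false, g, ha, [], hd⟩ :: loc_tsteps p (g :: ha) [] hd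
  | ha, f :: hc, g :: hd =>
    if g.rank p < f.rank p then ⟨true, f, ha, hc, g :: hd⟩ :: loc_tsteps p (f :: ha) hc (g :: hd)
    else ⟨false, g, ha, f :: hc, hd⟩ :: loc_tsteps p (g :: ha) (f :: hc) hd
termination_by _ hc hd => hc.length + hd.length

/-- the list of all helper averages at the end of the schedule (`𝒟_{a,s}`, outermost first) -/
def loc_tfinal (p : LocParams) : List LocFilt → List LocFilt → List LocFilt → List LocFilt
  | ha, [], [] => ha
  | ha, f :: hc, [] => loc_tfinal p (f :: ha) hc []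
  | ha, [], g :: hd => loc_tfinal p (g :: ha) [] hd
  | ha, f :: hc, g :: hd =>
    if g.rank p < f.rank p then loc_tfinal p (f :: ha) hc (g :: hd) else loc_tfinal p (g :: ha) (f :: hc) hd
termination_by _ hc hd => hc.length + hd.length

/-! ## The localization system -/

/-- base segment, pattern, vertex system with distances, colouring, main catalog -/
structure LocSys (Tag : Type) where
  X : BaseSeg
  pat : Fin 4 → Bool
  B : LocBase Cell ℕ Tag
  CS : LocColourSys B ℕ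
  cat : LocCat

namespace LocSys

variable {Tag : Type} (Y : LocSys Tag)

/-- the numerical parameters `D P d0` (and `𝓛, H_max, b₁, b₂`) -/
abbrev p : LocParams := Y.B.p

/-- helper rank `𝓛 + 5` -/
def hrank : ℕ := Y.p.L + 5

/-- the vertex mask of a filter name at the pad `h` -/
def msk (f : LocFilt) (h : ℕ) (I : Cell) : Set ℕ :=
  match f with
  | .cum m => Y.CS.cumMask m h I
  | .ball _ G => Y.CS.mask G h I

/-- label mask of the individual MAIN projection of the filter `f` at the pad `pad0 + pd` (an inherited mask family in `I`) -/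
noncomputable def lmM (l : Fin 4) (f : LocFilt) (pd : ℕ) (I : Cell) : Finset Col :=
  Y.cat.lm l (f.rank Y.p) (Y.msk f (f.pad0 Y.p + pd) I) I

/-- label mask of the individual HELPER-rank projection with the same mask and pad, in the helper catalog `hc` -/
noncomputable def lmH (hc : LocCat) (l : Fin 4) (f : LocFilt) (pd : ℕ) (I : Cell) : Finset Col :=
  hc.lm l Y.hrank (Y.msk f (f.pad0 Y.p + pd) I) I

/-- individual main projection `Q_{l,p}`, `1 ≤ pd ≤ P` -/
noncomputable def Qm (l : Fin 4) (f : LocFilt) (pd : ℕ) (I : Cell) : XV →L[ℂ] XV := cproj (Y.lmM l f pd I) I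

/-- individual helper projection -/
noncomputable def Qh (hc : LocCat) (l : Fin 4) (f : LocFilt) (pd : ℕ) (I : Cell) : XV →L[ℂ] XV :=
  cproj (Y.lmH hc l f pd I) I

/-- positive smeared main filter `Q̄ = P⁻¹ ∑_{pd=1}^P Q_{pd}` -/
noncomputable def Qbar (l : Fin 4) (f : LocFilt) (I : Cell) : XV →L[ℂ] XV :=
  ((Y.p.P : ℂ)⁻¹) • ∑ pd ∈ Finset.Icc 1 Y.p.P, Y.Qm l f pd I

/-- helper average -/
noncomputable def Qhbar (hc : LocCat) (l : Fin 4) (f : LocFilt) (I : Cell) : XV →L[ℂ] XV :=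
  ((Y.p.P : ℂ)⁻¹) • ∑ pd ∈ Finset.Icc 1 Y.p.P, Y.Qh hc l f pd I

/-- `Q_{l,0} = 0`, `Q_{l,P+1} = 1` -/
noncomputable def Qm' (l : Fin 4) (f : LocFilt) (pd : ℕ) (I : Cell) : XV →L[ℂ] XV :=
  if pd = 0 then 0 else if pd ≤ Y.p.P then Y.Qm l f pd I else restr I.set

noncomputable def Qh' (hc : LocCat) (l : Fin 4) (f : LocFilt) (pd : ℕ) (I : Cell) : XV →L[ℂ] XV :=
  if pd = 0 then 0 else if pd ≤ Y.p.P then Y.Qh hc l f pd I else restr I.set

/-- main band `A^{pd} = Q_{pd} - Q_{pd-1}`, `1 ≤ pd ≤ P+1` -/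
noncomputable def bandM (l : Fin 4) (f : LocFilt) (pd : ℕ) (I : Cell) : XV →L[ℂ] XV :=
  Y.Qm' l f pd I - Y.Qm' l f (pd - 1) I

/-- helper band -/
noncomputable def bandH (hc : LocCat) (l : Fin 4) (f : LocFilt) (pd : ℕ) (I : Cell) : XV →L[ℂ] XV :=
  Y.Qh' hc l f pd I - Y.Qh' hc l f (pd - 1) I

/-- value of a history (smeared filters and complements) on the cell `I` -/
noncomputable def evalH (l : Fin 4) (I : Cell) : LocHist → XV →L[ℂ] XV
  | [] => restr I.set
  | (f, false) :: t => (Y.Qbar l f I).comp (evalH l I t)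
  | (f, true) :: t => (restr I.set - Y.Qbar l f I).comp (evalH l I t)

/-- value of a positive history -/
noncomputable def evalP (l : Fin 4) (I : Cell) : List LocFilt → XV →L[ℂ] XV
  | [] => restr I.set
  | f :: t => (Y.Qbar l f I).comp (evalP l I t)

/-- product of helper averages (`𝒟_{a,s}`) -/
noncomputable def evalD (hc : LocCat) (l : Fin 4) (I : Cell) : List LocFilt → XV →L[ℂ] XV
  | [] => restr I.set
  | f :: t => (Y.Qhbar hc l f I).comp (evalD hc l I t)

/-- the search leaf of the colour `κ` -/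
def leaf (κ : ℕ) : LocSt := loc_leaf Y.p.L (loc_u0 Y.pat) κ

/-- cumulative history `𝓑_{l}` of the slot `l` at the leaf `κ` (independent of the group and of the cell) -/
def hist (κ : ℕ) (l : Fin 4) : LocHist := (Y.leaf κ).hist l

/-- the outer ball filter of the slot `l` at the leaf `κ` for the group `G` -/
def outer (κ : ℕ) (l : Fin 4) (G : ℕ) : LocFilt := .ball (loc_jb (Y.leaf κ) l) G

/-- the basic argument `z_l` of the pattern on `I` -/
noncomputable def z (l : Fin 4) (I : Cell) : XV := Y.X.arg Y.pat I l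

/-- the shared history `𝓑_{l,s} z_l` -/
noncomputable def Zsh (κ : ℕ) (l : Fin 4) (I : Cell) : XV := Y.evalH l I (Y.hist κ l) (Y.z l I)

/-- **(14)** `Z_{l,G,s} = L̄_{l,G,s} 𝓑_{l,s} z_l`, defined on EVERY cell (zero on cells that are not below the root) -/
noncomputable def Z (κ : ℕ) (l : Fin 4) (G : ℕ) (I : Cell) : XV := Y.Qbar l (Y.outer κ l G) I (Y.Zsh κ l I)

open Classical in
/-- the groups of colour `κ` with an actual current central use on `I` -/
noncomputable def cur (κ : ℕ) (I : Cell) : Finset ℕ :=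
  ((Y.B.pres I).image fun v => (Y.CS.cen I v).getD 0).filter fun G => Y.CS.use G I ∧ Y.CS.gcol G = κ

/-- the contribution of the leaf `κ` on the cell `I` -/
noncomputable def leafForm (κ : ℕ) (I : Cell) : ℂ :=
  ∑ G ∈ Y.cur κ I, formV I (Y.X.w I) fun l => Y.Z κ l G I

/-- the whole usable-range space of the group `G` in the slot `l`: span of the main columns on ENTIRE usable endpoint cells whose pad
masks contain their tags -/
noncomputable def uspace (l : Fin 4) (G : ℕ) : Submodule ℂ XV :=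
  Submodule.span ℂ {x | ∃ Φ ∈ Y.cat.cols, ∃ I : Cell, I ≤ Φ.birth ∧ Y.cat.slot Φ.lab = l ∧ Y.CS.usable G I ∧
    (∃ h ≤ Y.p.Hmax, Y.cat.vtx Φ.lab ∈ Y.CS.mask G h I) ∧ x = Φ.vec I}

/-! ### validity of the main construction -/

/-- What the main construction of Sec. 6 guarantees (budget `Dm = D_m`, `m0` = bound for the lengths of histories). -/
structure Valid (Dm : ℝ) (m0 : ℕ) : Prop where
  adm : Y.p.Adm
  P_pos : 1 ≤ Y.p.P
  /-- number of colours and history length are small -/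
  L_le : (Y.p.L : ℝ) ≤ Dm
  hist_len : ∀ κ l, (Y.hist κ l).length ≤ m0
  /-- present vertices = labels of the basic columns available on the cell (cells below the root only) -/
  pres_iff : ∀ I v, v ∈ Y.B.pres I ↔ I ≤ Y.X.root ∧
    ∃ l c, ∃ I' ∈ Y.X.T, ∃ Φ ∈ Y.X.cat l c I', Φ.lab = v ∧ I ≤ Φ.birth
  /-- the basic columns are the columns of rank zero, attached to themselves -/
  basic : ∀ l c, ∀ I ∈ Y.X.T, ∀ Φ ∈ Y.X.cat l c I, Φ ∈ Y.cat.cols ∧ Y.cat.slot Φ.lab = l ∧ Y.cat.vtx Φ.lab = Φ.lab ∧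
    Y.cat.rank Φ.lab = 0 ∧ Y.cat.chart Φ.lab = Y.X.chart Φ.lab
  rank0 : ∀ Φ ∈ Y.cat.cols, Y.cat.rank Φ.lab = 0 → ∃ l c, ∃ I ∈ Y.X.T, Φ ∈ Y.X.cat l c I
  rank_le : ∀ Φ ∈ Y.cat.cols, Y.cat.rank Φ.lab ≤ Y.p.L + 4
  /-- inserted columns: private weight one, born on an active cell, attached to a vertex present at birth -/
  fresh : ∀ Φ ∈ Y.cat.cols, 0 < Y.cat.rank Φ.lab → Φ.eps = 1 ∧ Φ.birth ∈ Y.X.S ∧ Y.cat.vtx Φ.lab ∈ Y.B.pres Φ.birth
  lab_inj : ∀ Φ ∈ Y.cat.cols, ∀ Φ' ∈ Y.cat.cols, Φ.lab = Φ'.lab → Φ = Φ'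
  /-- the budget of Sec. 3.2 for the whole main catalog (P2): bounded chart atoms, complexity, private weights, path count of births -/
  bud : Bud Y.X.root Y.cat.avail Y.cat.chart Dm

/-- **P5 = Lemma 6.5** (primal form): Bessel separation of the usable endpoint spaces of distinct groups of one colour. -/
def BesselGoal : Prop :=
  ∀ (l : Fin 4) (κ : ℕ) (gs : Finset ℕ), (∀ G ∈ gs, Y.CS.gcol G = κ) →
  ∀ x : ℕ → XV, (∀ G ∈ gs, x G ∈ Y.uspace l G) → ‖∑ G ∈ gs, x G‖ ^ 2 ≤ 2 * ∑ G ∈ gs, ‖x G‖ ^ 2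

open Classical in
/-- **P4 = Proposition 6.8**: localization into current groups, with total absolute length-weighted error `≤ E |R|`, on the active cells
without marking failure. -/
def Goal68 (E : ℝ) : Prop :=
  ∑ I ∈ Y.X.S.filter Y.CS.good,
    I.len * ‖formV I (Y.X.w I) (Y.X.arg Y.pat I) - ∑ κ ∈ Finset.Icc 1 Y.p.L, Y.leafForm κ I‖ ≤ E * Y.X.root.len

/-! ### helper catalogs and the transfer of complementary filters (Lemma 6.9) -/

/-- validity of a helper catalog (budget `Dm`) -/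
structure HelpValid (hc : LocCat) (Dm : ℝ) : Prop where
  ext : Y.cat.Ext hc Y.hrank
  fresh : ∀ Φ ∈ hc.cols, Φ ∉ Y.cat.cols → Φ.eps = 1 ∧ Φ.birth ∈ Y.X.S ∧ hc.vtx Φ.lab ∈ Y.B.pres Φ.birth
  lab_inj : ∀ Φ ∈ hc.cols, ∀ Φ' ∈ hc.cols, Φ.lab = Φ'.lab → Φ = Φ'
  bud : Bud Y.X.root hc.avail hc.chart Dm

/-- the positive histories of the whole argument `Z_{l,G}` with their signs (outer ball filter first) -/
def posHist (κ : ℕ) (l : Fin 4) (G : ℕ) : List (ℤ × List LocFilt) :=
  (loc_expand (Y.hist κ l)).map fun x => (x.1, Y.outer κ l G :: x.2)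

/-- the four arguments of the band term `(pa, pc)` of a transfer step, roles `a b c d` -/
noncomputable def stepArgs (hc : LocCat) (a b c d : Fin 4) (Sa Sb : XV) (I : Cell) (t : LocTStep) (pa pc : ℕ) : Fin 4 → XV :=
  put4 a b c
    (Y.bandH hc a t.f pa I (Y.evalD hc a I t.ha Sa))
    Sb
    (if t.fromC then Y.bandM c t.f pc I (Y.evalP c I t.hc (Y.X.B c I)) else Y.evalP c I t.hc (Y.X.B c I))
    (if t.fromC then Y.evalP d I t.hd (Y.X.B d I) else Y.bandM d t.f pc I (Y.evalP d I t.hd (Y.X.B d I)))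

open Classical in
/-- the retained coupled near bands `|pa - pc| ≤ 2` of **(15)** for one transfer step -/
noncomputable def nearBand (hc : LocCat) (a b c d : Fin 4) (Sa Sb : XV) (I : Cell) (t : LocTStep) : ℂ :=
  ∑ pa ∈ Finset.Icc 1 (Y.p.P + 1), ∑ pc ∈ (Finset.Icc 1 (Y.p.P + 1)).filter (fun pc => pa ≤ pc + 2 ∧ pc ≤ pa + 2),
    ((((pa : ℤ) - (pc : ℤ) : ℤ) : ℂ) / (Y.p.P : ℂ)) * formV I (Y.X.w I) (Y.stepArgs hc a b c d Sa Sb I t pa pc)

/-- the transferred main term `H_I(𝒟_{a,s} S_a, S_b, B_c, B_d)` for a pair of positive histories -/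
noncomputable def mainTerm (hc : LocCat) (a b c d : Fin 4) (Sa Sb : XV) (I : Cell) (h h' : List LocFilt) : ℂ :=
  formV I (Y.X.w I) (put4 a b c (Y.evalD hc a I (loc_tfinal Y.p [] h h') Sa) Sb (Y.X.B c I) (Y.X.B d I))

/-- main terms plus retained near bands, summed over the expansions of the complements in the slots `c`, `d` -/
noncomputable def transferSum (hc : LocCat) (κ : ℕ) (a b c d : Fin 4) (G : ℕ) (Sa Sb : XV) (I : Cell) : ℂ :=
  ((Y.posHist κ c G).map fun x => ((Y.posHist κ d G).map fun x' =>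
    ((x.1 * x'.1 : ℤ) : ℂ) * (Y.mainTerm hc a b c d Sa Sb I x.2 x'.2 +
      ((loc_tsteps Y.p [] x.2 x'.2).map fun t => Y.nearBand hc a b c d Sa Sb I t).sum)).sum).sum

/-- **P8 = Lemma 6.9** for the leaf `κ`, roles `a b c d` (`c`, `d` basic-`B` slots), side states `Sa Sb` (indexed by group and cell):
at every actual use the two-side term equals the transferred main terms plus the retained near bands, up to
`E ‖S_a‖_{2,I} ‖S_b‖_{2,I}`. -/
def TransferGoal (hc : LocCat) (κ : ℕ) (a b c d : Fin 4) (Sa Sb : ℕ → Cell → XV) (E : ℝ) : Prop :=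
  ∀ I ∈ Y.X.S, Y.CS.good I → ∀ G ∈ Y.cur κ I,
    ‖formV I (Y.X.w I) (put4 a b c (Sa G I) (Sb G I) (Y.Z κ c G I) (Y.Z κ d G I)) -
        Y.transferSum hc κ a b c d G (Sa G I) (Sb G I) I‖ ≤ E * n2 I (Sa G I) * n2 I (Sb G I)

end LocSys

end Claimed.Agent.R258
end

/- ===== packed: Claimed.Agent.R258.Weyl.Defs ===== -/
section
/-
Row 258 (S0498).  Lemma 4.3 "Scale-wise Weyl alternative" (charts.tex l.118-345).  DEFINITIONS (prefix `wy_`).
Architect: helper197.   Consumers: [S4a] helper78, [S6] helper68 / helper70, Sec. 5 (base.tex l.774).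

All index types are arbitrary finite types: `ι` = horizontal coordinates (`d = card ι`), `κ` = variables (`k = card κ`).
All sizes are SUP norms of coordinates / entries.  "Quasipolynomial in X" = `≤ wy_qp c X = exp (c (1 + log X)^c)`, `c : ℕ` absolute.

* `wy_Splits H C V Lam Pf`  : display (2) of the paper, with the rational orthogonal projection `Pf` onto the fast space `U`.
* `wy_SplitsEx H C V Lam`   : `∃ Pf`.
* `wy_Omega C V Lam h m`    : the frequency increment `Ω(h,m) = (2Λ + VᵀCV) h - Vᵀ(C - Cᵀ) m` of a return `V h = m + d_h`.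
* `wy_RetBound P C V Lam a B` : `|Ω(h,m)| ≤ B` for all returns with `m ∈ P ℤ^ι`, `|h|, |d_h| ≤ a`.
* `wy_Q C V Lam b χ`        : the multivariable chart function `Q(z)`.
* `wy_Amp H f`              : support / size / Lipschitz bounds of an amplitude.
-/
set_option autoImplicit false
open MeasureTheory Matrix

namespace Claimed.Agent.R258

/-- quasipolynomial budget in ONE master parameter `X ≥ 1`: `exp (c (1 + log X)^c)` -/
noncomputable def wy_qp (c : ℕ) (X : ℝ) : ℝ := Real.exp ((c : ℝ) * (1 + Real.log X) ^ c)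

/-- a rational matrix as a real matrix -/
def wy_R {m n : Type*} (C : Matrix m n ℚ) : Matrix m n ℝ := C.map (fun q : ℚ => (q : ℝ))

/-- an integer vector as a real vector -/
def wy_Z {n : Type*} (m : n → ℤ) : n → ℝ := fun i => (m i : ℝ)

section
variable {ι κ : Type*} [Fintype ι] [Fintype κ]

/-- the effective quadratic matrix `Λ_* = Λ + ½ Vᵀ C_sy V + sym (V_fᵀ C_sk V_s)`, `V_f = P_f V`, `V_s = V - V_f` -/
noncomputable def wy_LamStar (C : Matrix ι ι ℚ) (V : Matrix ι κ ℝ) (Lam : Matrix κ κ ℝ) (Pf : Matrix ι ι ℚ) :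
    Matrix κ κ ℝ :=
  Lam + (1 / 2 : ℝ) • (Vᵀ * ((1 / 2 : ℝ) • (wy_R C + (wy_R C)ᵀ)) * V)
    + (1 / 2 : ℝ) • ((wy_R Pf * V)ᵀ * ((1 / 2 : ℝ) • (wy_R C - (wy_R C)ᵀ)) * (V - wy_R Pf * V)
        + ((wy_R Pf * V)ᵀ * ((1 / 2 : ℝ) • (wy_R C - (wy_R C)ᵀ)) * (V - wy_R Pf * V))ᵀ)

/-- **Display (2)**: the rational orthogonal projection `Pf` (onto the fast space `U`) splits the data `(C, V, Λ)` at height `H`. -/
structure wy_Splits [DecidableEq ι] (H : ℝ) (C : Matrix ι ι ℚ) (V : Matrix ι κ ℝ) (Lam : Matrix κ κ ℝ)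
    (Pf : Matrix ι ι ℚ) : Prop where
  idem : Pf * Pf = Pf
  symm : Pfᵀ = Pf
  height : ∀ i j, (qHeight (Pf i j) : ℝ) ≤ H
  height' : ∀ i j, (qHeight ((1 - Pf) i j) : ℝ) ≤ H
  /-- `A = C - Cᵀ` vanishes on `U × U` -/
  iso : Pfᵀ * (C - Cᵀ) * Pf = 0
  /-- `‖V_s‖ ≤ H` -/
  slow : ∀ i a, |(V - wy_R Pf * V) i a| ≤ H
  /-- `‖Λ_*‖ ≤ H` -/
  quad : ∀ a b, |wy_LamStar C V Lam Pf a b| ≤ H

/-- the data admit the splitting (2) at height `H` -/
def wy_SplitsEx [DecidableEq ι] (H : ℝ) (C : Matrix ι ι ℚ) (V : Matrix ι κ ℝ) (Lam : Matrix κ κ ℝ) : Prop :=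
  ∃ Pf : Matrix ι ι ℚ, wy_Splits H C V Lam Pf

/-- `Ω(h,m) = (2Λ + VᵀCV) h - Vᵀ (C - Cᵀ) m` -/
noncomputable def wy_Omega (C : Matrix ι ι ℚ) (V : Matrix ι κ ℝ) (Lam : Matrix κ κ ℝ) (h : κ → ℝ) (m : ι → ℤ) : κ → ℝ :=
  ((2 : ℝ) • Lam + Vᵀ * wy_R C * V) *ᵥ h - (Vᵀ * (wy_R C - (wy_R C)ᵀ)) *ᵥ wy_Z m

/-- `(h, m)` is a return of size `≤ s` with period `P`: `m ∈ P ℤ^ι`, `|h| ≤ s`, `|V h - m| ≤ s` -/
def wy_IsRet (P : ℕ) (V : Matrix ι κ ℝ) (s : ℝ) (h : κ → ℝ) (m : ι → ℤ) : Prop :=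
  (∀ i, (P : ℤ) ∣ m i) ∧ (∀ j, |h j| ≤ s) ∧ ∀ i, |(V *ᵥ h) i - (m i : ℝ)| ≤ s

/-- the return bound: `|Ω(h,m)| ≤ B` on all returns of size `≤ a` -/
def wy_RetBound (P : ℕ) (C : Matrix ι ι ℚ) (V : Matrix ι κ ℝ) (Lam : Matrix κ κ ℝ) (a B : ℝ) : Prop :=
  ∀ (h : κ → ℝ) (m : ι → ℤ), wy_IsRet P V a h m → ∀ j, |wy_Omega C V Lam h m j| ≤ B

/-- `P` clears the denominators of `C` -/
def wy_Clears (P : ℕ) (C : Matrix ι ι ℚ) : Prop := 0 < P ∧ ∀ i j, ∃ z : ℤ, (P : ℚ) * C i j = (z : ℚ)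

/-- `Q(z) = e(zᵀΛz + bᵀz) ∑_n χ(Vz - n) e((Vz)ᵀ C (Vz - n))` -/
noncomputable def wy_Q (C : Matrix ι ι ℚ) (V : Matrix ι κ ℝ) (Lam : Matrix κ κ ℝ) (b : κ → ℝ) (χ : (ι → ℝ) → ℂ)
    (z : κ → ℝ) : ℂ :=
  ee (z ⬝ᵥ (Lam *ᵥ z) + b ⬝ᵥ z) *
    ∑' n : ι → ℤ, χ (V *ᵥ z - wy_Z n) * ee ((V *ᵥ z) ⬝ᵥ (wy_R C *ᵥ (V *ᵥ z - wy_Z n)))

/-- support, size and Lipschitz constant (sup norm of `n → ℝ`) of an amplitude are at most `H` -/
structure wy_Amp {n : Type*} [Fintype n] (H : ℝ) (f : (n → ℝ) → ℂ) : Prop where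
  supp : ∀ x, f x ≠ 0 → ∀ i, |x i| ≤ H
  bdd : ∀ x, ‖f x‖ ≤ H
  lip : ∀ x y, ‖f x - f y‖ ≤ H * ‖x - y‖

/-- the standing size hypotheses in the master parameter `X`: dimensions `≤ 1 + log X`, heights of `C` at most `X` -/
structure wy_Std (X : ℝ) (C : Matrix ι ι ℚ) (κ' : Type*) [Fintype κ'] : Prop where
  one_le : 1 ≤ X
  dim : (Fintype.card ι : ℝ) ≤ 1 + Real.log X
  dim' : (Fintype.card κ' : ℝ) ≤ 1 + Real.log X
  height : ∀ i j, (qHeight (C i j) : ℝ) ≤ X

end

end Claimed.Agent.R258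
end

/- ===== packed: Claimed.Agent.R258.S6a.Defs ===== -/
section
/-
Row 258 (S0498), BLOCK [S6a] (architect helper70): the analytic tag lemmas of Sec. 6 (localization.tex):
  L6.1 `lem:tag-separation` (two parts), L6.2 `lem:curvature-path`, L6.6 `lem:same-tag`.
DEFINITIONS.  Everything here is for ONE real variable (`k = 1` in statement (2) of charts.tex).

* `slotC`            : `c = (-1, 3, -3, 1)`;
* `LocTag`           : normalized curvature tag `(θ, C, λ)`;  `Chart.tag a i` : the tag of the chart `a` sitting in the slot `i`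
                       (curvature data divided by `c_i`);
* `ratM`             : a rational matrix as a real matrix;
* `effCurv`, `Split1`: statement (2) (`eq:src-2`) for `k = 1`, on an ARBITRARY finite index type (sup norms, `qHeight`);
* `locV, locC, locLam, locEdge` : difference data of two tags at depth `s`, edges of the ambient graph;
* `retOm`, `RetBdd`  : the frequency increment `Ω(h,m)` of a return, "all returns below `a` have `|Ω| ≤ B`";
* `W3Goal`           : the algebraic part (W3) of Lemma 4.3 (owner helper197), consumed as a hypothesis;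
* `ClearsDen`        : `P C` is integral;
* `slotXi, slotZe`   : `y_l = ξ_l y_a + ζ_l y_b`;  `kerUV` : the kernel in the coordinates `(y_a, y_b)`;
* `tmpl`             : the template charts of L6.6;  `smom` : normalized scalar moment `⨍_I f \bar φ`.
-/
set_option autoImplicit false
open MeasureTheory
open scoped ENNReal ContDiff Matrix

namespace Claimed.Agent.R258

/-! ## Tags -/

/-- `c = (-1, 3, -3, 1)` -/
def slotC (i : Fin 4) : ℚ := ![-1, 3, -3, 1] i

/-- normalized curvature tag `p_v = (θ_v, C_v, λ_v)` -/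
structure LocTag where
  dim : ℕ
  th : Fin dim → ℝ
  C : Matrix (Fin dim) (Fin dim) ℚ
  lam : ℝ

/-- the normalized tag of a chart sitting in the slot `i`: its curvature data divided by `c_i` -/
noncomputable def Chart.tag (a : Chart) (i : Fin 4) : LocTag :=
  ⟨a.d, a.th, (slotC i)⁻¹ • a.C, a.lam / ((slotC i : ℚ) : ℝ)⟩

/-! ## The splitting (2), `k = 1` -/

section split
variable {n : Type*} [Fintype n] [DecidableEq n]

/-- a rational matrix as a real matrix -/
def ratM {m n : Type*} (M : Matrix m n ℚ) : Matrix m n ℝ := M.map fun q : ℚ => (q : ℝ)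

/-- the effective curvature `Λ_* = Λ + ½ VᵀC V + (P_f V)ᵀ C_sk (P_s V)` (`k = 1`: `VᵀC_sy V = VᵀC V`, `sym` is trivial) -/
noncomputable def effCurv (Pf C : Matrix n n ℚ) (V : n → ℝ) (Lam : ℝ) : ℝ :=
  Lam + (1 / 2) * (V ⬝ᵥ (ratM C *ᵥ V)) +
    (ratM Pf *ᵥ V) ⬝ᵥ (ratM ((1 / 2 : ℚ) • (C - Cᵀ)) *ᵥ (V - ratM Pf *ᵥ V))

/-- statement (2) with heights and sizes at most `H` -/
def Split1 (H : ℝ) (V : n → ℝ) (C : Matrix n n ℚ) (Lam : ℝ) : Prop :=
  ∃ Pf : Matrix n n ℚ, Pf * Pf = Pf ∧ Pfᵀ = Pf ∧ (∀ i j, (qHeight (Pf i j) : ℝ) ≤ H) ∧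
    Pf * (C - Cᵀ) * Pf = 0 ∧ (∀ i, |V i - (ratM Pf *ᵥ V) i| ≤ H) ∧ |effCurv Pf C V Lam| ≤ H

/-- `Ω(h,m) = (2Λ + VᵀCV) h - Vᵀ(C - Cᵀ) m` -/
noncomputable def retOm (V : n → ℝ) (C : Matrix n n ℚ) (Lam : ℝ) (h : ℝ) (m : n → ℤ) : ℝ :=
  (2 * Lam + V ⬝ᵥ (ratM C *ᵥ V)) * h - V ⬝ᵥ (ratM (C - Cᵀ) *ᵥ fun i => (m i : ℝ))

/-- every return `V h = m + d`, `m ∈ P ℤ^n`, `|h|, |d|_∞ ≤ a`, has `|Ω(h,m)| ≤ B` -/
def RetBdd (V : n → ℝ) (C : Matrix n n ℚ) (Lam : ℝ) (P : ℕ) (a B : ℝ) : Prop :=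
  ∀ (h : ℝ) (m : n → ℤ), (∀ i, (P : ℤ) ∣ m i) → |h| ≤ a → (∀ i, |V i * h - (m i : ℝ)| ≤ a) →
    |retOm V C Lam h m| ≤ B

/-- `P C` is an integral matrix -/
def ClearsDen (P : ℕ) (C : Matrix n n ℚ) : Prop := ∀ i j, ∃ z : ℤ, (P : ℚ) * C i j = z

end split

/-- **(W3)**, the algebraic part of the proof of Lemma 4.3 (`lem:weyl`) for `k = 1`: a uniform bound for `Ω` on all returns below a
threshold gives the splitting (2) at quasipolynomial height.  This is `wy_W3` of block [Weyl] (owner helper197) for `κ = Unit`, in the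
master parameter `X` (`wy_qp c X = exp (c (1 + log X)^c)`); the bridge is S6a/W3Bridge.lean. -/
def W3Goal (c : ℕ) : Prop :=
  ∀ (ι : Type) [Fintype ι] [DecidableEq ι] (V : ι → ℝ) (C : Matrix ι ι ℚ) (Lam : ℝ) (P : ℕ) (X a B : ℝ),
    1 ≤ X → (Fintype.card ι : ℝ) ≤ 1 + Real.log X → (∀ i j, (qHeight (C i j) : ℝ) ≤ X) →
    0 < P → ClearsDen P C → (P : ℝ) ≤ X → 1 / X ≤ a → B ≤ X → RetBdd V C Lam P a B →
    Split1 (wy_qp c X) V C Lam

/-! ## Difference data, edges -/

/-- `V = r (θ_v ; θ_w)`, `r = 2^{-s}` -/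
noncomputable def locV (s : ℤ) (v w : LocTag) : Fin v.dim ⊕ Fin w.dim → ℝ :=
  Sum.elim (fun a => (2 : ℝ) ^ (-s) * v.th a) fun b => (2 : ℝ) ^ (-s) * w.th b

/-- `C = diag (C_v, -C_w)` -/
def locC (v w : LocTag) : Matrix (Fin v.dim ⊕ Fin w.dim) (Fin v.dim ⊕ Fin w.dim) ℚ :=
  Matrix.fromBlocks v.C 0 0 (-w.C)

/-- `Λ = r² (λ_v - λ_w)` -/
noncomputable def locLam (s : ℤ) (v w : LocTag) : ℝ := ((2 : ℝ) ^ (-s)) ^ 2 * (v.lam - w.lam)

/-- the (oriented) edge relation of the ambient graph at depth `s` -/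
def locEdge (Hed : ℝ) (s : ℤ) (v w : LocTag) : Prop :=
  Split1 Hed (locV s v w) (locC v w) (locLam s v w)

/-! ## Spectator coordinates -/

/-- `ξ_l = (b - l)/(b - a)` -/
noncomputable def slotXi (a b l : Fin 4) : ℝ := (((b : ℕ) : ℝ) - ((l : ℕ) : ℝ)) / (((b : ℕ) : ℝ) - ((a : ℕ) : ℝ))

/-- `ζ_l = (l - a)/(b - a)` -/
noncomputable def slotZe (a b l : Fin 4) : ℝ := (((l : ℕ) : ℝ) - ((a : ℕ) : ℝ)) / (((b : ℕ) : ℝ) - ((a : ℕ) : ℝ))

/-- the kernel in the coordinates `(u, v) = (y_a, y_b)`: `x = ξ_0 u + ζ_0 v`, `t = (v - u)/(b - a)` -/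
noncomputable def kerUV (a b : Fin 4) (w : ℝ × ℝ → ℂ) (p : ℝ × ℝ) : ℂ :=
  w (slotXi a b 0 * p.1 + slotZe a b 0 * p.2, (p.2 - p.1) / (((b : ℕ) : ℝ) - ((a : ℕ) : ℝ)))

/-- normalized scalar moment `⨍_I f \bar φ` -/
noncomputable def smom (I : Cell) (f φ : ℝ → ℂ) : ℂ :=
  (I.len⁻¹ : ℝ) * ∫ y in I.set, f y * (starRingEnd ℂ) (φ y)

/-! ## Templates (L6.6) -/

/-- the template chart of tag `v` in the slot `j`: amplitude `ρ_d(x) e(ℓ·x / P0)`, `ρ_d(x) = ∏_c ρ(x_c)`, linear modulation `β` -/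
noncomputable def tmpl (ρ : ℝ → ℝ) (v : LocTag) (j : Fin 4) (P0 : ℕ) (l : Fin v.dim → ℕ) (β : ℝ) : Chart where
  d := v.dim
  th := v.th
  C := slotC j • v.C
  lam := ((slotC j : ℚ) : ℝ) * v.lam
  bet := β
  chi := fun x => ((∏ c, ρ (x c) : ℝ) : ℂ) * ee (∑ c, (l c : ℝ) * x c / (P0 : ℝ))
  unit := 1

/-- a one-dimensional smooth partition of unity (to be supplied by block [GEV]) -/
structure IsPou (ρ : ℝ → ℝ) : Prop where
  smooth : ContDiff ℝ ∞ ρ
  nonneg : ∀ x, 0 ≤ ρ x
  supp : ∀ x, ρ x ≠ 0 → |x| ≤ 1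
  sum_one : ∀ x, ∑' n : ℤ, ρ (x - (n : ℝ)) = 1

end Claimed.Agent.R258
end

/- ===== packed: Claimed.Agent.R258.Loc.TagSys ===== -/
section
/-
Row 258 (S0498), Sec. 6.1 (architect helper68), layer 6.A: the ambient graph of all hypothetical curvature tags satisfying the fixed
basic bounds, and its scale dependent graph distances `d_s` as a `LocTagSys`.
Edges = `locEdge` of [S6a] (`S6a/Defs.lean`, helper70).
-/
set_option autoImplicit false
set_option linter.unusedSectionVars false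

namespace Claimed.Agent.R258

open scoped Matrix

/-- the fixed basic bounds on a hypothetical tag: dimension `≤ dmax`, height of `C` at most `Hb` -/
def LocTag.Ok (t : LocTag) (dmax : ℕ) (Hb : ℝ) : Prop :=
  t.dim ≤ dmax ∧ ∀ i j, (qHeight (t.C i j) : ℝ) ≤ Hb

/-- the ambient graph at depth `s` -/
def locGraph (Hed Hb : ℝ) (dmax : ℕ) (s : ℤ) : SimpleGraph LocTag :=
  SimpleGraph.fromRel fun v w => v.Ok dmax Hb ∧ w.Ok dmax Hb ∧ locEdge Hed s v w

section
variable {n : Type*} [Fintype n] [DecidableEq n]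

theorem loc_effCurv_smul (Pf C : Matrix n n ℚ) (V : n → ℝ) (Lam c : ℝ) :
    effCurv Pf C (c • V) (c ^ 2 * Lam) = c ^ 2 * effCurv Pf C V Lam := by
  unfold effCurv
  simp only [Matrix.mulVec_smul, ← smul_sub, smul_dotProduct, dotProduct_smul, smul_eq_mul]
  ring

/-- shrinking the scale keeps the splitting: `V` is multiplied by `c`, `Λ_*` by `c²`, the rational fast space is unchanged -/
theorem loc_split1_smul {H : ℝ} {V : n → ℝ} {C : Matrix n n ℚ} {Lam : ℝ} (h : Split1 H V C Lam) {c : ℝ}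
    (c0 : 0 ≤ c) (c1 : c ≤ 1) : Split1 H (c • V) C (c ^ 2 * Lam) := by
  obtain ⟨Pf, h1, h2, h3, h4, h5, h6⟩ := h
  refine ⟨Pf, h1, h2, h3, h4, fun i => ?_, ?_⟩
  · have h5i := h5 i
    have : (c • V) i - (ratM Pf *ᵥ (c • V)) i = c * (V i - (ratM Pf *ᵥ V) i) := by
      simp only [Matrix.mulVec_smul, Pi.smul_apply, smul_eq_mul]; ring
    rw [this, abs_mul, abs_of_nonneg c0]
    calc c * |V i - (ratM Pf *ᵥ V) i| ≤ 1 * |V i - (ratM Pf *ᵥ V) i| := by gcongr
      _ ≤ H := by rw [one_mul]; exact h5i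
  · rw [loc_effCurv_smul, abs_mul, abs_of_nonneg (sq_nonneg c)]
    have hc2 : c ^ 2 ≤ 1 := pow_le_one₀ c0 c1
    calc c ^ 2 * |effCurv Pf C V Lam| ≤ 1 * |effCurv Pf C V Lam| := by gcongr
      _ ≤ H := by rw [one_mul]; exact h6

end

/-- edges persist under refinement -/
theorem loc_edge_persist {Hed : ℝ} {s s' : ℤ} (hs : s ≤ s') {v w : LocTag} (h : locEdge Hed s v w) :
    locEdge Hed s' v w := by
  unfold locEdge at h ⊢
  have hc0 : (0 : ℝ) ≤ (2 : ℝ) ^ (-(s' - s)) := by positivity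
  have hc1 : (2 : ℝ) ^ (-(s' - s)) ≤ 1 := by
    apply zpow_le_one_of_nonpos₀ (by norm_num) (by omega)
  have key : (2 : ℝ) ^ (-s') = (2 : ℝ) ^ (-(s' - s)) * (2 : ℝ) ^ (-s) := by
    rw [← zpow_add₀ (by norm_num : (2 : ℝ) ≠ 0)]; congr 1; ring
  have h' := loc_split1_smul h hc0 hc1
  have e1 : locV s' v w = (2 : ℝ) ^ (-(s' - s)) • locV s v w := by
    funext i
    rcases i with a | b <;> simp only [locV, Sum.elim_inl, Sum.elim_inr, Pi.smul_apply, smul_eq_mul, key] <;> ring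
  have e2 : locLam s' v w = ((2 : ℝ) ^ (-(s' - s))) ^ 2 * locLam s v w := by
    simp only [locLam, key]; ring
  rw [e1, e2]
  exact h'

theorem locGraph_mono (Hed Hb : ℝ) (dmax : ℕ) {s s' : ℤ} (hs : s ≤ s') :
    locGraph Hed Hb dmax s ≤ locGraph Hed Hb dmax s' := by
  intro v w h
  simp only [locGraph, SimpleGraph.fromRel_adj] at h ⊢
  refine ⟨h.1, ?_⟩
  rcases h.2 with ⟨a, b, c⟩ | ⟨a, b, c⟩
  · exact Or.inl ⟨a, b, loc_edge_persist hs c⟩
  · exact Or.inr ⟨a, b, loc_edge_persist hs c⟩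

/-- **the distances `d_s`** of Sec. 6.1 -/
noncomputable def loc_tagSys (Hed Hb : ℝ) (dmax : ℕ) : LocTagSys LocTag where
  d := fun s v w => (locGraph Hed Hb dmax s).edist v w
  d_self := fun _ _ => SimpleGraph.edist_self
  d_symm := fun _ _ _ => SimpleGraph.edist_comm
  d_tri := fun _ _ _ _ => SimpleGraph.edist_triangle
  d_anti := fun _ _ _ _ hs => SimpleGraph.edist_anti (locGraph_mono Hed Hb dmax hs)

/-- distance `> 1` means: distinct and not joined -/
theorem loc_one_lt_d_iff (Hed Hb : ℝ) (dmax : ℕ) (s : ℤ) (v w : LocTag) :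
    1 < (loc_tagSys Hed Hb dmax).d s v w ↔ v ≠ w ∧ ¬ (locGraph Hed Hb dmax s).Adj v w := by
  show 1 < (locGraph Hed Hb dmax s).edist v w ↔ _
  rw [← not_le, SimpleGraph.edist_le_one_iff_adj_or_eq, not_or]
  exact and_comm

/-- for tags within the basic bounds, distance `> 1` excludes both oriented edges -/
theorem loc_not_edge_of_one_lt {Hed Hb : ℝ} {dmax : ℕ} {s : ℤ} {v w : LocTag} (hv : v.Ok dmax Hb) (hw : w.Ok dmax Hb)
    (h : 1 < (loc_tagSys Hed Hb dmax).d s v w) : ¬ locEdge Hed s v w ∧ ¬ locEdge Hed s w v := by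
  obtain ⟨hne, hadj⟩ := (loc_one_lt_d_iff Hed Hb dmax s v w).1 h
  simp only [locGraph, SimpleGraph.fromRel_adj, not_and, not_or] at hadj
  have := hadj hne
  exact ⟨fun e => this.1 hv hw e, fun e => this.2 hw hv e⟩

end Claimed.Agent.R258
end

/- ===== packed: Claimed.Agent.R258.Loc.IfaceTag ===== -/
section
/-
Row 258 (S0498), DESIGN CREW, home section 6 (architect helper68).
THE INTERFACE OF Sec. 6, part 2: tags, what Sec. 6 consumes from [S6a] (L6.1, L6.2, L6.6), the closure tests (13),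
and the TOP-LEVEL GOALS of the section:

  `LocMainGoal`   = main construction (Secs. 6.1-6.5): colours, masks, main catalog closure, Prop. 6.8, Lemma 6.5, endpoint splittings;
  `LocHelperGoal` = helper closure on fixed side states + Lemma 6.9 (transfer).

Consumers (Secs. 7, 8, 10) use `LocSys.Valid`, `Goal68`, `BesselGoal`, `EndpointGoal`, `HelpValid`, `TransferGoal`; the predicate `LocSys.Inner`
(closure tests, separation, rank counts) is only passed from `LocMainGoal` to `LocHelperGoal`.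
-/
set_option autoImplicit false
open MeasureTheory

namespace Claimed.Agent.R258

/-! ## What Sec. 6 consumes from [S6a] -/

/-- **L6.1** for a distance system `T`: bounded atoms of complexity `≤ Hc`, whose tags satisfy the fixed basic bounds `Ok dmax Hb` and are at
distance `> 1` at the depth of `I`. -/
structure LocSepOk (T : LocTagSys LocTag) (c0 C0 Hc τ2 : ℝ) (dmax : ℕ) (Hb : ℝ) : Prop where
  /-- same slot: normalized physical inner product -/
  same : ∀ (a a' : Chart) (i : Fin 4) (I : Cell), a.Cplx Hc → a'.Cplx Hc → a.Bdd → a'.Bdd →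
    (a.tag i).Ok dmax Hb → (a'.tag i).Ok dmax Hb →
    1 < T.d I.depth (a.tag i) (a'.tag i) → ‖smom I a.eval a'.eval‖ ≤ τ2
  /-- distinct slots: form norm against two arbitrary `L²(I)` spectators -/
  cross : ∀ (a a' : Chart) (i j : Fin 4) (I : Cell) (w : ℝ × ℝ → ℂ), i ≠ j → Admissible c0 C0 I w →
    a.Cplx Hc → a'.Cplx Hc → a.Bdd → a'.Bdd → (a.tag i).Ok dmax Hb → (a'.tag j).Ok dmax Hb →
    1 < T.d I.depth (a.tag i) (a'.tag j) →
    ∀ g : Fin 4 → ℝ → ℂ, (∀ l, MemLp (g l) 2 (volume.restrict I.set)) → g i = a.eval → g j = a'.eval →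
      ‖form I w g‖ ≤ τ2 * ∏ l ∈ (Finset.univ.erase i).erase j, nnorm 2 I (g l)

/-- **L6.2** for a distance system `T`: tags at distance `≤ Lp` at depth `s` have the splitting (2) in their own endpoint coordinates. -/
def LocPathOk (T : LocTagSys LocTag) (Lp : ℕ) (Hpath : ℝ) : Prop :=
  ∀ (s : ℤ) (v w : LocTag), T.d s v w ≤ (Lp : ℕ∞) → locEdge Hpath s v w

/-- **L6.6**: the uniform same-tag test.  A source atom in the slot `i` (tag `Ok dmax Hb`) with form norm `> t0` against the residual `x` in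
the slot `j` forces a moment `≥ t0 / H0` of `x` against a bounded atom of the same normalized tag in the slot `j`, of complexity `≤ Hc`
again (the complexity of the templates depends only on the bounds of the TAG: no growth under iteration). -/
def LocSameTagOk (c0 C0 Hc H0 : ℝ) (dmax : ℕ) (Hb : ℝ) : Prop :=
  ∀ (Φ : Col) (a : Chart) (i j : Fin 4) (I : Cell) (w : ℝ × ℝ → ℂ) (x : XV) (t0 : ℝ), i ≠ j → Admissible c0 C0 I w →
    Φ.phi = a.eval → a.Cplx Hc → a.Bdd → (a.tag i).Ok dmax Hb → 0 < t0 → ¬ PairSmall I w i j (Φ.vec I) x t0 →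
    ∃ ψ : Chart, ψ.tag j = a.tag i ∧ ψ.Cplx Hc ∧ ψ.Bdd ∧ t0 / H0 ≤ ‖mom I x ψ.eval‖

/-! ## Closure tests (13) -/

/-- `x` has no component in the private coordinates of the labels `≥ N0` -/
def LabFree (N0 : ℕ) (x : XV) : Prop := ∀ v, N0 ≤ v → ∀ᵐ y ∂(volume : Measure ℝ), (x : ℝ → HV) y (v + 1) = 0

namespace LocSys

variable (Y : LocSys LocTag)

/-- the tolerance (13) at the target rank `r`: `τ₃ / (D √n_{r-1})` -/
noncomputable def tol (D τ3 : ℝ) (n : ℕ → ℝ) (r : ℕ) : ℝ := τ3 / (D * Real.sqrt (n (r - 1)))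

/-- the NAMED filters of a cell: cumulative filters at the splits `1 ≤ m ≤ 𝓛`, the four ball filters of the groups with an actual current
use on the cell (at most `𝓛 + 4 D` names) -/
def Named (I : Cell) : LocFilt → Prop
  | .cum m => 1 ≤ m ∧ m ≤ Y.p.L
  | .ball j G => 1 ≤ j ∧ j ≤ 4 ∧ Y.CS.use G I

/-- **(13), main closure**: every individual residual projection of a named filter, applied to every history of length `≤ m0` of named
smeared filters and complements on the basic argument, tested against every available lower-rank source whose tag lies in the target mask. -/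
def Closed (D τ3 : ℝ) (n : ℕ → ℝ) (m0 : ℕ) : Prop :=
  ∀ I ∈ Y.X.S, Y.CS.good I → ∀ (l : Fin 4) (f : LocFilt) (pd : ℕ), Y.Named I f → 1 ≤ pd → pd ≤ Y.p.P →
  ∀ h : LocHist, h.length ≤ m0 → (∀ e ∈ h, Y.Named I e.1) →
  ∀ Φ ∈ Y.cat.cols, I ≤ Φ.birth → Y.cat.slot Φ.lab ≠ l → Y.cat.rank Φ.lab < f.rank Y.p →
    Y.cat.vtx Φ.lab ∈ Y.msk f (f.pad0 Y.p + pd) I →
    PairSmall I (Y.X.w I) (Y.cat.slot Φ.lab) l (Φ.vec I)
      ((restr I.set - Y.Qm l f pd I) (Y.evalH l I h (Y.z l I))) (tol D τ3 n (f.rank Y.p) * n2 I (Y.z l I))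

/-- **(13), helper closure** on the bases `bases I` (pairs slot, whole side state): sources are main columns only. -/
def HClosed (hc : LocCat) (bases : Cell → Finset (Fin 4 × XV)) (D τ3 : ℝ) (n : ℕ → ℝ) (m0 : ℕ) : Prop :=
  ∀ I ∈ Y.X.S, Y.CS.good I → ∀ x ∈ bases I, ∀ (f : LocFilt) (pd : ℕ), Y.Named I f → 1 ≤ pd → pd ≤ Y.p.P →
  ∀ h : List LocFilt, h.length ≤ m0 → (∀ e ∈ h, Y.Named I e) →
  ∀ Φ ∈ Y.cat.cols, I ≤ Φ.birth → Y.cat.slot Φ.lab ≠ x.1 → Y.cat.vtx Φ.lab ∈ Y.msk f (f.pad0 Y.p + pd) I →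
    PairSmall I (Y.X.w I) (Y.cat.slot Φ.lab) x.1 (Φ.vec I)
      ((restr I.set - Y.Qh hc x.1 f pd I) (Y.evalD hc x.1 I h x.2)) (tol D τ3 n Y.hrank * n2 I x.2)

/-- the numerical accuracies of one attempt -/
structure Acc where
  /-- base budget `D = D_base` -/
  D : ℝ
  /-- main/helper budget `D_m` (it anticipates the helper count) -/
  Dm : ℝ
  /-- active path multiplicity -/
  M : ℝ
  /-- single column complexity -/
  Hc : ℝ
  H0 : ℝ
  τ2 : ℝ
  τ3 : ℝ
  /-- a priori path counts through rank `r` -/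
  n : ℕ → ℝ
  /-- maximal length of histories -/
  m0 : ℕ
  /-- endpoint height along short paths -/
  Hpath : ℝ
  /-- anticipated number of helper bases per cell -/
  Nb : ℝ
  /-- the fixed basic bounds of the hypothetical tags -/
  dmax : ℕ
  Hb : ℝ

namespace Acc

variable (A : Acc) (p : LocParams)

/-- bound for the number of named filters on a cell -/
noncomputable def Nf : ℝ := (p.L : ℝ) + 4 * (p.D : ℝ)

/-- bound for the number of configurations (base, target filter, pad, history) on a cell -/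
noncomputable def Ncfg : ℝ := A.Nb * Nf p * (p.P : ℝ) * (2 * Nf p + 1) ^ A.m0

/-- the global trial cap -/
noncomputable def T0 : ℕ := ⌈A.n (p.L + 5)⌉₊ + 1

/-- the binary prefix factor `(2 L_{T0})^{2 m0}` -/
noncomputable def K : ℝ := (2 * (s3_LT (A.T0 p) : ℝ)) ^ (2 * A.m0)

/-- (number of rank-`r` insertions on one cell) `/ n_{r-1}` -/
noncomputable def E : ℝ := A.Ncfg p * A.K p * (2 * A.H0 ^ 2 * A.D ^ 2 / A.τ3 ^ 2)

/-- the product of all counts (active cells on a path, leaves, groups, signs, transfer positions, pairs of bands) that multiply `τ₃` -/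
noncomputable def big : ℝ :=
  10 ^ 6 * A.M * ((p.L : ℝ) + 1) * (A.D + 1) ^ 6 * ((p.d0 : ℝ) ^ 8 + 1) ^ 2 * 4 ^ A.m0 * ((A.m0 : ℝ) + 1) * ((p.P : ℝ) + 1) ^ 2

/-- The numerical inequalities between the accuracies used by the proofs of Sec. 6 (INTERNAL; satisfiability = one lemma at the end).
Order of choice: `D, M, P` given; `d0, 𝓛, m0, dmax, Hb, Hc, H0`; `τ₃`; `Nb`; `n_0 ≤ n_1 ≤ …`, `Dm`; `τ₂`; then `H_ed`, `H_path`. -/
structure Num (k C3 : ℝ) : Prop where
  k_ge : 1 ≤ k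
  D_ge : Real.exp k ≤ A.D
  D_le : A.D ≤ A.Dm
  pD_ge : A.D ≤ (p.D : ℝ)
  pD_le : (p.D : ℝ) ≤ A.D + 1
  M_ge : 1 ≤ A.M
  Hc_ge : A.D ≤ A.Hc
  Hc_le : A.Hc ≤ A.Dm
  H0_ge : 1 ≤ A.H0
  Nb_ge : 4 ≤ A.Nb
  m0_ge : Nat.clog 2 p.L + 2 ≤ A.m0
  n_mono : Monotone A.n
  n_zero : (p.D : ℝ) ≤ A.n 0
  n_le : ∀ r, r ≤ p.L + 5 → A.n r ≤ A.Dm
  /-- `n_r / n_{r-1}` beats the number of insertions on a path -/
  ratio : ∀ r, 1 ≤ r → r ≤ p.L + 5 → A.n (r - 1) * (1 + A.M * A.E p) ≤ A.n r
  τ2_pos : 0 < A.τ2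
  τ3_pos : 0 < A.τ3
  τ3_small : A.τ3 * A.big p ≤ min (Real.exp (-k)) (A.D ^ (-C3))
  τ2_small : A.τ2 * (A.big p * A.n (p.L + 5) ^ 2) ≤ min (Real.exp (-k)) (A.D ^ (-C3))

end Acc

/-- The internal conclusions of the main construction, passed on to the helper closure and the transfer lemma. -/
structure Inner (c0 C0 k C3 : ℝ) (A : Acc) : Prop where
  num : A.Num Y.p k C3
  /-- the base segment is valid with the budgets `A.D`, `A.M` -/
  xv : ∃ q η LU : ℝ, 2 ≤ q ∧ Y.X.Valid c0 C0 q η A.D A.M LU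
  /-- the tags of the vertices satisfy the fixed basic bounds -/
  tag_ok : ∀ v ∈ Y.B.verts, (Y.B.tag v).Ok A.dmax A.Hb
  /-- every column has precisely the normalized tag of its vertex -/
  tag_col : ∀ Φ ∈ Y.cat.cols, (Y.cat.chart Φ.lab).tag (Y.cat.slot Φ.lab) = Y.B.tag (Y.cat.vtx Φ.lab)
  cplx : ∀ Φ ∈ Y.cat.cols, (Y.cat.chart Φ.lab).Cplx A.Hc
  sep : LocSepOk Y.B.T c0 C0 A.Hc A.τ2 A.dmax A.Hb
  same : LocSameTagOk c0 C0 A.Hc A.H0 A.dmax A.Hb
  /-- path counts by rank -/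
  cnt : ∀ I, I ≤ Y.X.root → ∀ r, (((Y.cat.avail I).filter fun Φ => Y.cat.rank Φ.lab ≤ r).card : ℝ) ≤ A.n r
  closed : Y.Closed A.D A.τ3 A.n A.m0

/-- The internal conclusions of the helper closure (consumed by the transfer lemma only). -/
structure HInner (hc : LocCat) (bases : Cell → Finset (Fin 4 × XV)) (A : Acc) : Prop where
  tag_col : ∀ Φ ∈ hc.cols, (hc.chart Φ.lab).tag (hc.slot Φ.lab) = Y.B.tag (hc.vtx Φ.lab)
  cplx : ∀ Φ ∈ hc.cols, (hc.chart Φ.lab).Cplx A.Hc
  cnt : ∀ I, I ≤ Y.X.root → ((hc.avail I).card : ℝ) ≤ A.n (Y.p.L + 5)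
  closed : Y.HClosed hc bases A.D A.τ3 A.n A.m0

/-- **P6** (L6.4 (2) + L6.2): a matched vertex has the endpoint splitting (2) relative to the primary centre of its group, already on the
cell of the match. -/
def EndpointGoal (Hpath : ℝ) : Prop :=
  ∀ (G h : ℕ) (I : Cell) (b : ℕ), h ≤ Y.p.Hmax → b ∈ Y.CS.mask G h I →
    locEdge Hpath I.depth (Y.B.tag (Y.CS.centre G)) (Y.B.tag b)

end LocSys

/-! ## The two top-level goals of Sec. 6 -/

/-- **Main construction of Sec. 6** (Lemmas 6.1-6.7, Prop. 6.8).  `C3` = the prescribed exponent of the far-band error in Lemma 6.9,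
`Cn` = exponent of the anticipated number `exp (k^Cn)` of helper bases per cell.  `N0` = a bound for the private labels occurring in the basic
sides `U` (the inserted columns get labels `≥ N0`).
All exponents depend only on `(c0, C0, θ, Cb, C3, Cn)`; the statement holds for EVERY `P` with `1 ≤ P ≤ e^k`. -/
def LocMainGoal (c0 C0 : ℝ) : Prop :=
  ∀ θ Cb C3 Cn : ℝ, 0 < θ → θ < 1 → 1 ≤ Cb → 0 ≤ C3 → 0 ≤ Cn → ∃ Cm : ℝ, 0 < Cm ∧ ∀ ε : ℝ, 0 < ε → ∃ kmin : ℝ, 1 ≤ kmin ∧
  ∀ (k q : ℝ), kmin ≤ k → 2 ≤ q → ∀ X : BaseSeg, X.Ok c0 C0 q θ Cb k → ∀ pat : Fin 4 → Bool, PatOk pat →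
  ∀ N0 : ℕ, (∀ l I, LabFree N0 (X.U l I)) →
  ∀ P : ℕ, 1 ≤ P → (P : ℝ) ≤ Real.exp k →
  ∃ (Y : LocSys LocTag) (A : LocSys.Acc), Y.X = X ∧ Y.pat = pat ∧ Y.p.P = P ∧
    Y.Valid A.Dm A.m0 ∧ Y.Inner c0 C0 k C3 A ∧ (∀ Φ ∈ Y.cat.cols, 0 < Y.cat.rank Φ.lab → N0 ≤ Φ.lab) ∧
    Real.exp k ≤ A.D ∧ A.D ≤ A.Dm ∧ A.Dm ≤ Real.exp (k ^ Cm) ∧ Real.exp (k ^ Cn) ≤ A.Nb ∧
    (Y.p.L : ℝ) ≤ k ^ Cm ∧ (A.m0 : ℝ) ≤ Cm * (1 + Real.log k) ∧ A.Hpath ≤ Real.exp ((k + P) ^ Cm) ∧
    (∃ stops : Finset Cell, StopSet X.root stops ε ∧ ∀ I ∈ X.T, Retained stops I → Y.CS.good I) ∧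
    Y.Goal68 (Real.exp (-k)) ∧ Y.BesselGoal ∧ Y.EndpointGoal A.Hpath

/-- **Helper closure and transfer** (Lemma 6.7, second half, and Lemma 6.9).  The bases are whole side states, fixed before the helper
insertions, at most `A.Nb` per cell, without components in the private coordinates of the labels `≥ N0`.  The helper catalog obeys the SAME
budget `A.Dm`. -/
def LocHelperGoal (c0 C0 : ℝ) : Prop :=
  ∀ (k C3 : ℝ) (Y : LocSys LocTag) (A : LocSys.Acc), PatOk Y.pat →
    Y.Valid A.Dm A.m0 → Y.Inner c0 C0 k C3 A →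
  ∀ (bases : Cell → Finset (Fin 4 × XV)) (N0 : ℕ), (∀ I, ((bases I).card : ℝ) ≤ A.Nb) →
    (∀ I, ∀ x ∈ bases I, LabFree N0 x.2) →
  ∃ hc : LocCat, Y.HelpValid hc A.Dm ∧ (∀ Φ ∈ hc.cols, Φ ∉ Y.cat.cols → N0 ≤ Φ.lab) ∧
    ∀ (κ : ℕ) (a b c d : Fin 4) (Sa Sb : ℕ → Cell → XV), κ ∈ Finset.Icc 1 Y.p.L → slot4 a b c d →
      Y.pat c = false → Y.pat d = false → (∀ I ∈ Y.X.S, ∀ G ∈ Y.cur κ I, (a, Sa G I) ∈ bases I) →
      Y.TransferGoal hc κ a b c d Sa Sb (A.D ^ (-C3))

end Claimed.Agent.R258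
end

/- ===== packed: Claimed.Agent.R258.Weyl.Qp ===== -/
section
/-
Row 258, [Weyl].  Calculus of the quasipolynomial budget `wy_qp c X = exp (c (1 + log X)^c)`, `X ≥ 1`.   helper197 (proved).
-/
set_option autoImplicit false

namespace Claimed.Agent.R258

theorem wy_L_one_le {X : ℝ} (hX : 1 ≤ X) : 1 ≤ 1 + Real.log X := by
  have := Real.log_nonneg hX
  linarith

theorem wy_qp_pos (c : ℕ) (X : ℝ) : 0 < wy_qp c X := Real.exp_pos _

theorem wy_one_le_qp (c : ℕ) {X : ℝ} (hX : 1 ≤ X) : 1 ≤ wy_qp c X := by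
  unfold wy_qp
  apply Real.one_le_exp
  have := wy_L_one_le hX
  positivity

theorem wy_log_qp (c : ℕ) (X : ℝ) : Real.log (wy_qp c X) = (c : ℝ) * (1 + Real.log X) ^ c := Real.log_exp _

theorem wy_qp_mono {c c' : ℕ} (h : c ≤ c') {X : ℝ} (hX : 1 ≤ X) : wy_qp c X ≤ wy_qp c' X := by
  unfold wy_qp
  apply Real.exp_le_exp.mpr
  have hL := wy_L_one_le hX
  have h1 : (c : ℝ) ≤ c' := by exact_mod_cast h
  have h2 : (1 + Real.log X) ^ c ≤ (1 + Real.log X) ^ c' := pow_le_pow_right₀ hL h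
  have h3 : 0 ≤ (1 + Real.log X) ^ c := by positivity
  have h4 : (0 : ℝ) ≤ c' := by positivity
  nlinarith

theorem wy_qp_monoX (c : ℕ) {X Y : ℝ} (hX : 1 ≤ X) (h : X ≤ Y) : wy_qp c X ≤ wy_qp c Y := by
  unfold wy_qp
  apply Real.exp_le_exp.mpr
  have hL := wy_L_one_le hX
  have h1 : Real.log X ≤ Real.log Y := Real.log_le_log (by linarith) h
  have h2 : (1 + Real.log X) ^ c ≤ (1 + Real.log Y) ^ c := pow_le_pow_left₀ (by linarith) (by linarith) c
  have h4 : (0 : ℝ) ≤ c := by positivity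
  nlinarith

/-- `exp (a L^b) ≤ qp c X` as soon as `a ≤ c`, `b ≤ c` -/
theorem wy_exp_le_qp {a : ℝ} {b c : ℕ} (ha : a ≤ c) (hb : b ≤ c) {X : ℝ} (hX : 1 ≤ X) :
    Real.exp (a * (1 + Real.log X) ^ b) ≤ wy_qp c X := by
  unfold wy_qp
  apply Real.exp_le_exp.mpr
  have hL := wy_L_one_le hX
  have h2 : (1 + Real.log X) ^ b ≤ (1 + Real.log X) ^ c := pow_le_pow_right₀ hL hb
  have h3 : 0 ≤ (1 + Real.log X) ^ b := by positivity
  have h4 : (0 : ℝ) ≤ c := by positivity
  nlinarith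

theorem wy_le_qp {c : ℕ} (hc : 1 ≤ c) {X : ℝ} (hX : 1 ≤ X) : X ≤ wy_qp c X := by
  have h0 : 0 < X := by linarith
  calc X = Real.exp (Real.log X) := (Real.exp_log h0).symm
    _ ≤ Real.exp ((1 : ℝ) * (1 + Real.log X) ^ 1) := by
        apply Real.exp_le_exp.mpr; rw [pow_one]; linarith
    _ ≤ wy_qp c X := wy_exp_le_qp (by exact_mod_cast hc) hc hX

theorem wy_qp_mul (c c' : ℕ) {X : ℝ} (hX : 1 ≤ X) : wy_qp c X * wy_qp c' X ≤ wy_qp (c + c') X := by
  unfold wy_qp
  rw [← Real.exp_add]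
  apply Real.exp_le_exp.mpr
  have hL := wy_L_one_le hX
  have h1 : (1 + Real.log X) ^ c ≤ (1 + Real.log X) ^ (c + c') := pow_le_pow_right₀ hL (by omega)
  have h2 : (1 + Real.log X) ^ c' ≤ (1 + Real.log X) ^ (c + c') := pow_le_pow_right₀ hL (by omega)
  have h3 : (0 : ℝ) ≤ c := by positivity
  have h4 : (0 : ℝ) ≤ c' := by positivity
  push_cast
  nlinarith

theorem wy_cast_le_qp (k : ℕ) {X : ℝ} (hX : 1 ≤ X) : (k : ℝ) ≤ wy_qp k X := by
  have hL := wy_L_one_le hX
  have h1 : (1 : ℝ) ≤ (1 + Real.log X) ^ k := one_le_pow₀ hL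
  have h3 : (0 : ℝ) ≤ k := by positivity
  calc (k : ℝ) ≤ (k : ℝ) + 1 := by linarith
    _ ≤ Real.exp k := Real.add_one_le_exp _
    _ ≤ wy_qp k X := by
        unfold wy_qp
        apply Real.exp_le_exp.mpr
        nlinarith

theorem wy_qp_add (c c' : ℕ) {X : ℝ} (hX : 1 ≤ X) : wy_qp c X + wy_qp c' X ≤ wy_qp (c + c' + 2) X := by
  have h1 : wy_qp c X ≤ wy_qp (c + c') X := wy_qp_mono (by omega) hX
  have h2 : wy_qp c' X ≤ wy_qp (c + c') X := wy_qp_mono (by omega) hX
  have h3 : (2 : ℝ) ≤ wy_qp 2 X := by exact_mod_cast wy_cast_le_qp 2 hX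
  have h4 := wy_qp_mul (c + c') 2 hX
  have h5 := wy_qp_pos (c + c') X
  nlinarith

theorem wy_qp_pow (c n : ℕ) {X : ℝ} (hX : 1 ≤ X) (hn : (n : ℝ) ≤ 1 + Real.log X) :
    wy_qp c X ^ n ≤ wy_qp (c + 1) X := by
  unfold wy_qp
  rw [← Real.exp_nat_mul]
  apply Real.exp_le_exp.mpr
  have hL := wy_L_one_le hX
  have h3 : (0 : ℝ) ≤ c := by positivity
  have h5 : 0 ≤ (1 + Real.log X) ^ c := by positivity
  have h6 : 0 ≤ (c : ℝ) * (1 + Real.log X) ^ c := by positivity
  rw [pow_succ]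
  push_cast
  nlinarith [mul_le_mul_of_nonneg_right hn h6, mul_nonneg h5 (by linarith : (0:ℝ) ≤ 1 + Real.log X)]

/-- composition of budgets -/
theorem wy_qp_comp (c c' : ℕ) {X : ℝ} (hX : 1 ≤ X) :
    wy_qp c' (wy_qp c X) ≤ wy_qp (c' * (c + 1) ^ c' + c * c') X := by
  have hL := wy_L_one_le hX
  have h1 : (1 : ℝ) ≤ (1 + Real.log X) ^ c := one_le_pow₀ hL
  have h3 : (0 : ℝ) ≤ c := by positivity
  have h2 : 1 + Real.log (wy_qp c X) ≤ ((c : ℝ) + 1) * (1 + Real.log X) ^ c := by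
    rw [wy_log_qp]; nlinarith
  have h0 : 0 ≤ 1 + Real.log (wy_qp c X) := by
    rw [wy_log_qp]; positivity
  calc wy_qp c' (wy_qp c X) = Real.exp ((c' : ℝ) * (1 + Real.log (wy_qp c X)) ^ c') := rfl
    _ ≤ Real.exp ((c' : ℝ) * (((c : ℝ) + 1) * (1 + Real.log X) ^ c) ^ c') := by
        apply Real.exp_le_exp.mpr
        apply mul_le_mul_of_nonneg_left (pow_le_pow_left₀ h0 h2 c') (by positivity)
    _ = Real.exp (((c' * (c + 1) ^ c' : ℕ) : ℝ) * (1 + Real.log X) ^ (c * c')) := by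
        rw [mul_pow, ← pow_mul]; push_cast; ring_nf
    _ ≤ _ := wy_exp_le_qp (by push_cast; nlinarith [mul_nonneg h3 (by positivity : (0:ℝ) ≤ c')]) (by omega) hX

theorem wy_dim_le_qp {n : ℕ} {X : ℝ} (_hX : 1 ≤ X) (hn : (n : ℝ) ≤ 1 + Real.log X) : (n : ℝ) ≤ wy_qp 1 X := by
  calc (n : ℝ) ≤ 1 + Real.log X := hn
    _ ≤ Real.exp (1 + Real.log X) := by linarith [Real.add_one_le_exp (1 + Real.log X)]
    _ = wy_qp 1 X := by unfold wy_qp; simp

theorem wy_fact_le_qp {n : ℕ} {X : ℝ} (hX : 1 ≤ X) (hn : (n : ℝ) ≤ 1 + Real.log X) :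
    ((n.factorial : ℕ) : ℝ) ≤ wy_qp 2 X := by
  have h1 : ((n.factorial : ℕ) : ℝ) ≤ (n : ℝ) ^ n := by exact_mod_cast Nat.factorial_le_pow n
  have h2 : (n : ℝ) ^ n ≤ wy_qp 1 X ^ n := pow_le_pow_left₀ (by positivity) (wy_dim_le_qp hX hn) n
  exact h1.trans (h2.trans (wy_qp_pow 1 n hX hn))

/-- dimensions stay admissible when the master parameter grows -/
theorem wy_dim_mono {t X Y : ℝ} (hX : 1 ≤ X) (h : X ≤ Y) (ht : t ≤ 1 + Real.log X) : t ≤ 1 + Real.log Y := by
  have := Real.log_le_log (by linarith) h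
  linarith

/-- `x ≤ qp c X`, `n ≤ 1 + log X` ⟹ `x^n ≤ qp (c+1) X` -/
theorem wy_pow_le_qp {x : ℝ} {c n : ℕ} {X : ℝ} (hX : 1 ≤ X) (hx0 : 0 ≤ x) (hx : x ≤ wy_qp c X)
    (hn : (n : ℝ) ≤ 1 + Real.log X) : x ^ n ≤ wy_qp (c + 1) X :=
  (pow_le_pow_left₀ hx0 hx n).trans (wy_qp_pow c n hX hn)

theorem wy_mul_le_qp {x y : ℝ} {c c' : ℕ} {X : ℝ} (hX : 1 ≤ X) (hx0 : 0 ≤ x) (hx : x ≤ wy_qp c X)
    (hy : y ≤ wy_qp c' X) : x * y ≤ wy_qp (c + c') X :=
  calc x * y ≤ x * wy_qp c' X := mul_le_mul_of_nonneg_left hy hx0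
    _ ≤ wy_qp c X * wy_qp c' X := mul_le_mul_of_nonneg_right hx (wy_qp_pos c' X).le
    _ ≤ _ := wy_qp_mul c c' hX

theorem wy_add_le_qp {x y : ℝ} {c c' : ℕ} {X : ℝ} (hX : 1 ≤ X) (hx : x ≤ wy_qp c X)
    (hy : y ≤ wy_qp c' X) : x + y ≤ wy_qp (c + c' + 2) X :=
  (add_le_add hx hy).trans (wy_qp_add c c' hX)

end Claimed.Agent.R258
end

/- ===== packed: Claimed.Agent.R258.Weyl.Ee ===== -/
section
/-
Row 258, [Weyl].  Elementary facts on `ee t = exp (2π i t)`.   helper197 (proved).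
-/
set_option autoImplicit false

namespace Claimed.Agent.R258

theorem wy_ee_add (s t : ℝ) : ee (s + t) = ee s * ee t := by
  unfold ee
  rw [← Complex.exp_add]
  congr 1
  push_cast
  ring

theorem wy_ee_zero : ee 0 = 1 := by
  unfold ee
  simp

theorem wy_ee_int (n : ℤ) : ee (n : ℝ) = 1 := by
  unfold ee
  rw [← Complex.exp_int_mul_two_pi_mul_I n]
  congr 1
  push_cast
  ring

theorem wy_ee_norm (t : ℝ) : ‖ee t‖ = 1 := by
  unfold ee
  have : (2 * (Real.pi : ℂ) * (t : ℂ) * Complex.I) = ((2 * Real.pi * t : ℝ) : ℂ) * Complex.I := by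
    push_cast; ring
  rw [this, Complex.norm_exp_ofReal_mul_I]

theorem wy_ee_ne_zero (t : ℝ) : ee t ≠ 0 := Complex.exp_ne_zero _

theorem wy_ee_neg (t : ℝ) : ee (-t) = (ee t)⁻¹ := by
  have h : ee (-t) * ee t = 1 := by rw [← wy_ee_add]; simp [wy_ee_zero]
  exact eq_inv_of_mul_eq_one_left h

theorem wy_ee_neg_conj (t : ℝ) : ee (-t) = (starRingEnd ℂ) (ee t) := by
  unfold ee
  rw [← Complex.exp_conj]
  congr 1
  simp only [map_mul, Complex.conj_ofReal, Complex.conj_I, map_ofNat]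
  push_cast
  ring

theorem wy_ee_sub (s t : ℝ) : ee (s - t) = ee s * (ee t)⁻¹ := by
  rw [sub_eq_add_neg, wy_ee_add, wy_ee_neg]

theorem wy_ee_add_int (t : ℝ) (n : ℤ) : ee (t + n) = ee t := by
  rw [wy_ee_add, wy_ee_int, mul_one]

theorem wy_ee_sub_int (t : ℝ) (n : ℤ) : ee (t - n) = ee t := by
  rw [wy_ee_sub, wy_ee_int, inv_one, mul_one]

/-- `|e(t) - 1| ≤ 2π |t|` -/
theorem wy_ee_sub_one (t : ℝ) : ‖ee t - 1‖ ≤ 2 * Real.pi * |t| := by
  unfold ee
  have : (2 * (Real.pi : ℂ) * (t : ℂ) * Complex.I) = Complex.I * ((2 * Real.pi * t : ℝ) : ℂ) := by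
    push_cast; ring
  rw [this]
  refine (Real.norm_exp_I_mul_ofReal_sub_one_le).trans ?_
  rw [Real.norm_eq_abs, abs_mul, abs_of_pos (by positivity : (0 : ℝ) < 2 * Real.pi)]

theorem wy_ee_continuous : Continuous ee := by
  unfold ee
  fun_prop

theorem wy_ee_nat_mul (n : ℕ) (t : ℝ) : ee ((n : ℝ) * t) = ee t ^ n := by
  unfold ee
  rw [← Complex.exp_nat_mul]
  congr 1
  push_cast
  ring

end Claimed.Agent.R258
end

/- ===== packed: Claimed.Agent.R258.Weyl.Frame ===== -/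
section
/-
Row 258, [Weyl].  (W3), the algebraic part of Lemma 4.3: interface between its three steps.   helper197.
-/
set_option autoImplicit false
open Matrix

namespace Claimed.Agent.R258

variable {ι κ : Type*} [Fintype ι] [Fintype κ]

/-- **Output of the geometry of numbers step** (sizes `≤ Y`): a unimodular pair `g h = h g = 1`, a set `S ⊆ ι`, a radius `β ≥ 1/Y`.
`U = {x : g_i · x = 0 ∀ i ∈ S} = span {h^j : j ∉ S}` is the fast space. -/
structure wy_Frame [DecidableEq ι] (Y : ℝ) (P : ℕ) (C : Matrix ι ι ℚ) (V : Matrix ι κ ℝ) (g h : Matrix ι ι ℤ) (S : Set ι)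
    (β : ℝ) : Prop where
  gh : g * h = 1
  hg : h * g = 1
  beta : 1 / Y ≤ β
  /-- the rows `g_i`, `i ∈ S`, are short -/
  short : ∀ i ∈ S, ∀ l, |(g i l : ℝ)| ≤ Y
  /-- and `g_iᵀ V` is short -/
  shortV : ∀ i ∈ S, ∀ a, |∑ l, (g i l : ℝ) * V l a| ≤ Y
  /-- `A = C - Cᵀ` vanishes on the columns `h^j`, `j ∉ S` -/
  iso : ∀ j, j ∉ S → ∀ j', j' ∉ S → ∑ i, ∑ l, (h i j : ℚ) * (C - Cᵀ) i l * (h l j' : ℚ) = 0
  /-- the lattice vector of every return of size `≤ β` lies in `U` -/
  small : ∀ (t : κ → ℝ) (n : ι → ℤ), (∀ a, |t a| ≤ β) → (∀ l, |(V *ᵥ t) l - (P : ℝ) * (n l : ℝ)| ≤ β) →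
    ∀ i ∈ S, ∑ l, g i l * n l = 0

theorem wy_Std.mono {X X' : ℝ} {C : Matrix ι ι ℚ} (h : wy_Std X C κ) (hX : X ≤ X') : wy_Std X' C κ :=
  ⟨h.one_le.trans hX, wy_dim_mono h.one_le hX h.dim, wy_dim_mono h.one_le hX h.dim', fun i j => (h.height i j).trans hX⟩

/-- `|r| ≤ qHeight r` -/
theorem wy_abs_le_qHeight (r : ℚ) : |((r : ℚ) : ℝ)| ≤ (qHeight r : ℝ) := by
  have h1 : |r| ≤ (r.num.natAbs : ℚ) := by
    have hd : (1 : ℚ) ≤ r.den := by exact_mod_cast r.den_pos
    have hn : |(r.num : ℚ)| = (r.num.natAbs : ℚ) := by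
      rw [Nat.cast_natAbs]; push_cast; rfl
    conv_lhs => rw [← Rat.num_div_den r]
    rw [abs_div, hn, abs_of_pos (by linarith : (0 : ℚ) < r.den)]
    exact div_le_self (by positivity) hd
  have h2 : (r.num.natAbs : ℚ) ≤ (qHeight r : ℚ) := by
    unfold qHeight
    exact_mod_cast le_max_left _ _
  have h3 : |r| ≤ (qHeight r : ℚ) := h1.trans h2
  have : ((|r| : ℚ) : ℝ) ≤ ((qHeight r : ℚ) : ℝ) := by exact_mod_cast h3
  simpa using this

end Claimed.Agent.R258
end
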