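/- Packed by merge_tool.py (helper293): 7 modules of Claimed.Agent.R258 in one file, same declarations.
   Old modules, in this order: Cell.Nnorm, S2.Form, S2.AbsCore, Geo.Equiv, Geo.Step, Geo.Dich, Geo.Returns -/
import Claimed.Agent.R258.CellApi.Pack
import Claimed.Agent.R258.Pack006
import Claimed.Agent.R258.Pack001
import Claimed.Agent.R258.Pack009

/- ===== packed: Claimed.Agent.R258.Cell.Nnorm ===== -/
section
/-
Row 258, package P-NNORM (architect helper192; on top of helper132's CellApi).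

API of the normalised local norms `nnorm p I f = (|I|⁻¹ ∫_I ‖f‖^p)^(1/p)` of `R258/Defs.lean` (Bochner integral, real-valued).

PROOF NOTES.  `Real.rpow_natCast`, `Real.rpow_mul`, `Real.mul_rpow`, `integral_const_mul`, `setIntegral_mono_on`, `norm_smul`.
* `nnorm_mono_exponent`: Jensen/Hölder on the probability measure `|I|⁻¹ dy` on `I`: e.g. `MeasureTheory.eLpNorm_le_eLpNorm_mul_rpow_measure_univ`
  for `volume.restrict I.set`, or `integral_mul_le_Lp_mul_Lq_of_nonneg` with the constant function `1`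
  (`∫_I ‖f‖^p ≤ (∫_I ‖f‖^q)^(p/q) |I|^(1-p/q)`).
* `nnorm_rpow_children`: `cell_set_child_union`, `cell_set_child_disjoint`, `setIntegral_union`, `cell_len_child`.
* `nnorm_rpow_mul_len_le`: `setIntegral_mono_set` (`cell_le_iff_subset`).
* `sum_nnorm_rpow_mul_len_le`: pairwise disjoint cells (`cell_disjoint_iff`), `integral_biUnion_finset` (`integral_finset_biUnion`), `setIntegral_mono_set`.
* `ofReal_nnorm_eq`: `ofReal_integral_eq_lintegral_ofReal`, `ENNReal.ofReal_rpow_of_nonneg`, `ofReal_norm_eq_enorm`, `ENNReal.ofReal_mul`, `ENNReal.ofReal_inv_of_pos`.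
* `nnorm_le_Mq`: if `‖f‖^q` is not integrable on `I` the Bochner integral is `0` and `nnorm q I f = 0`; otherwise `ofReal_nnorm_eq` and
  `mx_localNorm_le_mxMqE` (`I.set = Ico left right ⊆ Icc left right`, `right - left = len`: `cell_right_eq`).
* `nnorm_add_le`: Minkowski (`MeasureTheory.eLpNorm_add_le` / `Lp` triangle inequality on `volume.restrict I.set`).
-/
set_option autoImplicit false

open MeasureTheory Set
open scoped ENNReal NNReal

namespace Claimed.Agent.R258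

variable {E : Type*} [NormedAddCommGroup E]

theorem nnorm_base_nonneg (p : ℝ) (I : Cell) (f : ℝ → E) :
    0 ≤ I.len⁻¹ * ∫ y in I.set, ‖f y‖ ^ p :=
  mul_nonneg (inv_nonneg.mpr (cell_len_nonneg I))
    (integral_nonneg fun _ => Real.rpow_nonneg (norm_nonneg _) _)

theorem nnorm_nonneg (p : ℝ) (I : Cell) (f : ℝ → E) : 0 ≤ nnorm p I f :=
  Real.rpow_nonneg (nnorm_base_nonneg p I f) _

theorem nnorm_rpow {p : ℝ} (hp : 0 < p) (I : Cell) (f : ℝ → E) :
    nnorm p I f ^ p = I.len⁻¹ * ∫ y in I.set, ‖f y‖ ^ p := by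
  unfold nnorm
  rw [← Real.rpow_mul (nnorm_base_nonneg p I f), one_div_mul_cancel hp.ne', Real.rpow_one]

theorem nnorm_rpow_mul_len {p : ℝ} (hp : 0 < p) (I : Cell) (f : ℝ → E) :
    nnorm p I f ^ p * I.len = ∫ y in I.set, ‖f y‖ ^ p := by
  rw [nnorm_rpow hp, mul_comm, ← mul_assoc, mul_inv_cancel₀ (cell_len_ne_zero I), one_mul]

theorem nnorm_congr {p : ℝ} {I : Cell} {f g : ℝ → E} (h : ∀ y ∈ I.set, f y = g y) :
    nnorm p I f = nnorm p I g := by
  unfold nnorm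
  rw [setIntegral_congr_fun (cell_measurableSet I) fun y hy => by rw [h y hy]]

theorem nnorm_congr_ae {p : ℝ} {I : Cell} {f g : ℝ → E} (h : ∀ᵐ y, y ∈ I.set → f y = g y) :
    nnorm p I f = nnorm p I g := by
  unfold nnorm
  rw [setIntegral_congr_ae (cell_measurableSet I) (h.mono fun y hy hyI => by rw [hy hyI])]

theorem nnorm_zero {p : ℝ} (hp : 0 < p) (I : Cell) : nnorm p I (fun _ => (0 : E)) = 0 := by
  unfold nnorm
  simp only [norm_zero, Real.zero_rpow hp.ne', integral_zero, mul_zero]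
  exact Real.zero_rpow (by positivity)

theorem nnorm_const_smul {𝕜 : Type*} [NormedField 𝕜] [NormedSpace 𝕜 E] {p : ℝ} (hp : 0 < p)
    (I : Cell) (c : 𝕜) (f : ℝ → E) : nnorm p I (fun y => c • f y) = ‖c‖ * nnorm p I f := by
  unfold nnorm
  have e : ∀ y, ‖c • f y‖ ^ p = ‖c‖ ^ p * ‖f y‖ ^ p := fun y => by
    rw [norm_smul, Real.mul_rpow (norm_nonneg _) (norm_nonneg _)]
  simp only [e]
  rw [integral_const_mul, mul_left_comm,
    Real.mul_rpow (Real.rpow_nonneg (norm_nonneg _) _) (nnorm_base_nonneg p I f),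
    ← Real.rpow_mul (norm_nonneg _), mul_one_div_cancel hp.ne', Real.rpow_one]

theorem nnorm_mono {p : ℝ} (hp : 0 < p) {I : Cell} {f g : ℝ → E}
    (hg : IntegrableOn (fun y => ‖g y‖ ^ p) I.set) (h : ∀ y ∈ I.set, ‖f y‖ ≤ ‖g y‖) :
    nnorm p I f ≤ nnorm p I g := by
  unfold nnorm
  refine Real.rpow_le_rpow (nnorm_base_nonneg p I f) ?_ (by positivity)
  refine mul_le_mul_of_nonneg_left ?_ (inv_nonneg.mpr (cell_len_nonneg I))
  refine integral_mono_of_nonneg (Filter.Eventually.of_forall fun _ =>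
    Real.rpow_nonneg (norm_nonneg _) _) hg ?_
  filter_upwards [ae_restrict_mem (cell_measurableSet I)] with y hy
  exact Real.rpow_le_rpow (norm_nonneg _) (h y hy) hp.le

theorem nnorm_le_of_supLe {p : ℝ} (hp : 0 < p) {I : Cell} {f : ℝ → E} {B : ℝ} (hB : 0 ≤ B)
    (h : SupLe I f B) : nnorm p I f ≤ B := by
  unfold nnorm
  have h1 : ∫ y in I.set, ‖f y‖ ^ p ≤ ∫ _y in I.set, B ^ p := by
    refine integral_mono_of_nonneg (Filter.Eventually.of_forall fun _ =>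
      Real.rpow_nonneg (norm_nonneg _) _) ?_ ?_
    · exact integrableOn_const (cell_volume_ne_top I)
    · filter_upwards [ae_restrict_mem (cell_measurableSet I)] with y hy
      exact Real.rpow_le_rpow (norm_nonneg _) (h y hy) hp.le
  rw [cell_integral_const] at h1
  calc (I.len⁻¹ * ∫ y in I.set, ‖f y‖ ^ p) ^ (1 / p)
      ≤ (I.len⁻¹ * (I.len * B ^ p)) ^ (1 / p) := by
        refine Real.rpow_le_rpow (nnorm_base_nonneg p I f) ?_ (by positivity)
        exact mul_le_mul_of_nonneg_left h1 (inv_nonneg.mpr (cell_len_nonneg I))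
    _ = B := by
        rw [← mul_assoc, inv_mul_cancel₀ (cell_len_ne_zero I), one_mul, ← Real.rpow_mul hB,
          mul_one_div_cancel hp.ne', Real.rpow_one]

theorem nnorm_eq_zero_of_not_integrableOn {p : ℝ} (hp : 0 < p) {I : Cell} {f : ℝ → E}
    (hf : ¬ IntegrableOn (fun y => ‖f y‖ ^ p) I.set) : nnorm p I f = 0 := by
  unfold nnorm
  rw [integral_undef hf, mul_zero]
  exact Real.zero_rpow (by positivity)

theorem ofReal_nnorm_eq {p : ℝ} (hp : 0 < p) (I : Cell)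
    (f : ℝ → E) (hf : IntegrableOn (fun y => ‖f y‖ ^ p) I.set) :
    ENNReal.ofReal (nnorm p I f) =
      ((ENNReal.ofReal I.len)⁻¹ * ∫⁻ y in I.set, ‖f y‖ₑ ^ p) ^ (1 / p) := by
  unfold nnorm
  rw [← ENNReal.ofReal_rpow_of_nonneg (nnorm_base_nonneg p I f) (by positivity),
    ENNReal.ofReal_mul (inv_nonneg.mpr (cell_len_nonneg I)),
    ENNReal.ofReal_inv_of_pos (cell_len_pos I),
    ofReal_integral_eq_lintegral_ofReal hf
      (Filter.Eventually.of_forall fun _ => Real.rpow_nonneg (norm_nonneg _) _)]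
  congr 3
  funext y
  rw [← ENNReal.ofReal_rpow_of_nonneg (norm_nonneg _) hp.le, ofReal_norm]

theorem ofReal_nnorm_eq_eLpNorm {p : ℝ} (hp : 0 < p) (I : Cell)
    (f : ℝ → E) (hf : IntegrableOn (fun y => ‖f y‖ ^ p) I.set) :
    ENNReal.ofReal (nnorm p I f) =
      (ENNReal.ofReal I.len)⁻¹ ^ (1 / p) * eLpNorm f (ENNReal.ofReal p) (volume.restrict I.set) := by
  rw [ofReal_nnorm_eq hp I f hf, ENNReal.mul_rpow_of_nonneg _ _ (by positivity),
    eLpNorm_eq_lintegral_rpow_enorm_toReal (ENNReal.ofReal_pos.mpr hp).ne' ENNReal.ofReal_ne_top,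
    ENNReal.toReal_ofReal hp.le]

/-- normalised norms increase with the exponent -/
theorem nnorm_mono_exponent {p q : ℝ} (hp : 0 < p) (hpq : p ≤ q) {I : Cell} {f : ℝ → E}
    (hf : AEStronglyMeasurable f (volume.restrict I.set))
    (hq : IntegrableOn (fun y => ‖f y‖ ^ q) I.set) : nnorm p I f ≤ nnorm q I f := by
  have hq0 : 0 < q := hp.trans_le hpq
  by_cases hpi : IntegrableOn (fun y => ‖f y‖ ^ p) I.set
  swap
  · rw [nnorm_eq_zero_of_not_integrableOn hp hpi]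
    exact nnorm_nonneg _ _ _
  rw [← ENNReal.ofReal_le_ofReal_iff (nnorm_nonneg _ _ _), ofReal_nnorm_eq_eLpNorm hp I f hpi,
    ofReal_nnorm_eq_eLpNorm hq0 I f hq]
  have h := eLpNorm_le_eLpNorm_mul_rpow_measure_univ (ENNReal.ofReal_le_ofReal hpq) hf
  rw [ENNReal.toReal_ofReal hp.le, ENNReal.toReal_ofReal hq0.le, Measure.restrict_apply_univ,
    cell_volume_set] at h
  set L := ENNReal.ofReal I.len with hL
  have hL0 : L ≠ 0 := (ENNReal.ofReal_pos.mpr (cell_len_pos I)).ne'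
  have hLt : L ≠ ⊤ := ENNReal.ofReal_ne_top
  calc L⁻¹ ^ (1 / p) * eLpNorm f (ENNReal.ofReal p) (volume.restrict I.set)
      ≤ L⁻¹ ^ (1 / p) * (eLpNorm f (ENNReal.ofReal q) (volume.restrict I.set) *
          L ^ (1 / p - 1 / q)) := mul_le_mul_right h _
    _ = L⁻¹ ^ (1 / q) * eLpNorm f (ENNReal.ofReal q) (volume.restrict I.set) := by
        rw [mul_left_comm, mul_comm (eLpNorm _ _ _)]
        congr 1
        rw [ENNReal.inv_rpow, ENNReal.inv_rpow, ← ENNReal.rpow_neg, ← ENNReal.rpow_neg,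
          ← ENNReal.rpow_add _ _ hL0 hLt]
        congr 1
        ring

theorem nnorm_rpow_children {p : ℝ} (hp : 0 < p) (I : Cell) {f : ℝ → E}
    (hf : IntegrableOn (fun y => ‖f y‖ ^ p) I.set) :
    nnorm p I f ^ p = (nnorm p (I.child 0) f ^ p + nnorm p (I.child 1) f ^ p) / 2 := by
  rw [nnorm_rpow hp, nnorm_rpow hp, nnorm_rpow hp, cell_len_child, cell_len_child,
    ← cell_set_child_union I,
    setIntegral_union (cell_set_child_disjoint I) (cell_measurableSet _)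
      (hf.mono_set (cell_set_child_subset I 0)) (hf.mono_set (cell_set_child_subset I 1))]
  have := cell_len_ne_zero I
  field_simp

theorem nnorm_rpow_mul_len_le {p : ℝ} (hp : 0 < p) {I J : Cell} (hIJ : I ≤ J) {f : ℝ → E}
    (hf : IntegrableOn (fun y => ‖f y‖ ^ p) J.set) :
    nnorm p I f ^ p * I.len ≤ nnorm p J f ^ p * J.len := by
  rw [nnorm_rpow_mul_len hp, nnorm_rpow_mul_len hp]
  exact setIntegral_mono_set hf (Filter.Eventually.of_forall fun _ =>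
    Real.rpow_nonneg (norm_nonneg _) _) (cell_set_subset hIJ).eventuallyLE

/-- additivity over a finite antichain of cells below `J` -/
theorem sum_nnorm_rpow_mul_len_le {p : ℝ} (hp : 0 < p) {J : Cell} {S : Finset Cell}
    (hS : ∀ I ∈ S, I ≤ J) (hanti : ∀ I ∈ S, ∀ I' ∈ S, I ≤ I' → I = I') {f : ℝ → E}
    (hf : IntegrableOn (fun y => ‖f y‖ ^ p) J.set) :
    ∑ I ∈ S, nnorm p I f ^ p * I.len ≤ nnorm p J f ^ p * J.len := by
  simp only [nnorm_rpow_mul_len hp]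
  have hdisj : (S : Set Cell).Pairwise fun I I' => Disjoint I.set I'.set := by
    intro I hI I' hI' hne
    rw [cell_disjoint_iff]
    exact ⟨fun h => hne (hanti I hI I' hI' h), fun h => hne (hanti I' hI' I hI h).symm⟩
  rw [← integral_biUnion_finset S (fun I _ => cell_measurableSet I) hdisj
    (fun I hI => hf.mono_set (cell_set_subset (hS I hI)))]
  refine setIntegral_mono_set hf (Filter.Eventually.of_forall fun _ =>
    Real.rpow_nonneg (norm_nonneg _) _) (LE.le.eventuallyLE ?_)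
  exact iUnion₂_subset fun I hI => cell_set_subset (hS I hI)

theorem nnorm_add_le {p : ℝ} (hp : 1 ≤ p) (I : Cell) {f g : ℝ → E}
    (hf : AEStronglyMeasurable f (volume.restrict I.set))
    (hg : AEStronglyMeasurable g (volume.restrict I.set))
    (hfi : IntegrableOn (fun y => ‖f y‖ ^ p) I.set) (hgi : IntegrableOn (fun y => ‖g y‖ ^ p) I.set) :
    nnorm p I (fun y => f y + g y) ≤ nnorm p I f + nnorm p I g := by
  have hp0 : 0 < p := by linarith
  by_cases hs : IntegrableOn (fun y => ‖f y + g y‖ ^ p) I.set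
  swap
  · rw [nnorm_eq_zero_of_not_integrableOn hp0 hs]
    exact add_nonneg (nnorm_nonneg _ _ _) (nnorm_nonneg _ _ _)
  rw [← ENNReal.ofReal_le_ofReal_iff (add_nonneg (nnorm_nonneg _ _ _) (nnorm_nonneg _ _ _)),
    ENNReal.ofReal_add (nnorm_nonneg _ _ _) (nnorm_nonneg _ _ _),
    ofReal_nnorm_eq_eLpNorm hp0 I _ hs, ofReal_nnorm_eq_eLpNorm hp0 I f hfi,
    ofReal_nnorm_eq_eLpNorm hp0 I g hgi, ← mul_add]
  refine mul_le_mul_right ?_ _
  have h1 : (1 : ℝ≥0∞) ≤ ENNReal.ofReal p := by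
    rw [← ENNReal.ofReal_one]
    exact ENNReal.ofReal_le_ofReal hp
  exact eLpNorm_add_le hf hg h1

theorem BddCS.integrable_rpow {f : ℝ → ℂ} (hf : BddCS f) {p : ℝ} (hp : 0 < p) :
    Integrable (fun y => ‖f y‖ ^ p) := by
  obtain ⟨B, hB⟩ := hf.bdd
  obtain ⟨R, hR⟩ := hf.supp
  have hm : Measurable fun y => ‖f y‖ ^ p := hf.meas.norm.pow_const p
  have hg : Integrable ((Icc (-R) R).indicator fun _ : ℝ => B ^ p) :=
    (integrableOn_const (by simp)).integrable_indicator measurableSet_Icc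
  refine hg.mono' hm.aestronglyMeasurable (Filter.Eventually.of_forall fun y => ?_)
  rw [Real.norm_of_nonneg (Real.rpow_nonneg (norm_nonneg _) _)]
  by_cases hy : y ∈ Icc (-R) R
  · rw [indicator_of_mem hy]
    exact Real.rpow_le_rpow (norm_nonneg _) (hB y) hp.le
  · rw [indicator_of_notMem hy]
    have : R < |y| := by
      by_contra hc
      push Not at hc
      exact hy (abs_le.mp hc)
    rw [hR y this, norm_zero, Real.zero_rpow hp.ne']

theorem BddCS.integrableOn_rpow_cell {f : ℝ → ℂ} (hf : BddCS f) {p : ℝ} (hp : 0 ≤ p) (I : Cell) :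
    IntegrableOn (fun y => ‖f y‖ ^ p) I.set := by
  obtain ⟨B, hB⟩ := hf.bdd
  have hm : Measurable fun y => ‖f y‖ ^ p := hf.meas.norm.pow_const p
  refine Measure.integrableOn_of_bounded (M := B ^ p) (cell_volume_ne_top I)
    hm.aestronglyMeasurable (Filter.Eventually.of_forall fun y => ?_)
  rw [Real.norm_of_nonneg (Real.rpow_nonneg (norm_nonneg _) _)]
  exact Real.rpow_le_rpow (norm_nonneg _) (hB y) hp

theorem BddCS.const_mul {f : ℝ → ℂ} (hf : BddCS f) (c : ℂ) : BddCS (fun y => c * f y) := by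
  obtain ⟨B, hB⟩ := hf.bdd
  obtain ⟨R, hR⟩ := hf.supp
  refine ⟨hf.meas.const_mul c, ⟨‖c‖ * B, fun x => ?_⟩, ⟨R, fun x hx => ?_⟩⟩
  · rw [norm_mul]
    exact mul_le_mul_of_nonneg_left (hB x) (norm_nonneg _)
  · rw [hR x hx, mul_zero]

theorem BddCS.add {f g : ℝ → ℂ} (hf : BddCS f) (hg : BddCS g) : BddCS (fun y => f y + g y) := by
  obtain ⟨B, hB⟩ := hf.bdd
  obtain ⟨R, hR⟩ := hf.supp
  obtain ⟨B', hB'⟩ := hg.bdd
  obtain ⟨R', hR'⟩ := hg.supp
  refine ⟨hf.meas.add hg.meas, ⟨B + B', fun x => ?_⟩, ⟨max R R', fun x hx => ?_⟩⟩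
  · exact (norm_add_le _ _).trans (add_le_add (hB x) (hB' x))
  · rw [hR x ((le_max_left _ _).trans_lt hx), hR' x ((le_max_right _ _).trans_lt hx), add_zero]

theorem BddCS.mul {f g : ℝ → ℂ} (hf : BddCS f) (hg : BddCS g) : BddCS (fun y => f y * g y) := by
  obtain ⟨B, hB⟩ := hf.bdd
  obtain ⟨R, hR⟩ := hf.supp
  obtain ⟨B', hB'⟩ := hg.bdd
  refine ⟨hf.meas.mul hg.meas, ⟨B * B', fun x => ?_⟩, ⟨R, fun x hx => ?_⟩⟩
  · rw [norm_mul]
    exact mul_le_mul (hB x) (hB' x) (norm_nonneg _) ((norm_nonneg _).trans (hB x))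
  · rw [hR x hx, zero_mul]

theorem BddCS.indicator {f : ℝ → ℂ} (hf : BddCS f) {S : Set ℝ} (hS : MeasurableSet S) :
    BddCS (S.indicator f) := by
  obtain ⟨B, hB⟩ := hf.bdd
  obtain ⟨R, hR⟩ := hf.supp
  refine ⟨hf.meas.indicator hS, ⟨B, fun x => ?_⟩, ⟨R, fun x hx => ?_⟩⟩
  · exact (norm_indicator_le_norm_self f x).trans (hB x)
  · by_cases hxS : x ∈ S
    · rw [indicator_of_mem hxS, hR x hx]
    · rw [indicator_of_notMem hxS]

theorem BddCS.zero : BddCS (fun _ => (0 : ℂ)) :=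
  ⟨measurable_const, ⟨0, fun _ => by simp⟩, ⟨0, fun _ _ => rfl⟩⟩

theorem BddCS.memLp {f : ℝ → ℂ} (hf : BddCS f) (p : ℝ≥0∞) : MemLp f p volume := by
  obtain ⟨B, hB⟩ := hf.bdd
  obtain ⟨R, hR⟩ := hf.supp
  have e : f = (Icc (-R) R).indicator f := by
    funext y
    by_cases hy : y ∈ Icc (-R) R
    · rw [indicator_of_mem hy]
    · rw [indicator_of_notMem hy]
      have : R < |y| := by
        by_contra hc
        push Not at hc
        exact hy (abs_le.mp hc)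
      exact hR y this
  rw [e, memLp_indicator_iff_restrict measurableSet_Icc]
  exact MemLp.of_bound hf.meas.aestronglyMeasurable B (Filter.Eventually.of_forall hB)

/-! ### adapters to block [MAX]  (`ofReal_nnorm_eq` was moved up: it is used by `nnorm_mono_exponent`) -/

/-- the normalised local norm is at most `M_q` at every point of the cell (no hypothesis on `f`) -/
theorem nnorm_le_Mq {q : ℝ} (hq : 0 < q) (I : Cell) (f : ℝ → ℂ) {x : ℝ} (hx : x ∈ I.set) :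
    ENNReal.ofReal (nnorm q I f) ≤ Mq q f x := by
  by_cases hi : IntegrableOn (fun y => ‖f y‖ ^ q) I.set
  swap
  · rw [nnorm_eq_zero_of_not_integrableOn hq hi, ENNReal.ofReal_zero]
    exact zero_le
  rw [ofReal_nnorm_eq hq I f hi]
  have h := mx_localNorm_le_mxMqE hq (fun y => ‖f y‖ₑ) (cell_left_lt_right I)
    (x := x) ⟨hx.1, hx.2.le⟩ (S := I.set) Ico_subset_Icc_self
  rw [cell_right_eq, add_sub_cancel_left] at h
  exact h

end Claimed.Agent.R258
end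

/- ===== packed: Claimed.Agent.R258.S2.Form ===== -/
section
/-
Row 258, block [S2] (outer.tex, architect helper145), package P-S2-FORM.

Elementary API of `BddCS`, `Admissible`, `form`, `nnorm` (R258/Defs.lean) used by the outer reduction.
(The API of `nnorm` and most closure properties of `BddCS` are in `R258/Cell/Nnorm.lean`, the cells in `R258/CellApi/*`: use them.)

PROOF NOTES.
* `s2_adm_bound`: `Admissible.deriv` with `n = 0` (`norm_iteratedFDeriv_zero`, `pow_zero`, `Nat.cast_zero`).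
* `s2_adm_supp`: `Admissible.supp` with `j = 0` and `j = 1` (`p.2 = (p.1 + p.2) - p.1`), `right - left = len`.
* `s2_form_integrable`: the integrand is measurable (`h.smooth.continuous.measurable`, `(hf j).meas.comp`), bounded by
  `(C0*2)^(C0*2) * ∏ B j` and vanishes off the bounded box `Icc left right ×ˢ Icc (-len) len` (finite measure):
  `Measure.integrableOn_of_bounded` + `integrableOn_iff_integrable_of_support_subset`.
* `s2_form_smul`: `Finset.prod_mul_distrib`, `integral_const_mul`.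
* `s2_form_zero_of_ae`: the map `p ↦ p.1 + j * p.2` from `ℝ × ℝ` to `ℝ` is quasi measure preserving
  (for fixed `p.2` a translation: `measure_prod_null` / `Measure.ae_prod_iff_ae_ae`, or `MeasurePreserving.skew_product`),
  hence for a.e. `p` : `p.1 + j p.2 ∈ I.set → f j (p.1 + j p.2) = 0`; if `w p ≠ 0` the point lies in `I.set` by `supp`.
  So the integrand vanishes a.e. (`integral_eq_zero_of_ae`).
* `s2_nnorm_eq_zero`: `nnorm_rpow`, `setIntegral_eq_zero_iff_of_nonneg_ae` (integrability: `BddCS.integrableOn_rpow_cell`).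
-/
set_option autoImplicit false
open MeasureTheory
open scoped ENNReal ContDiff

namespace Claimed.Agent.R258

/-! ### the class `BddCS` -/

theorem s2_bddcs_shift {f : ℝ → ℂ} (hf : BddCS f) (τ : ℝ) : BddCS (fun y => f (y + τ)) := by
  obtain ⟨B, hB⟩ := hf.bdd
  obtain ⟨R, hR⟩ := hf.supp
  refine ⟨hf.meas.comp (measurable_id.add_const τ), ⟨B, fun x => hB _⟩, ⟨R + |τ|, fun x hx => hR _ ?_⟩⟩
  have h1 : |x| ≤ |x + τ| + |τ| := by
    have := abs_sub (x + τ) τ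
    simpa using this
  linarith

/-- truncation of a bounded measurable function -/
theorem s2_bddcs_indicator {f : ℝ → ℂ} (hm : Measurable f) {B : ℝ} (hB : ∀ x, ‖f x‖ ≤ B) (R : ℝ) :
    BddCS ((Set.Icc (-R) R).indicator f) := by
  refine ⟨hm.indicator measurableSet_Icc, ⟨B, fun x => (norm_indicator_le_norm_self _ _).trans (hB x)⟩,
    ⟨R, fun x hx => Set.indicator_of_notMem ?_ _⟩⟩
  intro hmem
  have := abs_le.2 hmem
  linarith

/-! ### admissible kernels -/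

theorem s2_adm_bound {c0 C0 : ℝ} {I : Cell} {w : ℝ × ℝ → ℂ} (h : Admissible c0 C0 I w) (p : ℝ × ℝ) :
    ‖w p‖ ≤ (C0 * 2) ^ (C0 * 2) := by
  have := h.deriv 0 p
  simpa using this

theorem s2_adm_supp {c0 C0 : ℝ} {I : Cell} {w : ℝ × ℝ → ℂ} (h : Admissible c0 C0 I w) (hc0 : 0 < c0)
    {p : ℝ × ℝ} (hp : w p ≠ 0) : (∀ j : Fin 4, p.1 + (j : ℝ) * p.2 ∈ I.set) ∧ |p.2| ≤ I.len := by
  have hs := h.supp p hp
  have hlen := cell_len_pos I
  have hcl : 0 < c0 * I.len := mul_pos hc0 hlen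
  have hr := cell_right_eq I
  refine ⟨fun j => ⟨by linarith [(hs j).1], by linarith [(hs j).2]⟩, ?_⟩
  have h0 := hs 0
  have h1 := hs 1
  simp only [Fin.val_zero, Nat.cast_zero, zero_mul, add_zero, Fin.val_one, Nat.cast_one, one_mul] at h0 h1
  rw [abs_le]
  constructor <;> linarith [h0.1, h0.2, h1.1, h1.2]

theorem s2_prod_measurable {f : Fin 4 → ℝ → ℂ} (hf : ∀ j, Measurable (f j)) :
    Measurable (fun p : ℝ × ℝ => ∏ j : Fin 4, f j (p.1 + (j : ℝ) * p.2)) :=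
  Finset.measurable_prod _ fun j _ => (hf j).comp (measurable_fst.add (measurable_snd.const_mul _))

theorem s2_form_integrable {c0 C0 : ℝ} {I : Cell} {w : ℝ × ℝ → ℂ} (h : Admissible c0 C0 I w)
    (hc0 : 0 < c0) {f : Fin 4 → ℝ → ℂ} (hf : ∀ j, BddCS (f j)) :
    Integrable (fun p : ℝ × ℝ => w p * ∏ j : Fin 4, f j (p.1 + (j : ℝ) * p.2)) volume := by
  choose B hB using fun j => (hf j).bdd
  set S : Set (ℝ × ℝ) := Set.Icc I.left I.right ×ˢ Set.Icc (-I.len) I.len with hS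
  have hmeas : Measurable (fun p : ℝ × ℝ => w p * ∏ j : Fin 4, f j (p.1 + (j : ℝ) * p.2)) :=
    h.smooth.continuous.measurable.mul (s2_prod_measurable fun j => (hf j).meas)
  have hsupp : Function.support (fun p : ℝ × ℝ => w p * ∏ j : Fin 4, f j (p.1 + (j : ℝ) * p.2)) ⊆ S := by
    intro p hp
    have hw : w p ≠ 0 := fun h0 => hp (by simp [h0])
    obtain ⟨h1, h2⟩ := s2_adm_supp h hc0 hw
    have h10 := h1 0
    simp only [Fin.val_zero, Nat.cast_zero, zero_mul, add_zero] at h10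
    exact ⟨⟨h10.1, h10.2.le⟩, abs_le.1 h2⟩
  rw [← integrableOn_iff_integrable_of_support_subset hsupp]
  have hfin : volume S ≠ ⊤ := by
    rw [hS, Measure.volume_eq_prod, Measure.prod_prod]
    exact ENNReal.mul_ne_top (by simp) (by simp)
  refine Measure.integrableOn_of_bounded (M := (C0 * 2) ^ (C0 * 2) * ∏ j : Fin 4, B j) hfin
    hmeas.aestronglyMeasurable (Filter.Eventually.of_forall fun p => ?_)
  rw [norm_mul, norm_prod]
  exact mul_le_mul (s2_adm_bound h p) (Finset.prod_le_prod (fun j _ => norm_nonneg _) fun j _ => hB j _)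
    (Finset.prod_nonneg fun j _ => norm_nonneg _) ((norm_nonneg _).trans (s2_adm_bound h p))

/-! ### the form -/

theorem s2_form_smul (I : Cell) (w : ℝ × ℝ → ℂ) (c : Fin 4 → ℂ) (f : Fin 4 → ℝ → ℂ) :
    form I w (fun j y => c j * f j y) = (∏ j, c j) * form I w f := by
  unfold form
  simp only [Finset.prod_mul_distrib]
  have : ∀ p : ℝ × ℝ, w p * ((∏ j, c j) * ∏ j : Fin 4, f j (p.1 + (j : ℝ) * p.2)) =
      (∏ j, c j) * (w p * ∏ j : Fin 4, f j (p.1 + (j : ℝ) * p.2)) := fun p => by ring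
  simp only [this]
  rw [integral_const_mul]
  ring

/-- the maps `p ↦ p.1 + c p.2` pull back null sets to null sets -/
theorem s2_ae_comp (c : ℝ) {P : ℝ → Prop} (hP : ∀ᵐ y : ℝ, P y) : ∀ᵐ p : ℝ × ℝ, P (p.1 + c * p.2) := by
  rw [ae_iff] at hP ⊢
  set N := toMeasurable volume {y | ¬ P y} with hNdef
  have hN : volume N = 0 := by rw [hNdef, measure_toMeasurable]; exact hP
  have hNm : MeasurableSet N := measurableSet_toMeasurable _ _
  refine measure_mono_null (t := (fun p : ℝ × ℝ => p.1 + c * p.2) ⁻¹' N)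
    (fun p hp => subset_toMeasurable _ _ hp) ?_
  have hm : MeasurableSet ((fun p : ℝ × ℝ => p.1 + c * p.2) ⁻¹' N) :=
    (measurable_fst.add (measurable_snd.const_mul c)) hNm
  rw [Measure.volume_eq_prod, Measure.prod_apply_symm hm]
  have : ∀ y : ℝ, volume ((fun x : ℝ => (x, y)) ⁻¹' ((fun p : ℝ × ℝ => p.1 + c * p.2) ⁻¹' N)) = 0 := by
    intro y
    have : (fun x : ℝ => (x, y)) ⁻¹' ((fun p : ℝ × ℝ => p.1 + c * p.2) ⁻¹' N) =
        (fun x : ℝ => x + c * y) ⁻¹' N := rfl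
    rw [this, measure_preimage_add_right, hN]
  simp [this]

theorem s2_form_zero_of_ae {c0 C0 : ℝ} {I : Cell} {w : ℝ × ℝ → ℂ} (h : Admissible c0 C0 I w)
    (hc0 : 0 < c0) (f : Fin 4 → ℝ → ℂ) (j : Fin 4) (hj : ∀ᵐ y : ℝ, y ∈ I.set → f j y = 0) :
    form I w f = 0 := by
  unfold form
  rw [integral_eq_zero_of_ae, mul_zero]
  filter_upwards [s2_ae_comp (j : ℝ) hj] with p hp
  by_cases hw : w p = 0
  · simp [hw]
  · have := hp ((s2_adm_supp h hc0 hw).1 j)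
    simp only [Pi.zero_apply]
    rw [Finset.prod_eq_zero (Finset.mem_univ j) this, mul_zero]

/-! ### normalized norms -/

theorem s2_nnorm_eq_zero {q : ℝ} (hq : 0 < q) (I : Cell) {f : ℝ → ℂ} (hf : BddCS f)
    (h : nnorm q I f = 0) : ∀ᵐ y : ℝ, y ∈ I.set → f y = 0 := by
  have h1 := nnorm_rpow_mul_len hq I f
  rw [h, Real.zero_rpow hq.ne', zero_mul] at h1
  have h2 := (setIntegral_eq_zero_iff_of_nonneg_ae
    (Filter.Eventually.of_forall fun y => Real.rpow_nonneg (norm_nonneg (f y)) q)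
    (hf.integrableOn_rpow_cell hq.le I)).1 h1.symm
  rw [Filter.EventuallyEq, ae_restrict_iff' (cell_measurableSet I)] at h2
  filter_upwards [h2] with y hy hyI
  have := hy hyI
  simp only [Pi.zero_apply] at this
  rw [Real.rpow_eq_zero (norm_nonneg _) hq.ne'] at this
  exact norm_eq_zero.1 this

end Claimed.Agent.R258
end

/- ===== packed: Claimed.Agent.R258.S2.AbsCore ===== -/
section
/-
Row 258, block [S2] (outer.tex, architect helper145), package P-S2-ABSCORE.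

Lemma 2.1 (local absolute estimate) with all exponents two.

PROOF NOTES.
* `s2_pair_lintegral`: for `a ≠ b` in `Fin 4` the linear map `(x,t) ↦ (x + a t, x + b t)` of `ℝ × ℝ` has determinant `b - a`,
  `|b - a| ≥ 1`.  Only the pairs `(0,1)` and `(2,3)` (determinant `1`) are used below.  Elementary route without determinants:
  Tonelli (`lintegral_prod`), in the inner integral substitute `x ↦ x - a t` (`lintegral_add_right_eq_self`/`lintegral_sub_right_eq_self`),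
  swap (`lintegral_lintegral_swap`), then `t ↦ y + (b-a) t` is for `b - a = 1` again a translation.
* `s2_local_abs_enn`: `‖w p‖ₑ ≤ ofReal K` and `w p ≠ 0` forces all four points into `I.set` (`s2_adm_supp`), so the left side is at most
  `K * ∫⁻ (U 0 U 1)(U 2 U 3)` with `U j = (I.set.indicator (u j)) (p.1 + j p.2)`; Cauchy-Schwarz
  (`ENNReal.lintegral_mul_le_Lp_mul_Lq` with `p = q = 2`), then `s2_pair_lintegral` for the squares.
  Normalisation: `len⁻² * ∏ (∫_I u_j²)^(1/2) = ∏ (len⁻¹ ∫_I u_j²)^(1/2)`.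
* `s2_local_abs`: `‖form‖ ≤ len⁻² ∫ ‖w‖ ∏ ‖f j‖` (`norm_integral_le_integral_norm`), pass to `ENNReal.ofReal`
  (`ofReal_integral_eq_lintegral_ofReal`, integrability from `s2_form_integrable`, `s2_bddcs_integrable_rpow`).
  (`ofReal_nnorm_eq` of `R258/Cell/Nnorm.lean` translates `nnorm 2 I (f j)`.)
-/
set_option autoImplicit false
open MeasureTheory
open scoped ENNReal ContDiff

namespace Claimed.Agent.R258

/-- change of variables for the pairs of slots `(a, a+1)` -/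
theorem s2_pair_lintegral (a : ℝ) (F G : ℝ → ℝ≥0∞) (hF : Measurable F) (hG : Measurable G) :
    ∫⁻ p : ℝ × ℝ, F (p.1 + a * p.2) * G (p.1 + (a + 1) * p.2) = (∫⁻ y, F y) * ∫⁻ y, G y := by
  have hm : Measurable (fun p : ℝ × ℝ => F (p.1 + a * p.2) * G (p.1 + (a + 1) * p.2)) :=
    (hF.comp (measurable_fst.add (measurable_snd.const_mul a))).mul
      (hG.comp (measurable_fst.add (measurable_snd.const_mul (a + 1))))
  rw [Measure.volume_eq_prod, lintegral_prod_symm' _ hm]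
  have h1 : ∀ t : ℝ, ∫⁻ x : ℝ, F (x + a * t) * G (x + (a + 1) * t) = ∫⁻ x : ℝ, F x * G (x + t) := by
    intro t
    rw [← lintegral_add_right_eq_self (fun x : ℝ => F x * G (x + t)) (a * t)]
    refine lintegral_congr fun x => ?_
    congr 2
    ring
  simp only [h1]
  have hm2 : Measurable (Function.uncurry fun t x : ℝ => F x * G (x + t)) :=
    (hF.comp measurable_snd).mul (hG.comp (measurable_snd.add measurable_fst))
  rw [lintegral_lintegral_swap hm2.aemeasurable]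
  have h2 : ∀ x : ℝ, ∫⁻ t : ℝ, F x * G (x + t) = F x * ∫⁻ y, G y := by
    intro x
    have hGx : Measurable fun t : ℝ => G (x + t) := hG.comp (measurable_const.add measurable_id)
    rw [lintegral_const_mul _ hGx, lintegral_add_left_eq_self G x]
  simp only [h2]
  rw [lintegral_mul_const _ hF]

theorem s2_indicator_rpow_two (s : Set ℝ) (u : ℝ → ℝ≥0∞) (y : ℝ) :
    (s.indicator u y) ^ (2 : ℝ) = s.indicator (fun y => u y ^ (2 : ℝ)) y := by
  by_cases hy : y ∈ s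
  · rw [Set.indicator_of_mem hy, Set.indicator_of_mem hy]
  · rw [Set.indicator_of_notMem hy, Set.indicator_of_notMem hy, ENNReal.zero_rpow_of_pos (by norm_num)]

/-- Cauchy-Schwarz for the four-fold product -/
theorem s2_four_prod_le (U : Fin 4 → ℝ → ℝ≥0∞) (hU : ∀ j, Measurable (U j)) :
    ∫⁻ p : ℝ × ℝ, ∏ j : Fin 4, U j (p.1 + (j : ℝ) * p.2) ≤
      ∏ j : Fin 4, (∫⁻ y, U j y ^ (2 : ℝ)) ^ (1 / 2 : ℝ) := by
  have hsq : ∀ j, Measurable fun y => U j y ^ (2 : ℝ) := fun j => (hU j).pow_const _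
  set A : ℝ × ℝ → ℝ≥0∞ := fun p => U 0 (p.1 + 0 * p.2) * U 1 (p.1 + (0 + 1) * p.2) with hA
  set B : ℝ × ℝ → ℝ≥0∞ := fun p => U 2 (p.1 + 2 * p.2) * U 3 (p.1 + (2 + 1) * p.2) with hB
  have hAm : Measurable A :=
    ((hU 0).comp (measurable_fst.add (measurable_snd.const_mul 0))).mul
      ((hU 1).comp (measurable_fst.add (measurable_snd.const_mul (0 + 1))))
  have hBm : Measurable B :=
    ((hU 2).comp (measurable_fst.add (measurable_snd.const_mul 2))).mul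
      ((hU 3).comp (measurable_fst.add (measurable_snd.const_mul (2 + 1))))
  have h0 : ∀ p : ℝ × ℝ, ∏ j : Fin 4, U j (p.1 + (j : ℝ) * p.2) = (A * B) p := by
    intro p
    rw [Fin.prod_univ_four]
    simp only [hA, hB, Pi.mul_apply]
    have h33 : (((3 : Fin 4) : ℕ) : ℝ) = 2 + 1 := by norm_num
    rw [h33]
    simp only [Fin.val_zero, Nat.cast_zero, Fin.val_one, Nat.cast_one, Fin.val_two, Nat.cast_ofNat,
      zero_add]
    ring
  simp only [h0]
  refine (ENNReal.lintegral_mul_le_Lp_mul_Lq volume (Real.HolderConjugate.two_two) hAm.aemeasurable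
    hBm.aemeasurable).trans ?_
  have hA2 : ∫⁻ p, A p ^ (2 : ℝ) = (∫⁻ y, U 0 y ^ (2 : ℝ)) * ∫⁻ y, U 1 y ^ (2 : ℝ) := by
    rw [← s2_pair_lintegral 0 _ _ (hsq 0) (hsq 1)]
    refine lintegral_congr fun p => ?_
    simp only [hA]
    rw [ENNReal.mul_rpow_of_nonneg _ _ (by norm_num)]
  have hB2 : ∫⁻ p, B p ^ (2 : ℝ) = (∫⁻ y, U 2 y ^ (2 : ℝ)) * ∫⁻ y, U 3 y ^ (2 : ℝ) := by
    rw [← s2_pair_lintegral 2 _ _ (hsq 2) (hsq 3)]
    refine lintegral_congr fun p => ?_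
    simp only [hB]
    rw [ENNReal.mul_rpow_of_nonneg _ _ (by norm_num)]
  rw [hA2, hB2, Fin.prod_univ_four, ENNReal.mul_rpow_of_nonneg _ _ (by norm_num),
    ENNReal.mul_rpow_of_nonneg _ _ (by norm_num)]
  exact le_of_eq (by ring)

/-- Lemma 2.1 with exponents `(2,2,2,2)`, for arbitrary nonnegative measurable functions. -/
theorem s2_local_abs_enn {c0 C0 : ℝ} {I : Cell} {w : ℝ × ℝ → ℂ} (h : Admissible c0 C0 I w)
    (hc0 : 0 < c0) (u : Fin 4 → ℝ → ℝ≥0∞) (hu : ∀ j, Measurable (u j)) :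
    (ENNReal.ofReal (I.len ^ 2))⁻¹ * ∫⁻ p : ℝ × ℝ, ‖w p‖ₑ * ∏ j : Fin 4, u j (p.1 + (j : ℝ) * p.2) ≤
      ENNReal.ofReal ((C0 * 2) ^ (C0 * 2)) *
        ∏ j : Fin 4, ((ENNReal.ofReal I.len)⁻¹ * ∫⁻ y in I.set, u j y ^ (2 : ℝ)) ^ (1 / 2 : ℝ) := by
  set K : ℝ≥0∞ := ENNReal.ofReal ((C0 * 2) ^ (C0 * 2)) with hK
  set U : Fin 4 → ℝ → ℝ≥0∞ := fun j => I.set.indicator (u j) with hU
  have hUm : ∀ j, Measurable (U j) := fun j => (hu j).indicator (cell_measurableSet I)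
  have h1 : ∀ p : ℝ × ℝ, ‖w p‖ₑ * ∏ j : Fin 4, u j (p.1 + (j : ℝ) * p.2) ≤
      K * ∏ j : Fin 4, U j (p.1 + (j : ℝ) * p.2) := by
    intro p
    by_cases hw : w p = 0
    · simp [hw]
    · have hmem := (s2_adm_supp h hc0 hw).1
      have : ∀ j : Fin 4, U j (p.1 + (j : ℝ) * p.2) = u j (p.1 + (j : ℝ) * p.2) := fun j =>
        Set.indicator_of_mem (hmem j) _
      simp only [this]
      gcongr
      rw [hK, ← ofReal_norm]
      exact ENNReal.ofReal_le_ofReal (s2_adm_bound h p)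
  have h2 : ∫⁻ p : ℝ × ℝ, ‖w p‖ₑ * ∏ j : Fin 4, u j (p.1 + (j : ℝ) * p.2) ≤
      K * ∏ j : Fin 4, (∫⁻ y in I.set, u j y ^ (2 : ℝ)) ^ (1 / 2 : ℝ) := by
    calc ∫⁻ p : ℝ × ℝ, ‖w p‖ₑ * ∏ j : Fin 4, u j (p.1 + (j : ℝ) * p.2)
        ≤ ∫⁻ p : ℝ × ℝ, K * ∏ j : Fin 4, U j (p.1 + (j : ℝ) * p.2) := lintegral_mono h1
      _ = K * ∫⁻ p : ℝ × ℝ, ∏ j : Fin 4, U j (p.1 + (j : ℝ) * p.2) := by
          rw [lintegral_const_mul' _ _ (by rw [hK]; exact ENNReal.ofReal_ne_top)]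
      _ ≤ K * ∏ j : Fin 4, (∫⁻ y, U j y ^ (2 : ℝ)) ^ (1 / 2 : ℝ) := by
          gcongr
          exact s2_four_prod_le U hUm
      _ = K * ∏ j : Fin 4, (∫⁻ y in I.set, u j y ^ (2 : ℝ)) ^ (1 / 2 : ℝ) := by
          congr 1
          refine Finset.prod_congr rfl fun j _ => ?_
          congr 1
          rw [← lintegral_indicator (cell_measurableSet I)]
          refine lintegral_congr fun y => ?_
          exact s2_indicator_rpow_two _ _ _
  set c : ℝ≥0∞ := (ENNReal.ofReal I.len)⁻¹ with hc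
  have hlen : 0 < I.len := cell_len_pos I
  have hc2 : (ENNReal.ofReal (I.len ^ 2))⁻¹ = c * c := by
    rw [hc, pow_two, ENNReal.ofReal_mul hlen.le, ENNReal.mul_inv]
    · left; simpa using hlen
    · left; exact ENNReal.ofReal_ne_top
  have hchalf : c ^ (1 / 2 : ℝ) * c ^ (1 / 2 : ℝ) = c := by
    rw [← ENNReal.rpow_add_of_nonneg _ _ (by norm_num) (by norm_num)]
    norm_num
  calc (ENNReal.ofReal (I.len ^ 2))⁻¹ * ∫⁻ p : ℝ × ℝ, ‖w p‖ₑ * ∏ j : Fin 4, u j (p.1 + (j : ℝ) * p.2)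
      ≤ (c * c) * (K * ∏ j : Fin 4, (∫⁻ y in I.set, u j y ^ (2 : ℝ)) ^ (1 / 2 : ℝ)) := by
        rw [hc2]; gcongr
    _ = K * ∏ j : Fin 4, (c * ∫⁻ y in I.set, u j y ^ (2 : ℝ)) ^ (1 / 2 : ℝ) := by
        simp only [ENNReal.mul_rpow_of_nonneg _ _ (by norm_num : (0 : ℝ) ≤ 1 / 2)]
        rw [Finset.prod_mul_distrib, Finset.prod_const, Finset.card_univ, Fintype.card_fin]
        have : (c ^ (1 / 2 : ℝ)) ^ 4 = c * c := by
          calc (c ^ (1 / 2 : ℝ)) ^ 4 = (c ^ (1 / 2 : ℝ) * c ^ (1 / 2 : ℝ)) * (c ^ (1 / 2 : ℝ) * c ^ (1 / 2 : ℝ)) := by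
                ring
            _ = c * c := by rw [hchalf]
        rw [this]
        ring

theorem s2_local_abs {c0 C0 : ℝ} {I : Cell} {w : ℝ × ℝ → ℂ} (h : Admissible c0 C0 I w)
    (hc0 : 0 < c0) {f : Fin 4 → ℝ → ℂ} (hf : ∀ j, BddCS (f j)) :
    ‖form I w f‖ ≤ (C0 * 2) ^ (C0 * 2) * ∏ j : Fin 4, nnorm 2 I (f j) := by
  have hK0 : 0 ≤ (C0 * 2) ^ (C0 * 2) := (norm_nonneg _).trans (s2_adm_bound h 0)
  have hlen : 0 < I.len := cell_len_pos I
  have hR0 : 0 ≤ (C0 * 2) ^ (C0 * 2) * ∏ j : Fin 4, nnorm 2 I (f j) :=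
    mul_nonneg hK0 (Finset.prod_nonneg fun j _ => nnorm_nonneg _ _ _)
  rw [← ENNReal.ofReal_le_ofReal_iff hR0, ofReal_norm]
  have h1 := s2_local_abs_enn h hc0 (fun j y => ‖f j y‖ₑ) (fun j => (hf j).meas.enorm)
  have h2 : ‖form I w f‖ₑ ≤ (ENNReal.ofReal (I.len ^ 2))⁻¹ *
      ∫⁻ p : ℝ × ℝ, ‖w p‖ₑ * ∏ j : Fin 4, ‖f j (p.1 + (j : ℝ) * p.2)‖ₑ := by
    unfold form
    rw [enorm_mul]
    have e1 : ‖(((I.len ^ 2)⁻¹ : ℝ) : ℂ)‖ₑ = (ENNReal.ofReal (I.len ^ 2))⁻¹ := by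
      rw [← ofReal_norm, Complex.norm_real, Real.norm_eq_abs, abs_of_pos (by positivity),
        ENNReal.ofReal_inv_of_pos (by positivity)]
    rw [e1]
    gcongr
    refine (enorm_integral_le_lintegral_enorm _).trans (le_of_eq ?_)
    refine lintegral_congr fun p => ?_
    rw [enorm_mul, Fin.prod_univ_four, Fin.prod_univ_four, enorm_mul, enorm_mul, enorm_mul]
  refine h2.trans (h1.trans (le_of_eq ?_))
  rw [ENNReal.ofReal_mul hK0, ENNReal.ofReal_prod_of_nonneg (fun j _ => nnorm_nonneg _ _ _)]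
  congr 1
  refine Finset.prod_congr rfl fun j _ => ?_
  rw [ofReal_nnorm_eq (by norm_num) I (f j) ((hf j).integrableOn_rpow_cell (by norm_num) I)]

end Claimed.Agent.R258
end

/- ===== packed: Claimed.Agent.R258.Geo.Equiv ===== -/
section
/-
Row 258, [MK2].  Leaf P-GEO4-EQUIV: transport of the dichotomy along (a) an equivalence of index types, (b) a unimodular base change.
PROVED (helper197).
-/
set_option autoImplicit false
open Matrix

namespace Claimed.Agent.R258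

variable {ι ι' : Type*} [Fintype ι] [DecidableEq ι] [Fintype ι'] [DecidableEq ι']
  {E : Type*} [NormedAddCommGroup E] [InnerProductSpace ℝ E]

/-- pull back of `Φ` along an equivalence of the index types -/
noncomputable def geo4_pull (e : ι ≃ ι') (Φ : (ι' → ℝ) →ₗ[ℝ] E) : (ι → ℝ) →ₗ[ℝ] E :=
  Φ ∘ₗ (LinearEquiv.funCongrLeft ℝ ℝ e.symm).toLinearMap

omit [Fintype ι] [DecidableEq ι] [Fintype ι'] [DecidableEq ι'] in
theorem geo4_eq_pull_apply (e : ι ≃ ι') (Φ : (ι' → ℝ) →ₗ[ℝ] E) (y : ι → ℝ) :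
    geo4_pull e Φ y = Φ (y ∘ e.symm) := rfl

omit [Fintype ι] [DecidableEq ι] [Fintype ι'] [DecidableEq ι'] in
theorem geo4_pull_coer (e : ι ≃ ι') (Φ : (ι' → ℝ) →ₗ[ℝ] E) (h : geo4_Coer Φ) : geo4_Coer (geo4_pull e Φ) := by
  obtain ⟨ε, hε, hco⟩ := h
  refine ⟨ε, hε, fun y l => ?_⟩
  have := hco (y ∘ e.symm) (e l)
  rw [geo4_eq_pull_apply]
  simpa using this

theorem geo4_pull_dich (e : ι ≃ ι') (Φ : (ι' → ℝ) →ₗ[ℝ] E) (T K : ℝ) (h : geo4_Dich (geo4_pull e Φ) T K) :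
    geo4_Dich Φ T K := by
  obtain ⟨g, h, S, hgh, hhg, hS, hnS⟩ := h
  refine ⟨g.submatrix e.symm e.symm, h.submatrix e.symm e.symm, {i | e.symm i ∈ S}, ?_, ?_, ?_, ?_⟩
  · rw [Matrix.submatrix_mul_equiv, hgh, Matrix.submatrix_one_equiv]
  · rw [Matrix.submatrix_mul_equiv, hhg, Matrix.submatrix_one_equiv]
  · intro i hi
    have := hS (e.symm i) hi
    rw [geo4_eq_pull_apply] at this
    exact this
  · intro j hj y
    have := hnS (e.symm j) hj (y ∘ e)
    rw [geo4_eq_pull_apply] at this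
    have e1 : (y ∘ e) ∘ e.symm = y := by funext l; simp
    rw [e1] at this
    have e2 : ∑ l, (y ∘ e) l * (h l (e.symm j) : ℝ) = ∑ l, y l * ((h.submatrix e.symm e.symm) l j : ℝ) := by
      rw [← Equiv.sum_comp e.symm]
      simp
    rw [← e2]
    exact this

/-- the form in the basis given by the rows of `g0` : `x ↦ Φ (x ᵥ* g0)` -/
noncomputable def geo4_base (g0 : Matrix ι ι ℤ) (Φ : (ι → ℝ) →ₗ[ℝ] E) : (ι → ℝ) →ₗ[ℝ] E :=
  Φ ∘ₗ Matrix.vecMulLinear (g0.map (fun z : ℤ => (z : ℝ)))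

omit [DecidableEq ι] in
theorem geo4_eq_base_apply (g0 : Matrix ι ι ℤ) (Φ : (ι → ℝ) →ₗ[ℝ] E) (x : ι → ℝ) :
    geo4_base g0 Φ x = Φ (x ᵥ* g0.map (fun z : ℤ => (z : ℝ))) := rfl

theorem geo4_eq_cast_mul (a b : Matrix ι ι ℤ) (hab : a * b = 1) :
    a.map (fun z : ℤ => (z : ℝ)) * b.map (fun z : ℤ => (z : ℝ)) = 1 := by
  have := congrArg (fun M : Matrix ι ι ℤ => M.map (Int.castRingHom ℝ)) hab
  simp only [Matrix.map_mul] at this
  rw [Matrix.map_one _ (map_zero _) (map_one _)] at this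
  exact this

theorem geo4_base_coer (g0 h0 : Matrix ι ι ℤ) (h1 : g0 * h0 = 1) (h2 : h0 * g0 = 1) (Φ : (ι → ℝ) →ₗ[ℝ] E)
    (h : geo4_Coer Φ) : geo4_Coer (geo4_base g0 Φ) := by
  obtain ⟨ε, hε, hco⟩ := h
  set H : ℝ := 1 + ∑ l, ∑ i, ((h0 l i : ℤ) : ℝ) ^ 2 with hH
  have hH1 : 1 ≤ H := by
    have : 0 ≤ ∑ l, ∑ i, ((h0 l i : ℤ) : ℝ) ^ 2 := Finset.sum_nonneg fun l _ => Finset.sum_nonneg fun i _ => sq_nonneg _
    linarith
  set d : ℝ := (Fintype.card ι : ℝ) with hd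
  have hd0 : 0 ≤ d := by positivity
  refine ⟨ε / ((d + 1) * H), by positivity, fun x i => ?_⟩
  rw [geo4_eq_base_apply]
  set z := x ᵥ* g0.map (fun z : ℤ => (z : ℝ)) with hz
  have hx : x = z ᵥ* h0.map (fun z : ℤ => (z : ℝ)) := by
    rw [hz, Matrix.vecMul_vecMul, geo4_eq_cast_mul g0 h0 h1, Matrix.vecMul_one]
  have hxi : x i = ∑ l, z l * ((h0 l i : ℤ) : ℝ) := by
    conv_lhs => rw [hx]
    simp [Matrix.vecMul, dotProduct]
  have hcs : x i ^ 2 ≤ (∑ l, z l ^ 2) * ∑ l, ((h0 l i : ℤ) : ℝ) ^ 2 := by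
    rw [hxi]
    exact Finset.sum_mul_sq_le_sq_mul_sq _ _ _
  have hHi : ∑ l, ((h0 l i : ℤ) : ℝ) ^ 2 ≤ H := by
    have : ∑ l, ((h0 l i : ℤ) : ℝ) ^ 2 ≤ ∑ l, ∑ i, ((h0 l i : ℤ) : ℝ) ^ 2 := by
      apply Finset.sum_le_sum
      intro l _
      exact Finset.single_le_sum (f := fun i => ((h0 l i : ℤ) : ℝ) ^ 2) (fun i _ => sq_nonneg _) (Finset.mem_univ i)
    linarith
  have hzs : ε * ∑ l, z l ^ 2 ≤ d * ‖Φ z‖ ^ 2 := by
    rw [Finset.mul_sum]
    calc ∑ l, ε * z l ^ 2 ≤ ∑ _l : ι, ‖Φ z‖ ^ 2 := Finset.sum_le_sum fun l _ => hco z l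
      _ = d * ‖Φ z‖ ^ 2 := by simp [hd]
  have hz0 : 0 ≤ ∑ l, z l ^ 2 := Finset.sum_nonneg fun l _ => sq_nonneg _
  have hN : 0 ≤ ‖Φ z‖ ^ 2 := by positivity
  rw [div_mul_eq_mul_div, div_le_iff₀ (by positivity)]
  calc ε * x i ^ 2 ≤ ε * ((∑ l, z l ^ 2) * H) :=
        mul_le_mul_of_nonneg_left (hcs.trans (mul_le_mul_of_nonneg_left hHi hz0)) hε.le
    _ = (ε * ∑ l, z l ^ 2) * H := by ring
    _ ≤ (d * ‖Φ z‖ ^ 2) * H := mul_le_mul_of_nonneg_right hzs (by linarith)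
    _ ≤ ‖Φ z‖ ^ 2 * ((d + 1) * H) := by nlinarith [mul_nonneg hN (by linarith : (0:ℝ) ≤ H)]

omit [DecidableEq ι] in
/-- rows: `geo4_base g0 Φ (row i of g) = Φ (row i of g * g0)` -/
theorem geo4_base_row (g0 g : Matrix ι ι ℤ) (Φ : (ι → ℝ) →ₗ[ℝ] E) (i : ι) :
    geo4_base g0 Φ (fun l => (g i l : ℝ)) = Φ (fun l => ((g * g0) i l : ℝ)) := by
  rw [geo4_eq_base_apply]
  congr 1
  funext l
  simp [Matrix.vecMul, dotProduct, Matrix.mul_apply]

theorem geo4_base_dich (g0 h0 : Matrix ι ι ℤ) (h1 : g0 * h0 = 1) (h2 : h0 * g0 = 1) (Φ : (ι → ℝ) →ₗ[ℝ] E) (T K : ℝ)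
    (h : geo4_Dich (geo4_base g0 Φ) T K) : geo4_Dich Φ T K := by
  obtain ⟨g, h, S, hgh, hhg, hS, hnS⟩ := h
  refine ⟨g * g0, h0 * h, S, ?_, ?_, ?_, ?_⟩
  · rw [mul_assoc, ← mul_assoc g0, h1, one_mul, hgh]
  · rw [mul_assoc, ← mul_assoc h, hhg, one_mul, h2]
  · intro i hi
    rw [← geo4_base_row]
    exact hS i hi
  · intro j hj y
    have := hnS j hj (y ᵥ* h0.map (fun z : ℤ => (z : ℝ)))
    rw [geo4_eq_base_apply, Matrix.vecMul_vecMul, geo4_eq_cast_mul h0 g0 h2, Matrix.vecMul_one] at this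
    have e2 : ∑ l, (y ᵥ* h0.map (fun z : ℤ => (z : ℝ))) l * (h l j : ℝ) = ∑ l, y l * ((h0 * h) l j : ℝ) := by
      simp only [Matrix.vecMul, dotProduct, Matrix.map_apply, Matrix.mul_apply, Finset.sum_mul, Int.cast_sum, Int.cast_mul,
        Finset.mul_sum]
      rw [Finset.sum_comm]
      apply Finset.sum_congr rfl
      intro l _
      apply Finset.sum_congr rfl
      intro k _
      ring
    rw [← e2]
    exact this

end Claimed.Agent.R258
end

/- ===== packed: Claimed.Agent.R258.Geo.Step ===== -/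
section
/-
Row 258, [MK2].  Leaf P-GEO4-STEP: the induction step of the reduced basis dichotomy.   PROVED (helper197).
-/
set_option autoImplicit false
open Matrix

namespace Claimed.Agent.R258

variable {ι : Type*} [Fintype ι] [DecidableEq ι] {E : Type*} [NormedAddCommGroup E] [InnerProductSpace ℝ E]

/-- `x ↦ (0, x)` -/
def geo4_st_emb : (ι → ℝ) →ₗ[ℝ] (Unit ⊕ ι → ℝ) where
  toFun x := Sum.elim (fun _ => 0) x
  map_add' x y := by funext s; cases s <;> simp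
  map_smul' c x := by funext s; cases s <;> simp

omit [Fintype ι] in
theorem geo4_st_decomp (y : Unit ⊕ ι → ℝ) :
    y = y (Sum.inl ()) • Pi.single (Sum.inl ()) (1 : ℝ) + geo4_st_emb (y ∘ Sum.inr) := by
  funext s
  rcases s with ⟨⟩ | l <;> simp [geo4_st_emb]

omit [Fintype ι] in
/-- the orthogonal splitting along `v = Φ e_0` -/
theorem geo4_st_split (Φ : (Unit ⊕ ι → ℝ) →ₗ[ℝ] E) (hv : Φ (Pi.single (Sum.inl ()) 1) ≠ 0) :
    ∃ (Ψ : (ι → ℝ) →ₗ[ℝ] E) (t : (ι → ℝ) →ₗ[ℝ] ℝ), ∀ y : Unit ⊕ ι → ℝ,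
      ‖Φ y‖ ^ 2 = ‖Ψ (y ∘ Sum.inr)‖ ^ 2 + (y (Sum.inl ()) + t (y ∘ Sum.inr)) ^ 2 * ‖Φ (Pi.single (Sum.inl ()) 1)‖ ^ 2 := by
  set v := Φ (Pi.single (Sum.inl ()) 1) with hvdef
  have hnv : ‖v‖ ^ 2 ≠ 0 := by
    have : ‖v‖ ≠ 0 := norm_ne_zero_iff.mpr hv
    positivity
  let t : (ι → ℝ) →ₗ[ℝ] ℝ := (‖v‖ ^ 2)⁻¹ • ((innerₛₗ ℝ v) ∘ₗ Φ ∘ₗ geo4_st_emb)
  let Ψ : (ι → ℝ) →ₗ[ℝ] E := Φ ∘ₗ geo4_st_emb - t.smulRight v
  refine ⟨Ψ, t, fun y => ?_⟩
  have ht : ∀ x, t x = (‖v‖ ^ 2)⁻¹ * inner ℝ v (Φ (geo4_st_emb x)) := fun x => by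
    simp [t]
  have hΨ : ∀ x, Ψ x = Φ (geo4_st_emb x) - t x • v := fun x => by
    simp [Ψ]
  have h1 : ∀ x, inner ℝ (Ψ x) v = 0 := fun x => by
    rw [hΨ, inner_sub_left, inner_smul_left, real_inner_self_eq_norm_sq, ht, real_inner_comm]
    simp only [conj_trivial]
    field_simp
    ring
  have h2 : Φ y = Ψ (y ∘ Sum.inr) + (y (Sum.inl ()) + t (y ∘ Sum.inr)) • v := by
    conv_lhs => rw [geo4_st_decomp y]
    rw [map_add, map_smul, hΨ, add_smul]
    abel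
  rw [h2, norm_add_sq_real, inner_smul_right, h1, norm_smul, mul_pow, Real.norm_eq_abs, sq_abs]
  ring

/-- the step, given the orthogonal splitting (only real arithmetic and block matrices) -/
theorem geo4_st_core (K : ℝ) (hK : 1 ≤ K) (Φ : (Unit ⊕ ι → ℝ) →ₗ[ℝ] E) (Ψ : (ι → ℝ) →ₗ[ℝ] E)
    (t : (ι → ℝ) →ₗ[ℝ] ℝ) (nv : ℝ) (hnv : 0 < nv)
    (hsplit : ∀ y : Unit ⊕ ι → ℝ, ‖Φ y‖ ^ 2 = ‖Ψ (y ∘ Sum.inr)‖ ^ 2 + (y (Sum.inl ()) + t (y ∘ Sum.inr)) ^ 2 * nv)
    (hmin : ∀ g h : Matrix (Unit ⊕ ι) (Unit ⊕ ι) ℤ, g * h = 1 → h * g = 1 → ∀ i,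
      nv ≤ 4 / 3 * ‖Φ (fun l => (g i l : ℝ))‖ ^ 2)
    (T : ℝ) (hT : 0 < T) (hD : geo4_Dich Ψ T K) :
    geo4_Dich Φ T (((Fintype.card ι : ℝ) + 2) ^ 2 * K) := by
  obtain ⟨g', h', S', hgh, hhg, hS, hnS⟩ := hD
  set d : ℝ := (Fintype.card ι : ℝ) with hd
  have hd0 : 0 ≤ d := by positivity
  set ν : ι → ℝ := fun i => t (fun l => (g' i l : ℝ)) with hν
  set m : ι → ℤ := fun i => round (ν i) with hm
  set μ : ι → ℝ := fun i => ν i - (m i : ℝ) with hμdef
  have hμ : ∀ i, |μ i| ≤ 1 / 2 := fun i => abs_sub_round _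
  have hμ2 : ∀ i, μ i ^ 2 ≤ 1 / 4 := fun i => by
    have := hμ i
    have h2 := abs_nonneg (μ i)
    rw [← sq_abs]
    nlinarith
  let mc : Matrix ι Unit ℤ := Matrix.of fun i _ => m i
  let g : Matrix (Unit ⊕ ι) (Unit ⊕ ι) ℤ := fromBlocks 1 0 (-mc) g'
  let h : Matrix (Unit ⊕ ι) (Unit ⊕ ι) ℤ := fromBlocks 1 0 (h' * mc) h'
  have hgh' : g * h = 1 := by
    have e : g' * (h' * mc) = mc := by rw [← Matrix.mul_assoc, hgh, Matrix.one_mul]
    simp only [g, h, fromBlocks_multiply]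
    rw [e, hgh]
    simp
  have hhg' : h * g = 1 := by
    simp only [g, h, fromBlocks_multiply]
    rw [hhg]
    simp
  -- rows
  have hrow_inr : ∀ i, ‖Φ (fun l => (g (Sum.inr i) l : ℝ))‖ ^ 2 = ‖Ψ (fun l => (g' i l : ℝ))‖ ^ 2 + μ i ^ 2 * nv := by
    intro i
    rw [hsplit]
    have e1 : (fun l => (g (Sum.inr i) l : ℝ)) ∘ Sum.inr = fun l => (g' i l : ℝ) := by
      funext l; simp [g]
    have e2 : ((g (Sum.inr i) (Sum.inl ()) : ℤ) : ℝ) = -(m i : ℝ) := by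
      simp [g, mc]
    rw [e1, e2]
    congr 2
    simp only [hμdef, hν]
    ring
  have hrow_inl : ‖Φ (fun l => (g (Sum.inl ()) l : ℝ))‖ ^ 2 = nv := by
    rw [hsplit]
    have e1 : (fun l => (g (Sum.inl ()) l : ℝ)) ∘ Sum.inr = 0 := by
      funext l; simp [g]
    have e2 : ((g (Sum.inl ()) (Sum.inl ()) : ℤ) : ℝ) = 1 := by
      simp [g]
    rw [e1, e2]
    simp
  -- columns
  have hcol_inr : ∀ (j : ι) (y : Unit ⊕ ι → ℝ),
      ∑ l, y l * (h l (Sum.inr j) : ℝ) = ∑ l, (y ∘ Sum.inr) l * (h' l j : ℝ) := by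
    intro j y
    rw [Fintype.sum_sum_type]
    simp [h]
  have hone : ∀ l' l : ι, ∑ j, (h' l' j : ℝ) * (g' j l : ℝ) = if l' = l then 1 else 0 := by
    intro l' l
    have := congrFun (congrFun hhg l') l
    rw [Matrix.mul_apply, Matrix.one_apply] at this
    exact_mod_cast this
  have hexp : ∀ x : ι → ℝ, x = ∑ j, (∑ l, x l * (h' l j : ℝ)) • (fun l => (g' j l : ℝ)) := by
    intro x
    funext l
    simp only [Finset.sum_apply, Pi.smul_apply, smul_eq_mul, Finset.sum_mul]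
    rw [Finset.sum_comm]
    have : ∀ l', ∑ j, x l' * (h' l' j : ℝ) * (g' j l : ℝ) = x l' * (if l' = l then 1 else 0) := by
      intro l'
      rw [← hone l' l, Finset.mul_sum]
      apply Finset.sum_congr rfl
      intro j _
      ring
    simp only [this]
    simp
  have ht : ∀ x : ι → ℝ, t x = ∑ j, (∑ l, x l * (h' l j : ℝ)) * ν j := by
    intro x
    conv_lhs => rw [hexp x]
    rw [map_sum]
    apply Finset.sum_congr rfl
    intro j _
    rw [map_smul, smul_eq_mul]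
  have hcol_inl : ∀ y : Unit ⊕ ι → ℝ, ∑ l, y l * (h l (Sum.inl ()) : ℝ) =
      (y (Sum.inl ()) + t (y ∘ Sum.inr)) - ∑ j, μ j * (∑ l, (y ∘ Sum.inr) l * (h' l j : ℝ)) := by
    intro y
    rw [Fintype.sum_sum_type, ht]
    have e1 : ∀ l : ι, ((h (Sum.inr l) (Sum.inl ()) : ℤ) : ℝ) = ∑ j, (h' l j : ℝ) * (m j : ℝ) := by
      intro l
      simp [h, mc, Matrix.mul_apply]
    simp only [e1]
    have e2 : ∑ l : ι, y (Sum.inr l) * ∑ j, (h' l j : ℝ) * (m j : ℝ)
        = ∑ j, (m j : ℝ) * (∑ l, (y ∘ Sum.inr) l * (h' l j : ℝ)) := by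
      simp only [Finset.mul_sum]
      rw [Finset.sum_comm]
      apply Finset.sum_congr rfl
      intro j _
      apply Finset.sum_congr rfl
      intro l _
      simp only [Function.comp]
      ring
    rw [e2]
    have e3 : ∑ x : Unit, y (Sum.inl x) * ((h (Sum.inl x) (Sum.inl ()) : ℤ) : ℝ) = y (Sum.inl ()) := by
      simp [h]
    rw [e3, add_sub_assoc, ← Finset.sum_sub_distrib]
    congr 1
    apply Finset.sum_congr rfl
    intro j _
    simp only [hμdef]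
    ring
  have hΨle : ∀ y : Unit ⊕ ι → ℝ, ‖Ψ (y ∘ Sum.inr)‖ ^ 2 ≤ ‖Φ y‖ ^ 2 := by
    intro y
    rw [hsplit y]
    have : 0 ≤ (y (Sum.inl ()) + t (y ∘ Sum.inr)) ^ 2 * nv := by positivity
    linarith
  have h4 : 4 ≤ (d + 2) ^ 2 := by nlinarith
  have hbig : K ≤ (d + 2) ^ 2 * K := le_mul_of_one_le_left (by linarith) (by linarith)
  have hcolr : ∀ j, j ∉ S' → ∀ y : Unit ⊕ ι → ℝ,
      T * (∑ l, y l * (h l (Sum.inr j) : ℝ)) ^ 2 ≤ (d + 2) ^ 2 * K * ‖Φ y‖ ^ 2 := by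
    intro j hj y
    rw [hcol_inr]
    calc _ ≤ K * ‖Ψ (y ∘ Sum.inr)‖ ^ 2 := hnS j hj _
      _ ≤ K * ‖Φ y‖ ^ 2 := mul_le_mul_of_nonneg_left (hΨle y) (by linarith)
      _ ≤ _ := mul_le_mul_of_nonneg_right hbig (by positivity)
  by_cases hcase : nv ≤ 2 * K * T
  · -- short first vector
    refine ⟨g, h, {s | Sum.elim (fun _ => True) (fun i => i ∈ S') s}, hgh', hhg', ?_, ?_⟩
    · rintro (⟨⟩ | i) hi
      · rw [hrow_inl]
        have : 0 < K * T := by positivity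
        have h5 := mul_le_mul_of_nonneg_right h4 this.le
        linarith
      · rw [hrow_inr]
        have h1 := hS i hi
        have h2 := hμ2 i
        have : 0 < K * T := by positivity
        have h5 := mul_le_mul_of_nonneg_right h4 this.le
        have h6 := mul_le_mul_of_nonneg_right h2 hnv.le
        linarith
    · rintro (⟨⟩ | j) hj
      · exact absurd trivial hj
      · exact hcolr j hj
  · -- long first vector
    push Not at hcase
    have hempty : ∀ i, i ∉ S' := by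
      intro i hi
      have h1 := hS i hi
      have h2 := hmin g h hgh' hhg' (Sum.inr i)
      rw [hrow_inr] at h2
      have h3 := hμ2 i
      nlinarith
    refine ⟨g, h, ∅, hgh', hhg', fun i hi => absurd hi (Set.notMem_empty i), ?_⟩
    rintro (⟨⟩ | j) _
    · intro y
      rw [hcol_inl]
      set A := y (Sum.inl ()) + t (y ∘ Sum.inr) with hA
      set x : ι → ℝ := fun j => ∑ l, (y ∘ Sum.inr) l * (h' l j : ℝ) with hx
      set N := ‖Φ y‖ ^ 2 with hN
      have hN0 : 0 ≤ N := by positivity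
      have hA2 : A ^ 2 * nv ≤ N := by
        rw [hN, hsplit y]
        have : 0 ≤ ‖Ψ (y ∘ Sum.inr)‖ ^ 2 := by positivity
        linarith
      have hTA : 2 * K * (T * A ^ 2) ≤ N := by
        have : 0 ≤ A ^ 2 := by positivity
        nlinarith
      have hx2 : ∀ j, T * x j ^ 2 ≤ K * N := fun j =>
        (hnS j (hempty j) _).trans (mul_le_mul_of_nonneg_left (hΨle y) (by linarith))
      have hB : (∑ j, μ j * x j) ^ 2 ≤ d * ∑ j, (μ j * x j) ^ 2 := by
        have := sq_sum_le_card_mul_sum_sq (s := Finset.univ) (f := fun j => μ j * x j)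
        simpa [hd] using this
      have hB2 : T * ∑ j, (μ j * x j) ^ 2 ≤ d * (K * N / 4) := by
        rw [Finset.mul_sum]
        calc ∑ j, T * (μ j * x j) ^ 2 ≤ ∑ _j : ι, K * N / 4 := by
              apply Finset.sum_le_sum
              intro j _
              have h1 := hx2 j
              have h2 := hμ2 j
              have h3 : 0 ≤ T * x j ^ 2 := by positivity
              rw [mul_pow]
              nlinarith
          _ = d * (K * N / 4) := by simp [hd]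
      have hsq : (A - ∑ j, μ j * x j) ^ 2 ≤ 2 * A ^ 2 + 2 * (∑ j, μ j * x j) ^ 2 := by
        nlinarith [sq_nonneg (A + ∑ j, μ j * x j)]
      have hTA' : T * A ^ 2 ≤ N / 2 := by
        have : 0 ≤ T * A ^ 2 := by positivity
        nlinarith
      have hfin : T * (A - ∑ j, μ j * x j) ^ 2 ≤ N + d * (d * (K * N / 2)) := by
        have h1 : T * (∑ j, μ j * x j) ^ 2 ≤ d * (d * (K * N / 4)) := by
          calc T * (∑ j, μ j * x j) ^ 2 ≤ T * (d * ∑ j, (μ j * x j) ^ 2) := mul_le_mul_of_nonneg_left hB hT.le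
            _ = d * (T * ∑ j, (μ j * x j) ^ 2) := by ring
            _ ≤ _ := mul_le_mul_of_nonneg_left hB2 hd0
        have h2 := mul_le_mul_of_nonneg_left hsq hT.le
        nlinarith
      refine hfin.trans ?_
      have : 0 ≤ K * N := by positivity
      nlinarith [mul_nonneg hd0 this, mul_nonneg (mul_nonneg hd0 hd0) this]
    · exact hcolr j (hempty j)

/-- **Induction step.**  Index type `Unit ⊕ ι`; `v = Φ e_0` (`e_0 = Pi.single (Sum.inl ()) 1`) is shortest up to `4/3` among the rows of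
unimodular matrices.
PLAN.  `v ≠ 0` by coercivity.  `π x = x - (⟪v,x⟫/‖v‖²) v`;  `Ψ x = π (Φ (0,x))` (`x : ι → ℝ`, `(0,x) = Sum.elim 0 x`) is coercive, because
`Ψ x = Φ (-t, x)`.  `IH` for `Ψ` at the same `T` gives `ḡ, h̄, S̄`.  Put `ν i = ⟪v, Φ (0, ḡ_i)⟫/‖v‖²`, `m i = round (ν i)`, `μ i = ν i - m i`,
`g = fromBlocks 1 0 (-m) ḡ`, `h = fromBlocks 1 0 (h̄ m) h̄` (`m` as a column `ι × Unit`); `g h = h g = 1` by `fromBlocks_multiply`.
`Φ (g_{inr i}) = Ψ ḡ_i + μ i • v` (orthogonal), so `‖Φ g_{inr i}‖² = ‖Ψ ḡ_i‖² + μ_i² ‖v‖² ≤ ‖Ψ ḡ_i‖² + ‖v‖²/4`.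
For all `y`: `Ψ (y ∘ inr) = π (Φ y)`, `‖Ψ (y∘inr)‖ ≤ ‖Φ y‖`, `y · h^{inr j} = (y∘inr) · h̄^j`,
`y · h^{inl} = ⟪v,Φ y⟫/‖v‖² - ∑_j μ_j ((y∘inr) · h̄^j)`  (use `y∘inr = ∑_j ((y∘inr)·h̄^j) ḡ_j`, i.e. `h̄ ḡ = 1`).
Case `‖v‖² ≤ 2KT`: `S = {inl} ∪ inr '' S̄`; bounds `2KT`, `KT + 2KT/4`.
Case `‖v‖² > 2KT`: `S̄ = ∅` (for `i ∈ S̄`: `3/4 ‖v‖² ≤ ‖Φ g_{inr i}‖² ≤ KT + ‖v‖²/4` by `hmin` applied to `g`), `S = ∅`;
`(y·h^{inl})² ≤ (d+1) (‖Φ y‖²/‖v‖² + ¼ ∑_j ((y∘inr)·h̄^j)²)` (Cauchy-Schwarz, `d + 1` terms), so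
`T (y·h^{inl})² ≤ (d+1) (1/(2K) + d K/4) ‖Φ y‖² ≤ (d+2)² K ‖Φ y‖²`. -/
theorem geo4_step (K : ℝ) (hK : 1 ≤ K)
    (IH : ∀ Ψ : (ι → ℝ) →ₗ[ℝ] E, geo4_Coer Ψ → ∀ T : ℝ, 0 < T → geo4_Dich Ψ T K)
    (Φ : (Unit ⊕ ι → ℝ) →ₗ[ℝ] E) (hΦ : geo4_Coer Φ)
    (hmin : ∀ g h : Matrix (Unit ⊕ ι) (Unit ⊕ ι) ℤ, g * h = 1 → h * g = 1 → ∀ i,
      ‖Φ (Pi.single (Sum.inl ()) 1)‖ ^ 2 ≤ 4 / 3 * ‖Φ (fun l => (g i l : ℝ))‖ ^ 2)
    (T : ℝ) (hT : 0 < T) :
    geo4_Dich Φ T (((Fintype.card ι : ℝ) + 2) ^ 2 * K) := by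
  obtain ⟨ε, hε, hco⟩ := hΦ
  have hv2 : ε ≤ ‖Φ (Pi.single (Sum.inl ()) 1)‖ ^ 2 := by
    have := hco (Pi.single (Sum.inl ()) 1) (Sum.inl ())
    simpa using this
  have hv : Φ (Pi.single (Sum.inl ()) 1) ≠ 0 := by
    intro h0
    rw [h0] at hv2
    simp at hv2
    linarith
  obtain ⟨Ψ, t, hsplit⟩ := geo4_st_split Φ hv
  have hΨ : geo4_Coer Ψ := by
    refine ⟨ε, hε, fun x l => ?_⟩
    have h1 := hco (Sum.elim (fun _ => -t x) x) (Sum.inr l)
    have h2 := hsplit (Sum.elim (fun _ => -t x) x)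
    have e1 : (Sum.elim (fun _ => -t x) x : Unit ⊕ ι → ℝ) ∘ Sum.inr = x := by
      funext l; simp
    rw [e1] at h2
    simp only [Sum.elim_inl, Sum.elim_inr, neg_add_cancel] at h1 h2
    rw [h2] at h1
    simpa using h1
  exact geo4_st_core K hK Φ Ψ t _ (by linarith) hsplit hmin T hT (IH Ψ hΨ T hT)

end Claimed.Agent.R258
end

/- ===== packed: Claimed.Agent.R258.Geo.Dich ===== -/
section
/-
Row 258, [MK2].  The reduced basis dichotomy (assembly: induction on the dimension).  helper197.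
-/
set_option autoImplicit false
open Matrix

namespace Claimed.Agent.R258

variable {E : Type*} [NormedAddCommGroup E] [InnerProductSpace ℝ E]

/-- the step on `Unit ⊕ ι` without the minimality hypothesis -/
theorem geo4_step' {ι : Type*} [Fintype ι] [DecidableEq ι] (K : ℝ) (hK : 1 ≤ K)
    (IH : ∀ Ψ : (ι → ℝ) →ₗ[ℝ] E, geo4_Coer Ψ → ∀ T : ℝ, 0 < T → geo4_Dich Ψ T K)
    (Φ : (Unit ⊕ ι → ℝ) →ₗ[ℝ] E) (hΦ : geo4_Coer Φ) (T : ℝ) (hT : 0 < T) :
    geo4_Dich Φ T (((Fintype.card ι : ℝ) + 2) ^ 2 * K) := by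
  obtain ⟨g0, h0, h1, h2, hmin⟩ := geo4_min Φ hΦ (Sum.inl ())
  apply geo4_base_dich g0 h0 h1 h2
  apply geo4_step K hK IH _ (geo4_base_coer g0 h0 h1 h2 Φ hΦ) _ T hT
  intro g h hgh hhg i
  have e1 : geo4_base g0 Φ (Pi.single (Sum.inl ()) 1) = Φ (fun l => (g0 (Sum.inl ()) l : ℝ)) := by
    have := geo4_base_row g0 (1 : Matrix (Unit ⊕ ι) (Unit ⊕ ι) ℤ) Φ (Sum.inl ())
    rw [one_mul] at this
    rw [← this]
    congr 1
    funext l
    by_cases hl : l = Sum.inl ()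
    · subst hl; simp
    · rw [Pi.single_eq_of_ne hl, Matrix.one_apply_ne (Ne.symm hl)]; simp
  rw [e1, geo4_base_row]
  refine hmin (g * g0) (h0 * h) ?_ ?_ i
  · rw [mul_assoc, ← mul_assoc g0, h1, one_mul, hgh]
  · rw [mul_assoc, ← mul_assoc h, hhg, one_mul, h2]

theorem geo4_dich_fin (d : ℕ) : ∀ Φ : (Fin d → ℝ) →ₗ[ℝ] E, geo4_Coer Φ → ∀ T : ℝ, 0 < T →
    geo4_Dich Φ T (geo4_C d) := by
  induction d with
  | zero =>
    intro Φ _ T _
    exact ⟨1, 1, ∅, by simp, by simp, fun i => i.elim0, fun j => j.elim0⟩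
  | succ d IH =>
    intro Φ hΦ T hT
    have e : (Unit ⊕ Fin d) ≃ Fin (d + 1) := Fintype.equivOfCardEq (by simp [add_comm])
    apply geo4_pull_dich e
    have := geo4_step' (geo4_C d) (geo4_C_one_le d) IH (geo4_pull e Φ) (geo4_pull_coer e Φ hΦ) T hT
    rw [geo4_C_succ]
    simpa using this

/-- **Reduced basis dichotomy** (replaces Minkowski's second theorem + transference + the gap pigeonhole). -/
theorem geo4_dichotomy {ι : Type*} [Fintype ι] [DecidableEq ι] (Φ : (ι → ℝ) →ₗ[ℝ] E) (hΦ : geo4_Coer Φ)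
    (T : ℝ) (hT : 0 < T) : geo4_Dich Φ T (geo4_C (Fintype.card ι)) := by
  have e : Fin (Fintype.card ι) ≃ ι := (Fintype.equivFin ι).symm
  apply geo4_pull_dich e
  exact geo4_dich_fin _ _ (geo4_pull_coer e Φ hΦ) T hT

end Claimed.Agent.R258
end

/- ===== packed: Claimed.Agent.R258.Geo.Returns ===== -/
section
/-
Row 258, [MK2].  The dichotomy applied to the lattice of returns of `W = P⁻¹ V` (assembly).  helper197.

OUTPUT (`geo4_returns`): for every `β > 0` a unimodular pair `g h = h g = 1` and `S ⊆ ι` such that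
 * the rows `q_i = g_i`, `i ∈ S`, are short together with `Wᵀ q_i`:   `|q_i|² + |Wᵀ q_i|² ≤ C_d / β²`;
 * the columns `n_j = h^j`, `j ∉ S`, are short returns:   `n_j = W u + w`, `|u|² + |w|² ≤ C_d β²`.
`geo4_small_return`: every integer vector `n = W u + w` with `C_d (|u|² + |w|²) < β²` is orthogonal to all `q_i`, `i ∈ S`.
So `U = span {n_j : j ∉ S} = {x : q_i · x = 0 ∀ i ∈ S}` is the fast space.
-/
set_option autoImplicit false
open Matrix

namespace Claimed.Agent.R258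

variable {ι κ : Type*} [Fintype ι] [DecidableEq ι] [Fintype κ]

/-- `y ↦ (y, Wᵀ y) ∈ ℝ^{ι ⊕ κ}` -/
noncomputable def geo4_Phi (W : Matrix ι κ ℝ) : (ι → ℝ) →ₗ[ℝ] EuclideanSpace ℝ (ι ⊕ κ) :=
  (WithLp.linearEquiv 2 ℝ (ι ⊕ κ → ℝ)).symm.toLinearMap ∘ₗ
    LinearMap.pi (fun s : ι ⊕ κ => Sum.casesOn s (fun l => LinearMap.proj l)
      (fun a => ∑ l, W l a • (LinearMap.proj l : (ι → ℝ) →ₗ[ℝ] ℝ)))

theorem geo4_Phi_norm (W : Matrix ι κ ℝ) (y : ι → ℝ) :
    ‖geo4_Phi W y‖ ^ 2 = ∑ l, y l ^ 2 + ∑ a, (∑ l, y l * W l a) ^ 2 := by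
  rw [EuclideanSpace.real_norm_sq_eq, Fintype.sum_sum_type]
  congr 1
  apply Finset.sum_congr rfl
  intro a _
  congr 1
  simp [geo4_Phi, LinearMap.sum_apply, mul_comm]

theorem geo4_Phi_coer (W : Matrix ι κ ℝ) : geo4_Coer (geo4_Phi W) := by
  refine ⟨1, one_pos, fun y l => ?_⟩
  rw [geo4_Phi_norm, one_mul]
  have h1 : y l ^ 2 ≤ ∑ l, y l ^ 2 :=
    Finset.single_le_sum (f := fun l => y l ^ 2) (fun i _ => sq_nonneg _) (Finset.mem_univ l)
  have h2 : 0 ≤ ∑ a, (∑ l, y l * W l a) ^ 2 := Finset.sum_nonneg fun a _ => sq_nonneg _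
  linarith

/-- **[MK2], applied form.** -/
theorem geo4_returns (W : Matrix ι κ ℝ) (β : ℝ) (hβ : 0 < β) :
    ∃ (g h : Matrix ι ι ℤ) (S : Set ι), g * h = 1 ∧ h * g = 1 ∧
      (∀ i ∈ S, ∑ l, (g i l : ℝ) ^ 2 + ∑ a, (∑ l, (g i l : ℝ) * W l a) ^ 2 ≤ geo4_C (Fintype.card ι) / β ^ 2) ∧
      (∀ j, j ∉ S → ∃ (u : κ → ℝ) (w : ι → ℝ), (∀ l, (h l j : ℝ) = ∑ a, W l a * u a + w l) ∧
        ∑ a, u a ^ 2 + ∑ l, w l ^ 2 ≤ geo4_C (Fintype.card ι) * β ^ 2) := by
  have hT : 0 < 1 / β ^ 2 := by positivity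
  obtain ⟨g, h, S, h1, h2, h3, h4⟩ := geo4_dichotomy (geo4_Phi W) (geo4_Phi_coer W) (1 / β ^ 2) hT
  refine ⟨g, h, S, h1, h2, fun i hi => ?_, fun j hj => ?_⟩
  · have := h3 i hi
    rw [geo4_Phi_norm] at this
    rw [div_eq_mul_one_div]
    exact this
  · have hC := geo4_C_one_le (Fintype.card ι)
    apply geo4_riesz W (fun l => (h l j : ℝ)) _ (by positivity)
    intro y
    have := h4 j hj y
    rw [geo4_Phi_norm] at this
    have hb : 0 < β ^ 2 := by positivity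
    rw [one_div, inv_mul_le_iff₀ hb] at this
    calc _ ≤ _ := this
      _ = _ := by ring

end Claimed.Agent.R258
end
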