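/- Packed by merge_tool.py (helper293): 11 modules of Claimed.Agent.R258 in one file, same declarations.
   Old modules, in this order: XV.Hilb, XV.Restr, XV.Col, XV.Phys, XV.Chart, Gev.Defs, Gev.Wt, Gev.CalcA, Gev.WtM, Gev.CalcM, S9a.Num -/
import Mathlib
import Claimed.Agent.R258.CellApi.Pack
import Claimed.Agent.R258.Pack006

/- ===== packed: Claimed.Agent.R258.XV.Hilb ===== -/
section
/-
Row 258 (S0498), block [XV] (architect helper132).  ABSTRACT HILBERT SPACE LEMMAS on orthogonal projections (`Submodule.starProjection`).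
* `xv_proj_of_le`, `xv_norm_proj_mono`   : nested subspaces;
* `xv_normsq_proj_sub`                   : Pythagoras for nested subspaces;
* `xv_proj_gain`                         : the energy increment `|⟨x, F - P_W F⟩|² ≤ ‖x‖² (‖P_{W'} F‖² - ‖P_W F‖²)`, `x ∈ W' ⊇ W`;
* `xv_sup_proj`, `xv_normsq_sum_proj`    : finite orthogonal direct sums.
-/
set_option autoImplicit false

namespace Claimed.Agent.R258

open scoped InnerProductSpace

variable {X : Type*} [NormedAddCommGroup X] [InnerProductSpace ℂ X]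

theorem xv_proj_of_le {W V : Submodule ℂ X} [W.HasOrthogonalProjection] [V.HasOrthogonalProjection] (h : W ≤ V) (x : X) :
    W.starProjection (V.starProjection x) = W.starProjection x := by
  have := Submodule.starProjection_comp_starProjection_of_le h
  exact congrArg (fun f => f x) this

theorem xv_proj_of_le' {W V : Submodule ℂ X} [W.HasOrthogonalProjection] [V.HasOrthogonalProjection] (h : W ≤ V) (x : X) :
    V.starProjection (W.starProjection x) = W.starProjection x :=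
  Submodule.starProjection_eq_self_iff.2 (h (Submodule.starProjection_apply_mem W x))

theorem xv_norm_proj_mono {W V : Submodule ℂ X} [W.HasOrthogonalProjection] [V.HasOrthogonalProjection] (h : W ≤ V) (x : X) :
    ‖W.starProjection x‖ ≤ ‖V.starProjection x‖ := by
  rw [← xv_proj_of_le h x]
  exact Submodule.norm_starProjection_apply_le W _

/-- `‖x - P x‖² = ‖x‖² - ‖P x‖²` -/
theorem xv_normsq_sub_proj (W : Submodule ℂ X) [W.HasOrthogonalProjection] (x : X) :
    ‖x - W.starProjection x‖ ^ 2 = ‖x‖ ^ 2 - ‖W.starProjection x‖ ^ 2 := by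
  have h : ⟪x - W.starProjection x, W.starProjection x⟫_ℂ = 0 :=
    Submodule.starProjection_inner_eq_zero x _ (Submodule.starProjection_apply_mem W x)
  have h2 := norm_add_sq_eq_norm_sq_add_norm_sq_of_inner_eq_zero (𝕜 := ℂ) _ _ h
  rw [sub_add_cancel] at h2
  nlinarith [h2]

theorem xv_norm_sub_proj_le (W : Submodule ℂ X) [W.HasOrthogonalProjection] (x : X) :
    ‖x - W.starProjection x‖ ≤ ‖x‖ := by
  have h := xv_normsq_sub_proj W x
  have h1 : ‖x - W.starProjection x‖ ^ 2 ≤ ‖x‖ ^ 2 := by nlinarith [sq_nonneg ‖W.starProjection x‖]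
  exact (abs_le_of_sq_le_sq' h1 (norm_nonneg x)).2

/-- Pythagoras for nested subspaces -/
theorem xv_normsq_proj_sub {W V : Submodule ℂ X} [W.HasOrthogonalProjection] [V.HasOrthogonalProjection] (h : W ≤ V) (x : X) :
    ‖V.starProjection x - W.starProjection x‖ ^ 2 = ‖V.starProjection x‖ ^ 2 - ‖W.starProjection x‖ ^ 2 := by
  have := xv_normsq_sub_proj W (V.starProjection x)
  rwa [xv_proj_of_le h x] at this

/-- **energy increment** -/
theorem xv_proj_gain {W V : Submodule ℂ X} [W.HasOrthogonalProjection] [V.HasOrthogonalProjection] (h : W ≤ V) {x : X}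
    (hx : x ∈ V) (F : X) :
    ‖⟪x, F - W.starProjection F⟫_ℂ‖ ^ 2 ≤ ‖x‖ ^ 2 * (‖V.starProjection F‖ ^ 2 - ‖W.starProjection F‖ ^ 2) := by
  have h1 : ⟪x, F - W.starProjection F⟫_ℂ = ⟪x, V.starProjection F - W.starProjection F⟫_ℂ := by
    have h2 : ⟪x, F - V.starProjection F⟫_ℂ = 0 := by
      rw [← inner_conj_symm, Submodule.starProjection_inner_eq_zero F x hx, map_zero]
    have h3 : F - W.starProjection F = (F - V.starProjection F) + (V.starProjection F - W.starProjection F) := by abel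
    rw [h3, inner_add_right, h2, zero_add]
  rw [h1, ← xv_normsq_proj_sub h F, ← mul_pow]
  exact pow_le_pow_left₀ (norm_nonneg _) (norm_inner_le_norm _ _) 2

/-- the sum of the projections onto pairwise orthogonal subspaces is the projection onto their sum -/
theorem xv_sup_proj {ι : Type*} (s : Finset ι) (W : ι → Submodule ℂ X) [∀ i, (W i).HasOrthogonalProjection]
    [(s.sup W).HasOrthogonalProjection] (h : ∀ i ∈ s, ∀ j ∈ s, i ≠ j → W i ⟂ W j) :
    (s.sup W).starProjection = ∑ i ∈ s, (W i).starProjection := by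
  ext x
  rw [FunLike.coe_sum, Finset.sum_apply]
  apply Submodule.eq_starProjection_of_mem_orthogonal
  · exact Submodule.sum_mem _ fun i hi => (Finset.le_sup (f := W) hi) (Submodule.starProjection_apply_mem _ _)
  · rw [Submodule.mem_orthogonal]
    intro u hu
    have key : ∀ i ∈ s, W i ≤ (Submodule.span ℂ {x - ∑ i ∈ s, (W i).starProjection x})ᗮ := by
      intro i hi w hw
      rw [Submodule.mem_orthogonal_singleton_iff_inner_right]
      classical
      rw [← Finset.add_sum_erase s _ hi, ← sub_sub, inner_sub_left,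
        Submodule.starProjection_inner_eq_zero x w hw, sum_inner, zero_sub, neg_eq_zero]
      apply Finset.sum_eq_zero
      intro j hj
      have hj' := Finset.mem_erase.1 hj
      exact (Submodule.isOrtho_iff_inner_eq.1 (h j hj'.2 i hi hj'.1)) _ (Submodule.starProjection_apply_mem _ _) _ hw
    have := (Finset.sup_le key) hu
    rw [Submodule.mem_orthogonal_singleton_iff_inner_right] at this
    rw [← inner_conj_symm, this, map_zero]

theorem xv_normsq_sum_proj {ι : Type*} (s : Finset ι) (W : ι → Submodule ℂ X) [∀ i, (W i).HasOrthogonalProjection]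
    (h : ∀ i ∈ s, ∀ j ∈ s, i ≠ j → W i ⟂ W j) (x : X) :
    ‖∑ i ∈ s, (W i).starProjection x‖ ^ 2 = ∑ i ∈ s, ‖(W i).starProjection x‖ ^ 2 := by
  classical
  induction s using Finset.induction_on with
  | empty => simp
  | insert a s ha ih =>
    rw [Finset.sum_insert ha, Finset.sum_insert ha, ← ih (fun i hi j hj => h i (Finset.mem_insert_of_mem hi) j (Finset.mem_insert_of_mem hj))]
    have h0 : ⟪(W a).starProjection x, ∑ i ∈ s, (W i).starProjection x⟫_ℂ = 0 := by
      rw [inner_sum]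
      apply Finset.sum_eq_zero
      intro j hj
      exact (Submodule.isOrtho_iff_inner_eq.1
        (h a (Finset.mem_insert_self _ _) j (Finset.mem_insert_of_mem hj) (by rintro rfl; exact ha hj))) _
        (Submodule.starProjection_apply_mem _ _) _ (Submodule.starProjection_apply_mem _ _)
    have := norm_add_sq_eq_norm_sq_add_norm_sq_of_inner_eq_zero (𝕜 := ℂ) _ _ h0
    nlinarith [this]

end Claimed.Agent.R258
end

/- ===== packed: Claimed.Agent.R258.XV.Restr ===== -/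
section
/-
Row 258 (S0498), block [XV] (architect helper132).  THE OPERATORS `restr E` ON `XV = L²(ℝ;HV)`.
`restr E F = 1_E F` a.e. (`xv_restr_ae`), calculus of the `restr E` (idempotent, self-adjoint, intersections, disjoint unions,
norms), versions for cells (children, partitions `CellPart`, antichains).
-/
set_option autoImplicit false
open MeasureTheory
open scoped InnerProductSpace

namespace Claimed.Agent.R258

/-- the closed subspace of the functions vanishing a.e. off `E`: `restr E` is DEFINITIONALLY its orthogonal projection -/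
noncomputable def xvSub (E : Set ℝ) : Submodule ℂ XV :=
  (Submodule.span ℂ {F : XV | ∀ᵐ y ∂(volume : Measure ℝ), y ∉ E → (F : ℝ → HV) y = 0}).topologicalClosure

noncomputable instance xvSubProj (E : Set ℝ) : (xvSub E).HasOrthogonalProjection := by
  unfold xvSub; infer_instance

theorem xv_restr_eq_proj (E : Set ℝ) : restr E = (xvSub E).starProjection := rfl

theorem xv_mem_sub_iff {E : Set ℝ} {F : XV} : F ∈ xvSub E ↔ restr E F = F := by
  rw [xv_restr_eq_proj, Submodule.starProjection_eq_self_iff]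

theorem xv_restr_mem (E : Set ℝ) (F : XV) : restr E F ∈ xvSub E := Submodule.starProjection_apply_mem _ _

theorem xv_restr_eq_of_ae {E : Set ℝ} {F G : XV} (h : (G : ℝ → HV) =ᵐ[volume] E.indicator (F : ℝ → HV)) :
    restr E F = G := by
  rw [xv_restr_eq_proj]
  apply Submodule.eq_starProjection_of_mem_orthogonal
  · apply Submodule.le_topologicalClosure
    apply Submodule.subset_span
    filter_upwards [h] with y hy hyE
    rw [hy, Set.indicator_of_notMem hyE]
  · unfold xvSub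
    rw [Submodule.orthogonal_closure, Submodule.mem_orthogonal]
    intro u hu
    have key : {F : XV | ∀ᵐ y ∂(volume : Measure ℝ), y ∉ E → (F : ℝ → HV) y = 0} ⊆
        ((Submodule.span ℂ {F - G})ᗮ : Submodule ℂ XV) := by
      intro u hu
      rw [SetLike.mem_coe, Submodule.mem_orthogonal_singleton_iff_inner_left, L2.inner_def]
      apply integral_eq_zero_of_ae
      filter_upwards [h, hu, Lp.coeFn_sub F G] with y hy huy hsub
      rw [hsub, Pi.sub_apply, hy]
      by_cases hyE : y ∈ E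
      · simp [Set.indicator_of_mem hyE]
      · simp [huy hyE]
    have := (Submodule.span_le.2 key) hu
    rwa [Submodule.mem_orthogonal_singleton_iff_inner_left] at this

theorem xv_restr_ae {E : Set ℝ} (hE : MeasurableSet E) (F : XV) :
    (restr E F : ℝ → HV) =ᵐ[volume] E.indicator (F : ℝ → HV) := by
  have hm : MemLp (E.indicator (F : ℝ → HV)) 2 volume := (Lp.memLp F).indicator hE
  rw [xv_restr_eq_of_ae (G := hm.toLp _) hm.coeFn_toLp]
  exact hm.coeFn_toLp

theorem xv_restr_eq_self_iff {E : Set ℝ} (hE : MeasurableSet E) (F : XV) :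
    restr E F = F ↔ ∀ᵐ y ∂(volume : Measure ℝ), y ∉ E → (F : ℝ → HV) y = 0 := by
  constructor
  · intro h
    filter_upwards [xv_restr_ae hE F] with y hy hyE
    rw [h] at hy
    rw [hy, Set.indicator_of_notMem hyE]
  · intro h
    apply xv_restr_eq_of_ae
    filter_upwards [h] with y hy
    by_cases hyE : y ∈ E
    · rw [Set.indicator_of_mem hyE]
    · rw [Set.indicator_of_notMem hyE, hy hyE]

theorem xv_restr_idem (E : Set ℝ) (F : XV) : restr E (restr E F) = restr E F :=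
  xv_mem_sub_iff.1 (xv_restr_mem E F)

theorem xv_restr_inner (E : Set ℝ) (F G : XV) : ⟪restr E F, G⟫_ℂ = ⟪F, restr E G⟫_ℂ :=
  Submodule.inner_starProjection_left_eq_right _ _ _

theorem xv_norm_restr_le (E : Set ℝ) (F : XV) : ‖restr E F‖ ≤ ‖F‖ := Submodule.norm_starProjection_apply_le _ _

theorem xv_restr_restr {E E' : Set ℝ} (hE : MeasurableSet E) (hE' : MeasurableSet E') (F : XV) :
    restr E (restr E' F) = restr (E ∩ E') F := by
  apply xv_restr_eq_of_ae
  filter_upwards [xv_restr_ae (hE.inter hE') F, xv_restr_ae hE' F] with y h1 h2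
  classical
  rw [h1, Set.indicator_apply, Set.indicator_apply, h2, Set.indicator_apply]
  by_cases hy : y ∈ E <;> by_cases hy' : y ∈ E' <;> simp [hy, hy']

theorem xv_restr_of_subset {E E' : Set ℝ} (hE : MeasurableSet E) (hE' : MeasurableSet E') (h : E ⊆ E') (F : XV) :
    restr E (restr E' F) = restr E F := by
  rw [xv_restr_restr hE hE', Set.inter_eq_left.2 h]

theorem xv_restr_of_subset' {E E' : Set ℝ} (hE : MeasurableSet E) (hE' : MeasurableSet E') (h : E ⊆ E') (F : XV) :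
    restr E' (restr E F) = restr E F := by
  rw [xv_restr_restr hE' hE, Set.inter_eq_right.2 h]

theorem xv_sub_mono {E E' : Set ℝ} (hE : MeasurableSet E) (hE' : MeasurableSet E') (h : E ⊆ E') : xvSub E ≤ xvSub E' := by
  intro F hF
  rw [xv_mem_sub_iff] at hF ⊢
  rw [← hF, xv_restr_of_subset' hE hE' h]

theorem xv_restr_empty (F : XV) : restr ∅ F = 0 := by
  apply xv_restr_eq_of_ae
  filter_upwards [Lp.coeFn_zero HV 2 (volume : Measure ℝ)] with y hy
  simp

theorem xv_restr_disjoint {E E' : Set ℝ} (hE : MeasurableSet E) (hE' : MeasurableSet E') (h : Disjoint E E') (F : XV) :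
    restr E (restr E' F) = 0 := by
  rw [xv_restr_restr hE hE', Set.disjoint_iff_inter_eq_empty.1 h, xv_restr_empty]

theorem xv_restr_union {E E' : Set ℝ} (hE : MeasurableSet E) (hE' : MeasurableSet E') (h : Disjoint E E') (F : XV) :
    restr (E ∪ E') F = restr E F + restr E' F := by
  apply xv_restr_eq_of_ae
  filter_upwards [Lp.coeFn_add (restr E F) (restr E' F), xv_restr_ae hE F, xv_restr_ae hE' F] with y h1 h2 h3
  rw [h1, Pi.add_apply, h2, h3, Set.indicator_union_of_disjoint h]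

theorem xv_inner_restr_disjoint {E E' : Set ℝ} (hE : MeasurableSet E) (hE' : MeasurableSet E') (h : Disjoint E E')
    (F G : XV) : ⟪restr E F, restr E' G⟫_ℂ = 0 := by
  rw [xv_restr_inner, xv_restr_disjoint hE hE' h, inner_zero_right]

theorem xv_sub_ortho {E E' : Set ℝ} (hE : MeasurableSet E) (hE' : MeasurableSet E') (h : Disjoint E E') :
    xvSub E ⟂ xvSub E' := by
  rw [Submodule.isOrtho_iff_inner_eq]
  intro F hF G hG
  rw [← xv_mem_sub_iff.1 hF, ← xv_mem_sub_iff.1 hG, xv_inner_restr_disjoint hE hE' h]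

theorem xv_normsq_restr_union {E E' : Set ℝ} (hE : MeasurableSet E) (hE' : MeasurableSet E') (h : Disjoint E E')
    (F : XV) : ‖restr (E ∪ E') F‖ ^ 2 = ‖restr E F‖ ^ 2 + ‖restr E' F‖ ^ 2 := by
  rw [xv_restr_union hE hE' h]
  have := norm_add_sq_eq_norm_sq_add_norm_sq_of_inner_eq_zero (𝕜 := ℂ) _ _ (xv_inner_restr_disjoint hE hE' h F F)
  nlinarith [this]

theorem xv_norm_restr_mono {E E' : Set ℝ} (hE : MeasurableSet E) (hE' : MeasurableSet E') (h : E ⊆ E') (F : XV) :
    ‖restr E F‖ ≤ ‖restr E' F‖ := by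
  rw [← xv_restr_of_subset hE hE' h]
  exact xv_norm_restr_le _ _

/-- `‖F‖² = ∫ ‖F(y)‖² dy` -/
theorem xv_normsq_eq_integral (F : XV) : ‖F‖ ^ 2 = ∫ y, ‖(F : ℝ → HV) y‖ ^ 2 := by
  have h := L2.inner_def (𝕜 := ℂ) F F
  rw [inner_self_eq_norm_sq_to_K] at h
  have h2 : (fun y => ⟪(F : ℝ → HV) y, (F : ℝ → HV) y⟫_ℂ) = fun y => ((‖(F : ℝ → HV) y‖ ^ 2 : ℝ) : ℂ) := by
    funext y
    rw [inner_self_eq_norm_sq_to_K]; norm_cast
  rw [h2] at h
  have h3 : ∫ y, ((‖(F : ℝ → HV) y‖ ^ 2 : ℝ) : ℂ) = ((∫ y, ‖(F : ℝ → HV) y‖ ^ 2 : ℝ) : ℂ) := integral_ofReal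
  rw [h3] at h
  have h4 := congrArg Complex.re h
  rw [Complex.ofReal_re] at h4
  rw [← h4]
  norm_cast

theorem xv_normsq_restr {E : Set ℝ} (hE : MeasurableSet E) (F : XV) :
    ‖restr E F‖ ^ 2 = ∫ y in E, ‖(F : ℝ → HV) y‖ ^ 2 := by
  rw [xv_normsq_eq_integral, ← integral_indicator hE]
  apply integral_congr_ae
  filter_upwards [xv_restr_ae hE F] with y hy
  rw [hy]
  by_cases hyE : y ∈ E
  · simp [Set.indicator_of_mem hyE]
  · simp [Set.indicator_of_notMem hyE]

/-- `y ↦ ‖F(y)‖²` is integrable -/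
theorem xv_integrable_normsq (F : XV) : Integrable (fun y => ‖(F : ℝ → HV) y‖ ^ 2) volume := by
  have := (Lp.memLp F).integrable_norm_rpow (by norm_num) (by norm_num)
  simpa using this

/-! ### cells -/

theorem xv_restr_cell_le {Q I : Cell} (h : Q ≤ I) (F : XV) : restr Q.set (restr I.set F) = restr Q.set F :=
  xv_restr_of_subset (cell_measurableSet Q) (cell_measurableSet I) (cell_set_subset h) F

theorem xv_restr_cell_le' {Q I : Cell} (h : Q ≤ I) (F : XV) : restr I.set (restr Q.set F) = restr Q.set F :=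
  xv_restr_of_subset' (cell_measurableSet Q) (cell_measurableSet I) (cell_set_subset h) F

theorem xv_sub_cell_mono {Q I : Cell} (h : Q ≤ I) : xvSub Q.set ≤ xvSub I.set :=
  xv_sub_mono (cell_measurableSet Q) (cell_measurableSet I) (cell_set_subset h)

theorem xv_norm_restr_cell_mono {Q I : Cell} (h : Q ≤ I) (F : XV) : ‖restr Q.set F‖ ≤ ‖restr I.set F‖ :=
  xv_norm_restr_mono (cell_measurableSet Q) (cell_measurableSet I) (cell_set_subset h) F

theorem xv_restr_cell_disjoint {Q I : Cell} (h1 : ¬ Q ≤ I) (h2 : ¬ I ≤ Q) (F : XV) : restr Q.set (restr I.set F) = 0 :=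
  xv_restr_disjoint (cell_measurableSet Q) (cell_measurableSet I) (cell_disjoint_iff.2 ⟨h1, h2⟩) F

theorem xv_sub_cell_ortho {Q I : Cell} (h1 : ¬ Q ≤ I) (h2 : ¬ I ≤ Q) : xvSub Q.set ⟂ xvSub I.set :=
  xv_sub_ortho (cell_measurableSet Q) (cell_measurableSet I) (cell_disjoint_iff.2 ⟨h1, h2⟩)

theorem xv_restr_child (I : Cell) (F : XV) : restr I.set F = restr (I.child 0).set F + restr (I.child 1).set F := by
  rw [← cell_set_child_union I]
  exact xv_restr_union (cell_measurableSet _) (cell_measurableSet _) (cell_set_child_disjoint I) F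

theorem xv_normsq_restr_child (I : Cell) (F : XV) :
    ‖restr I.set F‖ ^ 2 = ‖restr (I.child 0).set F‖ ^ 2 + ‖restr (I.child 1).set F‖ ^ 2 := by
  rw [← cell_set_child_union I]
  exact xv_normsq_restr_union (cell_measurableSet _) (cell_measurableSet _) (cell_set_child_disjoint I) F

theorem xv_normsq_restr_part {R : Cell} {π : Finset Cell} (h : CellPart R π) (F : XV) :
    ∑ Q ∈ π, ‖restr Q.set F‖ ^ 2 = ‖restr R.set F‖ ^ 2 := by
  rw [xv_normsq_restr (cell_measurableSet R), h.integral (xv_integrable_normsq F).integrableOn]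
  exact Finset.sum_congr rfl fun Q _ => xv_normsq_restr (cell_measurableSet Q) F

theorem xv_sum_normsq_restr_antichain_le {R : Cell} {A : Finset Cell} (hA : IsAntichain (· ≤ ·) (A : Set Cell))
    (hR : ∀ Q ∈ A, Q ≤ R) (F : XV) : ∑ Q ∈ A, ‖restr Q.set F‖ ^ 2 ≤ ‖restr R.set F‖ ^ 2 := by
  rw [xv_normsq_restr (cell_measurableSet R)]
  have := cell_sum_integral_antichain_le hA hR (f := fun y => ‖(F : ℝ → HV) y‖ ^ 2)
    (xv_integrable_normsq F).integrableOn (fun y _ => by positivity)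
  refine le_trans (le_of_eq ?_) this
  exact Finset.sum_congr rfl fun Q _ => xv_normsq_restr (cell_measurableSet Q) F

theorem xv_restr_biUnion {A : Finset Cell} (hA : IsAntichain (· ≤ ·) (A : Set Cell)) (F : XV) :
    ∑ Q ∈ A, restr Q.set F = restr (⋃ Q ∈ A, Q.set) F := by
  classical
  induction A using Finset.induction_on with
  | empty => simp [xv_restr_empty]
  | insert a s ha ih =>
    have hs : IsAntichain (· ≤ ·) (s : Set Cell) := hA.subset (by simp)
    rw [Finset.sum_insert ha, ih hs, Finset.set_biUnion_insert]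
    symm
    apply xv_restr_union (cell_measurableSet a) (Finset.measurableSet_biUnion s fun Q _ => cell_measurableSet Q)
    rw [Set.disjoint_iUnion₂_right]
    intro Q hQ
    have hne : a ≠ Q := by rintro rfl; exact ha hQ
    exact cell_disjoint_iff.2 ⟨hA (by simp) (by simp [hQ]) hne, hA (by simp [hQ]) (by simp) hne.symm⟩

theorem xv_restr_part {R : Cell} {π : Finset Cell} (h : CellPart R π) (F : XV) :
    ∑ Q ∈ π, restr Q.set F = restr R.set F := by
  rw [xv_restr_biUnion h.anti, h.iUnion]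

end Claimed.Agent.R258
end

/- ===== packed: Claimed.Agent.R258.XV.Col ===== -/
section
/-
Row 258 (S0498), block [XV] (architect helper132).  THE VALUE SPACE `HV`, `toXV`, COLUMNS `Col.fn`, `Col.vec`.
* coordinates of `HV = ℓ²(ℕ)`: `ofPhys`, `priv`, `phys`;
* `Col.fn`: coordinates, norm, inner products;
* `toXV`: a.e. formula, linearity, `restr`;
* `Col.Reg Φ I` : `1_I Φ` is in `L²` (the only regularity hypothesis of the API; `xv_reg_of_bdd`: measurable + bounded suffices);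
* `Col.vec`: a.e. formula, restriction to subcells, additivity over children / partitions, norm.
-/
set_option autoImplicit false
open MeasureTheory
open scoped InnerProductSpace ComplexConjugate

namespace Claimed.Agent.R258

/-! ### the value space -/

theorem xv_phys_ofPhys (c : ℂ) : phys (ofPhys c) = c := by
  simp [phys, ofPhys]

theorem xv_ofPhys_zero (c : ℂ) : (ofPhys c : HV) 0 = c := by
  simp [ofPhys]

theorem xv_ofPhys_ne (c : ℂ) {k : ℕ} (hk : k ≠ 0) : (ofPhys c : HV) k = 0 :=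
  lp.single_apply_ne _ _ _ hk

theorem xv_priv_self (v : ℕ) : (priv v : HV) (v + 1) = 1 := by
  simp [priv]

theorem xv_priv_ne (v : ℕ) {k : ℕ} (hk : k ≠ v + 1) : (priv v : HV) k = 0 :=
  lp.single_apply_ne _ _ _ hk

theorem xv_norm_ofPhys (c : ℂ) : ‖ofPhys c‖ = ‖c‖ := lp.norm_single (by norm_num) _ _

theorem xv_norm_priv (v : ℕ) : ‖priv v‖ = 1 := by
  unfold priv; rw [lp.norm_single (by norm_num)]; simp

theorem xv_inner_ofPhys_left (c : ℂ) (z : HV) : ⟪ofPhys c, z⟫_ℂ = z 0 * conj c := by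
  unfold ofPhys; rw [lp.inner_single_left]; simp

theorem xv_inner_priv_left (v : ℕ) (z : HV) : ⟪priv v, z⟫_ℂ = z (v + 1) := by
  unfold priv; rw [lp.inner_single_left]; simp

theorem xv_ofPhys_add (a b : ℂ) : ofPhys (a + b) = ofPhys a + ofPhys b := lp.single_add _ _ _ _

theorem xv_ofPhys_smul (c a : ℂ) : ofPhys (c * a) = c • ofPhys a := by
  unfold ofPhys; rw [← lp.single_smul]; rfl

theorem xv_ofPhys_zero' : ofPhys 0 = 0 := lp.single_zero _ _

theorem xv_continuous_ofPhys : Continuous ofPhys := (lp.isometry_single (p := 2) (E := fun _ : ℕ => ℂ) 0).continuous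

theorem xv_norm_coord_le (z : HV) (k : ℕ) : ‖z k‖ ≤ ‖z‖ := lp.norm_apply_le_norm (by norm_num) z k

/-- the `k`-th coordinate as a continuous linear functional -/
noncomputable def xvEval (k : ℕ) : HV →L[ℂ] ℂ :=
  LinearMap.mkContinuous
    { toFun := fun z => z k
      map_add' := fun a b => by simp
      map_smul' := fun c a => by simp } 1 (fun z => by rw [one_mul]; exact xv_norm_coord_le z k)

theorem xv_eval_apply (k : ℕ) (z : HV) : xvEval k z = z k := rfl

theorem xv_continuous_coord (k : ℕ) : Continuous fun z : HV => z k := (xvEval k).continuous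

/-! ### `Col.fn` -/

theorem xv_fn_zero (Φ : Col) (y : ℝ) : (Φ.fn y : HV) 0 = Φ.phi y := by
  unfold Col.fn
  rw [lp.coeFn_add, Pi.add_apply, lp.coeFn_smul, Pi.smul_apply, xv_ofPhys_zero, xv_priv_ne Φ.lab (k := 0) (by omega)]
  simp

theorem xv_fn_lab (Φ : Col) (y : ℝ) : (Φ.fn y : HV) (Φ.lab + 1) = (Real.sqrt Φ.eps : ℂ) := by
  unfold Col.fn
  rw [lp.coeFn_add, Pi.add_apply, lp.coeFn_smul, Pi.smul_apply, xv_ofPhys_ne _ (Nat.succ_ne_zero Φ.lab), xv_priv_self]
  simp

theorem xv_fn_ne (Φ : Col) (y : ℝ) {k : ℕ} (h0 : k ≠ 0) (h1 : k ≠ Φ.lab + 1) : (Φ.fn y : HV) k = 0 := by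
  unfold Col.fn
  rw [lp.coeFn_add, Pi.add_apply, lp.coeFn_smul, Pi.smul_apply, xv_ofPhys_ne _ h0, xv_priv_ne _ h1]
  simp

theorem xv_inner_fn_left (Φ : Col) (y : ℝ) (z : HV) :
    ⟪Φ.fn y, z⟫_ℂ = z 0 * conj (Φ.phi y) + (Real.sqrt Φ.eps : ℂ) * z (Φ.lab + 1) := by
  unfold Col.fn
  rw [inner_add_left, inner_smul_left, xv_inner_ofPhys_left, xv_inner_priv_left, Complex.conj_ofReal]

theorem xv_normsq_fn (Φ : Col) (h : 0 ≤ Φ.eps) (y : ℝ) : ‖Φ.fn y‖ ^ 2 = ‖Φ.phi y‖ ^ 2 + Φ.eps := by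
  have h1 : ⟪Φ.fn y, Φ.fn y⟫_ℂ = ((‖Φ.phi y‖ ^ 2 + Φ.eps : ℝ) : ℂ) := by
    rw [xv_inner_fn_left, xv_fn_zero, xv_fn_lab, Complex.mul_conj, ← Complex.ofReal_mul, Real.mul_self_sqrt h,
      Complex.normSq_eq_norm_sq]
    push_cast; ring
  rw [inner_self_eq_norm_sq_to_K] at h1
  have h4 := congrArg Complex.re h1
  rw [Complex.ofReal_re] at h4
  rw [← h4]
  norm_cast

theorem xv_fn_aesm (Φ : Col) {μ : Measure ℝ} (h : AEStronglyMeasurable Φ.phi μ) : AEStronglyMeasurable Φ.fn μ := by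
  unfold Col.fn
  exact (xv_continuous_ofPhys.comp_aestronglyMeasurable h).add aestronglyMeasurable_const

/-! ### `toXV` -/

theorem xv_toXV_eq {F : ℝ → HV} (h : MemLp F 2 volume) : toXV F = h.toLp F := by
  unfold toXV; rw [dif_pos h]

theorem xv_toXV_ae {F : ℝ → HV} (h : MemLp F 2 volume) : (toXV F : ℝ → HV) =ᵐ[volume] F := by
  rw [xv_toXV_eq h]; exact h.coeFn_toLp

theorem xv_toXV_of_not {F : ℝ → HV} (h : ¬ MemLp F 2 volume) : toXV F = 0 := by
  unfold toXV; rw [dif_neg h]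

theorem xv_toXV_congr_ae {F G : ℝ → HV} (h : F =ᵐ[volume] G) : toXV F = toXV G := by
  by_cases hF : MemLp F 2 volume
  · have hG : MemLp G 2 volume := (memLp_congr_ae h).1 hF
    rw [xv_toXV_eq hF, xv_toXV_eq hG]
    exact (MemLp.toLp_eq_toLp_iff hF hG).2 h
  · have hG : ¬ MemLp G 2 volume := fun hG => hF ((memLp_congr_ae h).2 hG)
    rw [xv_toXV_of_not hF, xv_toXV_of_not hG]

theorem xv_toXV_coe (z : XV) : toXV (z : ℝ → HV) = z := by
  rw [xv_toXV_eq (Lp.memLp z)]; exact Lp.toLp_coeFn z _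

/-- uniqueness: an element of `XV` which is a.e. equal to `F` is `toXV F` -/
theorem xv_eq_toXV_of_ae {z : XV} {F : ℝ → HV} (h : (z : ℝ → HV) =ᵐ[volume] F) : z = toXV F := by
  rw [← xv_toXV_congr_ae h, xv_toXV_coe]

theorem xv_toXV_add {F G : ℝ → HV} (hF : MemLp F 2 volume) (hG : MemLp G 2 volume) :
    toXV (F + G) = toXV F + toXV G := by
  rw [xv_toXV_eq hF, xv_toXV_eq hG, xv_toXV_eq (hF.add hG)]; rfl

theorem xv_toXV_smul (c : ℂ) {F : ℝ → HV} (hF : MemLp F 2 volume) : toXV (c • F) = c • toXV F := by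
  rw [xv_toXV_eq hF, xv_toXV_eq (hF.const_smul c)]; rfl

theorem xv_toXV_zero : toXV (0 : ℝ → HV) = 0 := by
  symm; apply xv_eq_toXV_of_ae; exact Lp.coeFn_zero _ _ _

theorem xv_restr_toXV {E : Set ℝ} (hE : MeasurableSet E) {F : ℝ → HV} (hF : MemLp F 2 volume) :
    restr E (toXV F) = toXV (E.indicator F) := by
  apply xv_restr_eq_of_ae
  filter_upwards [xv_toXV_ae (hF.indicator hE), xv_toXV_ae hF] with y h1 h2
  rw [h1]
  by_cases hy : y ∈ E
  · rw [Set.indicator_of_mem hy, Set.indicator_of_mem hy, h2]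
  · rw [Set.indicator_of_notMem hy, Set.indicator_of_notMem hy]

/-! ### regular columns and `Col.vec` -/

/-- `1_I Φ ∈ L²`: the regularity hypothesis of the API -/
def Col.Reg (Φ : Col) (I : Cell) : Prop := MemLp (I.set.indicator Φ.fn) 2 volume

theorem Col.Reg.mono {Φ : Col} {I Q : Cell} (h : Φ.Reg I) (hQ : Q ≤ I) : Φ.Reg Q := by
  have := MemLp.indicator (cell_measurableSet Q) h
  unfold Col.Reg
  rwa [Set.indicator_indicator, Set.inter_eq_left.2 (cell_set_subset hQ)] at this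

theorem xv_reg_of_bdd {Φ : Col} (hm : AEStronglyMeasurable Φ.phi volume) {B : ℝ} (I : Cell)
    (hb : ∀ y ∈ I.set, ‖Φ.phi y‖ ≤ B) : Φ.Reg I := by
  unfold Col.Reg
  rw [memLp_indicator_iff_restrict (cell_measurableSet I)]
  have : IsFiniteMeasure (volume.restrict I.set) := ⟨by
    rw [Measure.restrict_apply_univ]; exact lt_top_iff_ne_top.2 (cell_volume_ne_top I)⟩
  apply MemLp.of_bound (xv_fn_aesm Φ hm.restrict) (B + ‖(Real.sqrt Φ.eps : ℂ)‖)
  filter_upwards [ae_restrict_mem (cell_measurableSet I)] with y hy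
  unfold Col.fn
  refine (norm_add_le _ _).trans ?_
  rw [xv_norm_ofPhys, norm_smul, xv_norm_priv, mul_one]
  linarith [hb y hy]

theorem xv_reg_of_measurable {Φ : Col} (h : Measurable Φ.phi ∧ ∀ y, ‖Φ.phi y‖ ≤ 1) (I : Cell) : Φ.Reg I :=
  xv_reg_of_bdd h.1.aestronglyMeasurable I fun y _ => h.2 y

theorem xv_vec_ae {Φ : Col} {I : Cell} (h : Φ.Reg I) : (Φ.vec I : ℝ → HV) =ᵐ[volume] I.set.indicator Φ.fn :=
  xv_toXV_ae h

theorem xv_restr_vec {Φ : Col} {I Q : Cell} (h : Φ.Reg I) (hQ : Q ≤ I) : restr Q.set (Φ.vec I) = Φ.vec Q := by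
  unfold Col.vec
  rw [xv_restr_toXV (cell_measurableSet Q) h, Set.indicator_indicator, Set.inter_eq_left.2 (cell_set_subset hQ)]

/-- no regularity needed -/
theorem xv_restr_vec_self (Φ : Col) (I : Cell) : restr I.set (Φ.vec I) = Φ.vec I := by
  by_cases h : Φ.Reg I
  · exact xv_restr_vec h le_rfl
  · unfold Col.vec; rw [xv_toXV_of_not h, map_zero]

theorem xv_vec_mem_sub (Φ : Col) (I : Cell) : Φ.vec I ∈ xvSub I.set := xv_mem_sub_iff.2 (xv_restr_vec_self Φ I)

theorem xv_vec_child {Φ : Col} {I : Cell} (h : Φ.Reg I) : Φ.vec I = Φ.vec (I.child 0) + Φ.vec (I.child 1) := by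
  rw [← xv_restr_vec_self Φ I, xv_restr_child, xv_restr_vec h (cell_child_le I 0), xv_restr_vec h (cell_child_le I 1)]

theorem xv_vec_part {Φ : Col} {R : Cell} {π : Finset Cell} (h : Φ.Reg R) (hπ : CellPart R π) :
    ∑ Q ∈ π, Φ.vec Q = Φ.vec R := by
  rw [← xv_restr_vec_self Φ R, ← xv_restr_part hπ]
  exact Finset.sum_congr rfl fun Q hQ => (xv_restr_vec h (hπ.le Q hQ)).symm

theorem xv_normsq_vec {Φ : Col} {I : Cell} (h : Φ.Reg I) (he : 0 ≤ Φ.eps) :
    ‖Φ.vec I‖ ^ 2 = ∫ y in I.set, (‖Φ.phi y‖ ^ 2 + Φ.eps) := by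
  rw [xv_normsq_eq_integral, ← integral_indicator (cell_measurableSet I)]
  apply integral_congr_ae
  filter_upwards [xv_vec_ae h] with y hy
  rw [hy]
  by_cases hyE : y ∈ I.set
  · rw [Set.indicator_of_mem hyE, Set.indicator_of_mem hyE, xv_normsq_fn Φ he]
  · simp [Set.indicator_of_notMem hyE]

theorem xv_normsq_vec_le {Φ : Col} {I : Cell} (he : 0 ≤ Φ.eps) {B : ℝ} (hb : ∀ y ∈ I.set, ‖Φ.phi y‖ ≤ B) :
    ‖Φ.vec I‖ ^ 2 ≤ (B ^ 2 + Φ.eps) * I.len := by
  have hB : 0 ≤ B := (norm_nonneg _).trans (hb _ (cell_left_mem I))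
  by_cases h : Φ.Reg I
  · rw [xv_normsq_vec h he]
    have h1 : ∫ y in I.set, (‖Φ.phi y‖ ^ 2 + Φ.eps) ≤ ∫ _ in I.set, (B ^ 2 + Φ.eps) := by
      by_cases hi : IntegrableOn (fun y => ‖Φ.phi y‖ ^ 2 + Φ.eps) I.set
      · apply setIntegral_mono_on hi _ (cell_measurableSet I)
        · intro y hy
          have := hb y hy
          have h0 := norm_nonneg (Φ.phi y)
          nlinarith
        · exact integrableOn_const (cell_volume_ne_top I)
      · rw [integral_undef hi, cell_integral_const]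
        have := cell_len_pos I
        positivity
    rw [cell_integral_const] at h1
    linarith
  · unfold Col.vec; rw [xv_toXV_of_not h]
    have := cell_len_pos I
    rw [norm_zero]
    have h2 : 0 ≤ (B ^ 2 + Φ.eps) * I.len := by positivity
    simpa using h2

end Claimed.Agent.R258
end

/- ===== packed: Claimed.Agent.R258.XV.Phys ===== -/
section
/-
Row 258 (S0498), block [XV] (architect helper132).  COORDINATE FUNCTIONS OF ELEMENTS OF `XV`, `physFn`, `ofScalar`, `n2`, `mom`.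
* `xvCoord k z y = (z y) k`;  `physFn z = xvCoord 0 z` (rfl);  a.e. linearity, `L²` membership, `restr`, `Col.vec`, `ofScalar`;
* `xvPrivZero v` : the subspace of the `z` whose private coordinate `v + 1` vanishes a.e.;
* `xv_inner_vec` : `⟨Φ.vec I, r⟩ = |I| mom I r φ + √ε ∫_I r_{v+1}`;
* `n2` : elementary properties, `n2 I (ofScalar f) = nnorm 2 I f`.
-/
set_option autoImplicit false
open MeasureTheory
open scoped InnerProductSpace ComplexConjugate

namespace Claimed.Agent.R258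

/-- the `k`-th coordinate function of an element of `L²(ℝ;HV)` -/
noncomputable def xvCoord (k : ℕ) (z : XV) : ℝ → ℂ := fun y => ((z : ℝ → HV) y) k

theorem xv_physFn_eq (z : XV) : physFn z = xvCoord 0 z := rfl

theorem xv_coord_congr {k : ℕ} {z : XV} {F : ℝ → HV} (h : (z : ℝ → HV) =ᵐ[volume] F) :
    xvCoord k z =ᵐ[volume] fun y => (F y) k := by
  filter_upwards [h] with y hy
  simp only [xvCoord, hy]

theorem xv_coord_add (k : ℕ) (F G : XV) : xvCoord k (F + G) =ᵐ[volume] fun y => xvCoord k F y + xvCoord k G y := by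
  filter_upwards [Lp.coeFn_add F G] with y hy
  simp only [xvCoord, hy, Pi.add_apply, lp.coeFn_add]

theorem xv_coord_sub (k : ℕ) (F G : XV) : xvCoord k (F - G) =ᵐ[volume] fun y => xvCoord k F y - xvCoord k G y := by
  filter_upwards [Lp.coeFn_sub F G] with y hy
  simp only [xvCoord, hy, Pi.sub_apply, lp.coeFn_sub]

theorem xv_coord_smul (k : ℕ) (c : ℂ) (F : XV) : xvCoord k (c • F) =ᵐ[volume] fun y => c * xvCoord k F y := by
  filter_upwards [Lp.coeFn_smul c F] with y hy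
  simp only [xvCoord, hy, Pi.smul_apply, lp.coeFn_smul, smul_eq_mul]

theorem xv_coord_zero (k : ℕ) : xvCoord k (0 : XV) =ᵐ[volume] fun _ => 0 := by
  filter_upwards [Lp.coeFn_zero HV 2 (volume : Measure ℝ)] with y hy
  simp only [xvCoord, hy, Pi.zero_apply, lp.coeFn_zero]

theorem xv_coord_sum {ι : Type*} (k : ℕ) (s : Finset ι) (F : ι → XV) :
    xvCoord k (∑ i ∈ s, F i) =ᵐ[volume] fun y => ∑ i ∈ s, xvCoord k (F i) y := by
  classical
  induction s using Finset.induction_on with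
  | empty => simpa using xv_coord_zero k
  | insert a s ha ih =>
    rw [Finset.sum_insert ha]
    filter_upwards [xv_coord_add k (F a) (∑ i ∈ s, F i), ih] with y h1 h2
    rw [h1, h2, Finset.sum_insert ha]

theorem xv_coord_norm_le (k : ℕ) (z : XV) (y : ℝ) : ‖xvCoord k z y‖ ≤ ‖(z : ℝ → HV) y‖ := xv_norm_coord_le _ _

theorem xv_coord_aesm (k : ℕ) (z : XV) : AEStronglyMeasurable (xvCoord k z) volume :=
  (xv_continuous_coord k).comp_aestronglyMeasurable (Lp.aestronglyMeasurable z)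

theorem xv_coord_memLp (k : ℕ) (z : XV) : MemLp (xvCoord k z) 2 volume :=
  (Lp.memLp z).mono (xv_coord_aesm k z) (Filter.Eventually.of_forall fun y => xv_coord_norm_le k z y)

theorem xv_coord_restr (k : ℕ) {E : Set ℝ} (hE : MeasurableSet E) (z : XV) :
    xvCoord k (restr E z) =ᵐ[volume] E.indicator (xvCoord k z) := by
  filter_upwards [xv_restr_ae hE z] with y hy
  simp only [xvCoord, hy]
  by_cases h : y ∈ E
  · rw [Set.indicator_of_mem h, Set.indicator_of_mem h]; rfl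
  · rw [Set.indicator_of_notMem h, Set.indicator_of_notMem h]; rfl

theorem xv_coord_toXV (k : ℕ) {F : ℝ → HV} (h : MemLp F 2 volume) : xvCoord k (toXV F) =ᵐ[volume] fun y => (F y) k :=
  xv_coord_congr (xv_toXV_ae h)

/-! ### `physFn` -/

theorem xv_physFn_add (F G : XV) : physFn (F + G) =ᵐ[volume] fun y => physFn F y + physFn G y := xv_coord_add 0 F G
theorem xv_physFn_sub (F G : XV) : physFn (F - G) =ᵐ[volume] fun y => physFn F y - physFn G y := xv_coord_sub 0 F G
theorem xv_physFn_smul (c : ℂ) (F : XV) : physFn (c • F) =ᵐ[volume] fun y => c * physFn F y := xv_coord_smul 0 c F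
theorem xv_physFn_zero : physFn (0 : XV) =ᵐ[volume] fun _ => 0 := xv_coord_zero 0
theorem xv_physFn_sum {ι : Type*} (s : Finset ι) (F : ι → XV) :
    physFn (∑ i ∈ s, F i) =ᵐ[volume] fun y => ∑ i ∈ s, physFn (F i) y := xv_coord_sum 0 s F
theorem xv_physFn_norm_le (z : XV) (y : ℝ) : ‖physFn z y‖ ≤ ‖(z : ℝ → HV) y‖ := xv_coord_norm_le 0 z y
theorem xv_physFn_aesm (z : XV) : AEStronglyMeasurable (physFn z) volume := xv_coord_aesm 0 z
theorem xv_physFn_memLp (z : XV) : MemLp (physFn z) 2 volume := xv_coord_memLp 0 z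
theorem xv_physFn_restr {E : Set ℝ} (hE : MeasurableSet E) (z : XV) :
    physFn (restr E z) =ᵐ[volume] E.indicator (physFn z) := xv_coord_restr 0 hE z

theorem xv_physFn_vec {Φ : Col} {I : Cell} (h : Φ.Reg I) : physFn (Φ.vec I) =ᵐ[volume] I.set.indicator Φ.phi := by
  filter_upwards [xv_coord_congr (k := 0) (xv_vec_ae h)] with y hy
  rw [xv_physFn_eq, hy]
  by_cases hyI : y ∈ I.set
  · rw [Set.indicator_of_mem hyI, Set.indicator_of_mem hyI, xv_fn_zero]
  · rw [Set.indicator_of_notMem hyI, Set.indicator_of_notMem hyI]; rfl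

/-! ### `ofScalar` -/

theorem xv_memLp_ofPhys {f : ℝ → ℂ} (hf : MemLp f 2 volume) : MemLp (fun y => ofPhys (f y)) 2 volume :=
  hf.of_le (xv_continuous_ofPhys.comp_aestronglyMeasurable hf.1)
    (Filter.Eventually.of_forall fun y => (xv_norm_ofPhys (f y)).le)

theorem xv_ofScalar_ae {f : ℝ → ℂ} (hf : MemLp f 2 volume) :
    (ofScalar f : ℝ → HV) =ᵐ[volume] fun y => ofPhys (f y) := xv_toXV_ae (xv_memLp_ofPhys hf)

theorem xv_physFn_ofScalar {f : ℝ → ℂ} (hf : MemLp f 2 volume) : physFn (ofScalar f) =ᵐ[volume] f := by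
  filter_upwards [xv_ofScalar_ae hf] with y hy
  simp only [physFn, hy, xv_phys_ofPhys]

theorem xv_coord_ofScalar {f : ℝ → ℂ} (k : ℕ) : xvCoord (k + 1) (ofScalar f) =ᵐ[volume] fun _ => 0 := by
  by_cases hf : MemLp (fun y => ofPhys (f y)) 2 volume
  · filter_upwards [xv_toXV_ae hf] with y hy
    simp only [xvCoord, ofScalar, hy, xv_ofPhys_ne _ (Nat.succ_ne_zero k)]
  · unfold ofScalar; rw [xv_toXV_of_not hf]; exact xv_coord_zero _

theorem xv_norm_ofScalar_ae {f : ℝ → ℂ} (hf : MemLp f 2 volume) :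
    ∀ᵐ y ∂(volume : Measure ℝ), ‖(ofScalar f : ℝ → HV) y‖ = ‖f y‖ := by
  filter_upwards [xv_ofScalar_ae hf] with y hy
  rw [hy, xv_norm_ofPhys]

theorem xv_ofScalar_add {f g : ℝ → ℂ} (hf : MemLp f 2 volume) (hg : MemLp g 2 volume) :
    ofScalar (fun y => f y + g y) = ofScalar f + ofScalar g := by
  unfold ofScalar
  rw [← xv_toXV_add (xv_memLp_ofPhys hf) (xv_memLp_ofPhys hg)]
  congr 1; funext y; exact xv_ofPhys_add _ _

theorem xv_ofScalar_smul (c : ℂ) {f : ℝ → ℂ} (hf : MemLp f 2 volume) :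
    ofScalar (fun y => c * f y) = c • ofScalar f := by
  unfold ofScalar
  rw [← xv_toXV_smul c (xv_memLp_ofPhys hf)]
  congr 1; funext y; exact xv_ofPhys_smul _ _

theorem xv_restr_ofScalar {E : Set ℝ} (hE : MeasurableSet E) {f : ℝ → ℂ} (hf : MemLp f 2 volume) :
    restr E (ofScalar f) = ofScalar (E.indicator f) := by
  unfold ofScalar
  rw [xv_restr_toXV hE (xv_memLp_ofPhys hf)]
  congr 1; funext y
  by_cases h : y ∈ E
  · rw [Set.indicator_of_mem h, Set.indicator_of_mem h]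
  · rw [Set.indicator_of_notMem h, Set.indicator_of_notMem h, xv_ofPhys_zero']

theorem xv_normsq_restr_ofScalar {E : Set ℝ} (hE : MeasurableSet E) {f : ℝ → ℂ} (hf : MemLp f 2 volume) :
    ‖restr E (ofScalar f)‖ ^ 2 = ∫ y in E, ‖f y‖ ^ 2 := by
  rw [xv_normsq_restr hE]
  apply integral_congr_ae
  filter_upwards [ae_restrict_of_ae (xv_norm_ofScalar_ae hf)] with y hy
  rw [hy]

/-! ### the private coordinates -/

/-- the elements of `XV` whose private coordinate of the label `v` vanishes a.e. -/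
def xvPrivZero (v : ℕ) : Submodule ℂ XV where
  carrier := {z | xvCoord (v + 1) z =ᵐ[volume] fun _ => 0}
  add_mem' := by
    intro a b ha hb
    show xvCoord (v + 1) (a + b) =ᵐ[volume] fun _ => 0
    filter_upwards [xv_coord_add (v + 1) a b, ha, hb] with y h1 h2 h3
    rw [h1, h2, h3, add_zero]
  zero_mem' := xv_coord_zero _
  smul_mem' := by
    intro c a ha
    show xvCoord (v + 1) (c • a) =ᵐ[volume] fun _ => 0
    filter_upwards [xv_coord_smul (v + 1) c a, ha] with y h1 h2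
    rw [h1, h2, mul_zero]

theorem xv_mem_privZero {v : ℕ} {z : XV} : z ∈ xvPrivZero v ↔ xvCoord (v + 1) z =ᵐ[volume] fun _ => 0 := Iff.rfl

theorem xv_ofScalar_mem_privZero (f : ℝ → ℂ) (v : ℕ) : ofScalar f ∈ xvPrivZero v := xv_coord_ofScalar v

theorem xv_restr_mem_privZero {E : Set ℝ} (hE : MeasurableSet E) {v : ℕ} {z : XV} (hz : z ∈ xvPrivZero v) :
    restr E z ∈ xvPrivZero v := by
  rw [xv_mem_privZero] at hz ⊢
  filter_upwards [xv_coord_restr (v + 1) hE z, hz] with y h1 h2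
  rw [h1]
  by_cases h : y ∈ E
  · rw [Set.indicator_of_mem h, h2]
  · rw [Set.indicator_of_notMem h]

theorem xv_vec_mem_privZero (Φ : Col) (I : Cell) {v : ℕ} (hv : Φ.lab ≠ v) : Φ.vec I ∈ xvPrivZero v := by
  by_cases h : Φ.Reg I
  · rw [xv_mem_privZero]
    filter_upwards [xv_coord_congr (k := v + 1) (xv_vec_ae h)] with y hy
    rw [hy]
    by_cases hyI : y ∈ I.set
    · rw [Set.indicator_of_mem hyI, xv_fn_ne Φ y (Nat.succ_ne_zero v) (by omega)]
    · rw [Set.indicator_of_notMem hyI]; rfl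
  · unfold Col.vec; rw [xv_toXV_of_not h]; exact (xvPrivZero v).zero_mem

/-! ### the inner product with a column -/

theorem xv_inner_vec {Φ : Col} {I : Cell} (h : Φ.Reg I) (r : XV) :
    ⟪Φ.vec I, r⟫_ℂ = (I.len : ℂ) * mom I r Φ.phi + (Real.sqrt Φ.eps : ℂ) * ∫ y in I.set, xvCoord (Φ.lab + 1) r y := by
  have hae : (fun y => ⟪(Φ.vec I : ℝ → HV) y, (r : ℝ → HV) y⟫_ℂ) =ᵐ[volume]
      I.set.indicator (fun y => physFn r y * conj (Φ.phi y) + (Real.sqrt Φ.eps : ℂ) * xvCoord (Φ.lab + 1) r y) := by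
    filter_upwards [xv_vec_ae h] with y hy
    rw [hy]
    by_cases hyI : y ∈ I.set
    · rw [Set.indicator_of_mem hyI, Set.indicator_of_mem hyI, xv_inner_fn_left]; rfl
    · rw [Set.indicator_of_notMem hyI, Set.indicator_of_notMem hyI, inner_zero_left]
  have hfin : IsFiniteMeasure (volume.restrict I.set) := ⟨by
    rw [Measure.restrict_apply_univ]; exact lt_top_iff_ne_top.2 (cell_volume_ne_top I)⟩
  have hint2 : IntegrableOn (fun y => (Real.sqrt Φ.eps : ℂ) * xvCoord (Φ.lab + 1) r y) I.set :=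
    (((xv_coord_memLp (Φ.lab + 1) r).restrict I.set).integrable (by norm_num)).const_mul _
  have hint : IntegrableOn
      (fun y => physFn r y * conj (Φ.phi y) + (Real.sqrt Φ.eps : ℂ) * xvCoord (Φ.lab + 1) r y) I.set := by
    rw [← integrable_indicator_iff (cell_measurableSet I)]
    exact (integrable_congr hae).1 (L2.integrable_inner (𝕜 := ℂ) (Φ.vec I) r)
  have hint1 : IntegrableOn (fun y => physFn r y * conj (Φ.phi y)) I.set := by
    have := hint.sub hint2
    refine this.congr (Filter.Eventually.of_forall fun y => ?_)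
    simp only [Pi.sub_apply, add_sub_cancel_right]
  rw [L2.inner_def, integral_congr_ae hae, integral_indicator (cell_measurableSet I), integral_add hint1 hint2,
    integral_const_mul, mom]
  congr 1
  rw [← mul_assoc, ← Complex.ofReal_mul, mul_inv_cancel₀ (cell_len_ne_zero I), Complex.ofReal_one, one_mul]

/-- the form used in the greedy fits: the private coordinate of the residual vanishes -/
theorem xv_inner_vec_of_privZero {Φ : Col} {I : Cell} (h : Φ.Reg I) {r : XV} (hr : r ∈ xvPrivZero Φ.lab) :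
    ⟪Φ.vec I, r⟫_ℂ = (I.len : ℂ) * mom I r Φ.phi := by
  rw [xv_inner_vec h r]
  have : ∫ y in I.set, xvCoord (Φ.lab + 1) r y = 0 := by
    apply integral_eq_zero_of_ae
    exact ae_restrict_of_ae hr
  rw [this, mul_zero, add_zero]

/-! ### `n2` -/

theorem xv_n2_nonneg (I : Cell) (z : XV) : 0 ≤ n2 I z := by
  unfold n2; positivity

theorem xv_n2_sq (I : Cell) (z : XV) : n2 I z ^ 2 = ‖restr I.set z‖ ^ 2 / I.len := by
  unfold n2; rw [div_pow, Real.sq_sqrt (cell_len_nonneg I)]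

theorem xv_norm_restr_eq (I : Cell) (z : XV) : ‖restr I.set z‖ = n2 I z * Real.sqrt I.len := by
  unfold n2; rw [div_mul_cancel₀ _ (Real.sqrt_pos.2 (cell_len_pos I)).ne']

theorem xv_normsq_restr_eq (I : Cell) (z : XV) : ‖restr I.set z‖ ^ 2 = n2 I z ^ 2 * I.len := by
  rw [xv_n2_sq, div_mul_cancel₀ _ (cell_len_ne_zero I)]

theorem xv_n2_le_iff (I : Cell) (z : XV) {B : ℝ} (hB : 0 ≤ B) : n2 I z ≤ B ↔ ‖restr I.set z‖ ^ 2 ≤ B ^ 2 * I.len := by
  rw [xv_normsq_restr_eq, mul_le_mul_iff_left₀ (cell_len_pos I)]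
  exact (pow_le_pow_iff_left₀ (xv_n2_nonneg I z) hB (by norm_num)).symm

theorem xv_n2_restr (I : Cell) (z : XV) : n2 I (restr I.set z) = n2 I z := by
  unfold n2; rw [xv_restr_idem]

theorem xv_n2_add_le (I : Cell) (z z' : XV) : n2 I (z + z') ≤ n2 I z + n2 I z' := by
  unfold n2; rw [map_add, ← add_div]
  exact div_le_div_of_nonneg_right (norm_add_le _ _) (Real.sqrt_nonneg _)

theorem xv_n2_smul (I : Cell) (c : ℂ) (z : XV) : n2 I (c • z) = ‖c‖ * n2 I z := by
  unfold n2; rw [map_smul, norm_smul, mul_div_assoc]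

theorem xv_n2_zero (I : Cell) : n2 I 0 = 0 := by
  unfold n2; simp

theorem xv_n2_le_of_norm_le {I : Cell} {z z' : XV} (h : ‖restr I.set z‖ ≤ ‖restr I.set z'‖) : n2 I z ≤ n2 I z' := by
  unfold n2; exact div_le_div_of_nonneg_right h (Real.sqrt_nonneg _)

theorem xv_n2_ofScalar (I : Cell) {f : ℝ → ℂ} (hf : MemLp f 2 volume) : n2 I (ofScalar f) = nnorm 2 I f := by
  have h0 : 0 ≤ ∫ y in I.set, ‖f y‖ ^ 2 := integral_nonneg fun y => by positivity
  have h1 : ‖restr I.set (ofScalar f)‖ = Real.sqrt (∫ y in I.set, ‖f y‖ ^ 2) := by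
    rw [← xv_normsq_restr_ofScalar (cell_measurableSet I) hf, Real.sqrt_sq (norm_nonneg _)]
  unfold n2 nnorm
  rw [h1, ← Real.sqrt_div h0, Real.sqrt_eq_rpow, div_eq_inv_mul]
  congr 2
  apply integral_congr_ae
  filter_upwards with y
  rw [← Real.rpow_natCast]; norm_num

end Claimed.Agent.R258
end

/- ===== packed: Claimed.Agent.R258.XV.Chart ===== -/
section
/-
Row 258 (S0498), block [XV] (architect helper132).  REGULARITY OF CHART ATOMS: `Chart.eval` is measurable (locally finite sum of continuous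
functions); a column whose scalar function is a bounded chart atom is regular on every cell.
-/
set_option autoImplicit false
open MeasureTheory Filter Topology

namespace Claimed.Agent.R258

theorem xv_ee_continuous : Continuous ee := by
  unfold ee; fun_prop

/-- the `n`-th term of the lattice sum of a chart atom -/
noncomputable def xvChartTerm (a : Chart) (n : Fin a.d → ℤ) (y : ℝ) : ℂ :=
  a.chi (fun i => a.th i * y - (n i : ℝ)) * ee (a.phase y n)

theorem xv_chartTerm_continuous (a : Chart) (hc : Continuous a.chi) (n : Fin a.d → ℤ) : Continuous (xvChartTerm a n) := by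
  unfold xvChartTerm
  apply Continuous.mul
  · exact hc.comp (continuous_pi fun i => by fun_prop)
  · apply xv_ee_continuous.comp
    unfold Chart.phase
    fun_prop

/-- the lattice sum is finite: only the `n` in a box contribute -/
theorem xv_chart_tsum_eq (a : Chart) {H : ℝ} (hs : ∀ x, a.chi x ≠ 0 → ∀ i, |x i| ≤ H) (y : ℝ) {N : ℕ}
    (hN : ∀ i, |a.th i * y| + H < N) :
    ∑' n : Fin a.d → ℤ, xvChartTerm a n y =
      ∑ n ∈ Fintype.piFinset (fun _ : Fin a.d => Finset.Icc (-(N : ℤ)) N), xvChartTerm a n y := by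
  apply tsum_eq_sum
  intro n hn
  rw [Fintype.mem_piFinset] at hn
  push Not at hn
  obtain ⟨i, hi⟩ := hn
  unfold xvChartTerm
  have hz : a.chi (fun i => a.th i * y - (n i : ℝ)) = 0 := by
    by_contra hne
    have h1 := hs _ hne i
    have h2 := hN i
    apply hi
    rw [Finset.mem_Icc]
    have h3 : |(n i : ℝ)| < N := by
      have : |(n i : ℝ)| ≤ |a.th i * y| + |a.th i * y - (n i : ℝ)| := by
        have := abs_sub_abs_le_abs_sub (n i : ℝ) (a.th i * y)
        rw [abs_sub_comm] at this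
        linarith
      linarith
    rw [abs_lt] at h3
    constructor
    · have : (-(N : ℤ) : ℝ) < (n i : ℝ) := by push_cast; exact h3.1
      exact_mod_cast this.le
    · have : (n i : ℝ) < ((N : ℤ) : ℝ) := by push_cast; exact h3.2
      exact_mod_cast this.le
  rw [hz, zero_mul]

theorem xv_chart_measurable (a : Chart) {H : ℝ} (h : a.Cplx H) : Measurable a.eval := by
  have hsum : Measurable fun y => ∑' n : Fin a.d → ℤ, xvChartTerm a n y := by
    apply measurable_of_tendsto_metrizable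
      (f := fun (N : ℕ) y => ∑ n ∈ Fintype.piFinset (fun _ : Fin a.d => Finset.Icc (-(N : ℤ)) N), xvChartTerm a n y)
    · intro N
      exact (continuous_finsetSum _ fun n _ => xv_chartTerm_continuous a h.smooth.continuous n).measurable
    · rw [tendsto_pi_nhds]
      intro y
      obtain ⟨N0, hN0⟩ := exists_nat_gt (∑ i, |a.th i * y| + H)
      apply tendsto_const_nhds.congr'
      filter_upwards [eventually_ge_atTop N0] with N hN
      apply xv_chart_tsum_eq a h.supp y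
      intro i
      have h1 : |a.th i * y| ≤ ∑ i, |a.th i * y| :=
        Finset.single_le_sum (f := fun i => |a.th i * y|) (fun _ _ => abs_nonneg _) (Finset.mem_univ i)
      have h2 : (N0 : ℝ) ≤ N := by exact_mod_cast hN
      linarith
  have h1 : Measurable fun y : ℝ => a.unit * ee (a.lam * y ^ 2 + a.bet * y) :=
    (continuous_const.mul (xv_ee_continuous.comp (by fun_prop))).measurable
  exact h1.mul hsum

/-- a column carried by a bounded chart atom is regular -/
theorem xv_reg_of_chart {Φ : Col} {a : Chart} {H : ℝ} (hΦ : Φ.phi = a.eval) (h : a.Cplx H) (hb : a.Bdd) (I : Cell) : Φ.Reg I :=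
  xv_reg_of_measurable ⟨hΦ ▸ xv_chart_measurable a h, fun y => hΦ ▸ hb y⟩ I

end Claimed.Agent.R258
end

/- ===== packed: Claimed.Agent.R258.Gev.Defs ===== -/
section
/-
Row 258 (S0498), block [GEV] (architect helper252).  DEFINITIONS.

`GevOn s B A f S` : `f : E → F` is smooth (globally) and on the set `S`
      ‖D^n f (x)‖ ≤ B * A ^ n * (n!) ^ s          (all n).
`Gev s B A f` = `GevOn s B A f univ`.

WHY THIS FORM.  The three bound shapes used in the row
  (a) `Chart.Cplx.deriv`     : H^(10 (n+1)) (n+1)^(10 (n+1)),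
  (b) `Admissible.deriv`     : (len^n)⁻¹ (C0 (n+2))^(C0 (n+2)),
  (c) helper145's `GB C f`   : (C (n+2))^(C (n+2))
are NOT stable under products with good constants; `B A^n n!^s` is (B multiplies, A adds), and
it converts to and from (a), (b), (c) by the lemmas of `Gev/Conv.lean`.
All cutoffs of the block have order `s = 2`, the phases `ee (quadratic)` order `s = 1`, polynomials order `s = 0`.

MAP OF THE BLOCK (prefix `gev_`, namespace `Claimed.Agent.R258`):
  Gev/Defs      this file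
  Gev/CalcA     mono, const, add, sum, neg, sub, const smul, left CLM (ofReal, conj, re), closed support
  Gev/CalcM     mul, smul, Finset.prod, pow
  Gev/CalcL     affine substitution, 1D (iteratedDeriv), deriv, linear maps and coordinates
  Gev/CalcC     composition with an order-0 inner function, `ee (phase)`
  Gev/Base      `expNegInvGlue` is `Gev 2 1 8`
  Gev/Step      `gevStep` : 0 on (-∞,0], 1 on [1,∞), monotone, `Gev 2 1 6000`
  Gev/Cut       1D cutoffs: steps a<b, windows, partition of unity, periodic cutoffs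
  Gev/Prod      products over coordinates, d-dimensional partition of unity, box cutoffs
  Gev/Per       periodisation
  Gev/Conv      conversions to/from the shapes (a), (b), (c)
  Gev/Four*     Fourier series of smooth periodic functions of D variables: coefficient bounds, l1 sums, tails, inversion
  Gev/S2, Gev/S6  the exact shapes requested by Sec. 2 (helper145) and Sec. 6 (helper70)
-/
set_option autoImplicit false
open scoped ContDiff

namespace Claimed.Agent.R258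

/-- `f` is smooth and satisfies the Gevrey bound `‖D^n f x‖ ≤ B A^n (n!)^s` at all points of `S`. -/
structure GevOn {E F : Type*} [NormedAddCommGroup E] [NormedSpace ℝ E] [NormedAddCommGroup F] [NormedSpace ℝ F]
    (s : ℕ) (B A : ℝ) (f : E → F) (S : Set E) : Prop where
  smooth : ContDiff ℝ ∞ f
  bound : ∀ x ∈ S, ∀ n : ℕ, ‖iteratedFDeriv ℝ n f x‖ ≤ B * A ^ n * (n.factorial : ℝ) ^ s

/-- global Gevrey bound -/
abbrev Gev {E F : Type*} [NormedAddCommGroup E] [NormedSpace ℝ E] [NormedAddCommGroup F] [NormedSpace ℝ F]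
    (s : ℕ) (B A : ℝ) (f : E → F) : Prop := GevOn s B A f Set.univ

end Claimed.Agent.R258
end

/- ===== packed: Claimed.Agent.R258.Gev.Wt ===== -/
section
/-
Row 258, block [GEV] (architect helper252).  FILE Wt: the calculus for a GENERAL weight sequence `w`:
     `GevW w B A f S` :  `f` smooth and `‖D^n f x‖ ≤ B * A ^ n * w n` on `S`.
The three classes of the row are instances:  `GevOn s` (`w n = n!^s`), `s4b_Gev` (`w n = n!^2`), `s4a_Gev` (`w n = (n+1)^(10(n+1))`).
`GevWt w` : `w 0 = 1`, `w > 0`, `w i * w (n-i) ≤ w n`.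
-/
set_option autoImplicit false
open scoped ContDiff

namespace Claimed.Agent.R258

/-- Gevrey-type class with a general weight sequence -/
structure GevW {E F : Type*} [NormedAddCommGroup E] [NormedSpace ℝ E] [NormedAddCommGroup F] [NormedSpace ℝ F]
    (w : ℕ → ℝ) (B A : ℝ) (f : E → F) (S : Set E) : Prop where
  smooth : ContDiff ℝ ∞ f
  bound : ∀ x ∈ S, ∀ n : ℕ, ‖iteratedFDeriv ℝ n f x‖ ≤ B * A ^ n * w n

/-- admissible weight sequences -/
structure GevWt (w : ℕ → ℝ) : Prop where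
  zero : w 0 = 1
  pos : ∀ n, 0 < w n
  mul : ∀ n i, i ≤ n → w i * w (n - i) ≤ w n

theorem gev_iff_w {E F : Type*} [NormedAddCommGroup E] [NormedSpace ℝ E] [NormedAddCommGroup F] [NormedSpace ℝ F]
    {s : ℕ} {B A : ℝ} {f : E → F} {S : Set E} :
    GevOn s B A f S ↔ GevW (fun n => (n.factorial : ℝ) ^ s) B A f S :=
  ⟨fun h => ⟨h.smooth, h.bound⟩, fun h => ⟨h.smooth, h.bound⟩⟩

theorem gev_wt_fact (s : ℕ) : GevWt (fun n => (n.factorial : ℝ) ^ s) where
  zero := by simp
  pos := fun n => by positivity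
  mul := fun n i hi => by
    rw [← mul_pow]
    apply pow_le_pow_left₀ (by positivity)
    have h := Nat.le_of_dvd (Nat.factorial_pos n) (Nat.factorial_mul_factorial_dvd_factorial hi)
    exact_mod_cast h

section
variable {E F G : Type*} [NormedAddCommGroup E] [NormedSpace ℝ E] [NormedAddCommGroup F] [NormedSpace ℝ F]
  [NormedAddCommGroup G] [NormedSpace ℝ G]

theorem gevw_norm_le {w : ℕ → ℝ} (hw : GevWt w) {B A : ℝ} {f : E → F} {S : Set E} (h : GevW w B A f S) {x : E}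
    (hx : x ∈ S) : ‖f x‖ ≤ B := by
  have := h.bound x hx 0
  simpa [hw.zero] using this

theorem gevw_B_nonneg {w : ℕ → ℝ} (hw : GevWt w) {B A : ℝ} {f : E → F} {S : Set E} (h : GevW w B A f S) {x : E}
    (hx : x ∈ S) : 0 ≤ B := (norm_nonneg _).trans (gevw_norm_le hw h hx)

theorem gevw_mono {w w' : ℕ → ℝ} (hw : GevWt w) {B B' A A' : ℝ} {f : E → F} {S S' : Set E} (h : GevW w B A f S)
    (hww : ∀ n, w n ≤ w' n) (hB : B ≤ B') (hA0 : 0 ≤ A) (hA : A ≤ A') (hS : S' ⊆ S) : GevW w' B' A' f S' := by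
  refine ⟨h.smooth, fun x hx n => (h.bound x (hS hx) n).trans ?_⟩
  have hB0 := gevw_B_nonneg hw h (hS hx)
  have h1 : A ^ n ≤ A' ^ n := pow_le_pow_left₀ hA0 hA n
  have h2 : 0 ≤ A ^ n := pow_nonneg hA0 n
  have h3 := (hw.pos n).le
  exact mul_le_mul (mul_le_mul hB h1 h2 (hB0.trans hB)) (hww n) h3
    (mul_nonneg (hB0.trans hB) (h2.trans h1))

theorem gevw_mono_set {w : ℕ → ℝ} {B A : ℝ} {f : E → F} {S S' : Set E} (h : GevW w B A f S) (hS : S' ⊆ S) :
    GevW w B A f S' := ⟨h.smooth, fun x hx n => h.bound x (hS hx) n⟩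

theorem gevw_congr {w : ℕ → ℝ} {B A : ℝ} {f g : E → F} {S : Set E} (h : GevW w B A f S) (hfg : ∀ x, g x = f x) :
    GevW w B A g S := by
  have : g = f := funext hfg
  rw [this]; exact h

theorem gevw_const {w : ℕ → ℝ} (hw : GevWt w) {A : ℝ} (hA : 0 ≤ A) (c : F) (S : Set E) :
    GevW w ‖c‖ A (fun _ : E => c) S := by
  refine ⟨contDiff_const, fun x _ n => ?_⟩
  rcases Nat.eq_zero_or_pos n with rfl | hn
  · simp [hw.zero]
  · rw [iteratedFDeriv_const_of_ne hn.ne']
    simp only [Pi.zero_apply, norm_zero]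
    have := (hw.pos n).le
    positivity

theorem gevw_add {w : ℕ → ℝ} {B₁ B₂ A : ℝ} {f g : E → F} {S : Set E} (hf : GevW w B₁ A f S) (hg : GevW w B₂ A g S) :
    GevW w (B₁ + B₂) A (fun x => f x + g x) S := by
  refine ⟨hf.smooth.add hg.smooth, fun x hx n => ?_⟩
  have e : iteratedFDeriv ℝ n (fun x => f x + g x) x = iteratedFDeriv ℝ n f x + iteratedFDeriv ℝ n g x :=
    iteratedFDeriv_add_apply ((hf.smooth.of_le (by exact_mod_cast le_top)).contDiffAt)
      ((hg.smooth.of_le (by exact_mod_cast le_top)).contDiffAt)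
  rw [e]
  calc _ ≤ ‖iteratedFDeriv ℝ n f x‖ + ‖iteratedFDeriv ℝ n g x‖ := norm_add_le _ _
    _ ≤ B₁ * A ^ n * w n + B₂ * A ^ n * w n := add_le_add (hf.bound x hx n) (hg.bound x hx n)
    _ = _ := by ring

theorem gevw_neg {w : ℕ → ℝ} {B A : ℝ} {f : E → F} {S : Set E} (hf : GevW w B A f S) :
    GevW w B A (fun x => - f x) S := by
  refine ⟨hf.smooth.neg, fun x hx n => ?_⟩
  have e : iteratedFDeriv ℝ n (fun x => - f x) x = - iteratedFDeriv ℝ n f x := iteratedFDeriv_neg_apply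
  rw [e, norm_neg]
  exact hf.bound x hx n

theorem gevw_sub {w : ℕ → ℝ} {B₁ B₂ A : ℝ} {f g : E → F} {S : Set E} (hf : GevW w B₁ A f S) (hg : GevW w B₂ A g S) :
    GevW w (B₁ + B₂) A (fun x => f x - g x) S := by
  have := gevw_add hf (gevw_neg hg)
  exact gevw_congr this (fun x => by simp [sub_eq_add_neg])

theorem gevw_sum {ι : Type*} (t : Finset ι) {w : ℕ → ℝ} {B : ι → ℝ} {A : ℝ} {f : ι → E → F} {S : Set E}
    (hf : ∀ i ∈ t, GevW w (B i) A (f i) S) : GevW w (∑ i ∈ t, B i) A (fun x => ∑ i ∈ t, f i x) S := by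
  refine ⟨ContDiff.sum fun i hi => (hf i hi).smooth, fun x hx n => ?_⟩
  rw [iteratedFDeriv_sum (fun i hi => (hf i hi).smooth.of_le (by exact_mod_cast le_top))]
  rw [Finset.sum_apply]
  calc _ ≤ ∑ i ∈ t, ‖iteratedFDeriv ℝ n (f i) x‖ := norm_sum_le _ _
    _ ≤ ∑ i ∈ t, B i * A ^ n * w n := Finset.sum_le_sum fun i hi => (hf i hi).bound x hx n
    _ = _ := by rw [Finset.sum_mul, Finset.sum_mul]

theorem gevw_const_smul {𝕜 : Type*} [NormedField 𝕜] [NormedSpace 𝕜 F] [SMulCommClass ℝ 𝕜 F] {w : ℕ → ℝ} {B A : ℝ}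
    {f : E → F} {S : Set E} (c : 𝕜) (hf : GevW w B A f S) : GevW w (‖c‖ * B) A (fun x => c • f x) S := by
  refine ⟨hf.smooth.const_smul c, fun x hx n => ?_⟩
  have e : iteratedFDeriv ℝ n (fun x => c • f x) x = c • iteratedFDeriv ℝ n f x :=
    iteratedFDeriv_const_smul_apply ((hf.smooth.of_le (by exact_mod_cast le_top)).contDiffAt)
  rw [e, norm_smul]
  calc _ ≤ ‖c‖ * (B * A ^ n * w n) := mul_le_mul_of_nonneg_left (hf.bound x hx n) (norm_nonneg _)
    _ = _ := by ring

theorem gevw_clm_left {w : ℕ → ℝ} {B A K : ℝ} {f : E → F} {S : Set E} (L : F →L[ℝ] G) (hK : ‖L‖ ≤ K)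
    (hf : GevW w B A f S) : GevW w (K * B) A (fun x => L (f x)) S := by
  refine ⟨L.contDiff.comp hf.smooth, fun x hx n => ?_⟩
  have e := L.norm_iteratedFDeriv_comp_left (n := n) (hf.smooth.contDiffAt (x := x)) (by exact_mod_cast le_top)
  calc ‖iteratedFDeriv ℝ n (fun x => L (f x)) x‖ ≤ ‖L‖ * ‖iteratedFDeriv ℝ n f x‖ := e
    _ ≤ K * (B * A ^ n * w n) := mul_le_mul hK (hf.bound x hx n) (norm_nonneg _) ((norm_nonneg _).trans hK)
    _ = _ := by ring

theorem gevw_li_left {w : ℕ → ℝ} {B A : ℝ} {f : E → F} {S : Set E} (L : F →ₗᵢ[ℝ] G)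
    (hf : GevW w B A f S) : GevW w B A (fun x => L (f x)) S := by
  refine ⟨L.contDiff.comp hf.smooth, fun x hx n => ?_⟩
  have e := L.norm_iteratedFDeriv_comp_left (i := n) (hf.smooth.contDiffAt (x := x)) (by exact_mod_cast le_top)
  calc ‖iteratedFDeriv ℝ n (fun x => L (f x)) x‖ = ‖iteratedFDeriv ℝ n f x‖ := e
    _ ≤ _ := hf.bound x hx n

/-- all derivatives vanish off a closed set containing `{f ≠ 0}` -/
theorem gevw_iteratedFDeriv_eq_zero {f : E → F} {S : Set E} (hS : IsClosed S) (hsupp : ∀ x, f x ≠ 0 → x ∈ S) {x : E}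
    (hx : x ∉ S) (n : ℕ) : iteratedFDeriv ℝ n f x = 0 := by
  have h : f =ᶠ[nhds x] fun _ => (0 : F) := by
    filter_upwards [hS.isOpen_compl.mem_nhds hx] with y hy
    by_contra hne
    exact hy (hsupp y hne)
  have := (h.iteratedFDeriv ℝ n).eq_of_nhds
  rw [this, iteratedFDeriv_fun_zero]
  rfl

theorem gevw_of_closed {w : ℕ → ℝ} (hw : GevWt w) {B A : ℝ} {f : E → F} {S : Set E} (hf : GevW w B A f S) (hB : 0 ≤ B)
    (hA : 0 ≤ A) (hS : IsClosed S) (hsupp : ∀ x, f x ≠ 0 → x ∈ S) : GevW w B A f Set.univ := by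
  refine ⟨hf.smooth, fun x _ n => ?_⟩
  by_cases hx : x ∈ S
  · exact hf.bound x hx n
  · rw [gevw_iteratedFDeriv_eq_zero hS hsupp hx n, norm_zero]
    have := (hw.pos n).le
    positivity

theorem gevw_congr_near {w : ℕ → ℝ} {B A : ℝ} {f g : E → F} {S : Set E} (hf : GevW w B A f S) (hg : ContDiff ℝ ∞ g)
    (hfg : ∀ x ∈ S, g =ᶠ[nhds x] f) : GevW w B A g S := by
  refine ⟨hg, fun x hx n => ?_⟩
  rw [((hfg x hx).iteratedFDeriv ℝ n).eq_of_nhds]
  exact hf.bound x hx n

theorem gevw_union {w : ℕ → ℝ} {B A : ℝ} {f : E → F} {S T : Set E} (hS : GevW w B A f S) (hT : GevW w B A f T) :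
    GevW w B A f (S ∪ T) :=
  ⟨hS.smooth, fun x hx n => hx.elim (fun h => hS.bound x h n) (fun h => hT.bound x h n)⟩

theorem gevw_improve {w : ℕ → ℝ} (hw : GevWt w) {B B' A K : ℝ} {f : E → F} {S : Set E} (hf : GevW w B A f S)
    (hA : 0 ≤ A) (hK : 1 ≤ K) (hB : B ≤ B' * K) (h0 : ∀ x ∈ S, ‖f x‖ ≤ B') : GevW w B' (K * A) f S := by
  refine ⟨hf.smooth, fun x hx n => ?_⟩
  have hB' : 0 ≤ B' := (norm_nonneg _).trans (h0 x hx)
  rcases Nat.eq_zero_or_pos n with rfl | hn
  · simpa [hw.zero] using h0 x hx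
  · refine (hf.bound x hx n).trans ?_
    have h1 : K ≤ K ^ n := le_self_pow₀ hK hn.ne'
    have h2 : 0 ≤ A ^ n := pow_nonneg hA n
    have h3 := (hw.pos n).le
    calc B * A ^ n * w n ≤ (B' * K ^ n) * A ^ n * w n := by
          gcongr
          exact hB.trans (mul_le_mul_of_nonneg_left h1 hB')
      _ = _ := by rw [mul_pow]; ring

end

end Claimed.Agent.R258
end

/- ===== packed: Claimed.Agent.R258.Gev.CalcA ===== -/
section
/-
Row 258, block [GEV] (architect helper252).  FILE CalcA: additive calculus of `GevOn`.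
All proofs are pointwise: `intro x hx n`, rewrite `iteratedFDeriv` of the combination
(`iteratedFDeriv_add_apply`, `iteratedFDeriv_neg_apply`, `iteratedFDeriv_const_smul_apply`, `iteratedFDeriv_sum`,
`ContinuousLinearMap.norm_iteratedFDeriv_comp_left`), and use the triangle inequality.
`B ≥ 0` follows from the bound at `n = 0` at any point of `S`.
-/
set_option autoImplicit false
open scoped ContDiff

namespace Claimed.Agent.R258

section
variable {E F G : Type*} [NormedAddCommGroup E] [NormedSpace ℝ E] [NormedAddCommGroup F] [NormedSpace ℝ F]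
  [NormedAddCommGroup G] [NormedSpace ℝ G]

theorem gev_B_nonneg {s : ℕ} {B A : ℝ} {f : E → F} {S : Set E} (h : GevOn s B A f S) {x : E} (hx : x ∈ S) : 0 ≤ B :=
  gevw_B_nonneg (gev_wt_fact s) (gev_iff_w.1 h) hx

theorem gev_norm_le {s : ℕ} {B A : ℝ} {f : E → F} {S : Set E} (h : GevOn s B A f S) {x : E} (hx : x ∈ S) : ‖f x‖ ≤ B :=
  gevw_norm_le (gev_wt_fact s) (gev_iff_w.1 h) hx

/-- monotonicity in all parameters -/
theorem gev_mono {s s' : ℕ} {B B' A A' : ℝ} {f : E → F} {S S' : Set E} (h : GevOn s B A f S) (hs : s ≤ s')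
    (hB : B ≤ B') (hA0 : 0 ≤ A) (hA : A ≤ A') (hS : S' ⊆ S) : GevOn s' B' A' f S' :=
  gev_iff_w.2 (gevw_mono (gev_wt_fact s) (gev_iff_w.1 h)
    (fun n => pow_le_pow_right₀ (by exact_mod_cast Nat.one_le_iff_ne_zero.mpr (Nat.factorial_ne_zero n)) hs) hB hA0 hA hS)

theorem gev_mono_set {s : ℕ} {B A : ℝ} {f : E → F} {S S' : Set E} (h : GevOn s B A f S) (hS : S' ⊆ S) :
    GevOn s B A f S' :=
  gev_iff_w.2 (gevw_mono_set (gev_iff_w.1 h) hS)

theorem gev_congr {s : ℕ} {B A : ℝ} {f g : E → F} {S : Set E} (h : GevOn s B A f S) (hfg : ∀ x, g x = f x) :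
    GevOn s B A g S :=
  gev_iff_w.2 (gevw_congr (gev_iff_w.1 h) hfg)

theorem gev_const (s : ℕ) {A : ℝ} (hA : 0 ≤ A) (c : F) (S : Set E) : GevOn s ‖c‖ A (fun _ : E => c) S :=
  gev_iff_w.2 (gevw_const (gev_wt_fact s) hA c S)

theorem gev_add {s : ℕ} {B₁ B₂ A : ℝ} {f g : E → F} {S : Set E} (hf : GevOn s B₁ A f S) (hg : GevOn s B₂ A g S) :
    GevOn s (B₁ + B₂) A (fun x => f x + g x) S :=
  gev_iff_w.2 (gevw_add (gev_iff_w.1 hf) (gev_iff_w.1 hg))

theorem gev_neg {s : ℕ} {B A : ℝ} {f : E → F} {S : Set E} (hf : GevOn s B A f S) : GevOn s B A (fun x => - f x) S :=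
  gev_iff_w.2 (gevw_neg (gev_iff_w.1 hf))

theorem gev_sub {s : ℕ} {B₁ B₂ A : ℝ} {f g : E → F} {S : Set E} (hf : GevOn s B₁ A f S) (hg : GevOn s B₂ A g S) :
    GevOn s (B₁ + B₂) A (fun x => f x - g x) S :=
  gev_iff_w.2 (gevw_sub (gev_iff_w.1 hf) (gev_iff_w.1 hg))

theorem gev_sum {ι : Type*} (t : Finset ι) {s : ℕ} {B : ι → ℝ} {A : ℝ} {f : ι → E → F} {S : Set E}
    (hf : ∀ i ∈ t, GevOn s (B i) A (f i) S) : GevOn s (∑ i ∈ t, B i) A (fun x => ∑ i ∈ t, f i x) S :=
  gev_iff_w.2 (gevw_sum t fun i hi => gev_iff_w.1 (hf i hi))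

/-- multiplication by a constant scalar (`𝕜 = ℝ` or `ℂ`) -/
theorem gev_const_smul {𝕜 : Type*} [NormedField 𝕜] [NormedSpace 𝕜 F] [SMulCommClass ℝ 𝕜 F] {s : ℕ} {B A : ℝ} {f : E → F}
    {S : Set E} (c : 𝕜) (hf : GevOn s B A f S) : GevOn s (‖c‖ * B) A (fun x => c • f x) S :=
  gev_iff_w.2 (gevw_const_smul c (gev_iff_w.1 hf))

/-- left composition with a continuous linear map -/
theorem gev_clm_left {s : ℕ} {B A K : ℝ} {f : E → F} {S : Set E} (L : F →L[ℝ] G) (hK : ‖L‖ ≤ K) (hf : GevOn s B A f S) :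
    GevOn s (K * B) A (fun x => L (f x)) S :=
  gev_iff_w.2 (gevw_clm_left L hK (gev_iff_w.1 hf))

theorem gev_ofReal {s : ℕ} {B A : ℝ} {f : E → ℝ} {S : Set E} (hf : GevOn s B A f S) :
    GevOn s B A (fun x => ((f x : ℝ) : ℂ)) S :=
  gev_iff_w.2 (gevw_li_left Complex.ofRealLI (gev_iff_w.1 hf))

theorem gev_conj {s : ℕ} {B A : ℝ} {f : E → ℂ} {S : Set E} (hf : GevOn s B A f S) :
    GevOn s B A (fun x => (starRingEnd ℂ) (f x)) S :=
  gev_iff_w.2 (gevw_li_left Complex.conjLIE.toLinearIsometry (gev_iff_w.1 hf))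

theorem gev_re {s : ℕ} {B A : ℝ} {f : E → ℂ} {S : Set E} (hf : GevOn s B A f S) :
    GevOn s B A (fun x => (f x).re) S := by
  have := gev_iff_w.2 (gevw_clm_left Complex.reCLM (K := 1) (by simp) (gev_iff_w.1 hf))
  simpa using this

theorem gev_im {s : ℕ} {B A : ℝ} {f : E → ℂ} {S : Set E} (hf : GevOn s B A f S) :
    GevOn s B A (fun x => (f x).im) S := by
  have := gev_iff_w.2 (gevw_clm_left Complex.imCLM (K := 1) (by simp) (gev_iff_w.1 hf))
  simpa using this

/-- all derivatives vanish off a closed set containing `{f ≠ 0}` -/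
theorem gev_iteratedFDeriv_eq_zero {f : E → F} {S : Set E} (hS : IsClosed S) (hsupp : ∀ x, f x ≠ 0 → x ∈ S) {x : E}
    (hx : x ∉ S) (n : ℕ) : iteratedFDeriv ℝ n f x = 0 :=
  gevw_iteratedFDeriv_eq_zero hS hsupp hx n

/-- a bound on a closed set containing `{f ≠ 0}` is a global bound -/
theorem gev_of_closed {s : ℕ} {B A : ℝ} {f : E → F} {S : Set E} (hf : GevOn s B A f S) (hB : 0 ≤ B) (hA : 0 ≤ A)
    (hS : IsClosed S) (hsupp : ∀ x, f x ≠ 0 → x ∈ S) : Gev s B A f :=
  gev_iff_w.2 (gevw_of_closed (gev_wt_fact s) (gev_iff_w.1 hf) hB hA hS hsupp)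

/-- two functions which agree near every point of `S` -/
theorem gev_congr_near {s : ℕ} {B A : ℝ} {f g : E → F} {S : Set E} (hf : GevOn s B A f S) (hg : ContDiff ℝ ∞ g)
    (hfg : ∀ x ∈ S, g =ᶠ[nhds x] f) : GevOn s B A g S :=
  gev_iff_w.2 (gevw_congr_near (gev_iff_w.1 hf) hg hfg)

/-- union of two sets -/
theorem gev_union {s : ℕ} {B A : ℝ} {f : E → F} {S T : Set E} (hS : GevOn s B A f S) (hT : GevOn s B A f T) :
    GevOn s B A f (S ∪ T) :=
  gev_iff_w.2 (gevw_union (gev_iff_w.1 hS) (gev_iff_w.1 hT))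

/-- improve the constant `B` to a sup bound `B'` at the cost of the rate: `B ≤ B' K`, `K ≥ 1` -/
theorem gev_improve {s : ℕ} {B B' A K : ℝ} {f : E → F} {S : Set E} (hf : GevOn s B A f S) (hA : 0 ≤ A) (hK : 1 ≤ K)
    (hB : B ≤ B' * K) (h0 : ∀ x ∈ S, ‖f x‖ ≤ B') : GevOn s B' (K * A) f S :=
  gev_iff_w.2 (gevw_improve (gev_wt_fact s) (gev_iff_w.1 hf) hA hK hB h0)

end

end Claimed.Agent.R258
end

/- ===== packed: Claimed.Agent.R258.Gev.WtM ===== -/
section
/-
Row 258, block [GEV] (architect helper252).  FILE WtM: products and affine substitutions for the general weight class `GevW`.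
-/
set_option autoImplicit false
open scoped ContDiff

namespace Claimed.Agent.R258

/-- the combinatorial core: `∑ C(n,i) A₁^i w_i A₂^(n-i) w_(n-i) ≤ (A₁+A₂)^n w_n` -/
theorem gevw_binom_le {w : ℕ → ℝ} (hw : GevWt w) (n : ℕ) {A₁ A₂ : ℝ} (h₁ : 0 ≤ A₁) (h₂ : 0 ≤ A₂) :
    ∑ i ∈ Finset.range (n + 1), (n.choose i : ℝ) * (A₁ ^ i * w i) * (A₂ ^ (n - i) * w (n - i))
      ≤ (A₁ + A₂) ^ n * w n := by
  rw [add_pow, Finset.sum_mul]
  apply Finset.sum_le_sum
  intro i hi
  have hi' : i ≤ n := Nat.lt_succ_iff.mp (Finset.mem_range.mp hi)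
  have h := hw.mul n i hi'
  have h3 : 0 ≤ (n.choose i : ℝ) * A₁ ^ i * A₂ ^ (n - i) := by positivity
  calc (n.choose i : ℝ) * (A₁ ^ i * w i) * (A₂ ^ (n - i) * w (n - i))
      = ((n.choose i : ℝ) * A₁ ^ i * A₂ ^ (n - i)) * (w i * w (n - i)) := by ring
    _ ≤ ((n.choose i : ℝ) * A₁ ^ i * A₂ ^ (n - i)) * w n := mul_le_mul_of_nonneg_left h h3
    _ = _ := by ring

section
variable {E E' F : Type*} [NormedAddCommGroup E] [NormedSpace ℝ E] [NormedAddCommGroup E'] [NormedSpace ℝ E']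
  [NormedAddCommGroup F] [NormedSpace ℝ F]

/-- from a Leibniz-type inequality to the bound of the product -/
theorem gevw_leibniz {w : ℕ → ℝ} (hw : GevWt w) {B₁ B₂ A₁ A₂ : ℝ} (h₁ : 0 ≤ A₁) (h₂ : 0 ≤ A₂) (hB₁ : 0 ≤ B₁)
    (n : ℕ) {a b : ℕ → ℝ} (hb0 : ∀ i, 0 ≤ b i) (ha : ∀ i, a i ≤ B₁ * A₁ ^ i * w i)
    (hb : ∀ i, b i ≤ B₂ * A₂ ^ i * w i) :
    ∑ i ∈ Finset.range (n + 1), (n.choose i : ℝ) * a i * b (n - i) ≤ B₁ * B₂ * (A₁ + A₂) ^ n * w n := by
  calc ∑ i ∈ Finset.range (n + 1), (n.choose i : ℝ) * a i * b (n - i)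
      ≤ ∑ i ∈ Finset.range (n + 1),
          (B₁ * B₂) * ((n.choose i : ℝ) * (A₁ ^ i * w i) * (A₂ ^ (n - i) * w (n - i))) := by
        apply Finset.sum_le_sum
        intro i _
        have hw1 := (hw.pos i).le
        have e1 : (n.choose i : ℝ) * a i * b (n - i) ≤
            (n.choose i : ℝ) * (B₁ * A₁ ^ i * w i) * (B₂ * A₂ ^ (n - i) * w (n - i)) := by
          apply mul_le_mul (mul_le_mul_of_nonneg_left (ha i) (by positivity)) (hb _) (hb0 _)
          positivity
        refine e1.trans (le_of_eq ?_)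
        ring
    _ = (B₁ * B₂) * ∑ i ∈ Finset.range (n + 1),
          ((n.choose i : ℝ) * (A₁ ^ i * w i) * (A₂ ^ (n - i) * w (n - i))) := by rw [Finset.mul_sum]
    _ ≤ (B₁ * B₂) * ((A₁ + A₂) ^ n * w n) := by
        apply mul_le_mul_of_nonneg_left (gevw_binom_le hw n h₁ h₂)
        have : 0 ≤ B₂ := by
          have := (hb0 0).trans (hb 0)
          simpa [hw.zero] using this
        positivity
    _ = _ := by ring

theorem gevw_mul {𝔸 : Type*} [NormedRing 𝔸] [NormedAlgebra ℝ 𝔸] {w : ℕ → ℝ} (hw : GevWt w) {B₁ B₂ A₁ A₂ : ℝ}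
    {f g : E → 𝔸} {S : Set E} (h₁ : 0 ≤ A₁) (h₂ : 0 ≤ A₂) (hf : GevW w B₁ A₁ f S) (hg : GevW w B₂ A₂ g S) :
    GevW w (B₁ * B₂) (A₁ + A₂) (fun x => f x * g x) S := by
  refine ⟨hf.smooth.mul hg.smooth, fun x hx n => ?_⟩
  refine (norm_iteratedFDeriv_mul_le hf.smooth hg.smooth x (n := n) (by exact_mod_cast le_top)).trans ?_
  exact gevw_leibniz hw h₁ h₂ (gevw_B_nonneg hw hf hx) n (a := fun i => ‖iteratedFDeriv ℝ i f x‖)
    (b := fun i => ‖iteratedFDeriv ℝ i g x‖) (fun i => norm_nonneg _) (hf.bound x hx) (hg.bound x hx)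

theorem gevw_smul {w : ℕ → ℝ} (hw : GevWt w) {B₁ B₂ A₁ A₂ : ℝ} {f : E → ℝ} {g : E → F} {S : Set E}
    (h₁ : 0 ≤ A₁) (h₂ : 0 ≤ A₂) (hf : GevW w B₁ A₁ f S) (hg : GevW w B₂ A₂ g S) :
    GevW w (B₁ * B₂) (A₁ + A₂) (fun x => f x • g x) S := by
  refine ⟨hf.smooth.smul hg.smooth, fun x hx n => ?_⟩
  refine (norm_iteratedFDeriv_smul_le hf.smooth hg.smooth x (n := n) (by exact_mod_cast le_top)).trans ?_
  exact gevw_leibniz hw h₁ h₂ (gevw_B_nonneg hw hf hx) n (a := fun i => ‖iteratedFDeriv ℝ i f x‖)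
    (b := fun i => ‖iteratedFDeriv ℝ i g x‖) (fun i => norm_nonneg _) (hf.bound x hx) (hg.bound x hx)

theorem gevw_prod {𝔸 : Type*} [NormedCommRing 𝔸] [NormedAlgebra ℝ 𝔸] [NormOneClass 𝔸] {ι : Type*} (t : Finset ι)
    {w : ℕ → ℝ} (hw : GevWt w) {B A : ι → ℝ} {f : ι → E → 𝔸} {S : Set E} (hA : ∀ i ∈ t, 0 ≤ A i)
    (hf : ∀ i ∈ t, GevW w (B i) (A i) (f i) S) :
    GevW w (∏ i ∈ t, B i) (∑ i ∈ t, A i) (fun x => ∏ i ∈ t, f i x) S := by
  classical
  induction t using Finset.induction_on with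
  | empty =>
    have := gevw_const (E := E) hw (le_refl (0 : ℝ)) (1 : 𝔸) S
    simpa using this
  | insert a t ha ih =>
    have h1 := ih (fun i hi => hA i (Finset.mem_insert_of_mem hi)) (fun i hi => hf i (Finset.mem_insert_of_mem hi))
    have h2 := gevw_mul hw (hA a (Finset.mem_insert_self a t))
      (Finset.sum_nonneg fun i hi => hA i (Finset.mem_insert_of_mem hi)) (hf a (Finset.mem_insert_self a t)) h1
    simp only [Finset.prod_insert ha, Finset.sum_insert ha]
    exact h2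

theorem gevw_pow {𝔸 : Type*} [NormedCommRing 𝔸] [NormedAlgebra ℝ 𝔸] [NormOneClass 𝔸] {w : ℕ → ℝ} (hw : GevWt w)
    {B A : ℝ} {f : E → 𝔸} {S : Set E} (hA : 0 ≤ A) (hf : GevW w B A f S) (k : ℕ) :
    GevW w (B ^ k) (k * A) (fun x => f x ^ k) S := by
  have := gevw_prod (Finset.range k) hw (B := fun _ => B) (A := fun _ => A) (f := fun _ => f) (S := S)
    (fun _ _ => hA) (fun _ _ => hf)
  simpa using this

/-- substitution `y ↦ L y + c` -/
theorem gevw_comp_affine {w : ℕ → ℝ} (hw : GevWt w) {B A K : ℝ} {f : E → F} {S : Set E} (hA : 0 ≤ A)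
    (hf : GevW w B A f S) (L : E' →L[ℝ] E) (c : E) (hK : ‖L‖ ≤ K) :
    GevW w B (A * K) (fun y => f (L y + c)) {y | L y + c ∈ S} := by
  have hs : ContDiff ℝ ∞ (fun z => f (z + c)) := hf.smooth.comp (contDiff_id.add contDiff_const)
  refine ⟨hs.comp L.contDiff, fun y hy n => ?_⟩
  have e : iteratedFDeriv ℝ n ((fun z => f (z + c)) ∘ L) y
      = (iteratedFDeriv ℝ n (fun z => f (z + c)) (L y)).compContinuousLinearMap fun _ => L :=
    L.iteratedFDeriv_comp_right hs y (by exact_mod_cast le_top)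
  have e2 : (fun y => f (L y + c)) = (fun z => f (z + c)) ∘ L := rfl
  rw [e2, e, iteratedFDeriv_comp_add_right]
  refine (ContinuousMultilinearMap.norm_compContinuousLinearMap_le _ _).trans ?_
  have hB := gevw_B_nonneg hw hf hy
  have h3 := (hw.pos n).le
  have h4 : ∏ _i : Fin n, ‖L‖ ≤ K ^ n := by
    rw [Finset.prod_const, Finset.card_univ, Fintype.card_fin]
    exact pow_le_pow_left₀ (norm_nonneg _) hK n
  calc _ ≤ (B * A ^ n * w n) * K ^ n :=
        mul_le_mul (hf.bound _ hy n) h4 (Finset.prod_nonneg fun _ _ => norm_nonneg _) (by positivity)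
    _ = _ := by rw [mul_pow]; ring

end

end Claimed.Agent.R258
end

/- ===== packed: Claimed.Agent.R258.Gev.CalcM ===== -/
section
/-
Row 258, block [GEV] (architect helper252).  FILE CalcM: multiplicative calculus of `GevOn`.
`gev_mul`: `norm_iteratedFDeriv_mul_le` gives `‖D^n (fg)‖ ≤ ∑_{i ≤ n} C(n,i) ‖D^i f‖ ‖D^{n-i} g‖
   ≤ B₁ B₂ ∑ C(n,i) A₁^i A₂^{n-i} (i! (n-i)!)^s ≤ B₁ B₂ (A₁+A₂)^n n!^s`  (`Nat.factorial_mul_factorial_dvd_factorial`, `add_pow`).
`gev_smul`: the same with `norm_iteratedFDeriv_smul_le`.  `gev_prod`: induction on the Finset.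
-/
set_option autoImplicit false
open scoped ContDiff

namespace Claimed.Agent.R258

section
variable {E F : Type*} [NormedAddCommGroup E] [NormedSpace ℝ E] [NormedAddCommGroup F] [NormedSpace ℝ F]

/-- the combinatorial core: `∑ C(n,i) A₁^i i!^s A₂^(n-i) (n-i)!^s ≤ (A₁+A₂)^n n!^s` -/
theorem gev_binom_le (s n : ℕ) {A₁ A₂ : ℝ} (h₁ : 0 ≤ A₁) (h₂ : 0 ≤ A₂) :
    ∑ i ∈ Finset.range (n + 1), (n.choose i : ℝ) * (A₁ ^ i * (i.factorial : ℝ) ^ s) * (A₂ ^ (n - i) * ((n - i).factorial : ℝ) ^ s)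
      ≤ (A₁ + A₂) ^ n * (n.factorial : ℝ) ^ s :=
  gevw_binom_le (gev_wt_fact s) n h₁ h₂

theorem gev_mul {𝔸 : Type*} [NormedRing 𝔸] [NormedAlgebra ℝ 𝔸] {s : ℕ} {B₁ B₂ A₁ A₂ : ℝ} {f g : E → 𝔸} {S : Set E}
    (h₁ : 0 ≤ A₁) (h₂ : 0 ≤ A₂) (hf : GevOn s B₁ A₁ f S) (hg : GevOn s B₂ A₂ g S) :
    GevOn s (B₁ * B₂) (A₁ + A₂) (fun x => f x * g x) S :=
  gev_iff_w.2 (gevw_mul (gev_wt_fact s) h₁ h₂ (gev_iff_w.1 hf) (gev_iff_w.1 hg))

theorem gev_smul {s : ℕ} {B₁ B₂ A₁ A₂ : ℝ} {f : E → ℝ} {g : E → F} {S : Set E}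
    (h₁ : 0 ≤ A₁) (h₂ : 0 ≤ A₂) (hf : GevOn s B₁ A₁ f S) (hg : GevOn s B₂ A₂ g S) :
    GevOn s (B₁ * B₂) (A₁ + A₂) (fun x => f x • g x) S :=
  gev_iff_w.2 (gevw_smul (gev_wt_fact s) h₁ h₂ (gev_iff_w.1 hf) (gev_iff_w.1 hg))

theorem gev_prod {𝔸 : Type*} [NormedCommRing 𝔸] [NormedAlgebra ℝ 𝔸] [NormOneClass 𝔸] {ι : Type*} (t : Finset ι) {s : ℕ}
    {B A : ι → ℝ} {f : ι → E → 𝔸} {S : Set E} (hA : ∀ i ∈ t, 0 ≤ A i) (hf : ∀ i ∈ t, GevOn s (B i) (A i) (f i) S) :
    GevOn s (∏ i ∈ t, B i) (∑ i ∈ t, A i) (fun x => ∏ i ∈ t, f i x) S :=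
  gev_iff_w.2 (gevw_prod t (gev_wt_fact s) hA fun i hi => gev_iff_w.1 (hf i hi))

theorem gev_pow {𝔸 : Type*} [NormedCommRing 𝔸] [NormedAlgebra ℝ 𝔸] [NormOneClass 𝔸] {s : ℕ} {B A : ℝ} {f : E → 𝔸}
    {S : Set E} (hA : 0 ≤ A) (hf : GevOn s B A f S) (k : ℕ) : GevOn s (B ^ k) (k * A) (fun x => f x ^ k) S :=
  gev_iff_w.2 (gevw_pow (gev_wt_fact s) hA (gev_iff_w.1 hf) k)

end

end Claimed.Agent.R258
end

/- ===== packed: Claimed.Agent.R258.S9a.Num ===== -/
section
/-
R258 / block [S9a] (Lemma 9.1 = counting.tex `lem:finite-sparse-count`), file Num: "Choice of the auxiliary powers".  Blueprint + proofs: helper261.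
 `α = δ^(1/1040)`, `κ = α² = δ^(1/520)`; with `a = δ^(1/2080)`: `α = a²`, `κ = a⁴`, `δ^(1/10) = a^208`, `δ = a^2080`.
-/
set_option autoImplicit false

namespace Claimed.Agent.R258

/-- the polynomial form of `sc_num` -/
theorem sc_num_poly {a L g : ℝ} (ha0 : 0 < a) (ha1 : a ≤ 1) (hL : 1 ≤ L) (hg : 1 ≤ g) (J0 : ℝ)
    (hJ0 : 0 ≤ J0) (hJ : J0 ≤ 3 * L / a ^ 2) :
    4 * J0 * (a ^ 2) ^ 2 + 6 * Real.sqrt (L * a ^ 2) +
        4 * J0 * (J0 * (160000 * (L / (a ^ 2) ^ 2) ^ 6)) ^ 3 *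
          (16 * g * (160000 * (L / (a ^ 2) ^ 2) ^ 6) * L * a ^ 208)
      ≤ 10 ^ 25 * g * L ^ 29 * a := by
  have hL0 : 0 < L := by linarith
  have hJa : J0 * a ^ 2 ≤ 3 * L := by rwa [le_div_iff₀ (by positivity)] at hJ
  have hJa0 : 0 ≤ J0 * a ^ 2 := by positivity
  set y := L / (a ^ 2) ^ 2 with hy
  have hya : y * a ^ 4 = L := by
    rw [hy]
    field_simp
  have hL29 : L ≤ L ^ 29 := by
    calc L = L ^ 1 := (pow_one _).symm
      _ ≤ L ^ 29 := pow_le_pow_right₀ hL (by norm_num)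
  have hL29' : L ≤ g * L ^ 29 := by
    calc L ≤ L ^ 29 := hL29
      _ = 1 * L ^ 29 := (one_mul _).symm
      _ ≤ g * L ^ 29 := by gcongr
  have hgL : 0 ≤ g * L ^ 29 := by positivity
  -- term 1
  have t1 : 4 * J0 * (a ^ 2) ^ 2 ≤ 12 * (g * L ^ 29) * a := by
    have h1 : a ^ 2 ≤ a := by nlinarith
    calc 4 * J0 * (a ^ 2) ^ 2 = 4 * (J0 * a ^ 2) * a ^ 2 := by ring
      _ ≤ 4 * (3 * L) * a := by gcongr
      _ = 12 * L * a := by ring
      _ ≤ 12 * (g * L ^ 29) * a := by gcongr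
  -- term 2
  have t2 : 6 * Real.sqrt (L * a ^ 2) ≤ 6 * (g * L ^ 29) * a := by
    have h1 : Real.sqrt (L * a ^ 2) ≤ L * a := by
      rw [show L * a = Real.sqrt ((L * a) ^ 2) from (Real.sqrt_sq (by positivity)).symm]
      apply Real.sqrt_le_sqrt
      have : L * a ^ 2 ≤ L * L * a ^ 2 := by
        have h2 : 0 ≤ a ^ 2 := by positivity
        have h3 : L ≤ L * L := by nlinarith
        exact mul_le_mul_of_nonneg_right h3 h2
      calc L * a ^ 2 ≤ L * L * a ^ 2 := this
        _ = (L * a) ^ 2 := by ring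
    calc 6 * Real.sqrt (L * a ^ 2) ≤ 6 * (L * a) := by gcongr
      _ = 6 * L * a := by ring
      _ ≤ 6 * (g * L ^ 29) * a := by gcongr
  -- term 3
  have t3 : 4 * J0 * (J0 * (160000 * y ^ 6)) ^ 3 * (16 * g * (160000 * y ^ 6) * L * a ^ 208) ≤
      (64 * 160000 ^ 4 * 81) * (g * L ^ 29) * a := by
    have h1 : a ^ 104 ≤ a := by
      calc a ^ 104 ≤ a ^ 1 := pow_le_pow_of_le_one ha0.le ha1 (by norm_num)
        _ = a := pow_one _
    have h2 : (J0 * a ^ 2) ^ 4 ≤ (3 * L) ^ 4 := pow_le_pow_left₀ hJa0 hJa 4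
    calc 4 * J0 * (J0 * (160000 * y ^ 6)) ^ 3 * (16 * g * (160000 * y ^ 6) * L * a ^ 208)
        = 64 * 160000 ^ 4 * g * L * (J0 * a ^ 2) ^ 4 * (y * a ^ 4) ^ 24 * a ^ 104 := by ring
      _ = 64 * 160000 ^ 4 * g * L * (J0 * a ^ 2) ^ 4 * L ^ 24 * a ^ 104 := by rw [hya]
      _ ≤ 64 * 160000 ^ 4 * g * L * (3 * L) ^ 4 * L ^ 24 * a := by gcongr
      _ = (64 * 160000 ^ 4 * 81) * (g * L ^ 29) * a := by ring
  have hfin : 12 * (g * L ^ 29) * a + 6 * (g * L ^ 29) * a + (64 * 160000 ^ 4 * 81) * (g * L ^ 29) * a ≤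
      10 ^ 25 * g * L ^ 29 * a := by
    have h0 : 0 ≤ g * L ^ 29 * a := by positivity
    nlinarith
  linarith

/-- the choice `α = δ^(1/1040)`, `κ = α²` -/
theorem sc_num {δ L g : ℝ} (hδ0 : 0 < δ) (hδ : δ ≤ 1 / 4) (hL : 1 ≤ L) (hg : 1 ≤ g) :
    2 * δ ≤ δ ^ (1 / 1040 : ℝ) ∧ δ ^ (1 / 1040 : ℝ) ≤ 1 ∧ 0 < (δ ^ (1 / 1040 : ℝ)) ^ 2 ∧
      (δ ^ (1 / 1040 : ℝ)) ^ 2 < 1 ∧
      ∀ J0 : ℝ, 0 ≤ J0 → J0 ≤ 3 * L / δ ^ (1 / 1040 : ℝ) →
        4 * J0 * (δ ^ (1 / 1040 : ℝ)) ^ 2 + 6 * Real.sqrt (L * δ ^ (1 / 1040 : ℝ)) +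
          4 * J0 * (J0 * (160000 * (L / (δ ^ (1 / 1040 : ℝ)) ^ 2) ^ 6)) ^ 3 *
            (16 * g * (160000 * (L / (δ ^ (1 / 1040 : ℝ)) ^ 2) ^ 6) * L * δ ^ (1 / 10 : ℝ))
          ≤ 10 ^ 25 * g * L ^ 29 * δ ^ (1 / 2080 : ℝ) := by
  set a := δ ^ (1 / 2080 : ℝ) with ha
  have ha0 : 0 < a := Real.rpow_pos_of_pos hδ0 _
  have ha1 : a < 1 := Real.rpow_lt_one hδ0.le (by linarith) (by norm_num)
  have hα : δ ^ (1 / 1040 : ℝ) = a ^ 2 := by
    rw [ha, ← Real.rpow_natCast, ← Real.rpow_mul hδ0.le]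
    norm_num
  have h10 : δ ^ (1 / 10 : ℝ) = a ^ 208 := by
    rw [ha, ← Real.rpow_natCast, ← Real.rpow_mul hδ0.le]
    norm_num
  have hδa : δ = a ^ 2080 := by
    rw [ha, ← Real.rpow_natCast, ← Real.rpow_mul hδ0.le]
    norm_num
  rw [hα, h10]
  refine ⟨?_, ?_, by positivity, ?_, fun J0 hJ0 hJ => sc_num_poly ha0 ha1.le hL hg J0 hJ0 hJ⟩
  · -- `2 δ ≤ a²`
    have h1 : a ^ 2078 ≤ 1 / 2 := by
      by_contra hcon
      have h2 : 1 / 2 < a ^ 2078 := not_le.1 hcon
      have h3 : a ^ 2078 ≤ a ^ 2 := pow_le_pow_of_le_one ha0.le ha1.le (by norm_num)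
      have h4 : a ^ 2080 = a ^ 2078 * a ^ 2 := by ring
      have h5 : (1 / 4 : ℝ) < a ^ 2078 * a ^ 2 := by nlinarith
      rw [← h4, ← hδa] at h5
      linarith
    have h6 : 0 ≤ a ^ 2 := by positivity
    calc 2 * δ = 2 * (a ^ 2078 * a ^ 2) := by rw [hδa]; ring
      _ ≤ 2 * (1 / 2 * a ^ 2) := by gcongr
      _ = a ^ 2 := by ring
  · exact pow_le_one₀ ha0.le ha1.le
  · have : a ^ 2 < 1 := pow_lt_one₀ ha0.le ha1 (by norm_num)
    exact pow_lt_one₀ (by positivity) this (by norm_num)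

end Claimed.Agent.R258
end
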