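/- Packed by merge_tool.py (helper293): 5 modules of Claimed.Agent.R258 in one file, same declarations.
   Old modules, in this order: S7nb.Defs, S7nb.Form, S7nb.Rad, S7nb.Select, S7nb.Piece -/
import Claimed.Agent.R258.CellApi.Pack
import Mathlib
import Claimed.Agent.R258.Pack009

/- ===== packed: Claimed.Agent.R258.S7nb.Defs ===== -/
section
/-
Row 258, block [S7-NB] (architect helper192): `NearBandGoal` from `ShortBlockGoal` (sides.tex l.745-880).  DEFINITIONS + small API.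

* `nbHull U`       : the hull of a finite set of use cells (cells between two uses);
* `NbConvex H`     : order-convex finite set of cells;
* `NbEnergy e`     : nonnegative cell function, superadditive on antichains (`e J = ∫_J F`);
* `nbEn R F`       : the energy `J ↦ ∫_J 1_R F`;
* `nbLeaves P`     : completion of a finite tree by the children immediately below its cells;
* `NbSparse`       : the sparse stopping decomposition (factor 16) of a convex set of cells for two energies.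

LEAF P-NB-DEFS = all sorries of this file.  PROOF NOTES.
* `nb_mem_hull`: `Finset.mem_biUnion`, `Finset.mem_Icc`.
* `nbEn_energy`: `cell_sum_integral_antichain_le` for the integrable function `R.set.indicator F` (integrable on every set);
  `nbEn_eq`: `cell_set_subset`, `setIntegral_congr_fun`/`setIntegral_indicator` (`J.set ∩ R.set = J.set`).
* `nb_treePiece`: leaves: a leaf `L` is a child of `J ∈ P`, `L ∉ P`.  cover: for `y ∈ Q.set` take the deepest cell of `P` containing `y` (finite, nonempty: `Q`); its child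
  containing `y` (`cell_set_child_union`) is not in `P`.  antichain: if `L < L'` are leaves then `L.anc 1 ∈ P`, `L.anc 1 ≤ L' ≤ Q` (`cell_lt_iff_parent_le`), so `L' ∈ P` by
  `RootedTree.conv`: contradiction.  `int_leaf`: `I ∈ P`, `I ≤ L ≤ Q` gives `L ∈ P`.
* `nb_leaf_energy`: `e L ≤ e (L.anc 1)` (singleton antichain), `(L.anc 1).len = 2 * L.len` (`cell_len_anc`).
-/
set_option autoImplicit false

open MeasureTheory Finset

namespace Claimed.Agent.R258

/-- the hull of a finite set of cells: all cells between two members -/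
noncomputable def nbHull (U : Finset Cell) : Finset Cell :=
  U.biUnion fun I => U.biUnion fun I' => Finset.Icc I I'

/-- order-convex set of cells -/
def NbConvex (H : Finset Cell) : Prop := ∀ J₁ ∈ H, ∀ J₂ ∈ H, ∀ J : Cell, J₁ ≤ J → J ≤ J₂ → J ∈ H

theorem nb_mem_hull {U : Finset Cell} {J : Cell} :
    J ∈ nbHull U ↔ (∃ I ∈ U, I ≤ J) ∧ ∃ I' ∈ U, J ≤ I' := by
  unfold nbHull
  simp only [Finset.mem_biUnion, Finset.mem_Icc]
  constructor
  · rintro ⟨I, hI, I', hI', h1, h2⟩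
    exact ⟨⟨I, hI, h1⟩, ⟨I', hI', h2⟩⟩
  · rintro ⟨⟨I, hI, h1⟩, ⟨I', hI', h2⟩⟩
    exact ⟨I, hI, I', hI', h1, h2⟩

theorem nb_subset_hull (U : Finset Cell) : U ⊆ nbHull U := by
  exact fun I hI => nb_mem_hull.2 ⟨⟨I, hI, le_rfl⟩, ⟨I, hI, le_rfl⟩⟩

theorem nb_hull_convex (U : Finset Cell) : NbConvex (nbHull U) := by
  intro J₁ h1 J₂ h2 J h3 h4
  obtain ⟨⟨I, hI, hIJ⟩, _⟩ := nb_mem_hull.1 h1
  obtain ⟨_, ⟨I', hI', hJI⟩⟩ := nb_mem_hull.1 h2
  exact nb_mem_hull.2 ⟨⟨I, hI, hIJ.trans h3⟩, ⟨I', hI', h4.trans hJI⟩⟩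

theorem nb_hull_mono {U U' : Finset Cell} (h : U ⊆ U') : nbHull U ⊆ nbHull U' := by
  intro J hJ
  obtain ⟨⟨I, hI, hIJ⟩, ⟨I', hI', hJI⟩⟩ := nb_mem_hull.1 hJ
  exact nb_mem_hull.2 ⟨⟨I, h hI, hIJ⟩, ⟨I', h hI', hJI⟩⟩

theorem nb_hull_le {U : Finset Cell} {R : Cell} (h : ∀ I ∈ U, I ≤ R) : ∀ J ∈ nbHull U, J ≤ R := by
  intro J hJ
  obtain ⟨_, ⟨I', hI', hJI⟩⟩ := nb_mem_hull.1 hJ
  exact hJI.trans (h I' hI')

theorem nb_hull_depth {U : Finset Cell} {s1 s2 : ℤ} (h : ∀ I ∈ U, s1 ≤ I.depth ∧ I.depth < s2) :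
    ∀ J ∈ nbHull U, s1 ≤ J.depth ∧ J.depth < s2 := by
  intro J hJ
  obtain ⟨⟨I, hI, hIJ⟩, ⟨I', hI', hJI⟩⟩ := nb_mem_hull.1 hJ
  have h1 := cell_depth_le_of_le hIJ
  have h2 := cell_depth_le_of_le hJI
  have h3 := h I hI
  have h4 := h I' hI'
  constructor <;> omega

/-- the hull of retained uses consists of retained cells -/
theorem nb_hull_retained {U stops : Finset Cell} (h : ∀ I ∈ U, cellRetained stops I) :
    ∀ J ∈ nbHull U, cellRetained stops J := by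
  intro J hJ
  obtain ⟨⟨I, hI, hIJ⟩, _⟩ := nb_mem_hull.1 hJ
  exact (h I hI).of_le hIJ

/-- a nonnegative cell function which is superadditive on antichains -/
structure NbEnergy (e : Cell → ℝ) : Prop where
  nonneg : ∀ J, 0 ≤ e J
  anti : ∀ (Q : Cell) (A : Finset Cell), IsAntichain (· ≤ ·) (A : Set Cell) → (∀ J ∈ A, J ≤ Q) →
    ∑ J ∈ A, e J ≤ e Q

theorem NbEnergy.mono {e : Cell → ℝ} (he : NbEnergy e) {I J : Cell} (h : I ≤ J) : e I ≤ e J := by
  have h1 := he.anti J {I} (by simp) (by simpa using h)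
  simpa using h1

/-- the energy of the density `F` restricted to the root `R` -/
noncomputable def nbEn (R : Cell) (F : ℝ → ℝ) (J : Cell) : ℝ := ∫ y in J.set, R.set.indicator F y

theorem nbEn_energy (R : Cell) {F : ℝ → ℝ} (hF : IntegrableOn F R.set) (h0 : ∀ y, 0 ≤ F y) :
    NbEnergy (nbEn R F) := by
  have hi : Integrable (R.set.indicator F) := hF.integrable_indicator (cell_measurableSet R)
  have hn : ∀ y, 0 ≤ R.set.indicator F y := fun y => Set.indicator_nonneg (fun y _ => h0 y) y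
  refine ⟨fun J => integral_nonneg hn, fun Q A hA hle => ?_⟩
  exact cell_sum_integral_antichain_le hA hle hi.integrableOn (fun y _ => hn y)

theorem nbEn_eq {R J : Cell} (hJ : J ≤ R) (F : ℝ → ℝ) : nbEn R F J = ∫ y in J.set, F y := by
  exact setIntegral_congr_fun (cell_measurableSet J)
    (fun y hy => Set.indicator_of_mem (cell_set_subset hJ hy) F)

/-- completion by children: the children of the cells of `P` which are not in `P` -/
noncomputable def nbLeaves (P : Finset Cell) : Finset Cell :=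
  (P.biUnion fun J => {J.child 0, J.child 1}) \ P

theorem nb_leaf_parent {P : Finset Cell} {L : Cell} (hL : L ∈ nbLeaves P) : L.anc 1 ∈ P := by
  obtain ⟨h1, _⟩ := Finset.mem_sdiff.1 hL
  obtain ⟨J, hJ, h2⟩ := Finset.mem_biUnion.1 h1
  rcases Finset.mem_insert.1 h2 with h3 | h3
  · rw [h3, cell_child_anc]
    exact hJ
  · rw [Finset.mem_singleton.1 h3, cell_child_anc]
    exact hJ

theorem nb_leaf_notMem {P : Finset Cell} {L : Cell} (hL : L ∈ nbLeaves P) : L ∉ P := by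
  exact (Finset.mem_sdiff.1 hL).2

theorem nb_leaf_le {Q : Cell} {P : Finset Cell} (hP : RootedTree Q P) {L : Cell}
    (hL : L ∈ nbLeaves P) : L ≤ Q := by
  exact (cell_le_anc L 1).trans (hP.le_root _ (nb_leaf_parent hL))

/-- a finite rooted tree in a block of `K` depths, completed by children, is a tree piece -/
theorem nb_treePiece {Q : Cell} {P int : Finset Cell} (hP : RootedTree Q P) (hint : int ⊆ P) {s1 : ℤ}
    {K : ℕ} (hd : ∀ J ∈ P, s1 ≤ J.depth ∧ J.depth < s1 + K) :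
    TreePiece Q int (nbLeaves P) s1 K := by
  refine ⟨fun L hL => nb_leaf_le hP hL, ?_, ?_, fun I hI => hP.le_root I (hint hI), ?_,
    fun I hI => hd I (hint hI), ?_⟩
  · intro L hL L' hL' hle
    by_contra hne
    have hlt : L < L' := lt_of_le_of_ne hle hne
    exact nb_leaf_notMem hL' (hP.conv _ (nb_leaf_parent hL) L' (cell_lt_iff_parent_le.1 hlt)
      (nb_leaf_le hP hL'))
  · intro y hy
    obtain ⟨L0, hL0, hy0, hmin⟩ := cell_exists_min_at ⟨Q, hP.root_mem, hy⟩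
    have hb : ∃ b : Fin 2, y ∈ (L0.child b).set := by
      rw [← cell_set_child_union] at hy0
      rcases hy0 with h | h
      · exact ⟨0, h⟩
      · exact ⟨1, h⟩
    obtain ⟨b, hb⟩ := hb
    refine ⟨L0.child b, Finset.mem_sdiff.2 ⟨Finset.mem_biUnion.2 ⟨L0, hL0, ?_⟩, fun hmem => ?_⟩, hb⟩
    · fin_cases b
      · exact Finset.mem_insert_self _ _
      · exact Finset.mem_insert_of_mem (Finset.mem_singleton_self _)
    · exact absurd (hmin _ hmem hb) (not_le_of_gt (cell_child_lt L0 b))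
  · intro I hI L hL hle
    exact nb_leaf_notMem hL (hP.conv I (hint hI) L hle (nb_leaf_le hP hL))
  · intro L hL
    have h1 := hd _ (nb_leaf_parent hL)
    rw [cell_depth_anc] at h1
    push_cast at h1
    constructor <;> omega

/-- a child's average is at most twice its parent's -/
theorem nb_leaf_energy {e : Cell → ℝ} (he : NbEnergy e) {P : Finset Cell} {L : Cell}
    (hL : L ∈ nbLeaves P) {c : ℝ} (hc : ∀ J ∈ P, e J ≤ c * J.len) : e L ≤ 2 * c * L.len := by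
  have h1 : e L ≤ e (L.anc 1) := he.mono (cell_le_anc L 1)
  have h2 := hc _ (nb_leaf_parent hL)
  rw [cell_len_anc] at h2
  calc e L ≤ c * (2 ^ 1 * L.len) := h1.trans h2
    _ = 2 * c * L.len := by ring

open Classical in
/-- The sparse stopping decomposition of the convex set `H` for the two energies `ea`, `eb`: roots `Qs`, `rt J` = root of the piece
containing `J`. -/
structure NbSparse (H : Finset Cell) (ea eb : Cell → ℝ) (Qs : Finset Cell) (rt : Cell → Cell) : Prop where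
  sub : Qs ⊆ H
  rt_mem : ∀ J ∈ H, rt J ∈ Qs
  le_rt : ∀ J ∈ H, J ≤ rt J
  rt_root : ∀ Q ∈ Qs, rt Q = Q
  conv : ∀ J ∈ H, ∀ J' : Cell, J ≤ J' → J' ≤ rt J → rt J' = rt J
  avg_a : ∀ J ∈ H, ea J / J.len ≤ 16 * (ea (rt J) / (rt J).len)
  avg_b : ∀ J ∈ H, eb J / J.len ≤ 16 * (eb (rt J) / (rt J).len)
  sparse : ∀ Q ∈ Qs, ∑ Q' ∈ cellMaxs (Qs.filter fun Q' => Q' < Q), Q'.len ≤ Q.len / 8

open Classical in
/-- the pieces are rooted trees -/
theorem NbSparse.rootedTree {H : Finset Cell} {ea eb : Cell → ℝ} {Qs : Finset Cell} {rt : Cell → Cell}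
    (h : NbSparse H ea eb Qs rt) (hH : NbConvex H) {Q : Cell} (hQ : Q ∈ Qs) :
    RootedTree Q (H.filter fun J => rt J = Q) := by
  refine ⟨Finset.mem_filter.2 ⟨h.sub hQ, h.rt_root Q hQ⟩, fun J hJ => ?_, fun I hI J hIJ hJQ => ?_⟩
  · obtain ⟨h1, h2⟩ := Finset.mem_filter.1 hJ
    exact h2 ▸ h.le_rt J h1
  · obtain ⟨h1, h2⟩ := Finset.mem_filter.1 hI
    refine Finset.mem_filter.2 ⟨hH I h1 Q (h.sub hQ) J hIJ hJQ, ?_⟩
    rw [h.conv I h1 J hIJ (h2 ▸ hJQ), h2]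

end Claimed.Agent.R258
end

/- ===== packed: Claimed.Agent.R258.S7nb.Form ===== -/
section
/-
Row 258, block [S7-NB], package P-NB-FORM (architect helper192).

API of the local form `form I w z = |I|⁻² ∫∫ w(x,t) ∏_j z_j(x+jt) dx dt` for an admissible kernel (`c0 > 0`) and measurable inputs which are square integrable on `I`:
integrability of the integrand, locality, multilinear expansion in the role order of `placeArgs`.

PROOF NOTES.
* `nb_adm_mem`: where `w p ≠ 0`, every `p.1 + j p.2` lies in `[left + c0 len, right - c0 len] ⊆ I.set = Ico left right` (`c0 len > 0`).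
* `nb_adm_bdd`: `Admissible.deriv` with `n = 0` (`norm_iteratedFDeriv_zero`).
* `nb_form_integrable`: with `g_j = I.set.indicator (z j)` (in `L²(ℝ)`), `‖integrand‖ ≤ B ∏_j ‖g_j (x+jt)‖`, and
  `∫∫ ∏ ‖g_j(x+jt)‖ ≤ (∫∫ ‖g_0(x)‖²‖g_1(x+t)‖²)^(1/2) (∫∫ ‖g_2(x+2t)‖²‖g_3(x+3t)‖²)^(1/2) = ‖g_0‖‖g_1‖‖g_2‖‖g_3‖`.
  Lean route: `a b ≤ (a² + b²)/2` pointwise, so it suffices that `(x,t) ↦ ‖g_0(x)‖²‖g_1(x+t)‖²` and `(x,t) ↦ ‖g_2(x+2t)‖²‖g_3(x+3t)‖²` are integrable on `ℝ × ℝ`.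
  Both are `(u,v) ↦ G(u) G'(v)` (`Integrable.mul_prod` / `Integrable.prod_mul`) composed with the linear maps `(x,t) ↦ (x, x+t)`, `(x,t) ↦ (x+2t, x+3t)` of determinant `1`, which preserve Lebesgue
  measure (shear maps: `MeasureTheory.measurePreserving_add_prod`-type lemmas, `MeasurePreserving.integrable_comp_emb`, or `Real.map_linearMap_volume_pi_eq_smul_volume_pi`/
  `MeasureTheory.Measure.addHaar_preimage_linearMap`; `(x,t) ↦ (x+2t, x+3t)` is a composition of shears `(x,t) ↦ (x+2t, t)`, `(u,t) ↦ (u, u+t)`).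
  Measurability of the integrand: `hw.smooth.continuous.measurable`, `hz j` composed with measurable maps, `Finset.measurable_prod`.
* `nb_form_congr`: the integrands agree pointwise (`nb_adm_mem`).
* `nb_form_expand`: pointwise, `∏_j placeArgs e xa xb xc xd j (y_j) = xa (y_{e.symm 0}) * xb (y_{e.symm 1}) * xc (y_{e.symm 2}) * xd (y_{e.symm 3})` (`Equiv.prod_comp`, `Fin.prod_univ_four`);
  expand the three finite sums (`Finset.sum_mul_sum`, `Finset.mul_sum`), `integral_finsetSum` with `nb_form_integrable` for every term, `integral_const_mul`.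
-/
set_option autoImplicit false

open MeasureTheory Finset

namespace Claimed.Agent.R258

theorem nb_adm_mem {c0 C0 : ℝ} (hc0 : 0 < c0) {I : Cell} {w : ℝ × ℝ → ℂ} (hw : Admissible c0 C0 I w)
    {p : ℝ × ℝ} (hp : w p ≠ 0) (j : Fin 4) : p.1 + (j : ℝ) * p.2 ∈ I.set := by
  have h := hw.supp p hp j
  have : 0 < c0 * I.len := mul_pos hc0 (cell_len_pos I)
  exact ⟨by linarith [h.1], by linarith [h.2]⟩

theorem nb_adm_bdd {c0 C0 : ℝ} {I : Cell} {w : ℝ × ℝ → ℂ} (hw : Admissible c0 C0 I w) (p : ℝ × ℝ) :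
    ‖w p‖ ≤ (C0 * 2) ^ (C0 * 2) := by
  have h := hw.deriv 0 p
  simpa [norm_iteratedFDeriv_zero] using h

/-- the maps `(x,t) ↦ (x + a t, x + (a+1) t)` preserve Lebesgue measure -/
theorem nb_form_mp (a : ℝ) :
    MeasurePreserving (fun p : ℝ × ℝ => (p.1 + a * p.2, p.1 + (a + 1) * p.2))
      (volume : Measure (ℝ × ℝ)) volume := by
  have h1 : MeasurePreserving (fun p : ℝ × ℝ => (p.1, p.2 + a * p.1))
      ((volume : Measure ℝ).prod volume) (volume.prod volume) :=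
    (MeasurePreserving.id volume).skew_product (g := fun t x => x + a * t) (by fun_prop)
      (Filter.Eventually.of_forall fun t => map_add_right_eq_self volume (a * t))
  have h2 := measurePreserving_prod_add (volume : Measure ℝ) (volume : Measure ℝ)
  have h3 : MeasurePreserving Prod.swap ((volume : Measure ℝ).prod (volume : Measure ℝ))
      (volume.prod volume) := Measure.measurePreserving_swap
  have h := h2.comp (h3.comp (h1.comp h3))
  have e : (fun p : ℝ × ℝ => (p.1 + a * p.2, p.1 + (a + 1) * p.2))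
      = (fun z : ℝ × ℝ => (z.1, z.1 + z.2)) ∘ Prod.swap ∘ (fun p : ℝ × ℝ => (p.1, p.2 + a * p.1))
        ∘ Prod.swap := by
    funext p
    simp only [Function.comp, Prod.swap, Prod.mk.injEq, true_and]
    ring
  rw [e]
  exact h

theorem nb_form_cast : ((0 : Fin 4) : ℝ) = 0 ∧ ((1 : Fin 4) : ℝ) = 0 + 1 ∧ ((2 : Fin 4) : ℝ) = 2
    ∧ ((3 : Fin 4) : ℝ) = 2 + 1 := by
  refine ⟨by simp, by simp, ?_, ?_⟩
  · show ((2 : ℕ) : ℝ) = 2
    norm_num
  · show ((3 : ℕ) : ℝ) = 2 + 1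
    norm_num

theorem nb_form_integrable {c0 C0 : ℝ} (hc0 : 0 < c0) {I : Cell} {w : ℝ × ℝ → ℂ}
    (hw : Admissible c0 C0 I w) (z : Fin 4 → ℝ → ℂ) (hz : ∀ j, Measurable (z j))
    (hz2 : ∀ j, IntegrableOn (fun y => ‖z j y‖ ^ 2) I.set) :
    Integrable (fun p : ℝ × ℝ => w p * ∏ j : Fin 4, z j (p.1 + (j : ℝ) * p.2)) := by
  set B := (C0 * 2) ^ (C0 * 2) with hB
  set G : Fin 4 → ℝ → ℝ := fun j => I.set.indicator (fun y => ‖z j y‖ ^ 2) with hG
  have hGi : ∀ j, Integrable (G j) := fun j =>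
    (integrable_indicator_iff (cell_measurableSet I)).mpr (hz2 j)
  have hG0 : ∀ j y, 0 ≤ G j y := fun j y => Set.indicator_nonneg (fun _ _ => by positivity) _
  have hP : ∀ (a : ℝ) (j k : Fin 4),
      Integrable (fun p : ℝ × ℝ => G j (p.1 + a * p.2) * G k (p.1 + (a + 1) * p.2)) := by
    intro a j k
    exact (nb_form_mp a).integrable_comp_of_integrable ((hGi j).mul_prod (hGi k))
  have hbound : Integrable (fun p : ℝ × ℝ => B / 2 * (G 0 (p.1 + 0 * p.2) * G 1 (p.1 + (0 + 1) * p.2)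
      + G 2 (p.1 + 2 * p.2) * G 3 (p.1 + (2 + 1) * p.2))) :=
    ((hP 0 0 1).add (hP 2 2 3)).const_mul _
  refine hbound.mono' ?_ (Filter.Eventually.of_forall fun p => ?_)
  · have hwm : Measurable w := hw.smooth.continuous.measurable
    exact (hwm.mul (Finset.measurable_prod _ fun j _ =>
      (hz j).comp (by fun_prop))).aestronglyMeasurable
  · have hB0 : 0 ≤ B := (norm_nonneg _).trans (nb_adm_bdd hw p)
    by_cases hp : w p = 0
    · rw [hp, zero_mul, norm_zero]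
      exact mul_nonneg (by positivity) (add_nonneg (mul_nonneg (hG0 _ _) (hG0 _ _))
        (mul_nonneg (hG0 _ _) (hG0 _ _)))
    · obtain ⟨c0', c1', c2', c3'⟩ := nb_form_cast
      have m0 := nb_adm_mem hc0 hw hp 0
      have m1 := nb_adm_mem hc0 hw hp 1
      have m2 := nb_adm_mem hc0 hw hp 2
      have m3 := nb_adm_mem hc0 hw hp 3
      rw [norm_mul, norm_prod, Fin.prod_univ_four]
      rw [c0'] at m0 ⊢
      rw [c1'] at m1 ⊢
      rw [c2'] at m2 ⊢
      rw [c3'] at m3 ⊢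
      simp only [hG, Set.indicator_of_mem m0, Set.indicator_of_mem m1, Set.indicator_of_mem m2,
        Set.indicator_of_mem m3]
      generalize ‖z 0 (p.1 + 0 * p.2)‖ = n0
      generalize ‖z 1 (p.1 + (0 + 1) * p.2)‖ = n1
      generalize ‖z 2 (p.1 + 2 * p.2)‖ = n2
      generalize ‖z 3 (p.1 + (2 + 1) * p.2)‖ = n3
      have h1 : n0 * n1 * n2 * n3 ≤ (n0 ^ 2 * n1 ^ 2 + n2 ^ 2 * n3 ^ 2) / 2 := by
        nlinarith [sq_nonneg (n0 * n1 - n2 * n3)]
      have h2 : 0 ≤ (n0 ^ 2 * n1 ^ 2 + n2 ^ 2 * n3 ^ 2) / 2 := by positivity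
      calc ‖w p‖ * (n0 * n1 * n2 * n3) ≤ ‖w p‖ * ((n0 ^ 2 * n1 ^ 2 + n2 ^ 2 * n3 ^ 2) / 2) :=
            mul_le_mul_of_nonneg_left h1 (norm_nonneg _)
        _ ≤ B * ((n0 ^ 2 * n1 ^ 2 + n2 ^ 2 * n3 ^ 2) / 2) :=
            mul_le_mul_of_nonneg_right (nb_adm_bdd hw p) h2
        _ = _ := by ring

/-- locality: only the values of the inputs on `I` matter -/
theorem nb_form_congr {c0 C0 : ℝ} (hc0 : 0 < c0) {I : Cell} {w : ℝ × ℝ → ℂ}
    (hw : Admissible c0 C0 I w) {z z' : Fin 4 → ℝ → ℂ} (h : ∀ j, ∀ y ∈ I.set, z j y = z' j y) :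
    form I w z = form I w z' := by
  unfold form
  congr 2
  funext p
  by_cases hp : w p = 0
  · rw [hp, zero_mul, zero_mul]
  · congr 1
    exact Finset.prod_congr rfl fun j _ => h j _ (nb_adm_mem hc0 hw hp j)

theorem nb_placeArgs_measurable (e : Fin 4 ≃ Fin 4) {xa xb xc xd : ℝ → ℂ} (ha : Measurable xa)
    (hb : Measurable xb) (hc : Measurable xc) (hd : Measurable xd) (j : Fin 4) :
    Measurable (placeArgs e xa xb xc xd j) := by
  unfold placeArgs
  generalize e j = k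
  fin_cases k
  · exact ha
  · exact hb
  · exact hc
  · exact hd

/-- a property of all four arguments holds in all four slots -/
theorem nb_placeArgs_forall (e : Fin 4 ≃ Fin 4) {P : (ℝ → ℂ) → Prop} {xa xb xc xd : ℝ → ℂ} (ha : P xa)
    (hb : P xb) (hc : P xc) (hd : P xd) (j : Fin 4) : P (placeArgs e xa xb xc xd j) := by
  unfold placeArgs
  generalize e j = k
  fin_cases k
  · exact ha
  · exact hb
  · exact hc
  · exact hd

/-- products over the slots are products over the roles -/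
theorem nb_prod_place (e : Fin 4 ≃ Fin 4) (a b c d : ℝ) :
    ∏ j : Fin 4, (![a, b, c, d] (e j)) = a * b * c * d := by
  rw [Equiv.prod_comp e (fun k => ![a, b, c, d] k), Fin.prod_univ_four]
  simp

/-- products over the slots are products over the roles (function form) -/
theorem nb_form_prod_place (e : Fin 4 ≃ Fin 4) (xa xb xc xd : ℝ → ℂ) (y : Fin 4 → ℝ) :
    ∏ j : Fin 4, placeArgs e xa xb xc xd j (y j)
      = xa (y (e.symm 0)) * xb (y (e.symm 1)) * xc (y (e.symm 2)) * xd (y (e.symm 3)) := by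
  rw [← Equiv.prod_comp e.symm (fun j => placeArgs e xa xb xc xd j (y j)), Fin.prod_univ_four]
  simp [placeArgs]

/-- multilinear expansion in the first three roles -/
theorem nb_form_expand {c0 C0 : ℝ} (hc0 : 0 < c0) {I : Cell} {w : ℝ × ℝ → ℂ}
    (hw : Admissible c0 C0 I w) (e : Fin 4 ≃ Fin 4) {A B Γ : Type*} [Fintype A] [Fintype B] [Fintype Γ]
    (ca : A → ℂ) (cb : B → ℂ) (cc : Γ → ℂ) (xa : A → ℝ → ℂ) (xb : B → ℝ → ℂ) (xc : Γ → ℝ → ℂ)
    (xd : ℝ → ℂ) (ha : ∀ a, Measurable (xa a)) (hb : ∀ b, Measurable (xb b))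
    (hc : ∀ c, Measurable (xc c)) (hd : Measurable xd)
    (ha2 : ∀ a, IntegrableOn (fun y => ‖xa a y‖ ^ 2) I.set)
    (hb2 : ∀ b, IntegrableOn (fun y => ‖xb b y‖ ^ 2) I.set)
    (hc2 : ∀ c, IntegrableOn (fun y => ‖xc c y‖ ^ 2) I.set)
    (hd2 : IntegrableOn (fun y => ‖xd y‖ ^ 2) I.set) :
    form I w (placeArgs e (fun y => ∑ a, ca a * xa a y) (fun y => ∑ b, cb b * xb b y)
        (fun y => ∑ c, cc c * xc c y) xd) =
      ∑ a, ∑ b, ∑ c, ca a * cb b * cc c * form I w (placeArgs e (xa a) (xb b) (xc c) xd) := by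
  have hint : ∀ (a : A) (b : B) (c : Γ), Integrable (fun p : ℝ × ℝ =>
      w p * ∏ j : Fin 4, placeArgs e (xa a) (xb b) (xc c) xd j (p.1 + (j : ℝ) * p.2)) := by
    intro a b c
    refine nb_form_integrable hc0 hw _ (nb_placeArgs_measurable e (ha a) (hb b) (hc c) hd) ?_
    exact nb_placeArgs_forall e (P := fun f => IntegrableOn (fun y => ‖f y‖ ^ 2) I.set)
      (ha2 a) (hb2 b) (hc2 c) hd2
  have hpt : ∀ p : ℝ × ℝ,
      w p * ∏ j : Fin 4, placeArgs e (fun y => ∑ a, ca a * xa a y) (fun y => ∑ b, cb b * xb b y)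
        (fun y => ∑ c, cc c * xc c y) xd j (p.1 + (j : ℝ) * p.2)
      = ∑ a, ∑ b, ∑ c, ca a * cb b * cc c *
        (w p * ∏ j : Fin 4, placeArgs e (xa a) (xb b) (xc c) xd j (p.1 + (j : ℝ) * p.2)) := by
    intro p
    simp only [nb_form_prod_place e _ _ _ _ (fun j : Fin 4 => p.1 + (j : ℝ) * p.2)]
    rw [Finset.sum_mul_sum, Finset.sum_mul, Finset.sum_mul, Finset.mul_sum]
    refine Finset.sum_congr rfl fun a _ => ?_
    rw [Finset.sum_mul, Finset.sum_mul, Finset.mul_sum]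
    refine Finset.sum_congr rfl fun b _ => ?_
    rw [Finset.mul_sum, Finset.sum_mul, Finset.mul_sum]
    refine Finset.sum_congr rfl fun c _ => ?_
    ring
  unfold form
  simp only [hpt]
  rw [integral_finsetSum _ (fun a _ => integrable_finsetSum _ fun b _ =>
    integrable_finsetSum _ fun c _ => (hint a b c).const_mul _), Finset.mul_sum]
  refine Finset.sum_congr rfl fun a _ => ?_
  rw [integral_finsetSum _ (fun b _ =>
    integrable_finsetSum _ fun c _ => (hint a b c).const_mul _), Finset.mul_sum]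
  refine Finset.sum_congr rfl fun b _ => ?_
  rw [integral_finsetSum _ (fun c _ => (hint a b c).const_mul _), Finset.mul_sum]
  refine Finset.sum_congr rfl fun c _ => ?_
  rw [integral_const_mul]
  ring

end Claimed.Agent.R258
end

/- ===== packed: Claimed.Agent.R258.S7nb.Rad ===== -/
section
/-
Row 258, block [S7-NB], package P-NB-RAD (architect helper192).

Rademacher signs on finite index sets: sign space `α → Bool` with the uniform probability, `nbSg b = ±1`.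
Orthogonality, Khintchine's inequality at the exponent 8 (real: constant `105 = 7!!`; complex: `840`), decoupled chaos of order two (`840²  ≤ 6^8`).

PROOF NOTES.  `nbAv f = (card)⁻¹ ∑_σ f σ`.
* `nb_av_sg_mul`: for `i ≠ i'` the involution flipping the coordinate `i` (`Function.update σ i (!σ i)`) changes the sign of the summand (`Finset.sum_involution`, or split
  `α → Bool` by `Fintype.sum_equiv`/`Fintype.piFinset`; alternatively `Fintype.sum_pow`-free: use `Finset.prod_univ_sum` to write `∑_σ ∏_i g_i (σ i) = ∏_i ∑_b g_i b`).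
  The product formula `nb_sum_prod`:  `∑_{σ : α → Bool} ∏_i g i (σ i) = ∏_i (g i true + g i false)` (`Finset.prod_univ_sum`, `Fintype.piFinset_univ`) proves all moment identities.
* `nb_khintchine_real`: induction over the index set in the form: for a finite set `s` of indices and `S_s = ∑_{i ∈ s} ε_i a_i`, `σ² = ∑_{i∈s} a_i²`:
  `E S^2 ≤ σ²`, `E S^4 ≤ 3 σ⁴`, `E S^6 ≤ 15 σ⁶`, `E S^8 ≤ 105 σ⁸` simultaneously.  Step: `E (S + ε a)^8 = E S^8 + 28 a² E S^6 + 70 a⁴ E S^4 + 28 a⁶ E S² + a⁸`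
  (average over the new sign kills the odd terms) `≤ 105 σ⁸ + 420 a² σ⁶ + 210 a⁴ σ⁴ + 28 a⁶ σ² + a⁸ ≤ 105 (σ² + a²)⁴ = 105 σ⁸ + 420 σ⁶a² + 630 σ⁴a⁴ + 420 σ²a⁶ + 105 a⁸`; similarly for 2, 4, 6.
  Convenient formalisation: induct on `α` via `Fintype.induction_empty_option` (`(Option α → Bool) ≃ Bool × (α → Bool)`), or prove the statement for `Fin n` by `Fin.consEquiv`/`Fin.cons` and transfer by
  `Fintype.equivFin`; or use the exponential moment: `E exp(λ S) ≤ exp(λ² σ²/2)` (`Real.cosh_le_exp_half_sq`) and `x^8 ≤ 8! (cosh x - ..)`: `x^8/8! ≤ cosh x` gives `E S^8 ≤ 8! e^{1/2} σ⁸` after scaling `λ = 1/σ`: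
  this constant (`66476`) is too large for the statement below, so use the induction.
* `nb_khintchine`: `a = u + i v`: `‖S‖^8 = (S_u² + S_v²)^4 ≤ 8 (S_u^8 + S_v^8)`, `(∑u²)^4 + (∑v²)^4 ≤ (∑‖a‖²)^4`.
* `nb_chaos`: condition on `ζ`: `E_ε ‖∑_i ε_i g_i(ζ)‖^8 ≤ 840 (∑_i ‖g_i(ζ)‖²)^4`, `g_i(ζ) = ∑_p ζ_p x_{ip}`.  Minkowski in `L⁴(ζ)`:
  `(E_ζ (∑_i G_i)^4)^(1/4) ≤ ∑_i (E_ζ G_i^4)^(1/4)`, `G_i = ‖g_i‖²`, `E_ζ G_i^4 = E_ζ ‖g_i‖^8 ≤ 840 (∑_p ‖x_{ip}‖²)^4`.  (`nb_minkowski4`: from `Real.Lp_add_le`/`NNReal.Lp_add_le` by induction, or expand the 4th power and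
  use Hölder `E[G_1 G_2 G_3 G_4] ≤ ∏ (E G_k^4)^(1/4)`.)   `840² = 705600 ≤ 6^8 = 1679616`.
-/
set_option autoImplicit false

open Finset

namespace Claimed.Agent.R258

/-- the sign `±1` of a Boolean -/
def nbSg (b : Bool) : ℝ := if b then 1 else -1

/-- uniform average over a finite type -/
noncomputable def nbAv {Ω : Type*} [Fintype Ω] (f : Ω → ℝ) : ℝ := (Fintype.card Ω : ℝ)⁻¹ * ∑ σ, f σ

/-- uniform average of a complex function -/
noncomputable def nbAvC {Ω : Type*} [Fintype Ω] (f : Ω → ℂ) : ℂ := ((Fintype.card Ω : ℝ)⁻¹ : ℝ) * ∑ σ, f σ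

theorem nbSg_sq (b : Bool) : nbSg b * nbSg b = 1 := by
  cases b <;> simp [nbSg]

theorem nbSg_abs (b : Bool) : |nbSg b| = 1 := by
  cases b <;> simp [nbSg]

theorem nbAv_const {Ω : Type*} [Fintype Ω] [Nonempty Ω] (c : ℝ) : nbAv (fun _ : Ω => c) = c := by
  have h : (Fintype.card Ω : ℝ) ≠ 0 := by exact_mod_cast Fintype.card_ne_zero
  simp only [nbAv, Finset.sum_const, Finset.card_univ, nsmul_eq_mul]
  field_simp

theorem nbAv_mono {Ω : Type*} [Fintype Ω] {f g : Ω → ℝ} (h : ∀ σ, f σ ≤ g σ) : nbAv f ≤ nbAv g := by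
  unfold nbAv
  exact mul_le_mul_of_nonneg_left (Finset.sum_le_sum fun σ _ => h σ) (by positivity)

/-- averages over a product space: iterated averages -/
theorem nbAv_prod {Ω Ω' : Type*} [Fintype Ω] [Fintype Ω'] (f : Ω × Ω' → ℝ) :
    nbAv f = nbAv fun σ => nbAv fun σ' => f (σ, σ') := by
  simp only [nbAv, Fintype.card_prod, Fintype.sum_prod_type, Nat.cast_mul, mul_inv,
    ← Finset.mul_sum]
  ring

theorem nbAvC_prod {Ω Ω' : Type*} [Fintype Ω] [Fintype Ω'] (f : Ω × Ω' → ℂ) :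
    nbAvC f = nbAvC fun σ => nbAvC fun σ' => f (σ, σ') := by
  simp only [nbAvC, Fintype.card_prod, Fintype.sum_prod_type, Nat.cast_mul, mul_inv,
    ← Finset.mul_sum, Complex.ofReal_mul]
  ring

theorem nb_sum_prod {α : Type*} [Fintype α] [DecidableEq α] (g : α → Bool → ℝ) :
    ∑ σ : α → Bool, ∏ i, g i (σ i) = ∏ i, (g i true + g i false) := by
  have h := Finset.prod_univ_sum (fun _ : α => (Finset.univ : Finset Bool)) g
  rw [Fintype.piFinset_univ] at h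
  rw [← h]
  simp

/-! ### linearity of the average -/

theorem nb_rad_av_add {Ω : Type*} [Fintype Ω] (f g : Ω → ℝ) :
    nbAv (fun σ => f σ + g σ) = nbAv f + nbAv g := by
  simp only [nbAv, Finset.sum_add_distrib, mul_add]

theorem nb_rad_av_mul {Ω : Type*} [Fintype Ω] (c : ℝ) (f : Ω → ℝ) :
    nbAv (fun σ => c * f σ) = c * nbAv f := by
  simp only [nbAv, ← Finset.mul_sum]
  ring

theorem nb_rad_av_nonneg {Ω : Type*} [Fintype Ω] {f : Ω → ℝ} (h : ∀ σ, 0 ≤ f σ) : 0 ≤ nbAv f := by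
  unfold nbAv
  exact mul_nonneg (by positivity) (Finset.sum_nonneg fun σ _ => h σ)

theorem nb_rad_av_swap {Ω Ω' : Type*} [Fintype Ω] [Fintype Ω'] (f : Ω × Ω' → ℝ) :
    nbAv f = nbAv fun σ' => nbAv fun σ => f (σ, σ') := by
  rw [nbAv_prod]
  simp only [nbAv, Finset.mul_sum]
  rw [Finset.sum_comm]
  refine Finset.sum_congr rfl fun x _ => Finset.sum_congr rfl fun y _ => ?_
  ring

/-- the flip of the coordinate `j` -/
def nb_rad_flip {α : Type*} [DecidableEq α] (j : α) (σ : α → Bool) : α → Bool :=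
  Function.update σ j (!σ j)

theorem nb_rad_flip_invol {α : Type*} [DecidableEq α] (j : α) :
    Function.Involutive (nb_rad_flip j : (α → Bool) → α → Bool) := by
  intro σ
  funext i
  by_cases h : i = j
  · subst h; simp [nb_rad_flip]
  · simp [nb_rad_flip, h]

theorem nb_rad_flip_same {α : Type*} [DecidableEq α] (j : α) (σ : α → Bool) :
    nbSg (nb_rad_flip j σ j) = - nbSg (σ j) := by
  simp only [nb_rad_flip, Function.update_self]
  cases σ j <;> simp [nbSg]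

theorem nb_rad_flip_ne {α : Type*} [DecidableEq α] {i j : α} (h : i ≠ j) (σ : α → Bool) :
    nb_rad_flip j σ i = σ i := by
  simp [nb_rad_flip, h]

theorem nb_rad_av_flip {α : Type*} [Fintype α] [DecidableEq α] (j : α) (f : (α → Bool) → ℝ) :
    nbAv f = nbAv (fun σ => (f σ + f (nb_rad_flip j σ)) / 2) := by
  have h : ∑ σ, f (nb_rad_flip j σ) = ∑ σ, f σ :=
    Equiv.sum_comp (nb_rad_flip_invol j).toPerm f
  simp only [nbAv, ← Finset.sum_div, Finset.sum_add_distrib, h]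
  ring

/-- orthogonality of the signs -/
theorem nb_av_sg_mul {α : Type*} [Fintype α] [DecidableEq α] (i i' : α) :
    nbAv (fun σ : α → Bool => nbSg (σ i) * nbSg (σ i')) = if i = i' then 1 else 0 := by
  split_ifs with h
  · subst h
    simp only [nbSg_sq]
    exact nbAv_const 1
  · rw [nb_rad_av_flip i]
    have : ∀ σ : α → Bool, (nbSg (σ i) * nbSg (σ i') +
        nbSg (nb_rad_flip i σ i) * nbSg (nb_rad_flip i σ i')) / 2 = 0 := by
      intro σ
      rw [nb_rad_flip_same, nb_rad_flip_ne (Ne.symm h)]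
      ring
    simp only [this]
    simp [nbAv]


theorem nb_rad_sg_cases (b : Bool) : nbSg b = 1 ∨ nbSg b = -1 := by
  cases b <;> simp [nbSg]

/-- the moments 2, 4, 6, 8 of a Rademacher sum over a finite set of indices -/
theorem nb_rad_moments {α : Type*} [Fintype α] [DecidableEq α] (a : α → ℝ) (s : Finset α) :
    nbAv (fun σ : α → Bool => (∑ i ∈ s, nbSg (σ i) * a i) ^ 2) ≤ (∑ i ∈ s, a i ^ 2) ∧
    nbAv (fun σ : α → Bool => (∑ i ∈ s, nbSg (σ i) * a i) ^ 4) ≤ 3 * (∑ i ∈ s, a i ^ 2) ^ 2 ∧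
    nbAv (fun σ : α → Bool => (∑ i ∈ s, nbSg (σ i) * a i) ^ 6) ≤ 15 * (∑ i ∈ s, a i ^ 2) ^ 3 ∧
    nbAv (fun σ : α → Bool => (∑ i ∈ s, nbSg (σ i) * a i) ^ 8)
      ≤ 105 * (∑ i ∈ s, a i ^ 2) ^ 4 := by
  induction s using Finset.induction_on with
  | empty => simp [nbAv]
  | insert j s hj ih =>
    obtain ⟨h2, h4, h6, h8⟩ := ih
    set S : (α → Bool) → ℝ := fun σ => ∑ i ∈ s, nbSg (σ i) * a i with hS
    set v := ∑ i ∈ s, a i ^ 2 with hv
    have hv0 : 0 ≤ v := Finset.sum_nonneg (fun i _ => sq_nonneg _)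
    have hflip : ∀ σ, S (nb_rad_flip j σ) = S σ := by
      intro σ
      refine Finset.sum_congr rfl fun i hi => ?_
      rw [nb_rad_flip_ne (by rintro rfl; exact hj hi)]
    change nbAv (fun σ => S σ ^ 2) ≤ v at h2
    change nbAv (fun σ => S σ ^ 4) ≤ 3 * v ^ 2 at h4
    change nbAv (fun σ => S σ ^ 6) ≤ 15 * v ^ 3 at h6
    change nbAv (fun σ => S σ ^ 8) ≤ 105 * v ^ 4 at h8
    simp only [Finset.sum_insert hj]
    change nbAv (fun σ => (nbSg (σ j) * a j + S σ) ^ 2) ≤ a j ^ 2 + v ∧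
      nbAv (fun σ => (nbSg (σ j) * a j + S σ) ^ 4) ≤ 3 * (a j ^ 2 + v) ^ 2 ∧
      nbAv (fun σ => (nbSg (σ j) * a j + S σ) ^ 6) ≤ 15 * (a j ^ 2 + v) ^ 3 ∧
      nbAv (fun σ => (nbSg (σ j) * a j + S σ) ^ 8) ≤ 105 * (a j ^ 2 + v) ^ 4
    set b := a j ^ 2 with hb
    have hb0 : 0 ≤ b := sq_nonneg _
    have e2 : nbAv (fun σ : α → Bool => (nbSg (σ j) * a j + S σ) ^ 2)
        = nbAv (fun σ => S σ ^ 2) + b := by
      rw [nb_rad_av_flip j]
      have : ∀ σ : α → Bool, ((nbSg (σ j) * a j + S σ) ^ 2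
          + (nbSg (nb_rad_flip j σ j) * a j + S (nb_rad_flip j σ)) ^ 2) / 2 = S σ ^ 2 + b := by
        intro σ
        rw [nb_rad_flip_same, hflip, hb]
        rcases nb_rad_sg_cases (σ j) with h | h <;> rw [h] <;> ring
      simp only [this, nb_rad_av_add, nbAv_const]
    have e4 : nbAv (fun σ : α → Bool => (nbSg (σ j) * a j + S σ) ^ 4)
        = nbAv (fun σ => S σ ^ 4) + (6 * b) * nbAv (fun σ => S σ ^ 2) + b ^ 2 := by
      rw [nb_rad_av_flip j]
      have : ∀ σ : α → Bool, ((nbSg (σ j) * a j + S σ) ^ 4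
          + (nbSg (nb_rad_flip j σ j) * a j + S (nb_rad_flip j σ)) ^ 4) / 2
          = S σ ^ 4 + (6 * b) * S σ ^ 2 + b ^ 2 := by
        intro σ
        rw [nb_rad_flip_same, hflip, hb]
        rcases nb_rad_sg_cases (σ j) with h | h <;> rw [h] <;> ring
      simp only [this, nb_rad_av_add, nb_rad_av_mul, nbAv_const]
    have e6 : nbAv (fun σ : α → Bool => (nbSg (σ j) * a j + S σ) ^ 6)
        = nbAv (fun σ => S σ ^ 6) + (15 * b) * nbAv (fun σ => S σ ^ 4)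
          + (15 * b ^ 2) * nbAv (fun σ => S σ ^ 2) + b ^ 3 := by
      rw [nb_rad_av_flip j]
      have : ∀ σ : α → Bool, ((nbSg (σ j) * a j + S σ) ^ 6
          + (nbSg (nb_rad_flip j σ j) * a j + S (nb_rad_flip j σ)) ^ 6) / 2
          = S σ ^ 6 + (15 * b) * S σ ^ 4 + (15 * b ^ 2) * S σ ^ 2 + b ^ 3 := by
        intro σ
        rw [nb_rad_flip_same, hflip, hb]
        rcases nb_rad_sg_cases (σ j) with h | h <;> rw [h] <;> ring
      simp only [this, nb_rad_av_add, nb_rad_av_mul, nbAv_const]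
    have e8 : nbAv (fun σ : α → Bool => (nbSg (σ j) * a j + S σ) ^ 8)
        = nbAv (fun σ => S σ ^ 8) + (28 * b) * nbAv (fun σ => S σ ^ 6)
          + (70 * b ^ 2) * nbAv (fun σ => S σ ^ 4)
          + (28 * b ^ 3) * nbAv (fun σ => S σ ^ 2) + b ^ 4 := by
      rw [nb_rad_av_flip j]
      have : ∀ σ : α → Bool, ((nbSg (σ j) * a j + S σ) ^ 8
          + (nbSg (nb_rad_flip j σ j) * a j + S (nb_rad_flip j σ)) ^ 8) / 2
          = S σ ^ 8 + (28 * b) * S σ ^ 6 + (70 * b ^ 2) * S σ ^ 4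
            + (28 * b ^ 3) * S σ ^ 2 + b ^ 4 := by
        intro σ
        rw [nb_rad_flip_same, hflip, hb]
        rcases nb_rad_sg_cases (σ j) with h | h <;> rw [h] <;> ring
      simp only [this, nb_rad_av_add, nb_rad_av_mul, nbAv_const]
    rw [e2, e4, e6, e8]
    generalize nbAv (fun σ => S σ ^ 2) = m2 at *
    generalize nbAv (fun σ => S σ ^ 4) = m4 at *
    generalize nbAv (fun σ => S σ ^ 6) = m6 at *
    generalize nbAv (fun σ => S σ ^ 8) = m8 at *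
    have b2 : 0 ≤ b ^ 2 := by positivity
    have b3 : 0 ≤ b ^ 3 := by positivity
    have b4 : 0 ≤ b ^ 4 := by positivity
    have p1 := mul_le_mul_of_nonneg_left h2 hb0
    have p2 := mul_le_mul_of_nonneg_left h2 b2
    have p3 := mul_le_mul_of_nonneg_left h2 b3
    have q1 := mul_le_mul_of_nonneg_left h4 hb0
    have q2 := mul_le_mul_of_nonneg_left h4 b2
    have r1 := mul_le_mul_of_nonneg_left h6 hb0
    have c11 : 0 ≤ b * v := by positivity
    have c21 : 0 ≤ b ^ 2 * v := by positivity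
    have c31 : 0 ≤ b ^ 3 * v := by positivity
    have c22 : 0 ≤ b ^ 2 * v ^ 2 := by positivity
    refine ⟨by linarith, by nlinarith, by nlinarith, by nlinarith⟩

/-- Khintchine at the exponent 8, real coefficients -/
theorem nb_khintchine_real {α : Type*} [Fintype α] [DecidableEq α] (a : α → ℝ) :
    nbAv (fun σ : α → Bool => (∑ i, nbSg (σ i) * a i) ^ 8) ≤ 105 * (∑ i, a i ^ 2) ^ 4 :=
  (nb_rad_moments a Finset.univ).2.2.2


theorem nb_rad_pow4_add (p q : ℝ) : (p + q) ^ 4 ≤ 8 * p ^ 4 + 8 * q ^ 4 := by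
  nlinarith [mul_nonneg (sq_nonneg (p - q)) (sq_nonneg (p + q)),
    mul_nonneg (sq_nonneg (p - q)) (sq_nonneg p), mul_nonneg (sq_nonneg (p - q)) (sq_nonneg q)]

/-- Khintchine at the exponent 8, complex coefficients -/
theorem nb_khintchine {α : Type*} [Fintype α] [DecidableEq α] (a : α → ℂ) :
    nbAv (fun σ : α → Bool => ‖∑ i, (nbSg (σ i) : ℂ) * a i‖ ^ 8) ≤ 840 * (∑ i, ‖a i‖ ^ 2) ^ 4 := by
  have hre : ∀ σ : α → Bool,
      (∑ i, (nbSg (σ i) : ℂ) * a i).re = ∑ i, nbSg (σ i) * (a i).re := by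
    intro σ; simp [Complex.re_sum]
  have him : ∀ σ : α → Bool,
      (∑ i, (nbSg (σ i) : ℂ) * a i).im = ∑ i, nbSg (σ i) * (a i).im := by
    intro σ; simp [Complex.im_sum]
  have hn : ∀ z : ℂ, ‖z‖ ^ 2 = z.re ^ 2 + z.im ^ 2 := by
    intro z; rw [Complex.sq_norm, Complex.normSq_apply]; ring
  have hpt : ∀ σ : α → Bool, ‖∑ i, (nbSg (σ i) : ℂ) * a i‖ ^ 8
      ≤ 8 * (∑ i, nbSg (σ i) * (a i).re) ^ 8 + 8 * (∑ i, nbSg (σ i) * (a i).im) ^ 8 := by
    intro σ
    calc ‖∑ i, (nbSg (σ i) : ℂ) * a i‖ ^ 8 = (‖∑ i, (nbSg (σ i) : ℂ) * a i‖ ^ 2) ^ 4 := by ring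
      _ = ((∑ i, nbSg (σ i) * (a i).re) ^ 2 + (∑ i, nbSg (σ i) * (a i).im) ^ 2) ^ 4 := by
          rw [hn, hre, him]
      _ ≤ 8 * ((∑ i, nbSg (σ i) * (a i).re) ^ 2) ^ 4
          + 8 * ((∑ i, nbSg (σ i) * (a i).im) ^ 2) ^ 4 := nb_rad_pow4_add _ _
      _ = _ := by ring
  have hU := nb_khintchine_real (fun i => (a i).re)
  have hV := nb_khintchine_real (fun i => (a i).im)
  have hU0 : 0 ≤ ∑ i, (a i).re ^ 2 := Finset.sum_nonneg fun i _ => sq_nonneg _
  have hV0 : 0 ≤ ∑ i, (a i).im ^ 2 := Finset.sum_nonneg fun i _ => sq_nonneg _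
  have hsum : ∑ i, ‖a i‖ ^ 2 = ∑ i, (a i).re ^ 2 + ∑ i, (a i).im ^ 2 := by
    rw [← Finset.sum_add_distrib]
    exact Finset.sum_congr rfl fun i _ => hn _
  calc nbAv (fun σ : α → Bool => ‖∑ i, (nbSg (σ i) : ℂ) * a i‖ ^ 8)
      ≤ nbAv (fun σ : α → Bool => 8 * (∑ i, nbSg (σ i) * (a i).re) ^ 8
          + 8 * (∑ i, nbSg (σ i) * (a i).im) ^ 8) := nbAv_mono hpt
    _ = 8 * nbAv (fun σ : α → Bool => (∑ i, nbSg (σ i) * (a i).re) ^ 8)
          + 8 * nbAv (fun σ : α → Bool => (∑ i, nbSg (σ i) * (a i).im) ^ 8) := by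
        rw [nb_rad_av_add, nb_rad_av_mul, nb_rad_av_mul]
    _ ≤ 8 * (105 * (∑ i, (a i).re ^ 2) ^ 4) + 8 * (105 * (∑ i, (a i).im ^ 2) ^ 4) := by
        gcongr
    _ ≤ 840 * (∑ i, ‖a i‖ ^ 2) ^ 4 := by
        rw [hsum]
        generalize ∑ i, (a i).re ^ 2 = U at *
        generalize ∑ i, (a i).im ^ 2 = V at *
        have h1 : 0 ≤ U ^ 3 * V := by positivity
        have h2 : 0 ≤ U ^ 2 * V ^ 2 := by positivity
        have h3 : 0 ≤ U * V ^ 3 := by positivity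
        nlinarith

theorem nb_rad_av_pow4_zero {Ω : Type*} [Fintype Ω] (F : Ω → ℝ)
    (h : nbAv (fun σ => F σ ^ 4) ≤ 0) (σ : Ω) : F σ = 0 := by
  have hN : 0 < (Fintype.card Ω : ℝ) := by
    have : 0 < Fintype.card Ω := Fintype.card_pos_iff.mpr ⟨σ⟩
    exact_mod_cast this
  have h1 : F σ ^ 4 ≤ ∑ τ, F τ ^ 4 :=
    Finset.single_le_sum (f := fun τ => F τ ^ 4) (fun τ _ => by positivity) (Finset.mem_univ σ)
  have h2 : ∑ τ, F τ ^ 4 ≤ 0 := by
    unfold nbAv at h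
    by_contra hc
    push Not at hc
    have := mul_pos (inv_pos.mpr hN) hc
    linarith
  have h3 : F σ ^ 4 = 0 := le_antisymm (h1.trans h2) (by positivity)
  exact (pow_eq_zero_iff (by norm_num)).mp h3

theorem nb_rad_jensen4 (A B x y : ℝ) (hA : 0 ≤ A) (hB : 0 ≤ B) :
    (A * x + B * y) ^ 4 ≤ (A + B) ^ 3 * (A * x ^ 4 + B * y ^ 4) := by
  have hAB : 0 ≤ A * B := mul_nonneg hA hB
  have c1 : (A * x + B * y) ^ 2 ≤ (A + B) * (A * x ^ 2 + B * y ^ 2) := by
    nlinarith [mul_nonneg hAB (sq_nonneg (x - y))]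
  have c2 : (A * x ^ 2 + B * y ^ 2) ^ 2 ≤ (A + B) * (A * x ^ 4 + B * y ^ 4) := by
    nlinarith [mul_nonneg hAB (sq_nonneg (x ^ 2 - y ^ 2))]
  have hS : 0 ≤ A + B := add_nonneg hA hB
  calc (A * x + B * y) ^ 4 = ((A * x + B * y) ^ 2) ^ 2 := by ring
    _ ≤ ((A + B) * (A * x ^ 2 + B * y ^ 2)) ^ 2 := by
        apply pow_le_pow_left₀ (sq_nonneg _) c1
    _ = (A + B) ^ 2 * (A * x ^ 2 + B * y ^ 2) ^ 2 := by ring
    _ ≤ (A + B) ^ 2 * ((A + B) * (A * x ^ 4 + B * y ^ 4)) := by gcongr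
    _ = _ := by ring

theorem nb_rad_mink2 {Ω : Type*} [Fintype Ω] (F G : Ω → ℝ)
    (A B : ℝ) (hA : 0 ≤ A) (hB : 0 ≤ B) (h1 : nbAv (fun σ => F σ ^ 4) ≤ A ^ 4)
    (h2 : nbAv (fun σ => G σ ^ 4) ≤ B ^ 4) : nbAv (fun σ => (F σ + G σ) ^ 4) ≤ (A + B) ^ 4 := by
  rcases hA.eq_or_lt with rfl | hA
  · have : ∀ σ, F σ = 0 := nb_rad_av_pow4_zero F (by simpa using h1)
    simpa [this] using h2
  rcases hB.eq_or_lt with rfl | hB
  · have : ∀ σ, G σ = 0 := nb_rad_av_pow4_zero G (by simpa using h2)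
    simpa [this] using h1
  have hpt : ∀ σ, (F σ + G σ) ^ 4
      ≤ ((A + B) ^ 3 / A ^ 3) * F σ ^ 4 + ((A + B) ^ 3 / B ^ 3) * G σ ^ 4 := by
    intro σ
    have := nb_rad_jensen4 A B (F σ / A) (G σ / B) hA.le hB.le
    have e1 : A * (F σ / A) = F σ := by field_simp
    have e2 : B * (G σ / B) = G σ := by field_simp
    rw [e1, e2] at this
    refine this.trans (le_of_eq ?_)
    field_simp
  calc nbAv (fun σ => (F σ + G σ) ^ 4)
      ≤ nbAv (fun σ => ((A + B) ^ 3 / A ^ 3) * F σ ^ 4 + ((A + B) ^ 3 / B ^ 3) * G σ ^ 4) :=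
        nbAv_mono hpt
    _ = ((A + B) ^ 3 / A ^ 3) * nbAv (fun σ => F σ ^ 4)
          + ((A + B) ^ 3 / B ^ 3) * nbAv (fun σ => G σ ^ 4) := by
        rw [nb_rad_av_add, nb_rad_av_mul, nb_rad_av_mul]
    _ ≤ ((A + B) ^ 3 / A ^ 3) * A ^ 4 + ((A + B) ^ 3 / B ^ 3) * B ^ 4 := by gcongr
    _ = (A + B) ^ 4 := by field_simp

/-- Minkowski's inequality in `L⁴` of a finite probability space, for nonnegative functions -/
theorem nb_minkowski4 {Ω α : Type*} [Fintype Ω] [Fintype α] (G : α → Ω → ℝ) (hG : ∀ i σ, 0 ≤ G i σ)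
    (c : α → ℝ) (hc : ∀ i, 0 ≤ c i) (h : ∀ i, nbAv (fun σ => G i σ ^ 4) ≤ c i ^ 4) :
    nbAv (fun σ => (∑ i, G i σ) ^ 4) ≤ (∑ i, c i) ^ 4 := by
  classical
  have key : ∀ s : Finset α, nbAv (fun σ => (∑ i ∈ s, G i σ) ^ 4) ≤ (∑ i ∈ s, c i) ^ 4 := by
    intro s
    induction s using Finset.induction_on with
    | empty => simp [nbAv]
    | insert j s hj ih =>
      simp only [Finset.sum_insert hj]
      exact nb_rad_mink2 (G j) (fun σ => ∑ i ∈ s, G i σ) (c j) (∑ i ∈ s, c i) (hc j)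
        (Finset.sum_nonneg fun i _ => hc i) (h j) ih
  exact key Finset.univ

/-- decoupled Rademacher chaos of order two at the exponent 8 -/
theorem nb_chaos {α γ : Type*} [Fintype α] [Fintype γ] [DecidableEq α] [DecidableEq γ]
    (x : α → γ → ℂ) :
    nbAv (fun σ : (α → Bool) × (γ → Bool) =>
        ‖∑ i, ∑ p, ((nbSg (σ.1 i) * nbSg (σ.2 p) : ℝ) : ℂ) * x i p‖ ^ 8)
      ≤ 6 ^ 8 * (∑ i, ∑ p, ‖x i p‖ ^ 2) ^ 4 := by
  rw [nb_rad_av_swap]
  set g : (γ → Bool) → α → ℂ := fun ζ i => ∑ p, (nbSg (ζ p) : ℂ) * x i p with hg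
  have h1 : ∀ ζ : γ → Bool, nbAv (fun ε : α → Bool =>
      ‖∑ i, ∑ p, ((nbSg (ε i) * nbSg (ζ p) : ℝ) : ℂ) * x i p‖ ^ 8)
      ≤ 840 * (∑ i, ‖g ζ i‖ ^ 2) ^ 4 := by
    intro ζ
    have h := nb_khintchine (g ζ)
    have e : ∀ ε : α → Bool, ∑ i, ∑ p, ((nbSg (ε i) * nbSg (ζ p) : ℝ) : ℂ) * x i p
        = ∑ i, (nbSg (ε i) : ℂ) * g ζ i := by
      intro ε
      refine Finset.sum_congr rfl fun i _ => ?_
      rw [hg, Finset.mul_sum]
      refine Finset.sum_congr rfl fun p _ => ?_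
      push_cast
      ring
    simpa only [e] using h
  have h2 : nbAv (fun ζ : γ → Bool => (∑ i, ‖g ζ i‖ ^ 2) ^ 4)
      ≤ (∑ i, 6 * ∑ p, ‖x i p‖ ^ 2) ^ 4 := by
    apply nb_minkowski4 (fun i (ζ : γ → Bool) => ‖g ζ i‖ ^ 2) (fun i ζ => by positivity)
      (fun i => 6 * ∑ p, ‖x i p‖ ^ 2) (fun i => by positivity)
    intro i
    have h := nb_khintchine (x i)
    have hs : 0 ≤ (∑ p, ‖x i p‖ ^ 2) ^ 4 := by positivity
    calc nbAv (fun ζ : γ → Bool => (‖g ζ i‖ ^ 2) ^ 4)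
        = nbAv (fun ζ : γ → Bool => ‖∑ p, (nbSg (ζ p) : ℂ) * x i p‖ ^ 8) := by
          congr 1; funext ζ; rw [hg]; ring
      _ ≤ 840 * (∑ p, ‖x i p‖ ^ 2) ^ 4 := h
      _ ≤ (6 * ∑ p, ‖x i p‖ ^ 2) ^ 4 := by rw [mul_pow]; nlinarith
  have hs : 0 ≤ (∑ i, ∑ p, ‖x i p‖ ^ 2) ^ 4 := by positivity
  calc nbAv (fun ζ : γ → Bool => nbAv fun ε : α → Bool =>
        ‖∑ i, ∑ p, ((nbSg (ε i) * nbSg (ζ p) : ℝ) : ℂ) * x i p‖ ^ 8)
      ≤ nbAv (fun ζ : γ → Bool => 840 * (∑ i, ‖g ζ i‖ ^ 2) ^ 4) := nbAv_mono h1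
    _ = 840 * nbAv (fun ζ : γ → Bool => (∑ i, ‖g ζ i‖ ^ 2) ^ 4) := nb_rad_av_mul _ _
    _ ≤ 840 * (∑ i, 6 * ∑ p, ‖x i p‖ ^ 2) ^ 4 := by gcongr
    _ = 840 * 6 ^ 4 * (∑ i, ∑ p, ‖x i p‖ ^ 2) ^ 4 := by rw [← Finset.mul_sum]; ring
    _ ≤ 6 ^ 8 * (∑ i, ∑ p, ‖x i p‖ ^ 2) ^ 4 := by nlinarith

end Claimed.Agent.R258
end

/- ===== packed: Claimed.Agent.R258.S7nb.Select ===== -/
section
/-
Row 258, block [S7-NB], packages P-NB-SELECT and P-NB-MOMENT (architect helper192).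

The randomised fixed inputs (sides.tex l.747-762): independent Rademacher signs `ε_i` (positions of the banded stack), `η_j` (positions of the untouched stack), `ζ_p` (bands).
  `nbZa = ∑_{i,p} ε_i ζ_p X_{ip}`,  `nbZb = ∑_j η_j Y_j`,  `nbZc = ∑_p ζ_p Cc_p`;   sign space `NbOm α β γ = (α → Bool) × (β → Bool) × (γ → Bool)`, uniform probability.

P-NB-SELECT = `nb_select`: "expectation selects exactly the two required positions and the matched bands":
  `E[ ε_{i0} η_{j0} H_I(nbZa, nbZb, nbZc, Dd) ] = ∑_p H_I(X_{i0,p}, Y_{j0}, Cc_p, Dd)`.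
  PROOF: `nb_form_expand` (index types `α × γ`, `β`, `γ`) for each `σ`; exchange the average with the finite sums; the average of the coefficient
  `ε_{i0} η_{j0} * (ε_i ζ_p) * η_j * ζ_{p'}` over the product space factors (`nbAv_prod`/`nbAvC_prod`) into `E[ε_{i0} ε_i] E[η_{j0} η_j] E[ζ_p ζ_{p'}] = [i = i0][j = j0][p = p']` (`nb_av_sg_mul`);
  collapse the sums (`Finset.sum_ite_eq`, `Fintype.sum_prod_type`).
P-NB-MOMENT = `nb_moment_a/b/c`: 8th moments on the triple product space: the integrand depends only on some of the coordinates (`nbAv_prod`, `nbAv_const`); `nb_chaos`, `nb_khintchine`, `840 ≤ 6^8`.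
  For `nb_moment_a` reorder the product space: `E_{(ε,η,ζ)} f(ε,ζ) = E_{(ε,ζ)} f` (iterated averages commute: `Finset.sum_comm`), and `∑_{a : α × γ} = ∑_i ∑_p` (`Fintype.sum_prod_type`).
-/
set_option autoImplicit false

open MeasureTheory Finset

namespace Claimed.Agent.R258

/-- the sign space -/
abbrev NbOm (α β γ : Type) : Type := (α → Bool) × (β → Bool) × (γ → Bool)

variable {α β γ : Type}

/-- randomised banded stack -/
noncomputable def nbZa [Fintype α] [Fintype γ] (X : α → γ → ℝ → ℂ) (σ : NbOm α β γ) (y : ℝ) : ℂ :=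
  ∑ a : α × γ, ((nbSg (σ.1 a.1) * nbSg (σ.2.2 a.2) : ℝ) : ℂ) * X a.1 a.2 y

/-- randomised untouched stack -/
noncomputable def nbZb [Fintype β] (Y : β → ℝ → ℂ) (σ : NbOm α β γ) (y : ℝ) : ℂ :=
  ∑ j, ((nbSg (σ.2.1 j) : ℝ) : ℂ) * Y j y

/-- randomised frozen complementary band stack -/
noncomputable def nbZc [Fintype γ] (Cc : γ → ℝ → ℂ) (σ : NbOm α β γ) (y : ℝ) : ℂ :=
  ∑ p, ((nbSg (σ.2.2 p) : ℝ) : ℂ) * Cc p y

theorem nbZa_measurable [Fintype α] [Fintype γ] {X : α → γ → ℝ → ℂ} (hX : ∀ i p, Measurable (X i p))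
    (σ : NbOm α β γ) : Measurable (nbZa X σ) := by
  exact Finset.measurable_sum _ fun a _ => (hX a.1 a.2).const_mul _

theorem nbZb_measurable [Fintype β] {Y : β → ℝ → ℂ} (hY : ∀ j, Measurable (Y j)) (σ : NbOm α β γ) :
    Measurable (nbZb Y σ) := by
  exact Finset.measurable_sum _ fun j _ => (hY j).const_mul _

theorem nbZc_measurable [Fintype γ] {Cc : γ → ℝ → ℂ} (hC : ∀ p, Measurable (Cc p)) (σ : NbOm α β γ) :
    Measurable (nbZc Cc σ) := by
  exact Finset.measurable_sum _ fun p _ => (hC p).const_mul _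

theorem nb_sel_avC_ofReal {Ω : Type*} [Fintype Ω] (f : Ω → ℝ) :
    nbAvC (fun σ => (f σ : ℂ)) = (nbAv f : ℂ) := by
  simp [nbAvC, nbAv]

theorem nb_sel_avC_sum {Ω ι : Type*} [Fintype Ω] (s : Finset ι) (F : ι → Ω → ℂ) :
    nbAvC (fun σ => ∑ i ∈ s, F i σ) = ∑ i ∈ s, nbAvC (F i) := by
  simp only [nbAvC]
  rw [Finset.sum_comm, Finset.mul_sum]

theorem nb_sel_avC_mul_const {Ω : Type*} [Fintype Ω] (f : Ω → ℂ) (c : ℂ) :
    nbAvC (fun σ => f σ * c) = nbAvC f * c := by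
  simp only [nbAvC, ← Finset.sum_mul]
  ring

theorem nb_sel_av_mul_const {Ω : Type*} [Fintype Ω] (f : Ω → ℝ) (c : ℝ) :
    nbAv (fun σ => f σ * c) = nbAv f * c := by
  simp only [nbAv, ← Finset.sum_mul]
  ring

/-- the average of a product of functions of the three independent coordinates -/
theorem nb_sel_av_prod3 {Ω₁ Ω₂ Ω₃ : Type*} [Fintype Ω₁] [Fintype Ω₂] [Fintype Ω₃]
    (f₁ : Ω₁ → ℝ) (f₂ : Ω₂ → ℝ) (f₃ : Ω₃ → ℝ) :
    nbAv (fun σ : Ω₁ × Ω₂ × Ω₃ => f₁ σ.1 * f₂ σ.2.1 * f₃ σ.2.2) = nbAv f₁ * nbAv f₂ * nbAv f₃ := by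
  rw [nbAv_prod]
  simp only [nbAv_prod (Ω := Ω₂) (Ω' := Ω₃), nb_rad_av_mul, nb_sel_av_mul_const, mul_assoc]

/-- **selection identity** -/
theorem nb_select [Fintype α] [Fintype β] [Fintype γ] [DecidableEq α] [DecidableEq β] [DecidableEq γ]
    {c0 C0 : ℝ} (hc0 : 0 < c0) {I : Cell} {w : ℝ × ℝ → ℂ} (hw : Admissible c0 C0 I w)
    (e : Fin 4 ≃ Fin 4) (X : α → γ → ℝ → ℂ) (Y : β → ℝ → ℂ) (Cc : γ → ℝ → ℂ) (Dd : ℝ → ℂ)
    (hX : ∀ i p, Measurable (X i p)) (hY : ∀ j, Measurable (Y j)) (hC : ∀ p, Measurable (Cc p))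
    (hD : Measurable Dd)
    (hX2 : ∀ i p, IntegrableOn (fun y => ‖X i p y‖ ^ 2) I.set)
    (hY2 : ∀ j, IntegrableOn (fun y => ‖Y j y‖ ^ 2) I.set)
    (hC2 : ∀ p, IntegrableOn (fun y => ‖Cc p y‖ ^ 2) I.set)
    (hD2 : IntegrableOn (fun y => ‖Dd y‖ ^ 2) I.set) (i0 : α) (j0 : β) :
    nbAvC (fun σ : NbOm α β γ => ((nbSg (σ.1 i0) * nbSg (σ.2.1 j0) : ℝ) : ℂ) *
        form I w (placeArgs e (nbZa X σ) (nbZb Y σ) (nbZc Cc σ) Dd)) =
      ∑ p, form I w (placeArgs e (X i0 p) (Y j0) (Cc p) Dd) := by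
  have hexp : ∀ σ : NbOm α β γ,
      form I w (placeArgs e (nbZa X σ) (nbZb Y σ) (nbZc Cc σ) Dd) =
      ∑ a : α × γ, ∑ b, ∑ c, ((nbSg (σ.1 a.1) * nbSg (σ.2.2 a.2) : ℝ) : ℂ)
        * ((nbSg (σ.2.1 b) : ℝ) : ℂ) * ((nbSg (σ.2.2 c) : ℝ) : ℂ)
        * form I w (placeArgs e (X a.1 a.2) (Y b) (Cc c) Dd) := by
    intro σ
    exact nb_form_expand hc0 hw e
      (fun a : α × γ => ((nbSg (σ.1 a.1) * nbSg (σ.2.2 a.2) : ℝ) : ℂ))
      (fun b => ((nbSg (σ.2.1 b) : ℝ) : ℂ)) (fun c => ((nbSg (σ.2.2 c) : ℝ) : ℂ))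
      (fun a => X a.1 a.2) Y Cc Dd (fun a => hX _ _) hY hC hD (fun a => hX2 _ _) hY2 hC2 hD2
  have hK : ∀ (a : α × γ) (b : β) (c : γ),
      nbAv (fun σ : NbOm α β γ => (nbSg (σ.1 i0) * nbSg (σ.1 a.1))
        * (nbSg (σ.2.1 j0) * nbSg (σ.2.1 b)) * (nbSg (σ.2.2 a.2) * nbSg (σ.2.2 c)))
      = (if i0 = a.1 then 1 else 0) * (if j0 = b then 1 else 0) * (if a.2 = c then 1 else 0) := by
    intro a b c
    rw [nb_sel_av_prod3 (fun ε : α → Bool => nbSg (ε i0) * nbSg (ε a.1))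
      (fun η : β → Bool => nbSg (η j0) * nbSg (η b))
      (fun ζ : γ → Bool => nbSg (ζ a.2) * nbSg (ζ c)), nb_av_sg_mul, nb_av_sg_mul, nb_av_sg_mul]
  calc nbAvC (fun σ : NbOm α β γ => ((nbSg (σ.1 i0) * nbSg (σ.2.1 j0) : ℝ) : ℂ) *
        form I w (placeArgs e (nbZa X σ) (nbZb Y σ) (nbZc Cc σ) Dd))
      = nbAvC (fun σ : NbOm α β γ => ∑ a : α × γ, ∑ b, ∑ c,
          (((nbSg (σ.1 i0) * nbSg (σ.1 a.1))
            * (nbSg (σ.2.1 j0) * nbSg (σ.2.1 b)) * (nbSg (σ.2.2 a.2) * nbSg (σ.2.2 c)) : ℝ) : ℂ)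
          * form I w (placeArgs e (X a.1 a.2) (Y b) (Cc c) Dd)) := by
        congr 1
        funext σ
        rw [hexp, Finset.mul_sum]
        refine Finset.sum_congr rfl fun a _ => ?_
        rw [Finset.mul_sum]
        refine Finset.sum_congr rfl fun b _ => ?_
        rw [Finset.mul_sum]
        refine Finset.sum_congr rfl fun c _ => ?_
        push_cast
        ring
    _ = ∑ a : α × γ, ∑ b, ∑ c,
          (((if i0 = a.1 then 1 else 0) * (if j0 = b then 1 else 0)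
            * (if a.2 = c then 1 else 0) : ℝ) : ℂ)
          * form I w (placeArgs e (X a.1 a.2) (Y b) (Cc c) Dd) := by
        simp only [nb_sel_avC_sum, nb_sel_avC_mul_const, nb_sel_avC_ofReal, hK]
    _ = ∑ p, form I w (placeArgs e (X i0 p) (Y j0) (Cc p) Dd) := by
        rw [Fintype.sum_prod_type]
        rw [Finset.sum_eq_single i0 (fun x _ hx => by simp [Ne.symm hx]) (by simp)]
        refine Finset.sum_congr rfl fun p _ => ?_
        rw [Finset.sum_eq_single j0 (fun b _ hb => by simp [Ne.symm hb]) (by simp)]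
        rw [Finset.sum_eq_single p (fun c _ hc => by simp [Ne.symm hc]) (by simp)]
        simp

theorem nb_moment_a [Fintype α] [Fintype β] [Fintype γ] [DecidableEq α] [DecidableEq β] [DecidableEq γ]
    (X : α → γ → ℝ → ℂ) (y : ℝ) :
    nbAv (fun σ : NbOm α β γ => ‖nbZa X σ y‖ ^ 8) ≤ 6 ^ 8 * (∑ i, ∑ p, ‖X i p y‖ ^ 2) ^ 4 := by
  have h := nb_chaos (fun i p => X i p y)
  have e : nbAv (fun σ : NbOm α β γ => ‖nbZa X σ y‖ ^ 8)
      = nbAv (fun σ : (α → Bool) × (γ → Bool) =>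
        ‖∑ i, ∑ p, ((nbSg (σ.1 i) * nbSg (σ.2 p) : ℝ) : ℂ) * X i p y‖ ^ 8) := by
    rw [nbAv_prod, nbAv_prod (Ω := α → Bool) (Ω' := γ → Bool)]
    congr 1
    funext ε
    rw [nbAv_prod]
    simp only [nbZa, Fintype.sum_prod_type]
    exact nbAv_const _
  rw [e]
  exact h

theorem nb_moment_b [Fintype α] [Fintype β] [Fintype γ] [DecidableEq α] [DecidableEq β] [DecidableEq γ]
    (Y : β → ℝ → ℂ) (y : ℝ) :
    nbAv (fun σ : NbOm α β γ => ‖nbZb Y σ y‖ ^ 8) ≤ 6 ^ 8 * (∑ j, ‖Y j y‖ ^ 2) ^ 4 := by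
  have h := nb_khintchine (fun j => Y j y)
  have hs : 0 ≤ (∑ j, ‖Y j y‖ ^ 2) ^ 4 := by positivity
  have e : nbAv (fun σ : NbOm α β γ => ‖nbZb Y σ y‖ ^ 8)
      = nbAv (fun η : β → Bool => ‖∑ j, (nbSg (η j) : ℂ) * Y j y‖ ^ 8) := by
    rw [nbAv_prod]
    simp only [nbAv_prod (Ω := β → Bool) (Ω' := γ → Bool), nbZb, nbAv_const]
  rw [e]
  refine h.trans ?_
  nlinarith

theorem nb_moment_c [Fintype α] [Fintype β] [Fintype γ] [DecidableEq α] [DecidableEq β] [DecidableEq γ]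
    (Cc : γ → ℝ → ℂ) (y : ℝ) :
    nbAv (fun σ : NbOm α β γ => ‖nbZc Cc σ y‖ ^ 8) ≤ 6 ^ 8 * (∑ p, ‖Cc p y‖ ^ 2) ^ 4 := by
  have h := nb_khintchine (fun p => Cc p y)
  have hs : 0 ≤ (∑ p, ‖Cc p y‖ ^ 2) ^ 4 := by positivity
  have e : nbAv (fun σ : NbOm α β γ => ‖nbZc Cc σ y‖ ^ 8)
      = nbAv (fun ζ : γ → Bool => ‖∑ p, (nbSg (ζ p) : ℂ) * Cc p y‖ ^ 8) := by
    rw [nbAv_prod]
    simp only [nbAv_prod (Ω := β → Bool) (Ω' := γ → Bool), nbZc, nbAv_const]
  rw [e]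
  refine h.trans ?_
  nlinarith

end Claimed.Agent.R258
end

/- ===== packed: Claimed.Agent.R258.S7nb.Piece ===== -/
section
/-
Row 258, block [S7-NB], package P-NB-PIECE (architect helper192).

One tree piece: Lemma 7.2 (`ShortBlockGoal`) applied to the randomised fixed inputs gives the ABSOLUTE bound for the selected positions and matched bands
(sides.tex l.747-762 and "Apply Lemma short-block to the randomized fixed inputs").

PROOF.  Take `C` from `hSB`; for `q` take `Cq` from `hSB` with `Cm = 6`.  Fix the data; `classical` (decidable equality on `α β γ`).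
  `Ω = NbOm α β γ`, `pr σ = (card Ω)⁻¹` (nonnegative, sum one: `Ω` is nonempty), so `∑ σ, pr σ * f σ = nbAv f`.
  `z σ j = Q.set.indicator (placeArgs e (nbZa X σ) (nbZb Y σ) (nbZc Cc σ) Dd j)`  (measurable; vanishes off `Q.set`);
  `m j = ![mA, mB, mC, mD] (e j)`, `mA y = sqrt (∑ i, ∑ p, ‖X i p y‖^2)`, `mB y = sqrt (∑ j, ‖Y j y‖^2)`, `mC y = sqrt (∑ p, ‖Cc p y‖^2)`, `mD y = ‖Dd y‖`;  `s j = ![sa, sb, sc, sd] (e j)`.
  To check a hypothesis "for all slots `j`", case on the role `e j` (`Fin` cases: `fin_cases`/`match e j`), cf. `nb_placeArgs_forall`.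
  * `m j ^ 2` is the sum of the squares (`Real.sq_sqrt`): integrable on `Q.set`, and `∫_L m j ^2 = ∑ ∫_L ‖..‖^2 ≤ s j ^2 |L|` (`integral_finset_sum`; `L ≤ Q`: `TreePiece.leaf_le`, `cell_set_subset`, `IntegrableOn.mono_set`).
  * moments: `‖indicator ..‖ ≤ ‖..‖`; `nb_moment_a/b/c`; `(6 * mA y)^8 = 6^8 (mA y ^2)^4`; role `d`: `‖Dd y‖^8 ≤ (6 ‖Dd y‖)^8`, `nbAv_const`.
  * signs: `T I = ∑ p, form I (w I) (placeArgs e (X (ia I) p) (Y (ib I)) (Cc p) Dd)`, `θ I = conj (T I) / ‖T I‖` (`0` if `T I = 0`), so `‖θ I‖ ≤ 1` and `θ I * T I = ‖T I‖`;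
    `sgn σ I = (nbSg (σ.1 (ia I)) * nbSg (σ.2.1 (ib I))) * θ I`, `‖sgn σ I‖ ≤ 1` (`nbSg_abs`).
  * for `I ∈ int`: `form I (w I) (z σ) = form I (w I) (placeArgs e (nbZa ..) ..)` (`nb_form_congr`; `I ≤ Q`: `TreePiece.int_le`), hence by `nb_select` (inputs integrable on `I.set ⊆ Q.set`)
    `nbAvC (fun σ => sgn σ I * form I (w I) (z σ)) = θ I * T I = ‖T I‖`.
  * `∑_{I ∈ int} |I| ‖T I‖ = nbAvC (fun σ => ∑_I |I| * sgn σ I * form ..)` (linearity), so, taking norms, `≤ nbAv (fun σ => ‖∑_I ..‖) = ∑ σ, pr σ * ‖..‖ ≤` the bound of `hSB`, and `∏ j, s j = sa sb sc sd` (`nb_prod_place`).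
-/
set_option autoImplicit false

open MeasureTheory Finset

namespace Claimed.Agent.R258

theorem nb_piece_fin4 {P : Fin 4 → Prop} (h0 : P 0) (h1 : P 1) (h2 : P 2) (h3 : P 3) :
    ∀ k, P k := by
  intro k
  fin_cases k <;> assumption

theorem nb_piece_norm_avC_le {Ω : Type*} [Fintype Ω] (f : Ω → ℂ) :
    ‖nbAvC f‖ ≤ nbAv (fun σ => ‖f σ‖) := by
  unfold nbAvC nbAv
  rw [norm_mul, Complex.norm_real, Real.norm_of_nonneg (by positivity)]
  exact mul_le_mul_of_nonneg_left (norm_sum_le _ _) (by positivity)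

theorem nb_piece_avC_const_mul {Ω : Type*} [Fintype Ω] (c : ℂ) (f : Ω → ℂ) :
    nbAvC (fun σ => c * f σ) = c * nbAvC f := by
  simp only [nbAvC, ← Finset.mul_sum]
  ring

/-- a unimodular (or zero) multiplier turning `T` into `‖T‖` -/
theorem nb_piece_theta (T : ℂ) : ∃ θ : ℂ, ‖θ‖ ≤ 1 ∧ θ * T = (‖T‖ : ℂ) := by
  by_cases h : T = 0
  · exact ⟨0, by simp, by simp [h]⟩
  · have hn : (‖T‖ : ℂ) ≠ 0 := by
      exact_mod_cast (norm_ne_zero_iff.mpr h)
    refine ⟨(starRingEnd ℂ) T / (‖T‖ : ℂ), ?_, ?_⟩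
    · rw [norm_div, Complex.norm_conj, Complex.norm_real, norm_norm,
        div_self (norm_ne_zero_iff.mpr h)]
    · rw [div_mul_eq_mul_div, Complex.conj_mul']
      field_simp

theorem nb_piece_av_eq {Ω : Type*} [Fintype Ω] (f : Ω → ℝ) :
    ∑ σ, (Fintype.card Ω : ℝ)⁻¹ * f σ = nbAv f := by
  rw [nbAv, Finset.mul_sum]

theorem nb_piece {c0 C0 : ℝ} (hc0 : 0 < c0) (hSB : ShortBlockGoal c0 C0) :
    ∃ C : ℝ, 0 < C ∧ ∀ q : ℝ, 2 < q → q < 3 → ∃ Cq : ℝ, 0 < Cq ∧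
    ∀ (N : ℕ) (CN : ℝ) (s0 : ℤ), 0 ≤ CN → LocalBound c0 C0 q N CN →
    ∀ (Q : Cell) (int leaves : Finset Cell) (s1 : ℤ) (K : ℕ), TreePiece Q int leaves s1 K →
      (∀ I ∈ int, s0 ≤ I.depth ∧ I.depth < s0 + N) →
    ∀ (w : Cell → ℝ × ℝ → ℂ), (∀ I ∈ int, Admissible c0 C0 I (w I)) →
    ∀ (e : Fin 4 ≃ Fin 4) (α β γ : Type) [Fintype α] [Fintype β] [Fintype γ]
      (X : α → γ → ℝ → ℂ) (Y : β → ℝ → ℂ) (Cc : γ → ℝ → ℂ) (Dd : ℝ → ℂ)
      (ia : Cell → α) (ib : Cell → β) (sa sb sc sd : ℝ),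
      (∀ i p, Measurable (X i p)) → (∀ j, Measurable (Y j)) → (∀ p, Measurable (Cc p)) → Measurable Dd →
      (∀ i p, IntegrableOn (fun y => ‖X i p y‖ ^ 2) Q.set) →
      (∀ j, IntegrableOn (fun y => ‖Y j y‖ ^ 2) Q.set) →
      (∀ p, IntegrableOn (fun y => ‖Cc p y‖ ^ 2) Q.set) →
      IntegrableOn (fun y => ‖Dd y‖ ^ 2) Q.set →
      0 ≤ sa → 0 ≤ sb → 0 ≤ sc → 0 ≤ sd →
      (∀ L ∈ leaves, ∑ i, ∑ p, ∫ y in L.set, ‖X i p y‖ ^ 2 ≤ sa ^ 2 * L.len) →
      (∀ L ∈ leaves, ∑ j, ∫ y in L.set, ‖Y j y‖ ^ 2 ≤ sb ^ 2 * L.len) →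
      (∀ L ∈ leaves, ∑ p, ∫ y in L.set, ‖Cc p y‖ ^ 2 ≤ sc ^ 2 * L.len) →
      (∀ L ∈ leaves, ∫ y in L.set, ‖Dd y‖ ^ 2 ≤ sd ^ 2 * L.len) →
      ∑ I ∈ int, I.len * ‖∑ p, form I (w I) (placeArgs e (X (ia I) p) (Y (ib I)) (Cc p) Dd)‖
        ≤ (1 + CN) * Cq * (1 + Real.log ((K : ℝ) + 2)) ^ C * ((K : ℝ) + 2) ^ (C * (q - 2)) * Q.len *
            (sa * sb * sc * sd) := by
  classical
  obtain ⟨C, hC, hSB⟩ := hSB
  refine ⟨C, hC, fun q hq2 hq3 => ?_⟩
  obtain ⟨Cq, hCq, hSB⟩ := hSB q hq2 hq3 6 (by norm_num)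
  refine ⟨Cq, hCq, ?_⟩
  intro N CN s0 hCN hLB Q int leaves s1 K hTP hdep w hw e α β γ _ _ _ X Y Cc Dd ia ib sa sb sc sd
    hX hY hC' hD hX2 hY2 hC2 hD2 hsa hsb hsc hsd hLa hLb hLc hLd
  -- the stack norms
  set mA : ℝ → ℝ := fun y => Real.sqrt (∑ i, ∑ p, ‖X i p y‖ ^ 2) with hmA
  set mB : ℝ → ℝ := fun y => Real.sqrt (∑ j, ‖Y j y‖ ^ 2) with hmB
  set mC : ℝ → ℝ := fun y => Real.sqrt (∑ p, ‖Cc p y‖ ^ 2) with hmC
  set mD : ℝ → ℝ := fun y => ‖Dd y‖ with hmD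
  have sqA : ∀ y, mA y ^ 2 = ∑ i, ∑ p, ‖X i p y‖ ^ 2 := fun y =>
    Real.sq_sqrt (by positivity)
  have sqB : ∀ y, mB y ^ 2 = ∑ j, ‖Y j y‖ ^ 2 := fun y => Real.sq_sqrt (by positivity)
  have sqC : ∀ y, mC y ^ 2 = ∑ p, ‖Cc p y‖ ^ 2 := fun y => Real.sq_sqrt (by positivity)
  -- the signs
  set T : Cell → ℂ := fun I => ∑ p, form I (w I) (placeArgs e (X (ia I) p) (Y (ib I)) (Cc p) Dd)
    with hT
  choose θ hθ1 hθ2 using fun I => nb_piece_theta (T I)
  have key := hSB N CN s0 hCN hLB Q int leaves s1 K hTP hdep w hw (NbOm α β γ)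
    (fun _ => (Fintype.card (NbOm α β γ) : ℝ)⁻¹) (fun _ => by positivity)
    (by
      rw [Finset.sum_const, Finset.card_univ, nsmul_eq_mul]
      exact mul_inv_cancel₀ (by exact_mod_cast Fintype.card_ne_zero))
    (fun σ j => Q.set.indicator (placeArgs e (nbZa X σ) (nbZb Y σ) (nbZc Cc σ) Dd j))
    (fun j => ![mA, mB, mC, mD] (e j)) (fun j => ![sa, sb, sc, sd] (e j))
    (fun σ j => (nb_placeArgs_measurable e (nbZa_measurable hX σ) (nbZb_measurable hY σ)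
      (nbZc_measurable hC' σ) hD j).indicator (cell_measurableSet Q))
    (fun j => nb_piece_fin4 (P := fun k => Measurable (![mA, mB, mC, mD] k))
      (Measurable.sqrt (Finset.measurable_sum _ fun i _ => Finset.measurable_sum _ fun p _ =>
        (hX i p).norm.pow_const 2))
      (Measurable.sqrt (Finset.measurable_sum _ fun j _ => (hY j).norm.pow_const 2))
      (Measurable.sqrt (Finset.measurable_sum _ fun p _ => (hC' p).norm.pow_const 2))
      hD.norm (e j))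
    (fun j => nb_piece_fin4 (P := fun k => ∀ y, 0 ≤ ![mA, mB, mC, mD] k y)
      (fun y => Real.sqrt_nonneg _) (fun y => Real.sqrt_nonneg _) (fun y => Real.sqrt_nonneg _)
      (fun y => norm_nonneg _) (e j))
    (fun j => nb_piece_fin4 (P := fun k => 0 ≤ ![sa, sb, sc, sd] k) hsa hsb hsc hsd (e j))
    (fun σ j y hy => Set.indicator_of_notMem hy _)
    (fun j => nb_piece_fin4 (P := fun k => IntegrableOn (fun y => ![mA, mB, mC, mD] k y ^ 2) Q.set)
      (by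
        show IntegrableOn (fun y => mA y ^ 2) Q.set
        simp only [sqA]
        exact integrable_finsetSum _ fun i _ => integrable_finsetSum _ fun p _ => hX2 i p)
      (by
        show IntegrableOn (fun y => mB y ^ 2) Q.set
        simp only [sqB]
        exact integrable_finsetSum _ fun j _ => hY2 j)
      (by
        show IntegrableOn (fun y => mC y ^ 2) Q.set
        simp only [sqC]
        exact integrable_finsetSum _ fun p _ => hC2 p)
      hD2 (e j))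
    (fun j => nb_piece_fin4 (P := fun k => ∀ L ∈ leaves,
        ∫ y in L.set, ![mA, mB, mC, mD] k y ^ 2 ≤ ![sa, sb, sc, sd] k ^ 2 * L.len)
      (by
        intro L hL
        have hsub := cell_set_subset (hTP.leaf_le L hL)
        show ∫ y in L.set, mA y ^ 2 ≤ sa ^ 2 * L.len
        simp only [sqA]
        rw [integral_finsetSum _ fun i _ => integrable_finsetSum _ fun p _ =>
          (hX2 i p).mono_set hsub]
        refine le_trans (le_of_eq ?_) (hLa L hL)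
        refine Finset.sum_congr rfl fun i _ => ?_
        rw [integral_finsetSum _ fun p _ => (hX2 i p).mono_set hsub])
      (by
        intro L hL
        have hsub := cell_set_subset (hTP.leaf_le L hL)
        show ∫ y in L.set, mB y ^ 2 ≤ sb ^ 2 * L.len
        simp only [sqB]
        rw [integral_finsetSum _ fun j _ => (hY2 j).mono_set hsub]
        exact hLb L hL)
      (by
        intro L hL
        have hsub := cell_set_subset (hTP.leaf_le L hL)
        show ∫ y in L.set, mC y ^ 2 ≤ sc ^ 2 * L.len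
        simp only [sqC]
        rw [integral_finsetSum _ fun p _ => (hC2 p).mono_set hsub]
        exact hLc L hL)
      hLd (e j))
    (fun j => by
      have hmain := nb_piece_fin4 (P := fun k => ∀ y, nbAv (fun σ : NbOm α β γ =>
          ‖![nbZa X σ, nbZb Y σ, nbZc Cc σ, Dd] k y‖ ^ 8) ≤ (6 * ![mA, mB, mC, mD] k y) ^ 8)
        (by
          intro y
          show nbAv (fun σ : NbOm α β γ => ‖nbZa X σ y‖ ^ 8) ≤ (6 * mA y) ^ 8
          refine (nb_moment_a X y).trans (le_of_eq ?_)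
          rw [← sqA]; ring)
        (by
          intro y
          show nbAv (fun σ : NbOm α β γ => ‖nbZb Y σ y‖ ^ 8) ≤ (6 * mB y) ^ 8
          refine (nb_moment_b Y y).trans (le_of_eq ?_)
          rw [← sqB]; ring)
        (by
          intro y
          show nbAv (fun σ : NbOm α β γ => ‖nbZc Cc σ y‖ ^ 8) ≤ (6 * mC y) ^ 8
          refine (nb_moment_c Cc y).trans (le_of_eq ?_)
          rw [← sqC]; ring)
        (by
          intro y
          show nbAv (fun _ : NbOm α β γ => ‖Dd y‖ ^ 8) ≤ (6 * ‖Dd y‖) ^ 8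
          rw [nbAv_const, mul_pow]
          have : 0 ≤ ‖Dd y‖ ^ 8 := by positivity
          nlinarith)
        (e j)
      intro y
      rw [nb_piece_av_eq]
      refine le_trans (nbAv_mono fun σ => ?_) (hmain y)
      exact pow_le_pow_left₀ (norm_nonneg _) (norm_indicator_le_norm_self _ _) 8)
    (fun σ I => ((nbSg (σ.1 (ia I)) * nbSg (σ.2.1 (ib I)) : ℝ) : ℂ) * θ I)
    (fun σ I => by
      rw [norm_mul, Complex.norm_real, Real.norm_eq_abs, abs_mul, nbSg_abs, nbSg_abs, one_mul,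
        one_mul]
      exact hθ1 I)
  rw [nb_prod_place, nb_piece_av_eq] at key
  refine le_trans ?_ key
  -- the selection identity
  have hsel : ∀ I ∈ int, nbAvC (fun σ : NbOm α β γ =>
      (I.len : ℂ) * (((nbSg (σ.1 (ia I)) * nbSg (σ.2.1 (ib I)) : ℝ) : ℂ) * θ I) *
        form I (w I) (fun j => Q.set.indicator
          (placeArgs e (nbZa X σ) (nbZb Y σ) (nbZc Cc σ) Dd j))) = ((I.len * ‖T I‖ : ℝ) : ℂ) := by
    intro I hI
    have hsub := cell_set_subset (hTP.int_le I hI)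
    have h1 : ∀ σ : NbOm α β γ, form I (w I) (fun j => Q.set.indicator
          (placeArgs e (nbZa X σ) (nbZb Y σ) (nbZc Cc σ) Dd j))
        = form I (w I) (placeArgs e (nbZa X σ) (nbZb Y σ) (nbZc Cc σ) Dd) := by
      intro σ
      exact nb_form_congr hc0 (hw I hI) fun j y hy => Set.indicator_of_mem (hsub hy) _
    have h2 := nb_select hc0 (hw I hI) e X Y Cc Dd hX hY hC' hD
      (fun i p => (hX2 i p).mono_set hsub) (fun j => (hY2 j).mono_set hsub)
      (fun p => (hC2 p).mono_set hsub) (hD2.mono_set hsub) (ia I) (ib I)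
    have h3 : ∀ σ : NbOm α β γ,
        (I.len : ℂ) * (((nbSg (σ.1 (ia I)) * nbSg (σ.2.1 (ib I)) : ℝ) : ℂ) * θ I) *
        form I (w I) (fun j => Q.set.indicator
          (placeArgs e (nbZa X σ) (nbZb Y σ) (nbZc Cc σ) Dd j))
        = ((I.len : ℂ) * θ I) * (((nbSg (σ.1 (ia I)) * nbSg (σ.2.1 (ib I)) : ℝ) : ℂ) *
          form I (w I) (placeArgs e (nbZa X σ) (nbZb Y σ) (nbZc Cc σ) Dd)) := by
      intro σ
      rw [h1]; ring
    simp only [h3]
    rw [nb_piece_avC_const_mul, h2, mul_assoc]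
    have := hθ2 I
    rw [hT] at this
    rw [this]
    push_cast
    rfl
  have hnn : 0 ≤ ∑ I ∈ int, I.len * ‖T I‖ :=
    Finset.sum_nonneg fun I _ => mul_nonneg (cell_len_nonneg I) (norm_nonneg _)
  calc ∑ I ∈ int, I.len * ‖T I‖ = ‖((∑ I ∈ int, I.len * ‖T I‖ : ℝ) : ℂ)‖ := by
        rw [Complex.norm_real, Real.norm_of_nonneg hnn]
    _ = ‖nbAvC (fun σ : NbOm α β γ => ∑ I ∈ int,
          (I.len : ℂ) * (((nbSg (σ.1 (ia I)) * nbSg (σ.2.1 (ib I)) : ℝ) : ℂ) * θ I) *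
          form I (w I) (fun j => Q.set.indicator
            (placeArgs e (nbZa X σ) (nbZb Y σ) (nbZc Cc σ) Dd j)))‖ := by
        rw [nb_sel_avC_sum, Finset.sum_congr rfl hsel]
        push_cast
        rfl
    _ ≤ _ := nb_piece_norm_avC_le _

end Claimed.Agent.R258
end
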