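/- Packed by merge_tool.py (helper293): 15 modules of Claimed.Agent.R258 in one file, same declarations.
   Old modules, in this order: Color.Cap, Color.Sep, Color.Exists, Color.Adapter, Color.Transport, Color.Stops, S3.PrefixCor, S5.Ladder, S6a.ChainDefs, U3.Lin.ModDefs, U3.Lin.Mod1, U3.Lin.Mod2, U3.Lin.Mod3, U3.Lin.Mod4, U3.Steinitz -/
import Mathlib
import Claimed.Agent.R258.Color.SepNe
import Claimed.Agent.R258.Color.SepEq
import Claimed.Agent.R258.Color.Sit
import Claimed.Agent.R258.CellApi.Pack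
import Claimed.Agent.R258.S5.Cmp
import Claimed.Agent.R258.S6a.HtKer
import Claimed.Agent.R258.S6a.HtMisc
import Claimed.Agent.R258.Pack004
import Claimed.Agent.R258.Pack016
import Claimed.Agent.R258.Pack018

/- ===== packed: Claimed.Agent.R258.Color.Cap ===== -/
section
/-
Row 258, block [COLOR].  Capped distances `ℕ∞ → ℕ` (helper63, proved).
-/
set_option autoImplicit false

namespace Claimed.Agent.R258

/-- `min (x, K)` as a natural number -/
noncomputable def col_cap (K : ℕ) (x : ℕ∞) : ℕ := (min x (K : ℕ∞)).toNat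

theorem col_cap_top (K : ℕ) : col_cap K ⊤ = K := by
  simp [col_cap]

theorem col_cap_coe (K n : ℕ) : col_cap K (n : ℕ∞) = min n K := by
  unfold col_cap
  rcases le_total n K with h | h
  · rw [min_eq_left (by exact_mod_cast h), ENat.toNat_natCast, min_eq_left h]
  · rw [min_eq_right (by exact_mod_cast h), ENat.toNat_natCast, min_eq_right h]

theorem col_cap_le (K : ℕ) (x : ℕ∞) : col_cap K x ≤ K := by
  induction x using ENat.recTopCoe with
  | top => rw [col_cap_top]
  | coe n => rw [col_cap_coe]; exact min_le_right _ _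

theorem col_cap_zero (K : ℕ) : col_cap K 0 = 0 := by
  have := col_cap_coe K 0
  simpa using this

theorem col_cap_mono (K : ℕ) {x y : ℕ∞} (h : x ≤ y) : col_cap K x ≤ col_cap K y := by
  induction y using ENat.recTopCoe with
  | top => rw [col_cap_top]; exact col_cap_le K x
  | coe m =>
    induction x using ENat.recTopCoe with
    | top => simp at h
    | coe n =>
      rw [col_cap_coe, col_cap_coe]
      have : n ≤ m := by exact_mod_cast h
      omega

theorem col_cap_add (K : ℕ) {x y z : ℕ∞} (h : z ≤ x + y) : col_cap K z ≤ col_cap K x + col_cap K y := by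
  induction x using ENat.recTopCoe with
  | top => rw [col_cap_top]; exact (col_cap_le K z).trans (Nat.le_add_right _ _)
  | coe n =>
    induction y using ENat.recTopCoe with
    | top => rw [col_cap_top]; exact (col_cap_le K z).trans (Nat.le_add_left _ _)
    | coe m =>
      induction z using ENat.recTopCoe with
      | top =>
        exfalso
        have h2 : (⊤ : ℕ∞) ≤ ((n + m : ℕ) : ℕ∞) := by
          rw [Nat.cast_add]; exact h
        exact absurd h2 (not_le.mpr (ENat.natCast_lt_top _))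
      | coe k =>
        rw [col_cap_coe, col_cap_coe, col_cap_coe]
        have : k ≤ n + m := by exact_mod_cast h
        omega

theorem col_cap_le_iff {K h : ℕ} (hh : h < K) (x : ℕ∞) : col_cap K x ≤ h ↔ x ≤ (h : ℕ∞) := by
  induction x using ENat.recTopCoe with
  | top =>
    rw [col_cap_top]
    constructor
    · intro h'; omega
    · intro h'; simp at h'
  | coe n =>
    rw [col_cap_coe, Nat.cast_le]
    omega

theorem col_lt_of_lt_cap {K h : ℕ} {x : ℕ∞} (hx : h < col_cap K x) : (h : ℕ∞) < x := by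
  induction x using ENat.recTopCoe with
  | top => exact ENat.natCast_lt_top h
  | coe n =>
    rw [col_cap_coe] at hx
    rw [Nat.cast_lt]
    omega

end Claimed.Agent.R258
end

/- ===== packed: Claimed.Agent.R258.Color.Sep ===== -/
section
/-
Row 258, block [COLOR].  GLUE (helper63): Lemma historical-masks (3) from the two cases.
-/
set_option autoImplicit false
open Classical

namespace Claimed.Agent.R258
variable {C V : Type*} [PartialOrder C] {S : ColSys C V} {p : ColPar} {D : ℕ} {dp dh : ℕ → V → ℕ}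

/-- Lemma historical-masks (3), `J` the finer endpoint, `u ≤ J` a use certificate of the group of the finer endpoint -/
theorem col_mask_sep (H : S.Std p D dp dh) {G G' : ColGrp V} (hne : G ≠ G') (hcol : G.col p = G'.col p)
    {I J u : C} (hJI : J ≤ I) (huJ : u ≤ J) (hu : S.use p dp dh G' u) {b b' : V} {h h' : ℕ}
    (hb : b ∈ S.mask p dp dh G h I) (hb' : b' ∈ S.mask p dp dh G' h' J) (hh : h ≤ p.Hm) (hh' : h' ≤ p.Hm) :
    1 < S.dist (S.depth J) b b' := by
  by_contra hd
  have hd' : S.dist (S.depth J) b b' ≤ 1 := not_lt.mp hd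
  by_cases hz : G.z = G'.z
  · exact col_sep_z_eq H hne hcol hz hJI huJ hu hb hb' hh hh' hd'
  · exact col_sep_z_ne H hcol hz hJI huJ hu hb hb' hh hh' hd'

end Claimed.Agent.R258
end

/- ===== packed: Claimed.Agent.R258.Color.Exists ===== -/
section
/-
Row 258, block [COLOR].  GLUE (helper63): choice of the primary arrays, then of the high arrays (Lemma color-budget, exceptional roots).
-/
set_option autoImplicit false
open Classical

namespace Claimed.Agent.R258
variable {C V : Type*} [PartialOrder C]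

/-- some required marking fails at `I` -/
def ColSys.Bad (S : ColSys C V) (p : ColPar) (dp dh : ℕ → V → ℕ) (I : C) : Prop :=
  ∃ v ∈ S.pres I, ¬ S.ok p dp dh I v

theorem col_bad_iff (S : ColSys C V) (p : ColPar) (dp dh : ℕ → V → ℕ) (I : C) :
    S.Bad p dp dh I ↔ S.BadAt p.d0 (S.q1 p) dp I ∨ S.BadAt p.d0 (S.q2 p dp) dh I := by
  unfold ColSys.Bad ColSys.BadAt ColSys.ok
  constructor
  · rintro ⟨v, hv, hnot⟩
    by_cases h1 : (S.win1 p dp I v).r < p.d0
    · right
      refine ⟨v, hv, ?_⟩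
      have h2 : ¬ (S.win2 p dp dh I v).r < p.d0 := fun h2 => hnot ⟨h1, h2⟩
      intro r hr hmk
      exact h2 (col_win_lt_iff.mpr ⟨r, hr, hmk⟩)
    · left
      refine ⟨v, hv, ?_⟩
      intro r hr hmk
      exact h1 (col_win_lt_iff.mpr ⟨r, hr, hmk⟩)
  · rintro (⟨v, hv, h⟩ | ⟨v, hv, h⟩)
    · refine ⟨v, hv, fun hok => ?_⟩
      obtain ⟨r, hr, hmk⟩ := col_win_lt_iff.mp hok.1
      exact h r hr hmk
    · refine ⟨v, hv, fun hok => ?_⟩
      obtain ⟨r, hr, hmk⟩ := col_win_lt_iff.mp hok.2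
      exact h r hr hmk

/-- number of primary situations on a path -/
def ColPar.N1 (p : ColPar) (D : ℕ) : ℕ := D * (D * (p.d0 + 6 + 1) + 1)
/-- number of high situations on a path -/
def ColPar.N2 (p : ColPar) (D : ℕ) : ℕ := D * (p.K1 * p.K2 * p.K3 * (D + 1))

theorem col_exists {S : ColSys C V} {D : ℕ} (hS : S.Valid D) (p : ColPar) (hd0 : 10 ≤ p.d0)
    (h64 : 64 * D ≤ 2 ^ p.d0) (hfl : D * 2 ^ (p.d0 - 1) < 3 ^ (p.d0 - 1))
    (hK : ∀ s v w, S.dist s v w ≤ (p.d0 + 6) * p.b1)
    (leaves : Finset C) (μ : C → ℝ) (hμ : ∀ L ∈ leaves, 0 ≤ μ L) :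
    ∃ dp dh : ℕ → V → ℕ, S.Std p D dp dh ∧
      ∑ L ∈ leaves.filter (fun L => ∃ I', L ≤ I' ∧ S.Bad p dp dh I'), μ L
        ≤ ((p.N1 D + p.N2 D : ℕ) : ℝ) * (63 / 64 : ℝ) ^ p.d0 * ∑ L ∈ leaves, μ L := by
  have hb1 : 0 < p.b1 := p.col_b1_pos hd0
  have hcap : ∀ s v w, S.dist s v w / p.b1 ≤ p.d0 + 6 := by
    intro s v w
    exact Nat.div_le_of_le_mul (by rw [Nat.mul_comm]; exact hK s v w)
  have hq10 : ∀ I v, S.q1 p I v v = 0 := by
    intro I v
    simp [ColSys.q1, hS.dist_self]
  obtain ⟨dp, hdp, hsum1⟩ := col_choose hS leaves μ hμ h64 (p.N1 D) (S.q1 p) hq10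
    (fun I _ => col_sit1 hS p (p.d0 + 6) hcap I)
  have hD2 : D ≤ 2 ^ p.d0 := by omega
  have H0 : S.Std p D dp (fun _ _ => 0) := ⟨hS, hdp, fun _ _ => Nat.zero_le _, hd0, hD2, hfl⟩
  obtain ⟨dh, hdh, hsum2⟩ := col_choose hS leaves μ hμ h64 (p.N2 D) (S.q2 p dp)
    (fun I v => col_q2_self S p dp I v) (fun I _ => col_sit2 H0 I)
  refine ⟨dp, dh, ⟨hS, hdp, hdh, hd0, hD2, hfl⟩, ?_⟩
  set A1 := leaves.filter (fun L => ∃ I', L ≤ I' ∧ S.BadAt p.d0 (S.q1 p) dp I') with hA1
  set A2 := leaves.filter (fun L => ∃ I', L ≤ I' ∧ S.BadAt p.d0 (S.q2 p dp) dh I') with hA2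
  have hA1s : A1 ⊆ leaves := Finset.filter_subset _ _
  have hA2s : A2 ⊆ leaves := Finset.filter_subset _ _
  have hsub : leaves.filter (fun L => ∃ I', L ≤ I' ∧ S.Bad p dp dh I') ⊆ A1 ∪ A2 := by
    intro L hL
    rw [Finset.mem_filter] at hL
    obtain ⟨hLl, I', hLI, hbad⟩ := hL
    rw [Finset.mem_union]
    rcases (col_bad_iff S p dp dh I').mp hbad with h | h
    · left
      rw [hA1, Finset.mem_filter]
      exact ⟨hLl, I', hLI, h⟩
    · right
      rw [hA2, Finset.mem_filter]
      exact ⟨hLl, I', hLI, h⟩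
  calc ∑ L ∈ leaves.filter (fun L => ∃ I', L ≤ I' ∧ S.Bad p dp dh I'), μ L
      ≤ ∑ L ∈ A1 ∪ A2, μ L :=
        Finset.sum_le_sum_of_subset_of_nonneg hsub
          (fun L hL _ => hμ L ((Finset.union_subset hA1s hA2s) hL))
    _ ≤ ∑ L ∈ A1, μ L + ∑ L ∈ A2, μ L := by
        rw [← Finset.sum_union_inter]
        have : 0 ≤ ∑ L ∈ A1 ∩ A2, μ L :=
          Finset.sum_nonneg (fun L hL => hμ L (hA1s (Finset.mem_inter.mp hL).1))
        linarith
    _ ≤ (p.N1 D : ℝ) * (63 / 64 : ℝ) ^ p.d0 * ∑ L ∈ leaves, μ L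
          + (p.N2 D : ℝ) * (63 / 64 : ℝ) ^ p.d0 * ∑ L ∈ leaves, μ L := add_le_add hsum1 hsum2
    _ = ((p.N1 D + p.N2 D : ℕ) : ℝ) * (63 / 64 : ℝ) ^ p.d0 * ∑ L ∈ leaves, μ L := by push_cast; ring

end Claimed.Agent.R258
end

/- ===== packed: Claimed.Agent.R258.Color.Adapter ===== -/
section
/-
Row 258, block [COLOR].  GLUE (helper63): from the interface types of `Loc/Basic.lean`, `Loc/ColourSys.lean` (helper68) to the internal chain `Color/*`,
and back: the construction is a `LocColourSys B (ColGrp V)`;  `loc_colourSys_exists` (Lemmas color-budget and historical-masks in interface form).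
-/
set_option autoImplicit false
open Classical

namespace Claimed.Agent.R258

variable {Cell V Tag : Type*} [LocForest Cell]

/-- internal parameters -/
def LocParams.colPar (p : LocParams) : ColPar := ⟨p.d0, p.Hmax⟩

theorem loc_colPar_b1 (p : LocParams) : p.colPar.b1 = p.b1 := by
  rw [ColPar.col_b1_eq]; rfl

theorem loc_colPar_b2 (p : LocParams) : p.colPar.b2 = p.b2 := rfl

/-- the cap of the distances -/
def LocParams.capK (p : LocParams) : ℕ := (p.d0 + 6) * p.b1

/-- the internal vertex system: capped distances, 0-based admission indices -/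
noncomputable def LocBase.colSys (B : LocBase Cell V Tag) : ColSys Cell V where
  depth := depth
  dist := fun s v w => col_cap B.p.capK (B.T.d s (B.tag v) (B.tag w))
  pres := B.pres
  adm := fun v => B.adm v - 1

theorem LocBase.colSys_valid (B : LocBase Cell V Tag) : B.colSys.Valid B.p.D where
  depth_mono := fun h => loc_depth_le h
  chain := fun h h' => loc_le_total h h'
  pres_mono := fun h => B.pres_mono h
  dist_self := fun s a => by
    show col_cap _ (B.T.d s (B.tag a) (B.tag a)) = 0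
    rw [B.T.d_self, col_cap_zero]
  dist_symm := fun s a b => by
    show col_cap _ (B.T.d s (B.tag a) (B.tag b)) = col_cap _ (B.T.d s (B.tag b) (B.tag a))
    rw [B.T.d_symm]
  dist_tri := fun s a b c => col_cap_add _ (B.T.d_tri s _ _ _)
  dist_anti := fun a b h => col_cap_mono _ (B.T.d_anti _ _ _ _ h)
  card_le := B.card_le
  adm_inj := fun I v hv w hw h => by
    have hv' : v ∈ B.pres I := hv
    have hw' : w ∈ B.pres I := hw
    have h1 := B.adm_pos hv'
    have h2 := B.adm_pos hw'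
    have h3 : B.adm v - 1 = B.adm w - 1 := h
    exact B.adm_inj hv' hw' (by omega)
  adm_lt := fun I v hv => by
    have hv' : v ∈ B.pres I := hv
    have h1 := B.adm_pos hv'
    have h2 := B.adm_le hv'
    show B.adm v - 1 < (B.pres I).card
    omega

theorem LocBase.colSys_dist_le (B : LocBase Cell V Tag) (s : ℤ) (v w : V) :
    B.colSys.dist s v w ≤ (B.p.colPar.d0 + 6) * B.p.colPar.b1 := by
  rw [loc_colPar_b1]
  exact col_cap_le _ _

theorem LocBase.colSys_dist_le_iff (B : LocBase Cell V Tag) {h : ℕ} (hh : h < B.p.capK) (s : ℤ) (v w : V) :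
    B.colSys.dist s v w ≤ h ↔ B.T.d s (B.tag v) (B.tag w) ≤ (h : ℕ∞) :=
  col_cap_le_iff hh _

/-- `(d0+1) b1 + Hmax` is below the cap -/
theorem loc_path_lt_capK {p : LocParams} (hd : 10 ≤ p.d0) : (p.d0 + 1) * p.b1 + p.Hmax < p.capK := by
  have h1 : p.colPar.Hm + 10 < p.colPar.b1 := p.colPar.col_Hm_lt_b1 hd
  rw [loc_colPar_b1] at h1
  have h2 : p.colPar.Hm = p.Hmax := rfl
  rw [h2] at h1
  unfold LocParams.capK
  nlinarith

theorem loc_Hmax_lt_capK {p : LocParams} (hd : 10 ≤ p.d0) : p.Hmax < p.capK :=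
  lt_of_le_of_lt (Nat.le_add_left _ _) (loc_path_lt_capK hd)

/-- the data of the colouring attached to delay arrays -/
noncomputable def LocBase.colData (B : LocBase Cell V Tag) (dp dh : ℕ → V → ℕ) : LocColourData B (ColGrp V) where
  colour := fun I v => (B.colSys.grp B.p.colPar dp dh I v).col B.p.colPar
  cen := fun I v => if B.colSys.ok B.p.colPar dp dh I v then some (B.colSys.grp B.p.colPar dp dh I v) else none
  gcol := fun G => G.col B.p.colPar
  centre := fun G => G.z
  mask := fun G h I => (B.colSys.mask B.p.colPar dp dh G h I : Set V)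

theorem LocBase.colData_cen_iff (B : LocBase Cell V Tag) (dp dh : ℕ → V → ℕ) (I : Cell) (v : V) (G : ColGrp V) :
    (B.colData dp dh).cen I v = some G ↔
      B.colSys.ok B.p.colPar dp dh I v ∧ B.colSys.grp B.p.colPar dp dh I v = G := by
  unfold LocBase.colData
  by_cases h : B.colSys.ok B.p.colPar dp dh I v
  · simp [h]
  · simp [h]

theorem LocBase.colData_use_iff (B : LocBase Cell V Tag) (dp dh : ℕ → V → ℕ) (G : ColGrp V) (I : Cell) :
    (B.colData dp dh).use G I ↔ B.colSys.use B.p.colPar dp dh G I := by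
  unfold LocColourData.use ColSys.use ColSys.Wit
  constructor
  · rintro ⟨v, hv, hc⟩
    exact ⟨v, hv, (B.colData_cen_iff dp dh I v G).mp hc⟩
  · rintro ⟨v, hv, hc⟩
    exact ⟨v, hv, (B.colData_cen_iff dp dh I v G).mpr hc⟩

theorem LocBase.colData_good_iff (B : LocBase Cell V Tag) (dp dh : ℕ → V → ℕ) (I : Cell) :
    (B.colData dp dh).good I ↔ ¬ ∃ I', I ≤ I' ∧ B.colSys.Bad B.p.colPar dp dh I' := by
  unfold LocColourData.good ColSys.Bad
  constructor
  · rintro h ⟨I', hI, v, hv, hnot⟩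
    have h1 := h I' hI v hv
    have h2 : (B.colData dp dh).cen I' v = none := by
      unfold LocBase.colData
      simp [hnot]
    rw [h2] at h1
    simp at h1
  · intro h I' hI v hv
    by_contra hno
    apply h
    refine ⟨I', hI, v, hv, fun hok => hno ?_⟩
    have h2 : (B.colData dp dh).cen I' v = some (B.colSys.grp B.p.colPar dp dh I' v) := by
      unfold LocBase.colData
      simp [hok]
    rw [h2]
    rfl

/-- Lemma color-budget (deterministic part) and Lemma historical-masks for the construction. -/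
noncomputable def LocBase.colourSys (B : LocBase Cell V Tag) (dp dh : ℕ → V → ℕ)
    (H : B.colSys.Std B.p.colPar B.p.D dp dh) : LocColourSys B (ColGrp V) where
  toLocColourData := B.colData dp dh
  colour_pos := fun I v hv => (col_col_range H.d0_ge (col_grp_inRange H (I := I) hv)).1
  colour_le := fun I v hv => (col_col_range H.d0_ge (col_grp_inRange H (I := I) hv)).2
  colour_anti := fun I J v hJ hv => col_colour_anti H hJ hv
  gcol_cen := fun I v G _ hc => by
    have := ((B.colData_cen_iff dp dh I v G).mp hc).2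
    show G.col B.p.colPar = (B.colSys.grp B.p.colPar dp dh I v).col B.p.colPar
    rw [this]
  mask_pres := fun G h I => by
    intro b hb
    exact col_mask_present B.colSys B.p.colPar dp dh G h I hb
  mask_pad := fun G h h' I hh => by
    intro b hb
    exact col_mask_pad B.colSys B.p.colPar dp dh G hh I hb
  mask_depth := fun G h I J hJ => by
    intro b hb
    exact col_mask_depth H G h hJ hb
  mask_hist := fun G h I hne => by
    obtain ⟨b, hb⟩ := hne
    have hb' : b ∈ B.colSys.mask B.p.colPar dp dh G h I := hb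
    obtain ⟨_, I0, v0, hI0, hW, _⟩ := col_mem_mask_iff.mp hb'
    exact ⟨I0, hI0, (B.colData_use_iff dp dh G I0).mpr ⟨v0, hW⟩⟩
  centre_pres := fun G I hu => by
    obtain ⟨v, hW⟩ := (B.colData_use_iff dp dh G I).mp hu
    exact (col_wit_facts H hW).z_mem
  mask_incl := fun I v G b h hv hc hb hh hd => by
    have hW : B.colSys.Wit B.p.colPar dp dh G I v := ⟨hv, (B.colData_cen_iff dp dh I v G).mp hc⟩
    have hd' : B.colSys.dist (B.colSys.depth I) b v ≤ h :=
      (B.colSys_dist_le_iff (lt_of_le_of_lt hh (loc_Hmax_lt_capK H.d0_ge)) _ _ _).mpr hd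
    exact col_mask_incl H hW hb hh hd'
  mask_nbr := fun G I h b b' hu hh hb hb' hd => by
    have hu' := (B.colData_use_iff dp dh G I).mp hu
    have h1 : 1 < B.p.capK := by
      have := loc_path_lt_capK (p := B.p) H.d0_ge
      have h2 : 0 < B.p.b1 := by
        rw [← loc_colPar_b1]; exact B.p.colPar.col_b1_pos H.d0_ge
      have h3 : 10 ≤ B.p.d0 := H.d0_ge
      nlinarith
    have hd' : B.colSys.dist (B.colSys.depth I) b b' ≤ 1 :=
      (B.colSys_dist_le_iff h1 _ _ _).mpr (by exact_mod_cast hd)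
    exact col_mask_nbr H hu' hh hb hb' hd'
  mask_path := fun G h I b hh hb => by
    have h1 := col_mask_path H (G := G) (h := h) (I := I) (b := b) hb hh
    rw [loc_colPar_b1] at h1
    exact (B.colSys_dist_le_iff (loc_path_lt_capK H.d0_ge) _ _ _).mp h1
  mask_sep := by
    intro G G' I J h h' b b' hG hcol hJ hcase hh hh'
    rcases hcase with ⟨_, hu', hb, hb'⟩ | ⟨hu, _, hb, hb'⟩
    · obtain ⟨_, u, huJ, huse⟩ := hu'
      have := col_mask_sep H hG hcol hJ huJ ((B.colData_use_iff dp dh G' u).mp huse) hb hb' hh hh'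
      exact_mod_cast col_lt_of_lt_cap this
    · obtain ⟨_, u, huJ, huse⟩ := hu
      have := col_mask_sep H hG.symm hcol.symm hJ huJ ((B.colData_use_iff dp dh G u).mp huse) hb' hb hh' hh
      have h2 := col_lt_of_lt_cap this
      rw [B.T.d_symm] at h2
      exact_mod_cast h2
  grp_count := fun J => by
    obtain ⟨F, hF, hmem⟩ := col_grp_count H J
    refine ⟨F, hF.trans ?_, ?_⟩
    · exact Nat.mul_le_mul_left _ ((B.p.colPar.col_KP_le H.d0_ge).trans (Nat.le_succ _))
    · intro G I hJI hu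
      obtain ⟨v, hv, _, hg⟩ := (B.colData_use_iff dp dh G I).mp hu
      rw [← hg]
      exact hmem I v hJI hv

/-- bound for the probability that some required marking fails on a fixed path -/
noncomputable def LocParams.fail (p : LocParams) : ℝ :=
  ((p.colPar.N1 p.D + p.colPar.N2 p.D : ℕ) : ℝ) * (63 / 64 : ℝ) ^ p.d0

/-- Lemmas color-budget and historical-masks in interface form. -/
theorem loc_colourSys_exists (B : LocBase Cell V Tag) (hp : B.p.Adm) (leaves : Finset Cell)
    (μ : Cell → ℝ) (hμ : ∀ L ∈ leaves, 0 ≤ μ L) :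
    ∃ X : LocColourSys B (ColGrp V),
      ∑ L ∈ leaves with ¬ X.good L, μ L ≤ B.p.fail * ∑ L ∈ leaves, μ L := by
  obtain ⟨dp, dh, H, hsum⟩ := col_exists B.colSys_valid B.p.colPar hp.d0_ge hp.D_le hp.D_lt B.colSys_dist_le
    leaves μ hμ
  refine ⟨B.colourSys dp dh H, ?_⟩
  have hfil : (leaves.filter fun L => ¬ (B.colourSys dp dh H).good L)
      = leaves.filter (fun L => ∃ I', L ≤ I' ∧ B.colSys.Bad B.p.colPar dp dh I') := by
    apply Finset.filter_congr
    intro L _
    have := B.colData_good_iff dp dh L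
    constructor
    · intro h
      by_contra hno
      exact h (this.mpr hno)
    · intro h hg
      exact (this.mp hg) h
  rw [hfil]
  exact hsum

end Claimed.Agent.R258
end

/- ===== packed: Claimed.Agent.R258.Color.Transport ===== -/
section
/-
Row 258, block [COLOR].  GLUE (helper63): transport of a `LocColourSys` along an injection of the group types; groups = `ℕ`.
-/
set_option autoImplicit false
open Classical

namespace Claimed.Agent.R258

variable {Cell V Tag : Type*} [LocForest Cell]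

section Transport
variable {B : LocBase Cell V Tag} {Grp Grp' : Type*}

/-- partial inverse of a map -/
noncomputable def col_pinv (e : Grp → Grp') (n : Grp') : Option Grp :=
  if h : ∃ G, e G = n then some h.choose else none

theorem col_pinv_apply {e : Grp → Grp'} (he : Function.Injective e) (G : Grp) : col_pinv e (e G) = some G := by
  unfold col_pinv
  have h : ∃ G', e G' = e G := ⟨G, rfl⟩
  rw [dif_pos h]
  exact congrArg some (he h.choose_spec)

theorem col_pinv_none {e : Grp → Grp'} {n : Grp'} (h : ¬ ∃ G, e G = n) : col_pinv e n = none := by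
  unfold col_pinv
  rw [dif_neg h]

/-- transported data -/
noncomputable def LocColourData.mapGrp (X : LocColourData B Grp) (e : Grp → Grp') (v0 : V) : LocColourData B Grp' where
  colour := X.colour
  cen := fun I v => (X.cen I v).map e
  gcol := fun n => (col_pinv e n).elim 0 X.gcol
  centre := fun n => (col_pinv e n).elim v0 X.centre
  mask := fun n h I => (col_pinv e n).elim ∅ (fun G => X.mask G h I)

variable (X : LocColourData B Grp) {e : Grp → Grp'} (he : Function.Injective e) (v0 : V)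

include he in
theorem LocColourData.mapGrp_gcol (G : Grp) : (X.mapGrp e v0).gcol (e G) = X.gcol G := by
  simp [LocColourData.mapGrp, col_pinv_apply he]

include he in
theorem LocColourData.mapGrp_centre (G : Grp) : (X.mapGrp e v0).centre (e G) = X.centre G := by
  simp [LocColourData.mapGrp, col_pinv_apply he]

include he in
theorem LocColourData.mapGrp_mask (G : Grp) (h : ℕ) (I : Cell) : (X.mapGrp e v0).mask (e G) h I = X.mask G h I := by
  simp [LocColourData.mapGrp, col_pinv_apply he]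

theorem LocColourData.mapGrp_mask_none {n : Grp'} (hn : ¬ ∃ G, e G = n) (h : ℕ) (I : Cell) :
    (X.mapGrp e v0).mask n h I = ∅ := by
  simp [LocColourData.mapGrp, col_pinv_none hn]

include he in
theorem LocColourData.mapGrp_cen_iff (I : Cell) (v : V) (G : Grp) :
    (X.mapGrp e v0).cen I v = some (e G) ↔ X.cen I v = some G := by
  show (X.cen I v).map e = some (e G) ↔ _
  rw [Option.map_eq_some_iff]
  constructor
  · rintro ⟨G', h1, h2⟩
    rw [h1, he h2]
  · intro h
    exact ⟨G, h, rfl⟩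

theorem LocColourData.mapGrp_cen_range {I : Cell} {v : V} {n : Grp'} (h : (X.mapGrp e v0).cen I v = some n) :
    ∃ G, e G = n := by
  have h' : (X.cen I v).map e = some n := h
  rw [Option.map_eq_some_iff] at h'
  obtain ⟨G, _, h2⟩ := h'
  exact ⟨G, h2⟩

include he in
theorem LocColourData.mapGrp_use_iff (G : Grp) (I : Cell) : (X.mapGrp e v0).use (e G) I ↔ X.use G I := by
  unfold LocColourData.use
  constructor
  · rintro ⟨v, hv, h⟩
    exact ⟨v, hv, (X.mapGrp_cen_iff he v0 I v G).mp h⟩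
  · rintro ⟨v, hv, h⟩
    exact ⟨v, hv, (X.mapGrp_cen_iff he v0 I v G).mpr h⟩

theorem LocColourData.mapGrp_use_range {n : Grp'} {I : Cell} (h : (X.mapGrp e v0).use n I) : ∃ G, e G = n := by
  obtain ⟨v, _, hc⟩ := h
  exact X.mapGrp_cen_range v0 hc

include he in
theorem LocColourData.mapGrp_usable_iff (G : Grp) (I : Cell) : (X.mapGrp e v0).usable (e G) I ↔ X.usable G I := by
  unfold LocColourData.usable
  simp only [X.mapGrp_mask he v0, X.mapGrp_use_iff he v0]

theorem LocColourData.mapGrp_good_iff (I : Cell) : (X.mapGrp e v0).good I ↔ X.good I := by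
  unfold LocColourData.good
  simp only [LocColourData.mapGrp, Option.isSome_map]

theorem LocColourData.mapGrp_mem_mask_range {n : Grp'} {h : ℕ} {I : Cell} {b : V}
    (hb : b ∈ (X.mapGrp e v0).mask n h I) : ∃ G, e G = n := by
  by_contra hn
  rw [X.mapGrp_mask_none v0 hn] at hb
  exact hb

end Transport

/-- transport of a colouring along an injection of the group types -/
noncomputable def LocColourSys.mapGrp {B : LocBase Cell V Tag} {Grp Grp' : Type*} (X : LocColourSys B Grp)
    (e : Grp → Grp') (he : Function.Injective e) (v0 : V) : LocColourSys B Grp' where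
  toLocColourData := X.toLocColourData.mapGrp e v0
  colour_pos := X.colour_pos
  colour_le := X.colour_le
  colour_anti := X.colour_anti
  gcol_cen := fun I v n hv hc => by
    obtain ⟨G, rfl⟩ := X.toLocColourData.mapGrp_cen_range v0 hc
    rw [X.toLocColourData.mapGrp_gcol he v0]
    exact X.gcol_cen I v G hv ((X.toLocColourData.mapGrp_cen_iff he v0 I v G).mp hc)
  mask_pres := fun n h I b hb => by
    obtain ⟨G, rfl⟩ := X.toLocColourData.mapGrp_mem_mask_range v0 hb
    rw [X.toLocColourData.mapGrp_mask he v0] at hb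
    exact X.mask_pres G h I hb
  mask_pad := fun n h h' I hh b hb => by
    obtain ⟨G, rfl⟩ := X.toLocColourData.mapGrp_mem_mask_range v0 hb
    rw [X.toLocColourData.mapGrp_mask he v0] at hb ⊢
    exact X.mask_pad G h h' I hh hb
  mask_depth := fun n h I J hJ b hb => by
    obtain ⟨G, rfl⟩ := X.toLocColourData.mapGrp_mem_mask_range v0 hb
    rw [X.toLocColourData.mapGrp_mask he v0] at hb ⊢
    exact X.mask_depth G h I J hJ hb
  mask_hist := fun n h I hne => by
    obtain ⟨b, hb⟩ := hne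
    obtain ⟨G, rfl⟩ := X.toLocColourData.mapGrp_mem_mask_range v0 hb
    rw [X.toLocColourData.mapGrp_mask he v0] at hb
    obtain ⟨I0, hI0, hu⟩ := X.mask_hist G h I ⟨b, hb⟩
    exact ⟨I0, hI0, (X.toLocColourData.mapGrp_use_iff he v0 G I0).mpr hu⟩
  centre_pres := fun n I hu => by
    obtain ⟨G, rfl⟩ := X.toLocColourData.mapGrp_use_range v0 hu
    rw [X.toLocColourData.mapGrp_centre he v0]
    exact X.centre_pres G I ((X.toLocColourData.mapGrp_use_iff he v0 G I).mp hu)
  mask_incl := fun I v n b h hv hc hb hh hd => by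
    obtain ⟨G, rfl⟩ := X.toLocColourData.mapGrp_cen_range v0 hc
    rw [X.toLocColourData.mapGrp_mask he v0]
    exact X.mask_incl I v G b h hv ((X.toLocColourData.mapGrp_cen_iff he v0 I v G).mp hc) hb hh hd
  mask_nbr := fun n I h b b' hu hh hb hb' hd => by
    obtain ⟨G, rfl⟩ := X.toLocColourData.mapGrp_use_range v0 hu
    rw [X.toLocColourData.mapGrp_mask he v0] at hb ⊢
    exact X.mask_nbr G I h b b' ((X.toLocColourData.mapGrp_use_iff he v0 G I).mp hu) hh hb hb' hd
  mask_path := fun n h I b hh hb => by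
    obtain ⟨G, rfl⟩ := X.toLocColourData.mapGrp_mem_mask_range v0 hb
    rw [X.toLocColourData.mapGrp_mask he v0] at hb
    rw [X.toLocColourData.mapGrp_centre he v0]
    exact X.mask_path G h I b hh hb
  mask_sep := by
    intro n n' I J h h' b b' hne hcol hJ hcase hh hh'
    have hr : (∃ G, e G = n) ∧ ∃ G', e G' = n' := by
      rcases hcase with ⟨_, _, hb, hb'⟩ | ⟨_, _, hb, hb'⟩
      · exact ⟨X.toLocColourData.mapGrp_mem_mask_range v0 hb, X.toLocColourData.mapGrp_mem_mask_range v0 hb'⟩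
      · exact ⟨X.toLocColourData.mapGrp_mem_mask_range v0 hb, X.toLocColourData.mapGrp_mem_mask_range v0 hb'⟩
    obtain ⟨⟨G, rfl⟩, ⟨G', rfl⟩⟩ := hr
    have hne' : G ≠ G' := fun h => hne (congrArg e h)
    rw [X.toLocColourData.mapGrp_gcol he v0, X.toLocColourData.mapGrp_gcol he v0] at hcol
    simp only [X.toLocColourData.mapGrp_mask he v0, X.toLocColourData.mapGrp_usable_iff he v0] at hcase
    exact X.mask_sep G G' I J h h' b b' hne' hcol hJ hcase hh hh'
  grp_count := fun J => by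
    obtain ⟨F, hF, hmem⟩ := X.grp_count J
    refine ⟨F.image e, Finset.card_image_le.trans hF, ?_⟩
    intro n I hJI hu
    obtain ⟨G, rfl⟩ := X.toLocColourData.mapGrp_use_range v0 hu
    exact Finset.mem_image_of_mem e (hmem G I hJI ((X.toLocColourData.mapGrp_use_iff he v0 G I).mp hu))

theorem LocColourSys.mapGrp_good_iff {B : LocBase Cell V Tag} {Grp Grp' : Type*} (X : LocColourSys B Grp)
    (e : Grp → Grp') (he : Function.Injective e) (v0 : V) (I : Cell) : (X.mapGrp e he v0).good I ↔ X.good I :=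
  X.toLocColourData.mapGrp_good_iff v0 I

/-- groups over a countable vertex type can be numbered -/
theorem col_grp_countable (V : Type*) [Countable V] : Countable (ColGrp V) := by
  have hinj : Function.Injective
      (fun G : ColGrp V => (((G.r, G.g), (G.z, G.W)), ((G.lev, G.l), (G.n, G.r2)), ((G.g2, G.a), G.pot))) := by
    intro G G' h
    simp only [Prod.mk.injEq] at h
    obtain ⟨⟨⟨h1, h2⟩, h3, h4⟩, ⟨⟨h5, h6⟩, h7, h8⟩, ⟨h9, h10⟩, h11⟩ := h
    exact ColGrp.ext h1 h2 h3 h4 h5 h6 h7 h8 h9 h10 h11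
  exact hinj.countable

/-- Lemmas color-budget and historical-masks in interface form, groups numbered by `ℕ`. -/
theorem loc_colourSys_exists_nat [Countable V] [Nonempty V] (B : LocBase Cell V Tag) (hp : B.p.Adm)
    (leaves : Finset Cell) (μ : Cell → ℝ) (hμ : ∀ L ∈ leaves, 0 ≤ μ L) :
    ∃ X : LocColourSys B ℕ,
      ∑ L ∈ leaves with ¬ X.good L, μ L ≤ B.p.fail * ∑ L ∈ leaves, μ L := by
  obtain ⟨X, hX⟩ := loc_colourSys_exists B hp leaves μ hμ
  have := col_grp_countable V
  obtain ⟨e, he⟩ := exists_injective_nat (ColGrp V)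
  refine ⟨X.mapGrp e he (Classical.arbitrary V), ?_⟩
  have hfil : (leaves.filter fun L => ¬ (X.mapGrp e he (Classical.arbitrary V)).good L)
      = leaves.filter (fun L => ¬ X.good L) := by
    apply Finset.filter_congr
    intro L _
    rw [X.mapGrp_good_iff e he]
  rw [hfil]
  exact hX

end Claimed.Agent.R258
end

/- ===== packed: Claimed.Agent.R258.Color.Stops ===== -/
section
/-
Row 258, block [COLOR].  GLUE (helper63): the existence theorem on the concrete dyadic cells, in the format "stops" of the captain's memo #3: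
the first cells where a required marking fails form a `CellStops R ε`.
-/
set_option autoImplicit false
open Classical

namespace Claimed.Agent.R258

/-- an upward closed "good" predicate whose bad leaves of generation `n` are short: the first bad cells are stops -/
theorem col_stops_of_leaves (R : Cell) (n : ℕ) (good : Cell → Prop) (hup : ∀ I J : Cell, J ≤ I → good J → good I)
    {ε : ℝ} (hε : ε < 1) (hsum : ∑ L ∈ (cellsAt R n).filter (fun L => ¬ good L), L.len ≤ ε * R.len) :
    CellStops R ε (cellFirst (cellsUpTo R n) (fun I => ¬ good I)) := by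
  set stops := cellFirst (cellsUpTo R n) (fun I => ¬ good I) with hstops
  have hanti : IsAntichain (· ≤ ·) (stops : Set Cell) := cell_first_antichain _ _
  have hsub : ∀ K ∈ stops, K ≤ R ∧ K.depth ≤ R.depth + n := fun K hK =>
    cell_mem_cellsUpTo.1 (cell_first_subset _ _ hK)
  have hbad : ∀ K ∈ stops, ¬ good K := fun K hK => cell_first_bad hK
  -- the root is good
  have hR : good R := by
    by_contra hRbad
    have hall : (cellsAt R n).filter (fun L => ¬ good L) = cellsAt R n := by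
      apply Finset.filter_true_of_mem
      intro L hL hg
      exact hRbad (hup R L (cell_mem_cellsAt'.1 hL).1 hg)
    rw [hall, cell_sum_len_cellsAt] at hsum
    have := cell_len_pos R
    nlinarith
  refine ⟨?_, hanti, ?_⟩
  · intro K hK
    rcases lt_or_eq_of_le (hsub K hK).1 with h | h
    · exact h
    · exact absurd (h ▸ hR) (hbad K hK)
  · -- every stop is the union of its leaves, which are bad
    let t : Cell → ℕ := fun K => (R.depth + n - K.depth).toNat
    have hleaf : ∀ K ∈ stops, cellsAt K (t K) ⊆ (cellsAt R n).filter (fun L => ¬ good L) := by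
      intro K hK L hL
      obtain ⟨hLK, hLd⟩ := cell_mem_cellsAt'.1 hL
      obtain ⟨hKR, hKd⟩ := hsub K hK
      rw [Finset.mem_filter, cell_mem_cellsAt']
      refine ⟨⟨le_trans hLK hKR, ?_⟩, fun hg => hbad K hK (hup K L hLK hg)⟩
      rw [hLd]
      have : ((t K : ℕ) : ℤ) = R.depth + n - K.depth := Int.toNat_of_nonneg (by omega)
      omega
    have hdisj : Set.PairwiseDisjoint (stops : Set Cell) (fun K => cellsAt K (t K)) := by
      intro K hK K' hK' hne
      rw [Function.onFun, Finset.disjoint_left]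
      intro L hL hL'
      exact hne (cell_stop_unique hanti hK hK' (cell_mem_cellsAt'.1 hL).1 (cell_mem_cellsAt'.1 hL').1)
    calc ∑ K ∈ stops, K.len = ∑ K ∈ stops, ∑ L ∈ cellsAt K (t K), L.len :=
          Finset.sum_congr rfl (fun K _ => (cell_sum_len_cellsAt K (t K)).symm)
      _ = ∑ L ∈ stops.biUnion (fun K => cellsAt K (t K)), L.len := (Finset.sum_biUnion hdisj).symm
      _ ≤ ∑ L ∈ (cellsAt R n).filter (fun L => ¬ good L), L.len :=
          Finset.sum_le_sum_of_subset_of_nonneg (Finset.biUnion_subset.2 hleaf)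
            (fun L _ _ => cell_len_nonneg L)
      _ ≤ ε * R.len := hsum

/-- **Lemma color-budget + Lemma historical-masks on the dyadic cells**: a colouring, with groups numbered by `ℕ`, and stops of total length
`≤ ε |R|` such that every retained cell of the finite set `T` is good. -/
theorem loc_colourSys_stops {V Tag : Type*} [Countable V] [Nonempty V] (B : LocBase Cell V Tag) (hp : B.p.Adm)
    {ε : ℝ} (hε : ε < 1) (hfail : B.p.fail ≤ ε) (R : Cell) (T : Finset Cell) (hT : ∀ I ∈ T, I ≤ R) :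
    ∃ (X : LocColourSys B ℕ) (stops : Finset Cell), CellStops R ε stops ∧
      ∀ I ∈ T, cellRetained stops I → X.good I := by
  obtain ⟨n, hn⟩ := cell_exists_cellsUpTo R T hT
  obtain ⟨X, hX⟩ := loc_colourSys_exists_nat B hp (cellsAt R n) Cell.len (fun L _ => cell_len_nonneg L)
  rw [cell_sum_len_cellsAt] at hX
  have hsum : ∑ L ∈ (cellsAt R n).filter (fun L => ¬ X.good L), L.len ≤ ε * R.len :=
    hX.trans (mul_le_mul_of_nonneg_right hfail (cell_len_nonneg R))
  refine ⟨X, cellFirst (cellsUpTo R n) (fun I => ¬ X.good I),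
    col_stops_of_leaves R n X.good (fun I J hJ hg => X.good_mono hJ hg) hε hsum, ?_⟩
  intro I hI hret
  have := cell_first_retained (hn hI) hret
  exact not_not.mp this

end Claimed.Agent.R258
end

/- ===== packed: Claimed.Agent.R258.S3.PrefixCor ===== -/
section
/-
Row 258 (S0498), block [S3] = Sec. 3 compression.tex (architect helper93).
COROLLARIES of `lem:projection-prefixes` (captain's msg 10003 (4)), abstract Hilbert space:
 (a) factors `P` or `1 - P` (`s3_ZF`, flags `c i`), constant `(1 + L_T)^m`;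
 (b) coupled finite averages / signed sums (`s3_prefix_rows_avg`, `s3_prefix_jumps_avg`), cost `∑ ‖w_ω‖`;
 (c) jumps over pairwise disjoint index intervals `(a κ, b κ]` (`s3_prefix_jumps`);
 (d) row version `∑_κ ‖(Q_{b κ} - Q_{a κ}) Z_{a κ} g‖²` (`s3_prefix_row_blocks`).
-/
set_option autoImplicit false
set_option linter.unusedSectionVars false

namespace Claimed.Agent.R258

open scoped InnerProductSpace

variable {𝕜 X : Type*} [RCLike 𝕜] [NormedAddCommGroup X] [InnerProductSpace 𝕜 X]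

/-- Minkowski in `ℓ²` for finitely many weighted summands, squared form. -/
theorem s3_sum_sq_avg {ι Ω : Type*} (s : Finset ι) (t : Finset Ω) (a : Ω → ℝ) (x : Ω → ι → ℝ) (c : ℝ) (hc : 0 ≤ c)
    (ha : ∀ ω ∈ t, 0 ≤ a ω) (hx0 : ∀ ω ∈ t, ∀ ν ∈ s, 0 ≤ x ω ν) (hx : ∀ ω ∈ t, ∑ ν ∈ s, x ω ν ^ 2 ≤ c ^ 2) :
    ∑ ν ∈ s, (∑ ω ∈ t, a ω * x ω ν) ^ 2 ≤ ((∑ ω ∈ t, a ω) * c) ^ 2 := by
  classical
  induction t using Finset.induction_on with
  | empty => simp
  | insert ω t hω ih =>
    have ih' := ih (fun ω' h => ha ω' (Finset.mem_insert_of_mem h)) (fun ω' h => hx0 ω' (Finset.mem_insert_of_mem h))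
      (fun ω' h => hx ω' (Finset.mem_insert_of_mem h))
    have haω := ha ω (Finset.mem_insert_self _ _)
    have hsum : 0 ≤ ∑ ω' ∈ t, a ω' := Finset.sum_nonneg fun ω' h => ha ω' (Finset.mem_insert_of_mem h)
    rw [Finset.sum_insert hω, add_mul]
    refine s3_sum_sq_add_le s _ (fun ν => a ω * x ω ν) (fun ν => ∑ ω' ∈ t, a ω' * x ω' ν) _ _
      (by positivity) (by positivity) ?_ ?_ ?_ ih'
    · intro ν hν
      exact Finset.sum_nonneg fun ω' h => mul_nonneg (ha ω' h) (hx0 ω' h ν hν)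
    · intro ν _; rw [Finset.sum_insert hω]
    · calc ∑ ν ∈ s, (a ω * x ω ν) ^ 2 = a ω ^ 2 * ∑ ν ∈ s, x ω ν ^ 2 := by
            rw [Finset.mul_sum]; exact Finset.sum_congr rfl fun ν _ => by ring
        _ ≤ a ω ^ 2 * c ^ 2 := by gcongr; exact hx ω (Finset.mem_insert_self _ _)
        _ = (a ω * c) ^ 2 := by ring

/-- subadditivity of a seminorm over finite sums -/
theorem s3_seminorm_sum_le {Ω : Type*} (p : Seminorm 𝕜 X) (t : Finset Ω) (f : Ω → X) :
    p (∑ ω ∈ t, f ω) ≤ ∑ ω ∈ t, p (f ω) :=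
  Finset.le_sum_of_subadditive p (map_zero p).le (map_add_le_add p) t f

/-- a factor: `P n` or (flag `true`) `1 - P n` -/
def s3_fac (P : ℕ → X →ₗ[𝕜] X) (c : Bool) (n : ℕ) : X →ₗ[𝕜] X := if c then LinearMap.id - P n else P n

/-- the product of the first `m` layers with complement flags `c i` -/
def s3_ZF (P : ℕ → ℕ → X →ₗ[𝕜] X) (c : ℕ → Bool) : ℕ → ℕ → X →ₗ[𝕜] X
  | 0, _ => LinearMap.id
  | m + 1, n => (s3_fac (P m) (c m) n).comp (s3_ZF P c m n)

theorem s3_Nested.norm_compl_le {P : ℕ → X →ₗ[𝕜] X} (h : s3_Nested P) (n : ℕ) (x : X) : ‖x - P n x‖ ≤ ‖x‖ :=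
  s3_norm_compl_le (P n) (h.symm n) (fun x => h.fix n n x le_rfl) x

theorem s3_Nested.norm_fac_le {P : ℕ → X →ₗ[𝕜] X} (h : s3_Nested P) (c : Bool) (n : ℕ) (x : X) :
    ‖s3_fac P c n x‖ ≤ ‖x‖ := by
  unfold s3_fac
  split_ifs
  · simpa using h.norm_compl_le n x
  · exact h.norm_le n x

/-- one flagged layer -/
theorem s3_prefix_one_fac (P : ℕ → X →ₗ[𝕜] X) (hP : s3_Nested P) (c : Bool) (T : ℕ)
    {ι : Type*} (s : Finset ι) (B : ι → Seminorm 𝕜 X) (hB : ∀ h, ∑ ν ∈ s, (B ν h) ^ 2 ≤ ‖h‖ ^ 2)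
    (n : ι → ℕ) (hn : ∀ ν ∈ s, n ν ≤ T) (g : X) :
    ∑ ν ∈ s, (B ν (s3_fac P c (n ν) g)) ^ 2 ≤ (1 + (s3_LT T : ℝ)) ^ 2 * ‖g‖ ^ 2 := by
  have h1 := s3_prefix_one P hP T s B hB n hn g
  have hL := s3_LT_pos T
  unfold s3_fac
  split_ifs
  · rw [← mul_pow, add_mul, one_mul]
    refine s3_sum_sq_add_le s _ (fun ν => B ν g) (fun ν => B ν (P (n ν) g)) _ _ (norm_nonneg _) (by positivity)
      (fun _ _ => apply_nonneg _ _) ?_ (hB g) (by rw [mul_pow]; exact h1)
    intro ν _
    simpa using map_sub_le_add (B ν) g (P (n ν) g)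
  · refine h1.trans ?_
    gcongr
    linarith

/-- **(a)** first assertion of Lemma 3.3 with factors `P` or `1 - P`. -/
theorem s3_prefix_rows_fac (P : ℕ → ℕ → X →ₗ[𝕜] X) (c : ℕ → Bool) (m T : ℕ) (hP : ∀ i < m, s3_Nested (P i))
    {ι : Type*} (s : Finset ι) (B : ι → Seminorm 𝕜 X) (hB : ∀ h, ∑ ν ∈ s, (B ν h) ^ 2 ≤ ‖h‖ ^ 2)
    (n : ι → ℕ) (hn : ∀ ν ∈ s, n ν ≤ T) (g : X) :
    ∑ ν ∈ s, (B ν (s3_ZF P c m (n ν) g)) ^ 2 ≤ ((1 + (s3_LT T : ℝ)) ^ m) ^ 2 * ‖g‖ ^ 2 := by
  induction m generalizing B with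
  | zero => simpa [s3_ZF] using hB g
  | succ m ih =>
    have hL : (1 : ℝ) ≤ (s3_LT T : ℝ) := s3_LT_pos T
    set L : ℝ := 1 + (s3_LT T : ℝ) with hLdef
    have hL0 : (0 : ℝ) < L := by linarith
    let B' : ι → Seminorm 𝕜 X := fun ν => (Real.toNNReal L⁻¹) • (B ν).comp (s3_fac (P m) (c m) (n ν))
    have hB'v : ∀ ν h, B' ν h = L⁻¹ * B ν (s3_fac (P m) (c m) (n ν) h) := by
      intro ν h
      simp only [B', smul_apply, Seminorm.comp_apply, NNReal.smul_def, smul_eq_mul]
      rw [Real.coe_toNNReal _ (by positivity)]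
    have hB' : ∀ h, ∑ ν ∈ s, (B' ν h) ^ 2 ≤ ‖h‖ ^ 2 := by
      intro h
      have h1 := s3_prefix_one_fac (P m) (hP m (Nat.lt_succ_self m)) (c m) T s B hB n hn h
      have : ∑ ν ∈ s, (B' ν h) ^ 2 = (L⁻¹) ^ 2 * ∑ ν ∈ s, (B ν (s3_fac (P m) (c m) (n ν) h)) ^ 2 := by
        rw [Finset.mul_sum]; refine Finset.sum_congr rfl fun ν _ => ?_
        rw [hB'v, mul_pow]
      rw [this]
      calc (L⁻¹) ^ 2 * ∑ ν ∈ s, (B ν (s3_fac (P m) (c m) (n ν) h)) ^ 2 ≤ (L⁻¹) ^ 2 * (L ^ 2 * ‖h‖ ^ 2) := by gcongr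
        _ = ‖h‖ ^ 2 := by field_simp
    have h2 := ih (fun i hi => hP i (Nat.lt_succ_of_lt hi)) B' hB'
    have : ∑ ν ∈ s, (B ν (s3_ZF P c (m + 1) (n ν) g)) ^ 2 = L ^ 2 * ∑ ν ∈ s, (B' ν (s3_ZF P c m (n ν) g)) ^ 2 := by
      rw [Finset.mul_sum]; refine Finset.sum_congr rfl fun ν _ => ?_
      rw [hB'v, mul_pow]; simp only [s3_ZF, LinearMap.comp_apply]; field_simp
    rw [this]
    calc L ^ 2 * ∑ ν ∈ s, (B' ν (s3_ZF P c m (n ν) g)) ^ 2 ≤ L ^ 2 * ((L ^ m) ^ 2 * ‖g‖ ^ 2) := by gcongr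
      _ = (L ^ (m + 1)) ^ 2 * ‖g‖ ^ 2 := by ring

/-- **(d)** row version: increments of a further nested family `Q` over pairwise disjoint index intervals `(a κ, b κ]`, applied to the
product evaluated at the OLD index `a κ`. -/
theorem s3_prefix_row_blocks (P : ℕ → ℕ → X →ₗ[𝕜] X) (c : ℕ → Bool) (m T : ℕ) (hP : ∀ i < m, s3_Nested (P i))
    (Q : ℕ → X →ₗ[𝕜] X) (hQ : s3_Nested Q) {κ : Type*} (t : Finset κ) (a b : κ → ℕ) (hab : ∀ k ∈ t, a k ≤ b k)
    (haT : ∀ k ∈ t, a k ≤ T) (hdisj : ∀ k ∈ t, ∀ k' ∈ t, k ≠ k' → b k ≤ a k' ∨ b k' ≤ a k) (g : X) :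
    ∑ k ∈ t, ‖Q (b k) (s3_ZF P c m (a k) g) - Q (a k) (s3_ZF P c m (a k) g)‖ ^ 2
      ≤ ((1 + (s3_LT T : ℝ)) ^ m) ^ 2 * ‖g‖ ^ 2 := by
  let B : κ → Seminorm 𝕜 X := fun k => (normSeminorm 𝕜 X).comp (Q (b k) - Q (a k))
  have hB : ∀ h, ∑ k ∈ t, (B k h) ^ 2 ≤ ‖h‖ ^ 2 := fun h => hQ.bessel t a b hab hdisj h
  exact s3_prefix_rows_fac P c m T hP t B hB a haT g

theorem s3_prefix_jumps_aux (P : ℕ → ℕ → X →ₗ[𝕜] X) (c : ℕ → Bool) (m T : ℕ) (hP : ∀ i < m, s3_Nested (P i))
    {κ : Type*} (t : Finset κ) (a b : κ → ℕ) (hab : ∀ k ∈ t, a k ≤ b k)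
    (haT : ∀ k ∈ t, a k ≤ T) (hdisj : ∀ k ∈ t, ∀ k' ∈ t, k ≠ k' → b k ≤ a k' ∨ b k' ≤ a k) (g : X) :
    ∑ k ∈ t, ‖s3_ZF P c m (b k) g - s3_ZF P c m (a k) g‖ ^ 2
      ≤ ((∑ i ∈ Finset.range m, (1 + (s3_LT T : ℝ)) ^ i) * ‖g‖) ^ 2 := by
  induction m with
  | zero => simp [s3_ZF]
  | succ m ih =>
    have hL : (1 : ℝ) ≤ (s3_LT T : ℝ) := s3_LT_pos T
    have hPm := hP m (Nat.lt_succ_self m)
    have hP' : ∀ i < m, s3_Nested (P i) := fun i hi => hP i (Nat.lt_succ_of_lt hi)
    have ih' := ih hP'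
    have h2 := s3_prefix_row_blocks P c m T hP' (P m) hPm t a b hab haT hdisj g
    rw [Finset.sum_range_succ, add_mul]
    refine s3_sum_sq_add_le t _ (fun k => ‖s3_ZF P c m (b k) g - s3_ZF P c m (a k) g‖)
      (fun k => ‖P m (b k) (s3_ZF P c m (a k) g) - P m (a k) (s3_ZF P c m (a k) g)‖) _ _
      (by positivity) (by positivity) (fun _ _ => norm_nonneg _) ?_ ih' (by rw [mul_pow]; exact h2)
    intro k _
    set y := s3_ZF P c m (a k) g
    have h3 : s3_ZF P c (m + 1) (b k) g - s3_ZF P c (m + 1) (a k) g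
        = s3_fac (P m) (c m) (b k) (s3_ZF P c m (b k) g - y)
          + (s3_fac (P m) (c m) (b k) y - s3_fac (P m) (c m) (a k) y) := by
      simp only [s3_ZF, LinearMap.comp_apply, map_sub]; abel
    have h4 : ‖s3_fac (P m) (c m) (b k) y - s3_fac (P m) (c m) (a k) y‖ = ‖P m (b k) y - P m (a k) y‖ := by
      unfold s3_fac
      split_ifs
      · rw [← norm_neg]; congr 1
        simp only [LinearMap.sub_apply, LinearMap.id_apply]; abel
      · rfl
    rw [h3, ← h4]
    exact (norm_add_le _ _).trans (add_le_add_left (hPm.norm_fac_le _ _ _) _)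

/-- **(c)** second assertion of Lemma 3.3 for jumps over pairwise disjoint index intervals, factors `P` or `1 - P`. -/
theorem s3_prefix_jumps (P : ℕ → ℕ → X →ₗ[𝕜] X) (c : ℕ → Bool) (m T : ℕ) (hP : ∀ i < m, s3_Nested (P i))
    {κ : Type*} (t : Finset κ) (a b : κ → ℕ) (hab : ∀ k ∈ t, a k ≤ b k)
    (haT : ∀ k ∈ t, a k ≤ T) (hdisj : ∀ k ∈ t, ∀ k' ∈ t, k ≠ k' → b k ≤ a k' ∨ b k' ≤ a k) (g : X) :
    ∑ k ∈ t, ‖s3_ZF P c m (b k) g - s3_ZF P c m (a k) g‖ ^ 2
      ≤ ((m : ℝ) * (1 + (s3_LT T : ℝ)) ^ (m - 1)) ^ 2 * ‖g‖ ^ 2 := by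
  refine (s3_prefix_jumps_aux P c m T hP t a b hab haT hdisj g).trans ?_
  rw [← mul_pow]
  have hL : (1 : ℝ) ≤ 1 + (s3_LT T : ℝ) := by linarith [s3_LT_pos T]
  have : ∑ i ∈ Finset.range m, (1 + (s3_LT T : ℝ)) ^ i ≤ (m : ℝ) * (1 + (s3_LT T : ℝ)) ^ (m - 1) := by
    calc ∑ i ∈ Finset.range m, (1 + (s3_LT T : ℝ)) ^ i
        ≤ ∑ i ∈ Finset.range m, (1 + (s3_LT T : ℝ)) ^ (m - 1) := by
          refine Finset.sum_le_sum fun i hi => pow_le_pow_right₀ hL ?_
          have := Finset.mem_range.mp hi; omega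
      _ = (m : ℝ) * (1 + (s3_LT T : ℝ)) ^ (m - 1) := by simp
  gcongr

/-- **(b)** rows of a coupled finite average of products. -/
theorem s3_prefix_rows_avg {Ω : Type*} (Ωs : Finset Ω) (wt : Ω → 𝕜) (P : Ω → ℕ → ℕ → X →ₗ[𝕜] X) (c : Ω → ℕ → Bool)
    (m T : ℕ) (hP : ∀ ω ∈ Ωs, ∀ i < m, s3_Nested (P ω i))
    {ι : Type*} (s : Finset ι) (B : ι → Seminorm 𝕜 X) (hB : ∀ h, ∑ ν ∈ s, (B ν h) ^ 2 ≤ ‖h‖ ^ 2)
    (n : ι → ℕ) (hn : ∀ ν ∈ s, n ν ≤ T) (g : X) :
    ∑ ν ∈ s, (B ν (∑ ω ∈ Ωs, wt ω • s3_ZF (P ω) (c ω) m (n ν) g)) ^ 2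
      ≤ ((∑ ω ∈ Ωs, ‖wt ω‖) * ((1 + (s3_LT T : ℝ)) ^ m * ‖g‖)) ^ 2 := by
  have hL := s3_LT_pos T
  have h1 := s3_sum_sq_avg s Ωs (fun ω => ‖wt ω‖) (fun ω ν => B ν (s3_ZF (P ω) (c ω) m (n ν) g))
    ((1 + (s3_LT T : ℝ)) ^ m * ‖g‖) (by positivity) (fun _ _ => norm_nonneg _) (fun _ _ _ _ => apply_nonneg _ _)
    (fun ω hω => by rw [mul_pow]; exact s3_prefix_rows_fac (P ω) (c ω) m T (hP ω hω) s B hB n hn g)
  refine le_trans (Finset.sum_le_sum fun ν _ => ?_) h1
  refine pow_le_pow_left₀ (apply_nonneg _ _) ?_ 2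
  refine (s3_seminorm_sum_le (B ν) _ _).trans (le_of_eq ?_)
  exact Finset.sum_congr rfl fun ω _ => map_smul_eq_mul (B ν) _ _

/-- **(b)+(c)** jumps of a coupled finite average of products. -/
theorem s3_prefix_jumps_avg {Ω : Type*} (Ωs : Finset Ω) (wt : Ω → 𝕜) (P : Ω → ℕ → ℕ → X →ₗ[𝕜] X) (c : Ω → ℕ → Bool)
    (m T : ℕ) (hP : ∀ ω ∈ Ωs, ∀ i < m, s3_Nested (P ω i))
    {κ : Type*} (t : Finset κ) (a b : κ → ℕ) (hab : ∀ k ∈ t, a k ≤ b k)
    (haT : ∀ k ∈ t, a k ≤ T) (hdisj : ∀ k ∈ t, ∀ k' ∈ t, k ≠ k' → b k ≤ a k' ∨ b k' ≤ a k) (g : X) :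
    ∑ k ∈ t, ‖∑ ω ∈ Ωs, wt ω • s3_ZF (P ω) (c ω) m (b k) g - ∑ ω ∈ Ωs, wt ω • s3_ZF (P ω) (c ω) m (a k) g‖ ^ 2
      ≤ ((∑ ω ∈ Ωs, ‖wt ω‖) * ((m : ℝ) * (1 + (s3_LT T : ℝ)) ^ (m - 1) * ‖g‖)) ^ 2 := by
  have hL := s3_LT_pos T
  have h1 := s3_sum_sq_avg t Ωs (fun ω => ‖wt ω‖)
    (fun ω k => ‖s3_ZF (P ω) (c ω) m (b k) g - s3_ZF (P ω) (c ω) m (a k) g‖)
    ((m : ℝ) * (1 + (s3_LT T : ℝ)) ^ (m - 1) * ‖g‖) (by positivity) (fun _ _ => norm_nonneg _)
    (fun _ _ _ _ => norm_nonneg _)
    (fun ω hω => by rw [mul_pow]; exact s3_prefix_jumps (P ω) (c ω) m T (hP ω hω) t a b hab haT hdisj g)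
  refine le_trans (Finset.sum_le_sum fun k _ => ?_) h1
  refine pow_le_pow_left₀ (norm_nonneg _) ?_ 2
  rw [← Finset.sum_sub_distrib]
  refine (norm_sum_le _ _).trans (le_of_eq ?_)
  exact Finset.sum_congr rfl fun ω _ => by rw [← smul_sub, norm_smul]

end Claimed.Agent.R258
end

/- ===== packed: Claimed.Agent.R258.S5.Ladder ===== -/
section
/-
Row 258, Sec. 5.3-5.4, architect helper182.   PAIR SMALLNESS FROM AN ACCURACY LADDER (consequences of `s5c_pair_one`, `s5c_pair_two`).
Approximants carry RANKS `r : ℕ` (old levels `s ≤ t`, the two new high fits `t+1`, `t+2`) with accuracies `dl r` and sizes `sz r`; a more accurate approximant defeats the size of a less accurate one: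
`dl y * sz x + dl x ≤ ε₀` for `x < y`.
-/
set_option autoImplicit false
open MeasureTheory

namespace Claimed.Agent.R258

theorem s5c_pair_symm {I : Cell} {w : ℝ × ℝ → ℂ} {l l' : Fin 4} {Y Y' : XV} {η : ℝ} (h : PairSmall I w l l' Y Y' η) :
    PairSmall I w l' l Y' Y η := by
  intro z hz' hz
  have := h z hz hz'
  rwa [Finset.erase_right_comm] at this

theorem s5c_pair_mono {I : Cell} {w : ℝ × ℝ → ℂ} {l l' : Fin 4} {Y Y' : XV} {η η' : ℝ} (h : PairSmall I w l l' Y Y' η)
    (hη : η ≤ η') : PairSmall I w l l' Y Y' η' := by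
  intro z hz hz'
  exact (h z hz hz').trans (mul_le_mul_of_nonneg_right hη (Finset.prod_nonneg fun j _ => s5f_n2_nonneg I (z j)))

theorem s5c_lq_mono {q : ℝ} {I : Cell} {Z : XV} {S S' : ℝ} (h : LqLe q I Z S) (hS : S ≤ S') : LqLe q I Z S' :=
  ⟨h.mem, h.size.trans hS⟩

theorem s5c_appr_lq {q : ℝ} {I : Cell} {w : ℝ × ℝ → ℂ} {l : Fin 4} {F g : XV} {δ S : ℝ} (h : Appr q I w l F g δ S) :
    LqLe q I g S := ⟨h.mem, h.size⟩

theorem s5c_lq_nonneg {q : ℝ} {I : Cell} {Z : XV} {S : ℝ} (h : LqLe q I Z S) : 0 ≤ S := by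
  refine le_trans ?_ h.size
  unfold nnorm
  exact Real.rpow_nonneg (mul_nonneg (inv_nonneg.2 (by unfold Cell.len; positivity))
    (integral_nonneg fun y => Real.rpow_nonneg (norm_nonneg _) _)) _

/-- both arguments are differences of approximants on the ladder -/
theorem s5c_ladder (c0 C0 q : ℝ) (hc0 : 0 < c0) (I : Cell) (w : ℝ × ℝ → ℂ) (hw : Admissible c0 C0 I w)
    (l l' : Fin 4) (hl : l ≠ l') (F F' : XV) (hF : LqLe q I (restr I.set F) 1) (hF' : LqLe q I (restr I.set F') 1)
    (g g' : Fin 2 → XV) (r r' : Fin 2 → ℕ) (dl sz : ℕ → ℝ) (ε₀ : ℝ) (m₀ m₁ : ℕ)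
    (h : ∀ c, Appr q I w l F (g c) (dl (r c)) (sz (r c))) (h' : ∀ c, Appr q I w l' F' (g' c) (dl (r' c)) (sz (r' c)))
    (hdl : ∀ s, 0 ≤ dl s) (hne : ∀ c c', r c ≠ r' c') (hr : ∀ c, m₀ ≤ r c ∧ r c ≤ m₁) (hr' : ∀ c, m₀ ≤ r' c ∧ r' c ≤ m₁)
    (hcmp : ∀ x y : ℕ, m₀ ≤ x → x < y → y ≤ m₁ → dl y * sz x + dl x ≤ ε₀) :
    PairSmall I w l l' (g 0 - g 1) (g' 0 - g' 1) (4 * ε₀) := by
  have := s5c_pair_two c0 C0 q hc0 I w hw l l' hl F F' hF hF' g g' (fun c => dl (r c)) (fun c => sz (r c))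
    (fun c => dl (r' c)) (fun c => sz (r' c)) (fun _ _ => ε₀) h h' (fun c => hdl _) (fun c => hdl _) (by
      intro c c'
      rcases lt_or_gt_of_ne (hne c c') with hlt | hlt
      · exact Or.inr (hcmp _ _ (hr c).1 hlt (hr' c').2)
      · exact Or.inl (hcmp _ _ (hr' c').1 hlt (hr c).2))
  refine s5c_pair_mono this (le_of_eq ?_)
  simp; ring

/-- the first argument is much earlier: only its size is used -/
theorem s5c_ladder_far (c0 C0 q : ℝ) (hc0 : 0 < c0) (hq : 1 ≤ q) (I : Cell) (w : ℝ × ℝ → ℂ) (hw : Admissible c0 C0 I w)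
    (l l' : Fin 4) (hl : l ≠ l') (F' : XV) (Z₀ Z₁ : XV) (S₀ S₁ : ℝ) (hZ₀ : LqLe q I Z₀ S₀) (hZ₁ : LqLe q I Z₁ S₁)
    (g' : Fin 2 → XV) (δ' S' : Fin 2 → ℝ) (h' : ∀ c, Appr q I w l' F' (g' c) (δ' c) (S' c)) (hδ' : ∀ c, 0 ≤ δ' c) (ε₀ : ℝ)
    (hcmp : ∀ c, S₀ * δ' c ≤ ε₀ ∧ S₁ * δ' c ≤ ε₀) :
    PairSmall I w l l' (Z₀ - Z₁) (g' 0 - g' 1) (4 * ε₀) := by
  have := s5c_pair_one c0 C0 q hc0 I w hw l l' hl (Z₀ - Z₁) F' (g' 0) (g' 1) (S₀ + S₁) (δ' 0) (δ' 1) (S' 0) (S' 1)
    (s5c_lq_sub q hq I Z₀ Z₁ S₀ S₁ hZ₀ hZ₁) (h' 0) (h' 1) (hδ' 0) (hδ' 1)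
  refine s5c_pair_mono this ?_
  have h0 := hcmp 0
  have h1 := hcmp 1
  nlinarith [h0.1, h0.2, h1.1, h1.2]

end Claimed.Agent.R258
end

/- ===== packed: Claimed.Agent.R258.S6a.ChainDefs ===== -/
section
/-
Row 258 (S0498), block [S6a] (architect helper70).  L6.2 `lem:curvature-path`: DEFINITIONS of the abstract chain lemma.

All tags of a path `v_0, …, v_L` live in ONE joint index type `N` (`blk a` = number of the tag owning the coordinate `a`).
* `K`    : the block diagonal skew matrix `⊕_i (C_i - C_iᵀ)/2`;          `V` : the concatenation of the `r θ_i`;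
* `q i`  : `r² λ_i + ½ V_iᵀ C_i V_i`;
* `blkE blk i j` : the diagonal projection onto the blocks `i, j`;      `blkK blk K i j = E_i K E_i - E_j K E_j`;
* `JSplitW … i j H Pf` : `Pf` is a splitting (2) of the difference data of the tags `i, j`, written in the joint space
  (the effective curvature is `q_i - q_j + (Pf V)ᵀ K_{ij} V`, because `xᵀ K x = 0`).
* the explicit budgets `cD0, cB1, cH1, cB2, chainH`.
-/
set_option autoImplicit false
open scoped Matrix

namespace Claimed.Agent.R258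

variable {N : Type*} [Fintype N] [DecidableEq N]

/-- the diagonal projection onto the blocks `i` and `j` -/
def blkE (blk : N → ℕ) (i j : ℕ) : Matrix N N ℚ :=
  Matrix.diagonal fun a => if blk a = i ∨ blk a = j then 1 else 0

/-- `E_i K E_i - E_j K E_j` (for block diagonal `K`) -/
def blkK (blk : N → ℕ) (K : Matrix N N ℚ) (i j : ℕ) : Matrix N N ℚ :=
  fun a b => if blk a = i then K a b else if blk a = j then -K a b else 0

/-- `Pf` is a splitting of the difference data of the blocks `i, j`, with heights and sizes `≤ H` -/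
structure JSplitW (blk : N → ℕ) (K : Matrix N N ℚ) (V : N → ℝ) (q : ℕ → ℝ) (i j : ℕ) (H : ℝ)
    (Pf : Matrix N N ℚ) : Prop where
  idem : Pf * Pf = Pf
  symm : Pfᵀ = Pf
  supp : blkE blk i j * Pf = Pf
  height : ∀ a b, (qHeight (Pf a b) : ℝ) ≤ H
  iso : Pf * blkK blk K i j * Pf = 0
  slow : ∀ a, |(ratM (blkE blk i j - Pf) *ᵥ V) a| ≤ H
  curv : |q i - q j + (ratM Pf *ᵥ V) ⬝ᵥ (ratM (blkK blk K i j) *ᵥ V)| ≤ H

def JSplit (blk : N → ℕ) (K : Matrix N N ℚ) (V : N → ℝ) (q : ℕ → ℝ) (i j : ℕ) (H : ℝ) : Prop :=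
  ∃ Pf, JSplitW blk K V q i j H Pf

/-! ### budgets (`N` = joint dimension, `L` = length of the path, `H` = edge budget, `Hb` = bound for the entries of `K`) -/

/-- common denominator of all edge projections -/
def cD0 (N L H : ℕ) : ℤ := (H : ℤ) ^ (L * (N * N))
/-- entries of `cD0 * ∑_e (E_e - Pf_e)` -/
def cB1 (N L H : ℕ) : ℤ := cD0 N L H * L
/-- distance of `V` to the joint fast space -/
def cH1 (N L H : ℕ) : ℤ := N * (cD0 N L H * kerR N (cB1 N L H)) * (L * H)
/-- denominator of the joint fast projection -/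
def cB2 (N L H : ℕ) : ℤ := kerD N (cB1 N L H)
/-- the final budget -/
def chainH (N L H Hb : ℕ) : ℤ :=
  kerD N (cB2 N L H) + N * cH1 N L H +
    (L * H + L * ((N : ℤ) ^ 2 * Hb * (N * cH1 N L H) * H) + (N : ℤ) ^ 2 * Hb * (N * cH1 N L H) * (N * cH1 N L H))

end Claimed.Agent.R258
end

/- ===== packed: Claimed.Agent.R258.U3.Lin.ModDefs ===== -/
section
/-
Row 258 (S0498), block U3, part B2 = LINEARISATION (architect helper152).  Files ModDefs, Mod1-Mod4: the MODEL LEMMA
(Ruzsa), compressing ONLY the second coordinate of a graph `Γ ⊆ ZMod N × ZMod N`, `N` prime.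
Mathlib only, no paper.

`u3lPi lam m (h, y) = (h, (lam * y).val mod m) ∈ ZMod N × ZMod m`.
`u3l_model` : if `m > 2 #F`, `F` = fibre of `8Γ - 8Γ` over `0`, then for some `lam` and some `Γ' ⊆ Γ` with
`#Γ ≤ 8 #Γ'` the map `u3lPi lam m` REFLECTS sums of 8 elements of `Γ'`
(`∑ π (a i) = ∑ π (b i) → ∑ a i = ∑ b i`; only this half of "Freiman isomorphism of order 8" is used later).
`u3l_fib_card` : if `Γ` is a graph and `#(Γ - Γ) ≤ K #Γ` then `#F ≤ K^17`
(`Γ + {0} × F ⊆ 9Γ - 8Γ`, all sums distinct, Pluennecke-Ruzsa).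

PROOF of `u3l_model`.  `lam` from `u3l_exists_mult` for `F`.  Window of `p`: `8 * (lam * p.2).val / N ∈ {0..7}`;
`Γ'` = the most popular window (pigeonhole), so `8 |v - v'| < N` for the values `v = (lam * p.2).val` on `Γ'`.
Given `a b`, put `t = ∑ v (a i) - ∑ v (b i) : ℤ`; then `|t| < N`, `m ∣ t` (second coordinates),
`(t : ZMod N) = lam * f` with `f = ∑ (a i).2 - ∑ (b i).2`, and `(0, f) = ∑ a i - ∑ b i ∈ 8Γ - 8Γ` (first
coordinates), so `f ∈ F`, hence `f = 0`.
-/
set_option autoImplicit false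

namespace Claimed.Agent.R258.U3

open Finset
open scoped Pointwise Combinatorics.Additive

section fib

variable {G₁ G₂ : Type*} [AddCommGroup G₁] [AddCommGroup G₂] [DecidableEq G₁] [DecidableEq G₂]

/-- The fibre of `8Γ - 8Γ` over `0`. -/
def u3lFib (Γ : Finset (G₁ × G₂)) : Finset G₂ :=
  ((8 • Γ - 8 • Γ).filter fun p => p.1 = 0).image Prod.snd

theorem u3l_mem_fib (Γ : Finset (G₁ × G₂)) (f : G₂) :
    f ∈ u3lFib Γ ↔ ((0 : G₁), f) ∈ 8 • Γ - 8 • Γ := by
  simp only [u3lFib, mem_image, mem_filter]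
  constructor
  · rintro ⟨⟨x, y⟩, ⟨h1, h2⟩, rfl⟩
    simp only at h2
    subst h2
    exact h1
  · intro h
    exact ⟨(0, f), ⟨h, rfl⟩, rfl⟩

end fib

/-- The compression of the second coordinate. -/
def u3lPi {N : ℕ} (lam : ZMod N) (m : ℕ) (p : ZMod N × ZMod N) : ZMod N × ZMod m :=
  (p.1, ((lam * p.2).val : ZMod m))

end Claimed.Agent.R258.U3
end

/- ===== packed: Claimed.Agent.R258.U3.Lin.Mod1 ===== -/
section
/-
Row 258, U3/B2 (architect helper152), LEAF P-U3L-MOD1: Pluennecke-Ruzsa in real form, sums of `n` elements.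
Mathlib only.
-/
set_option autoImplicit false

namespace Claimed.Agent.R258.U3

open Finset
open scoped Pointwise Combinatorics.Additive

/-- **Pluennecke-Ruzsa**, real form (from
`Finset.pluennecke_ruzsa_inequality_nsmul_sub_nsmul_sub`, which is stated in `ℚ≥0`). -/
theorem u3l_plun {G : Type*} [AddCommGroup G] [DecidableEq G] (A : Finset G) (hA : A.Nonempty) (K : ℝ)
    (h : (#(A - A) : ℝ) ≤ K * #A) (m n : ℕ) : (#(m • A - n • A) : ℝ) ≤ K ^ (m + n) * #A := by
  have hpos : (0 : ℝ) < #A := by exact_mod_cast hA.card_pos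
  have h1 := pluennecke_ruzsa_inequality_nsmul_sub_nsmul_sub hA A m n
  have h2 : (#(m • A - n • A) : ℝ) ≤ ((#(A - A) : ℝ) / #A) ^ (m + n) * #A := by
    have := NNRat.cast_le (K := ℝ).2 h1
    push_cast at this
    exact this
  have h3 : (#(A - A) : ℝ) / #A ≤ K := by rwa [div_le_iff₀ hpos]
  calc (#(m • A - n • A) : ℝ) ≤ ((#(A - A) : ℝ) / #A) ^ (m + n) * #A := h2
    _ ≤ K ^ (m + n) * #A := by gcongr

/-- Sums of `n` elements lie in `n • A` (`Finset.mem_nsmul`, `List.sum_ofFn`, or induction with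
`Fin.sum_univ_succ`, `succ_nsmul'`). -/
theorem u3l_sum_mem_nsmul {G : Type*} [AddCommGroup G] [DecidableEq G] (A : Finset G) (n : ℕ)
    (a : Fin n → G) (ha : ∀ i, a i ∈ A) : ∑ i, a i ∈ n • A := by
  induction n with
  | zero => simp
  | succ n ih =>
    rw [Fin.sum_univ_succ, succ_nsmul']
    exact add_mem_add (ha 0) (ih _ fun i => ha _)

end Claimed.Agent.R258.U3
end

/- ===== packed: Claimed.Agent.R258.U3.Lin.Mod2 ===== -/
section
/-
Row 258, U3/B2 (architect helper152), LEAF P-U3L-MOD2: the fibre of a graph of small doubling is small.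
`(γ, f) ↦ γ + (0, f)` is injective on `Γ ×ˢ F` (first coordinate + `hg` give `γ`) with values in `9Γ - 8Γ`
(`(0, f) = u - v`, `u, v ∈ 8Γ`; `γ + u ∈ 9Γ`: `succ_nsmul`), so `#Γ #F ≤ #(9Γ - 8Γ) ≤ K^17 #Γ` by `u3l_plun`.
-/
set_option autoImplicit false

namespace Claimed.Agent.R258.U3

open Finset
open scoped Pointwise Combinatorics.Additive

variable {G₁ G₂ : Type*} [AddCommGroup G₁] [AddCommGroup G₂] [DecidableEq G₁] [DecidableEq G₂]

theorem u3l_fib_card (Γ : Finset (G₁ × G₂)) (hg : Set.InjOn Prod.fst (Γ : Set (G₁ × G₂))) (K : ℝ)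
    (h : (#(Γ - Γ) : ℝ) ≤ K * #Γ) (hne : Γ.Nonempty) : (#(u3lFib Γ) : ℝ) ≤ K ^ 17 := by
  have hpos : (0 : ℝ) < #Γ := by exact_mod_cast hne.card_pos
  have hinj : #(Γ ×ˢ u3lFib Γ) ≤ #(9 • Γ - 8 • Γ) := by
    apply card_le_card_of_injOn (fun x => x.1 + ((0 : G₁), x.2))
    · rintro ⟨γ, f⟩ hx
      obtain ⟨hγ, hf⟩ := mem_product.1 (mem_coe.1 hx)
      obtain ⟨u, hu, v, hv, e⟩ := mem_sub.1 ((u3l_mem_fib Γ f).1 hf)
      simp only at hγ
      show γ + ((0 : G₁), f) ∈ ((9 • Γ - 8 • Γ : Finset (G₁ × G₂)) : Set (G₁ × G₂))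
      rw [mem_coe, ← e, ← add_sub_assoc]
      refine sub_mem_sub ?_ hv
      rw [show (9 : ℕ) = 8 + 1 from rfl, succ_nsmul']
      exact add_mem_add hγ hu
    · rintro ⟨γ, f⟩ hx ⟨γ', f'⟩ hx' e
      obtain ⟨hγ, _⟩ := mem_product.1 (mem_coe.1 hx)
      obtain ⟨hγ', _⟩ := mem_product.1 (mem_coe.1 hx')
      simp only at hγ hγ' e
      have e1 : γ.1 = γ'.1 := by simpa using congrArg Prod.fst e
      have e2 : γ = γ' := hg hγ hγ' e1
      subst e2
      have e3 : ((0 : G₁), f) = ((0 : G₁), f') := add_left_cancel e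
      rw [(Prod.mk.inj e3).2]
  have h2 := u3l_plun Γ hne K h 9 8
  rw [card_product] at hinj
  have h3 : (#Γ : ℝ) * #(u3lFib Γ) ≤ #Γ * K ^ 17 := by
    calc (#Γ : ℝ) * #(u3lFib Γ) ≤ #(9 • Γ - 8 • Γ) := by exact_mod_cast hinj
      _ ≤ K ^ (9 + 8) * #Γ := h2
      _ = #Γ * K ^ 17 := by ring
  exact le_of_mul_le_mul_left h3 hpos

end Claimed.Agent.R258.U3
end

/- ===== packed: Claimed.Agent.R258.U3.Lin.Mod3 ===== -/
section
/-
Row 258, U3/B2 (architect helper152), LEAF P-U3L-MOD3: a good multiplier.  Mathlib only.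
Bad `lam`: `0` and the `t / f` with `0 ≠ f ∈ F`, `t ≠ 0`, `|t| < N`, `m ∣ t`.  With `q = (N-1)/m` the set of such `t`
is the image of `{1..q} × {±1}`, so there are at most `1 + #F * (2 q)` bad `lam`, and
`m * (#F * (2 q)) ≤ 2 #F (N - 1) < m (N - 1)`; hence fewer than `N = #(ZMod N)`.
-/
set_option autoImplicit false

namespace Claimed.Agent.R258.U3

open Finset
open scoped Pointwise Combinatorics.Additive

variable {N : ℕ} [Fact N.Prime]

theorem u3l_exists_mult (F : Finset (ZMod N)) (m : ℕ) (hm : 2 * #F < m) :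
    ∃ lam : ZMod N, ∀ f ∈ F, f ≠ 0 → ∀ t : ℤ, |t| < N → (m : ℤ) ∣ t → (t : ZMod N) ≠ lam * f := by
  classical
  have hN2 : 2 ≤ N := (Fact.out : N.Prime).two_le
  have hm0 : 0 < m := by omega
  set q : ℕ := (N - 1) / m with hq
  set J : Finset ℤ := (Icc (-(q : ℤ)) q).erase 0 with hJ
  have hJcard : #J = 2 * q := by
    rw [hJ, card_erase_of_mem (by simp), Int.card_Icc]
    omega
  set Bad : Finset (ZMod N) :=
    insert 0 ((F ×ˢ J).image fun x => (((m : ℤ) * x.2 : ℤ) : ZMod N) * x.1⁻¹) with hBad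
  have hcard : #Bad < N := by
    have h1 : #Bad ≤ #F * (2 * q) + 1 := by
      calc #Bad ≤ #((F ×ˢ J).image fun x => (((m : ℤ) * x.2 : ℤ) : ZMod N) * x.1⁻¹) + 1 :=
            card_insert_le _ _
        _ ≤ #(F ×ˢ J) + 1 := Nat.add_le_add_right card_image_le _
        _ = #F * (2 * q) + 1 := by rw [card_product, hJcard]
    have h2 : m * q ≤ N - 1 := Nat.mul_div_le _ _
    have h3 : m * (#F * (2 * q)) < m * (N - 1) := by
      calc m * (#F * (2 * q)) = (2 * #F) * (m * q) := by ring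
        _ ≤ (2 * #F) * (N - 1) := Nat.mul_le_mul_left _ h2
        _ < m * (N - 1) := Nat.mul_lt_mul_of_pos_right hm (by omega)
    have h4 : #F * (2 * q) < N - 1 := lt_of_mul_lt_mul_left h3 (Nat.zero_le _)
    omega
  obtain ⟨lam, hlam⟩ : ∃ lam : ZMod N, lam ∉ Bad := by
    by_contra hall
    have hall : ∀ x : ZMod N, x ∈ Bad := by
      intro x
      by_contra hx
      exact hall ⟨x, hx⟩
    have : Bad = univ := eq_univ_iff_forall.2 hall
    rw [this, card_univ, ZMod.card] at hcard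
    exact lt_irrefl _ hcard
  refine ⟨lam, ?_⟩
  intro f hf hf0 t ht hdvd heq
  obtain ⟨j, rfl⟩ := hdvd
  apply hlam
  rw [hBad, mem_insert]
  by_cases hj : j = 0
  · left
    subst hj
    simp only [mul_zero, Int.cast_zero] at heq
    rcases mul_eq_zero.1 heq.symm with h | h
    · exact h
    · exact absurd h hf0
  · right
    refine mem_image.2 ⟨(f, j), mem_product.2 ⟨hf, ?_⟩, ?_⟩
    · rw [hJ, mem_erase, mem_Icc]
      refine ⟨hj, ?_⟩
      have h1 : (m : ℤ) * |j| < N := by
        rw [abs_mul, abs_of_nonneg (by positivity : (0 : ℤ) ≤ m)] at ht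
        exact ht
      have h2 : m * j.natAbs ≤ N - 1 := by
        have : ((m * j.natAbs : ℕ) : ℤ) < N := by
          push_cast
          exact h1
        have : m * j.natAbs < N := by exact_mod_cast this
        omega
      have h3 : j.natAbs ≤ q := by
        rw [hq, Nat.le_div_iff_mul_le hm0, mul_comm]
        exact h2
      have h4 : |j| ≤ (q : ℤ) := by
        rw [Int.abs_eq_natAbs]
        exact_mod_cast h3
      exact abs_le.1 h4
    · simp only
      rw [heq, mul_assoc, mul_inv_cancel₀ hf0, mul_one]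

end Claimed.Agent.R258.U3
end

/- ===== packed: Claimed.Agent.R258.U3.Lin.Mod4 ===== -/
section
/-
Row 258, U3/B2 (architect helper152), LEAF P-U3L-MOD4: the 8 windows and THE MODEL LEMMA
(plan in the header of ModDefs.lean).
-/
set_option autoImplicit false

namespace Claimed.Agent.R258.U3

open Finset
open scoped Pointwise Combinatorics.Additive

variable {N : ℕ} [Fact N.Prime]

/-- Pigeonhole on the window `8 * (lam * p.2).val / N ∈ {0, …, 7}`
(`Finset.exists_le_card_fiber_of_mul_le_card_of_maps_to` or `Finset.card_eq_sum_card_fiberwise`). -/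
theorem u3l_window (Γ : Finset (ZMod N × ZMod N)) (lam : ZMod N) :
    ∃ Γ' ⊆ Γ, #Γ ≤ 8 * #Γ' ∧ ∀ p ∈ Γ', ∀ q ∈ Γ',
      8 * |((lam * p.2).val : ℤ) - ((lam * q.2).val : ℤ)| < N := by
  have hN : 0 < N := (Fact.out : N.Prime).pos
  set w : ZMod N × ZMod N → ℕ := fun p => 8 * (lam * p.2).val / N with hw
  have hmaps : ∀ p ∈ Γ, w p ∈ range 8 := by
    intro p _
    rw [mem_range, hw]
    have : (lam * p.2).val < N := ZMod.val_lt _
    rw [Nat.div_lt_iff_lt_mul hN]
    omega
  have hsum := card_eq_sum_card_fiberwise (s := Γ) (t := range 8) (f := w) hmaps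
  obtain ⟨j, _, hj⟩ := exists_max_image (range 8) (fun j => #{p ∈ Γ | w p = j}) ⟨0, by simp⟩
  refine ⟨{p ∈ Γ | w p = j}, filter_subset _ _, ?_, ?_⟩
  · calc #Γ = ∑ j ∈ range 8, #{p ∈ Γ | w p = j} := hsum
      _ ≤ ∑ _i ∈ range 8, #{p ∈ Γ | w p = j} := sum_le_sum hj
      _ = 8 * #{p ∈ Γ | w p = j} := by rw [sum_const, card_range, smul_eq_mul]
  · intro p hp q hq
    have hp := (mem_filter.1 hp).2
    have hq := (mem_filter.1 hq).2
    simp only [hw] at hp hq
    have a1 := Nat.mul_div_le (8 * (lam * p.2).val) N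
    have a2 := Nat.lt_mul_div_succ (8 * (lam * p.2).val) hN
    have b1 := Nat.mul_div_le (8 * (lam * q.2).val) N
    have b2 := Nat.lt_mul_div_succ (8 * (lam * q.2).val) hN
    rw [hp] at a1 a2
    rw [hq] at b1 b2
    rw [Nat.mul_succ] at a2 b2
    generalize N * j = c at a1 a2 b1 b2
    generalize (lam * p.2).val = x at a1 a2
    generalize (lam * q.2).val = y at b1 b2
    rcases abs_cases ((x : ℤ) - (y : ℤ)) with ⟨h, _⟩ | ⟨h, _⟩ <;> rw [h] <;> omega

/-- **The model lemma** (from `u3l_exists_mult`, `u3l_window`, `u3l_sum_mem_nsmul`, `u3l_mem_fib`). -/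
theorem u3l_model (Γ : Finset (ZMod N × ZMod N)) (m : ℕ) (hm : 2 * #(u3lFib Γ) < m) :
    ∃ (lam : ZMod N) (Γ' : Finset (ZMod N × ZMod N)), Γ' ⊆ Γ ∧ #Γ ≤ 8 * #Γ' ∧
      ∀ a b : Fin 8 → ZMod N × ZMod N, (∀ i, a i ∈ Γ') → (∀ i, b i ∈ Γ') →
        ∑ i, u3lPi lam m (a i) = ∑ i, u3lPi lam m (b i) → ∑ i, a i = ∑ i, b i := by
  obtain ⟨lam, hlam⟩ := u3l_exists_mult (u3lFib Γ) m hm
  obtain ⟨Γ', hsub, hcard, hwin⟩ := u3l_window Γ lam
  refine ⟨lam, Γ', hsub, hcard, ?_⟩
  intro a b ha hb hsum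
  have hm0 : 0 < m := by omega
  have : NeZero m := ⟨hm0.ne'⟩
  have h1 : ∑ i, (a i).1 = ∑ i, (b i).1 := by
    have := congrArg Prod.fst hsum
    simpa only [Prod.fst_sum, u3lPi] using this
  have h2 : ∑ i, (((lam * (a i).2).val : ℕ) : ZMod m) = ∑ i, (((lam * (b i).2).val : ℕ) : ZMod m) := by
    have := congrArg Prod.snd hsum
    simpa only [Prod.snd_sum, u3lPi] using this
  set t : ℤ := ∑ i, (((lam * (a i).2).val : ℤ) - ((lam * (b i).2).val : ℤ)) with ht
  have ht1 : |t| < N := by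
    have e1 : 8 * |t| ≤ ∑ i : Fin 8, 8 * |((lam * (a i).2).val : ℤ) - ((lam * (b i).2).val : ℤ)| := by
      rw [← mul_sum]
      exact mul_le_mul_of_nonneg_left (abs_sum_le_sum_abs _ _) (by norm_num)
    have e2 : ∑ i : Fin 8, 8 * |((lam * (a i).2).val : ℤ) - ((lam * (b i).2).val : ℤ)| <
        ∑ _i : Fin 8, (N : ℤ) :=
      sum_lt_sum_of_nonempty univ_nonempty fun i _ => hwin _ (ha i) _ (hb i)
    rw [sum_const, card_univ, Fintype.card_fin, nsmul_eq_mul] at e2
    push_cast at e2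
    linarith
  have ht2 : (m : ℤ) ∣ t := by
    rw [← ZMod.intCast_zmod_eq_zero_iff_dvd, ht]
    push_cast
    rw [sum_sub_distrib, h2, sub_self]
  set f : ZMod N := ∑ i, (a i).2 - ∑ i, (b i).2 with hf
  have ht3 : (t : ZMod N) = lam * f := by
    rw [ht, hf]
    push_cast
    simp only [ZMod.natCast_zmod_val, sum_sub_distrib, mul_sub, mul_sum]
  have hfF : f ∈ u3lFib Γ := by
    rw [u3l_mem_fib]
    have e : ((0 : ZMod N), f) = ∑ i, a i - ∑ i, b i := by
      refine Prod.ext ?_ ?_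
      · simp only [Prod.fst_sub, Prod.fst_sum, h1, sub_self]
      · simp only [Prod.snd_sub, Prod.snd_sum, hf]
    rw [e]
    exact sub_mem_sub (u3l_sum_mem_nsmul Γ 8 a fun i => hsub (ha i))
      (u3l_sum_mem_nsmul Γ 8 b fun i => hsub (hb i))
  have hf0 : f = 0 := by
    by_contra hne
    exact hlam f hfF hne t ht1 ht2 ht3
  refine Prod.ext ?_ ?_
  · simpa only [Prod.fst_sum] using h1
  · simpa only [Prod.snd_sum] using sub_eq_zero.1 hf0

end Claimed.Agent.R258.U3
end

/- ===== packed: Claimed.Agent.R258.U3.Steinitz ===== -/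
section
/-
R258 / U3 / Steinitz : the Steinitz rearrangement lemma (Grinberg-Sevastyanov bound `d`), for the sup norm on `ι → ℝ`.
Blueprint owner: helper52.  Leaves: ST1 `steinitz_vertex`, ST2 `steinitz_chain`, ST3 `u3_steinitz`.  (One claimer may take the whole file.)

PROOF (Grinberg-Sevastyanov 1980).  `d = card ι`, vectors `w i` (`i ∈ I`, a Finset), `|w i j| ≤ R`.
ST1 (vertex lemma).  Let `T` be a Finset of indices, `#T ≥ d + 1`, `c : index → ℝ` with `0 ≤ c ≤ 1` on `T`, `∑_T c i • w i = 0`, `∑_T c i = #T - 1 - d`.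
   Then there is such a `c'` (same two equations, `0 ≤ c' ≤ 1`) with `c' i₀ = 0` for some `i₀ ∈ T`.
   Proof: among all admissible `c` choose one with the least number of FRACTIONAL coordinates (`0 < c i < 1`).  If there are `≥ d + 2` fractional coordinates, the vectors `(w i, 1) ∈ ℝ^(d+1)` over
   these are linearly dependent (`exists_nontrivial_relation_of_finrank_lt_card` / `Module.exists_nontrivial_relation_of_finrank_lt_card`): `∑ g i (w i, 1) = 0`, `g ≠ 0`; move `c + s g` until the first fractional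
   coordinate hits `0` or `1`: fewer fractional coordinates, contradiction.  So at most `d + 1` coordinates are fractional; the other `≥ #T - d - 1` are `0` or `1`.  If none of ALL coordinates is `0`: the non-fractional ones are `1`,
   their number `m ≥ #T - d - 1`, the sum is `m + (sum of #T - m fractional ones, each > 0)`; as the sum is `#T - d - 1 ≤ m`, there is no fractional coordinate, so `m = #T`, sum `= #T ≠ #T - d - 1`. Contradiction.
ST2 (chain).  For every Finset `T` of indices with `∑_T`-admissible weights for the value `#T - d` (i.e. `0 ≤ c ≤ 1`, `∑_T c i • w i = 0`, `∑_T c i = #T - d`) and `#T ≥ d + 1`: there is `i₀ ∈ T` such that `T.erase i₀` has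
   admissible weights for the value `#T - 1 - d`.  (Scale `c` by `(#T - 1 - d) / (#T - d)`, apply ST1, drop `i₀`.)
   Consequence for the norm: if `T` has admissible weights then `|∑_T w i j| = |∑_T (1 - c i) w i j| ≤ (∑_T (1 - c i)) R = d R`.
ST3.  Induction downwards from `T = univ` (weights `c = (m - d) / m`), removing one index at a time: the removed indices, read backwards, are the END of the ordering; when `#T ≤ d` order the rest arbitrarily (partial sums `≤ #T R ≤ d R`).
   A convenient inductive statement: for every Finset `T ⊆ univ` with (`#T ≤ d` or admissible weights) there is a list/enumeration `e : Fin #T ≃ T` all of whose prefix sums are `≤ d R`.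
-/
set_option autoImplicit false

namespace Claimed.Agent.R258.U3

open Finset

/-- admissible weights on `T` (value `#T - d`). -/
def StAdm {ι κ : Type*} [Fintype ι] (w : κ → ι → ℝ) (T : Finset κ) : Prop :=
  ∃ c : κ → ℝ, (∀ i ∈ T, 0 ≤ c i ∧ c i ≤ 1) ∧ (∀ j, ∑ i ∈ T, c i * w i j = 0) ∧
    ∑ i ∈ T, c i = (T.card : ℝ) - Fintype.card ι

/-- a linear dependence among more than `d + 1` vectors `(w i, 1)`. -/
private theorem st_dep {ι κ : Type*} [Fintype ι] (w : κ → ι → ℝ) (F : Finset κ)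
    (hF : Fintype.card ι + 1 < F.card) :
    ∃ g : κ → ℝ, (∀ i, i ∉ F → g i = 0) ∧ (∀ j, ∑ i ∈ F, g i * w i j = 0) ∧ ∑ i ∈ F, g i = 0 ∧
      ∃ i ∈ F, g i ≠ 0 := by
  classical
  let v : F → (Option ι → ℝ) := fun i o => o.elim 1 (w i)
  have hnl : ¬ LinearIndependent ℝ v := by
    intro h
    have := h.fintype_card_le_finrank
    rw [Module.finrank_fintype_fun_eq_card, Fintype.card_option, Fintype.card_coe] at this
    omega
  rw [Fintype.not_linearIndependent_iff] at hnl
  obtain ⟨g, hg, i, hi⟩ := hnl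
  have key : ∀ f : κ → ℝ, ∑ i ∈ F, (if h : i ∈ F then g ⟨i, h⟩ else 0) * f i = ∑ i : F, g i * f i := by
    intro f
    rw [← Finset.sum_coe_sort F]
    refine Finset.sum_congr rfl fun i _ => ?_
    simp
  refine ⟨fun i => if h : i ∈ F then g ⟨i, h⟩ else 0, ?_, ?_, ?_, ?_⟩
  · intro i hi
    simp [hi]
  · intro j
    have h1 := congrFun hg (some j)
    simp only [Finset.sum_apply, Pi.smul_apply, smul_eq_mul, Pi.zero_apply] at h1
    rw [key (fun i => w i j)]
    exact h1
  · have h1 := congrFun hg none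
    simp only [Finset.sum_apply, Pi.smul_apply, smul_eq_mul, Pi.zero_apply] at h1
    have h2 := key (fun _ => 1)
    simp only [mul_one] at h2
    rw [h2]
    simpa [v] using h1
  · exact ⟨i, i.2, by simpa using hi⟩

/-- moving along `g` until the first coordinate hits `0` or `1`. -/
private theorem st_move {κ : Type*} (F : Finset κ) (c g : κ → ℝ) (hc : ∀ i ∈ F, 0 < c i ∧ c i < 1)
    (hg : ∃ i ∈ F, g i ≠ 0) :
    ∃ s : ℝ, (∀ i ∈ F, 0 ≤ c i + s * g i ∧ c i + s * g i ≤ 1) ∧
      ∃ i ∈ F, c i + s * g i = 0 ∨ c i + s * g i = 1 := by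
  classical
  let t : κ → ℝ := fun i => if 0 < g i then (1 - c i) / g i else c i / (- g i)
  have hne : (F.filter fun i => g i ≠ 0).Nonempty := by
    obtain ⟨i, hi, hgi⟩ := hg
    exact ⟨i, Finset.mem_filter.2 ⟨hi, hgi⟩⟩
  obtain ⟨i₁, hi₁, hmin⟩ := Finset.exists_min_image _ t hne
  rw [Finset.mem_filter] at hi₁
  have htpos : ∀ i ∈ F, g i ≠ 0 → 0 < t i := by
    intro i hi hgi
    by_cases h : 0 < g i
    · simp only [t, if_pos h]
      exact div_pos (by linarith [(hc i hi).2]) h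
    · simp only [t, if_neg h]
      have : g i < 0 := lt_of_le_of_ne (not_lt.1 h) hgi
      exact div_pos (hc i hi).1 (by linarith)
  have hs : 0 < t i₁ := htpos i₁ hi₁.1 hi₁.2
  refine ⟨t i₁, ?_, i₁, hi₁.1, ?_⟩
  · intro i hi
    by_cases hgi : g i = 0
    · rw [hgi, mul_zero, add_zero]
      exact ⟨(hc i hi).1.le, (hc i hi).2.le⟩
    have hle : t i₁ ≤ t i := hmin i (Finset.mem_filter.2 ⟨hi, hgi⟩)
    by_cases h : 0 < g i
    · have e : t i * g i = 1 - c i := by
        simp only [t, if_pos h]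
        field_simp
      have h1 : t i₁ * g i ≤ t i * g i := mul_le_mul_of_nonneg_right hle h.le
      have h2 : 0 ≤ t i₁ * g i := mul_nonneg hs.le h.le
      constructor
      · linarith [(hc i hi).1]
      · linarith
    · have hneg : g i < 0 := lt_of_le_of_ne (not_lt.1 h) hgi
      have e : t i * g i = - c i := by
        simp only [t, if_neg h]
        have : -g i ≠ 0 := by linarith
        field_simp
      have h1 : t i * g i ≤ t i₁ * g i := mul_le_mul_of_nonpos_right hle hneg.le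
      have h2 : t i₁ * g i ≤ 0 := mul_nonpos_of_nonneg_of_nonpos hs.le hneg.le
      constructor
      · linarith
      · linarith [(hc i hi).2]
  · by_cases h : 0 < g i₁
    · right
      have e : t i₁ * g i₁ = 1 - c i₁ := by
        simp only [t, if_pos h]
        field_simp
      linarith
    · left
      have hneg : g i₁ < 0 := lt_of_le_of_ne (not_lt.1 h) hi₁.2
      have e : t i₁ * g i₁ = - c i₁ := by
        simp only [t, if_neg h]
        have : g i₁ ≠ 0 := hi₁.2
        field_simp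
      linarith

/-- ST1: the vertex lemma. -/
theorem steinitz_vertex {ι κ : Type*} [Fintype ι] [DecidableEq κ] (w : κ → ι → ℝ) (T : Finset κ)
    (hT : Fintype.card ι + 1 ≤ T.card) (c : κ → ℝ) (hc : ∀ i ∈ T, 0 ≤ c i ∧ c i ≤ 1)
    (h0 : ∀ j, ∑ i ∈ T, c i * w i j = 0) (h1 : ∑ i ∈ T, c i = (T.card : ℝ) - 1 - Fintype.card ι) :
    ∃ c' : κ → ℝ, (∀ i ∈ T, 0 ≤ c' i ∧ c' i ≤ 1) ∧ (∀ j, ∑ i ∈ T, c' i * w i j = 0) ∧
      ∑ i ∈ T, c' i = (T.card : ℝ) - 1 - Fintype.card ι ∧ ∃ i₀ ∈ T, c' i₀ = 0 := by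
  classical
  -- strong induction on the number of fractional coordinates
  induction hn : (T.filter fun i => 0 < c i ∧ c i < 1).card using Nat.strong_induction_on
    generalizing c with
  | _ n ih =>
  set F := T.filter fun i => 0 < c i ∧ c i < 1 with hF
  have hFT : F ⊆ T := Finset.filter_subset _ _
  by_cases hcard : Fintype.card ι + 1 < F.card
  · -- reduce the number of fractional coordinates
    obtain ⟨g, hg0, hgw, hg1, hgne⟩ := st_dep w F hcard
    obtain ⟨s, hs, i₁, hi₁, hi₁'⟩ := st_move F c g (fun i hi => (Finset.mem_filter.1 hi).2) hgne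
    have hsumT : ∀ f : κ → ℝ, ∑ i ∈ T, g i * f i = ∑ i ∈ F, g i * f i := by
      intro f
      refine (Finset.sum_subset hFT ?_).symm
      intro i _ hi
      rw [hg0 i hi, zero_mul]
    have hsub : (T.filter fun i => 0 < c i + s * g i ∧ c i + s * g i < 1) ⊂ F := by
      refine Finset.ssubset_iff_of_subset ?_ |>.2 ⟨i₁, hi₁, ?_⟩
      · intro i hi
        rw [Finset.mem_filter] at hi
        by_contra hiF
        rw [hg0 i hiF, mul_zero, add_zero] at hi
        exact hiF (Finset.mem_filter.2 hi)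
      · intro hi
        rw [Finset.mem_filter] at hi
        rcases hi₁' with h | h
        · linarith [hi.2.1]
        · linarith [hi.2.2]
    refine ih _ (hn ▸ Finset.card_lt_card hsub) (fun i => c i + s * g i) ?_ ?_ ?_ rfl
    · intro i hi
      by_cases hiF : i ∈ F
      · exact hs i hiF
      · rw [hg0 i hiF, mul_zero, add_zero]
        exact hc i hi
    · intro j
      have : ∑ i ∈ T, (c i + s * g i) * w i j = ∑ i ∈ T, c i * w i j + s * ∑ i ∈ T, g i * w i j := by
        rw [Finset.mul_sum, ← Finset.sum_add_distrib]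
        refine Finset.sum_congr rfl fun i _ => ?_
        ring
      rw [this, h0 j, hsumT (fun i => w i j), hgw j]
      ring
    · have h2 := hsumT (fun _ => 1)
      simp only [mul_one] at h2
      rw [Finset.sum_add_distrib, ← Finset.mul_sum, h2, hg1, h1]
      ring
  · -- at most `d + 1` fractional coordinates
    refine ⟨c, hc, h0, h1, ?_⟩
    by_contra hno
    push Not at hno
    have hpos : ∀ i ∈ T, 0 < c i := fun i hi => lt_of_le_of_ne (hc i hi).1 (Ne.symm (hno i hi))
    have e1 : ∑ i ∈ T, (1 - c i) = Fintype.card ι + 1 := by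
      rw [Finset.sum_sub_distrib, h1]
      simp only [Finset.sum_const, nsmul_eq_mul, mul_one]
      ring
    have e2 : ∑ i ∈ T, (1 - c i) = ∑ i ∈ F, (1 - c i) := by
      refine (Finset.sum_subset hFT ?_).symm
      intro i hi hiF
      have : ¬ c i < 1 := fun h => hiF (Finset.mem_filter.2 ⟨hi, hpos i hi, h⟩)
      linarith [(hc i hi).2]
    have hFne : F.Nonempty := by
      rw [Finset.nonempty_iff_ne_empty]
      intro h
      rw [e2, h, Finset.sum_empty] at e1
      have : (0 : ℝ) ≤ Fintype.card ι := Nat.cast_nonneg _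
      linarith
    have e3 : ∑ i ∈ F, (1 - c i) < ∑ i ∈ F, (1 : ℝ) :=
      Finset.sum_lt_sum_of_nonempty hFne fun i hi => by linarith [hpos i (hFT hi)]
    rw [← e2, e1] at e3
    simp only [Finset.sum_const, nsmul_eq_mul, mul_one] at e3
    have : (F.card : ℝ) ≤ Fintype.card ι + 1 := by exact_mod_cast not_lt.1 hcard
    linarith

/-- ST2: one step of the chain. -/
theorem steinitz_chain {ι κ : Type*} [Fintype ι] [DecidableEq κ] (w : κ → ι → ℝ) (T : Finset κ)
    (hT : Fintype.card ι + 1 ≤ T.card) (h : StAdm w T) : ∃ i₀ ∈ T, StAdm w (T.erase i₀) := by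
  obtain ⟨c, hc, h0, h1⟩ := h
  have hT' : (Fintype.card ι : ℝ) + 1 ≤ T.card := by exact_mod_cast hT
  set a : ℝ := (T.card : ℝ) - Fintype.card ι with ha
  have ha1 : 1 ≤ a := by linarith
  set q : ℝ := (a - 1) / a with hq
  have hq0 : 0 ≤ q := div_nonneg (by linarith) (by linarith)
  have hq1 : q ≤ 1 := by
    rw [hq, div_le_one (by linarith)]
    linarith
  obtain ⟨c', hc', h0', h1', i₀, hi₀, hz⟩ := steinitz_vertex w T hT (fun i => q * c i)
    (fun i hi => ⟨mul_nonneg hq0 (hc i hi).1, by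
      have := mul_le_mul hq1 (hc i hi).2 (hc i hi).1 zero_le_one
      linarith⟩)
    (fun j => by
      have : ∑ i ∈ T, q * c i * w i j = q * ∑ i ∈ T, c i * w i j := by
        rw [Finset.mul_sum]
        refine Finset.sum_congr rfl fun i _ => ?_
        ring
      rw [this, h0 j, mul_zero])
    (by
      rw [← Finset.mul_sum, h1, hq]
      have : a ≠ 0 := by linarith
      field_simp
      rw [ha]
      ring)
  refine ⟨i₀, hi₀, c', fun i hi => hc' i (Finset.mem_of_mem_erase hi), fun j => ?_, ?_⟩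
  · rw [← h0' j, ← Finset.add_sum_erase T _ hi₀, hz]
    ring
  · rw [Finset.card_erase_of_mem hi₀]
    have h2 := Finset.add_sum_erase T c' hi₀
    rw [hz, zero_add, h1'] at h2
    rw [h2, Nat.cast_sub (by omega)]
    simp

/-- ST2': the norm bound. -/
theorem steinitz_bound {ι κ : Type*} [Fintype ι] (w : κ → ι → ℝ) (T : Finset κ) {R : ℝ}
    (hw : ∀ i ∈ T, ∀ j, |w i j| ≤ R) (h : StAdm w T) (j : ι) : |∑ i ∈ T, w i j| ≤ Fintype.card ι * R := by
  obtain ⟨c, hc, h0, h1⟩ := h
  have e : ∑ i ∈ T, w i j = ∑ i ∈ T, (1 - c i) * w i j := by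
    have : ∑ i ∈ T, (1 - c i) * w i j = ∑ i ∈ T, w i j - ∑ i ∈ T, c i * w i j := by
      rw [← Finset.sum_sub_distrib]
      refine Finset.sum_congr rfl fun i _ => ?_
      ring
    rw [this, h0 j, sub_zero]
  rw [e]
  calc |∑ i ∈ T, (1 - c i) * w i j| ≤ ∑ i ∈ T, |(1 - c i) * w i j| := Finset.abs_sum_le_sum_abs _ _
    _ ≤ ∑ i ∈ T, (1 - c i) * R := by
        refine Finset.sum_le_sum fun i hi => ?_
        rw [abs_mul, abs_of_nonneg (by linarith [(hc i hi).2])]
        exact mul_le_mul_of_nonneg_left (hw i hi j) (by linarith [(hc i hi).2])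
    _ = Fintype.card ι * R := by
        rw [← Finset.sum_mul, Finset.sum_sub_distrib, h1]
        simp

private theorem st_list_bound {κ : Type*} (f : κ → ℝ) {R : ℝ} (hf : ∀ i, |f i| ≤ R) (l : List κ) :
    |(l.map f).sum| ≤ l.length * R := by
  induction l with
  | nil => simp
  | cons a l ih =>
    simp only [List.map_cons, List.sum_cons, List.length_cons, Nat.cast_add, Nat.cast_one]
    calc |f a + (l.map f).sum| ≤ |f a| + |(l.map f).sum| := abs_add_le _ _
      _ ≤ R + l.length * R := add_le_add (hf a) ih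
      _ = (l.length + 1) * R := by ring

private theorem st_list {ι κ : Type*} [Fintype ι] [DecidableEq κ] (w : κ → ι → ℝ) {R : ℝ}
    (hR : 0 ≤ R) (hw : ∀ i j, |w i j| ≤ R) (n : ℕ) :
    ∀ T : Finset κ, T.card = n → (T.card ≤ Fintype.card ι ∨ StAdm w T) →
      ∃ l : List κ, l.Nodup ∧ l.toFinset = T ∧
        ∀ k j, |((l.take k).map fun i => w i j).sum| ≤ Fintype.card ι * R := by
  induction n with
  | zero =>
    intro T hT _
    refine ⟨[], List.nodup_nil, ?_, ?_⟩
    · rw [Finset.card_eq_zero.1 hT]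
      rfl
    · intro k j
      simp only [List.take_nil, List.map_nil, List.sum_nil, abs_zero]
      positivity
  | succ n ih =>
    intro T hT h
    by_cases hd : T.card ≤ Fintype.card ι
    · refine ⟨T.toList, T.nodup_toList, T.toList_toFinset, ?_⟩
      intro k j
      refine (st_list_bound (fun i => w i j) (fun i => hw i j) _).trans ?_
      refine mul_le_mul_of_nonneg_right ?_ hR
      have : (T.toList.take k).length ≤ Fintype.card ι := by
        rw [List.length_take, Finset.length_toList]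
        exact (min_le_right _ _).trans hd
      exact_mod_cast this
    · have hadm : StAdm w T := h.resolve_left hd
      obtain ⟨i₀, hi₀, hadm'⟩ := steinitz_chain w T (by omega) hadm
      obtain ⟨l, hnd, hl, hb⟩ := ih (T.erase i₀) (by rw [Finset.card_erase_of_mem hi₀, hT]; rfl)
        (Or.inr hadm')
      have hi₀l : i₀ ∉ l := by
        intro hmem
        have : i₀ ∈ l.toFinset := List.mem_toFinset.2 hmem
        rw [hl] at this
        exact Finset.notMem_erase _ _ this
      refine ⟨l ++ [i₀], ?_, ?_, ?_⟩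
      · rw [List.nodup_append]
        refine ⟨hnd, List.nodup_singleton _, ?_⟩
        intro a ha b hb
        rw [List.mem_singleton] at hb
        rintro rfl
        exact hi₀l (hb ▸ ha)
      · rw [List.toFinset_append, hl]
        ext x
        simp only [List.toFinset_cons, List.toFinset_nil, insert_empty_eq, Finset.mem_union,
          Finset.mem_erase, Finset.mem_singleton]
        constructor
        · rintro (h | rfl)
          · exact h.2
          · exact hi₀
        · intro hx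
          by_cases hxe : x = i₀
          · exact Or.inr hxe
          · exact Or.inl ⟨hxe, hx⟩
      · intro k j
        by_cases hk : k ≤ l.length
        · rw [List.take_append_of_le_length hk]
          exact hb k j
        · rw [List.take_of_length_le (by simp; omega)]
          have : ((l ++ [i₀]).map fun i => w i j).sum = ∑ i ∈ T, w i j := by
            rw [List.map_append, List.sum_append, ← Finset.add_sum_erase T _ hi₀, ← hl,
              List.sum_toFinset _ hnd]
            simp [add_comm]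
          rw [this]
          exact steinitz_bound w T (fun i _ j => hw i j) hadm j

/-- **Steinitz' lemma** (sup norm, constant `d`). -/
theorem u3_steinitz {ι : Type*} [Fintype ι] (m : ℕ) (w : Fin m → ι → ℝ) {R : ℝ} (hR : 0 ≤ R) (hw : ∀ i j, |w i j| ≤ R)
    (hsum : ∀ j, ∑ i, w i j = 0) :
    ∃ σ : Equiv.Perm (Fin m), ∀ k : ℕ, ∀ j,
      |∑ i ∈ univ.filter (fun i : Fin m => (i : ℕ) < k), w (σ i) j| ≤ Fintype.card ι * R := by
  have hgood : (univ : Finset (Fin m)).card ≤ Fintype.card ι ∨ StAdm w univ := by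
    by_cases hd : (univ : Finset (Fin m)).card ≤ Fintype.card ι
    · exact Or.inl hd
    · right
      rw [Finset.card_univ, Fintype.card_fin] at hd
      have hm : (Fintype.card ι : ℝ) < m := by exact_mod_cast not_le.1 hd
      have hm0 : (0 : ℝ) < m := lt_of_le_of_lt (Nat.cast_nonneg _) hm
      refine ⟨fun _ => ((m : ℝ) - Fintype.card ι) / m, ?_, ?_, ?_⟩
      · intro i _
        refine ⟨div_nonneg (by linarith) hm0.le, ?_⟩
        rw [div_le_one hm0]
        have : (0 : ℝ) ≤ Fintype.card ι := Nat.cast_nonneg _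
        linarith
      · intro j
        rw [← Finset.mul_sum, hsum j, mul_zero]
      · rw [Finset.sum_const, Finset.card_univ, Fintype.card_fin, nsmul_eq_mul]
        field_simp
  obtain ⟨l, hnd, hl, hb⟩ := st_list w hR hw _ univ rfl hgood
  have hmem : ∀ x : Fin m, x ∈ l := fun x => List.mem_toFinset.1 (hl ▸ Finset.mem_univ x)
  have hlen : l.length = m := by
    rw [← List.toFinset_card_of_nodup hnd, hl, Finset.card_univ, Fintype.card_fin]
  let σ : Equiv.Perm (Fin m) := (finCongr hlen.symm).trans (hnd.getEquivOfForallMemList l hmem)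
  have hσ : ∀ i : Fin m, σ i = l[(i : ℕ)]'(hlen.symm ▸ i.2) := fun i => rfl
  refine ⟨σ, fun k j => ?_⟩
  have key : ∀ k : ℕ, ∑ i ∈ univ.filter (fun i : Fin m => (i : ℕ) < k), w (σ i) j =
      ((l.take k).map fun i => w i j).sum := by
    intro k
    induction k with
    | zero => simp
    | succ k ih =>
      by_cases hk : k < m
      · have e : univ.filter (fun i : Fin m => (i : ℕ) < k + 1) =
            insert (⟨k, hk⟩ : Fin m) (univ.filter fun i : Fin m => (i : ℕ) < k) := by
          ext i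
          simp only [Finset.mem_filter, Finset.mem_univ, true_and, Finset.mem_insert, Fin.ext_iff]
          omega
        rw [e, Finset.sum_insert (by simp), ih, List.map_take, List.map_take,
          List.sum_take_succ _ _ (by simpa [hlen] using hk), hσ]
        simp [add_comm]
      · have e : univ.filter (fun i : Fin m => (i : ℕ) < k + 1) =
            univ.filter fun i : Fin m => (i : ℕ) < k := by
          ext i
          simp only [Finset.mem_filter, Finset.mem_univ, true_and]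
          have := i.2
          omega
        rw [e, ih, List.take_of_length_le (by omega), List.take_of_length_le (by omega)]
  rw [key k]
  exact hb k j

end Claimed.Agent.R258.U3
end
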