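/- Packed by merge_tool.py (helper293): 6 modules of Claimed.Agent.R258 in one file, same declarations.
   Old modules, in this order: Gev.CalcC, Gev.Base, Gev.Step, Gev.Cut, Gev.Prod, U3.Int -/
import Claimed.Agent.R258.Gev.CalcL
import Claimed.Agent.R258.S5.Base
import Claimed.Agent.R258.Pack018

/- ===== packed: Claimed.Agent.R258.Gev.CalcC ===== -/
section
/-
Row 258, block [GEV] (architect helper252).  FILE CalcC: composition with an inner function of order 0; the phases `ee (φ x)`.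
`norm_iteratedFDeriv_comp_le` (Faa di Bruno bound): if `‖D^i g (f x)‖ ≤ C` (`i ≤ n`) and `‖D^i f x‖ ≤ D^i` (`1 ≤ i ≤ n`) then
`‖D^n (g ∘ f) x‖ ≤ n! C D^n`.  For `f` of order 0 with constants `(Bf, Af)`: `D = max 1 Bf * Af`; for `g` with constants
`(s, Bg, Ag)`: `C = Bg (max 1 Ag)^n n!^s`.
`ee t = exp (2π t i)`: `iteratedDeriv n ee t = (2π i)^n ee t`, norm `(2π)^n`: `Gev 0 1 (2π) ee`.
-/
set_option autoImplicit false
open scoped ContDiff

namespace Claimed.Agent.R258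

section
variable {E F G : Type*} [NormedAddCommGroup E] [NormedSpace ℝ E] [NormedAddCommGroup F] [NormedSpace ℝ F]
  [NormedAddCommGroup G] [NormedSpace ℝ G]

theorem gev_comp {s : ℕ} {Bg Ag Bf Af : ℝ} {g : F → G} {f : E → F} {T : Set F} {S : Set E} (hAg : 0 ≤ Ag) (hAf : 0 ≤ Af)
    (hg : GevOn s Bg Ag g T) (hf : GevOn 0 Bf Af f S) (hST : ∀ x ∈ S, f x ∈ T) :
    GevOn (s + 1) Bg (max 1 Ag * (max 1 Bf * Af)) (fun x => g (f x)) S := by
  refine ⟨hg.smooth.comp hf.smooth, fun x hx n => ?_⟩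
  have hBg := gev_B_nonneg hg (hST x hx)
  have hBf := gev_B_nonneg hf hx
  have hC : ∀ i, i ≤ n → ‖iteratedFDeriv ℝ i g (f x)‖ ≤ Bg * (max 1 Ag) ^ n * (n.factorial : ℝ) ^ s := by
    intro i hi
    refine (hg.bound _ (hST x hx) i).trans ?_
    have h1 : Ag ^ i ≤ (max 1 Ag) ^ n :=
      (pow_le_pow_left₀ hAg (le_max_right _ _) i).trans (pow_le_pow_right₀ (le_max_left _ _) hi)
    have h2 : (i.factorial : ℝ) ^ s ≤ (n.factorial : ℝ) ^ s :=
      pow_le_pow_left₀ (by positivity) (by exact_mod_cast Nat.factorial_le hi) s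
    exact mul_le_mul (mul_le_mul_of_nonneg_left h1 hBg) h2 (by positivity) (by positivity)
  have hD : ∀ i, 1 ≤ i → i ≤ n → ‖iteratedFDeriv ℝ i f x‖ ≤ (max 1 Bf * Af) ^ i := by
    intro i hi _
    refine (hf.bound x hx i).trans ?_
    simp only [pow_zero, mul_one]
    rw [mul_pow]
    apply mul_le_mul_of_nonneg_right _ (by positivity)
    exact (le_max_right 1 Bf).trans (le_self_pow₀ (le_max_left _ _) (by omega))
  have h := norm_iteratedFDeriv_comp_le hg.smooth hf.smooth (n := n) (by exact_mod_cast le_top) x hC hD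
  refine h.trans (le_of_eq ?_)
  rw [mul_pow, pow_succ]
  ring

theorem gev_ee_contDiff : ContDiff ℝ ∞ ee := by
  unfold ee
  exact Complex.contDiff_exp.comp
    ((contDiff_const.mul Complex.ofRealCLM.contDiff).mul contDiff_const)

theorem gev_ee_norm (t : ℝ) : ‖ee t‖ = 1 := by
  unfold ee
  have : (2 * Real.pi * t * Complex.I : ℂ) = ((2 * Real.pi * t : ℝ) : ℂ) * Complex.I := by push_cast; ring
  rw [this, Complex.norm_exp_ofReal_mul_I]

theorem gev_ee_add (s t : ℝ) : ee (s + t) = ee s * ee t := by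
  unfold ee
  rw [← Complex.exp_add]
  congr 1
  push_cast
  ring

theorem gev_ee_int (n : ℤ) : ee (n : ℝ) = 1 := by
  unfold ee
  have : (2 * Real.pi * ((n : ℝ) : ℂ) * Complex.I : ℂ) = n * (2 * Real.pi * Complex.I) := by push_cast; ring
  rw [this, Complex.exp_int_mul_two_pi_mul_I]

theorem gev_ee_neg (t : ℝ) : ee (-t) = (starRingEnd ℂ) (ee t) := by
  unfold ee
  rw [← Complex.exp_conj]
  congr 1
  have h2 : (starRingEnd ℂ) (2 : ℂ) = 2 := Complex.conj_ofReal 2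
  simp only [map_mul, Complex.conj_ofReal, Complex.conj_I, h2]
  push_cast
  ring

theorem gev_ee_zero : ee 0 = 1 := by
  simp [ee]

theorem gev_ee_hasDerivAt (t : ℝ) : HasDerivAt ee (2 * Real.pi * Complex.I * ee t) t := by
  unfold ee
  have h1 : HasDerivAt (fun t : ℝ => (2 * Real.pi * (t : ℂ) * Complex.I : ℂ)) (2 * Real.pi * 1 * Complex.I) t :=
    ((Complex.ofRealCLM.hasDerivAt (x := t)).const_mul (2 * Real.pi : ℂ)).mul_const Complex.I
  have h2 := h1.cexp
  convert h2 using 1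
  ring

theorem gev_ee_iteratedDeriv (n : ℕ) (t : ℝ) : iteratedDeriv n ee t = (2 * Real.pi * Complex.I) ^ n * ee t := by
  induction n generalizing t with
  | zero => simp
  | succ n ih =>
    rw [iteratedDeriv_succ]
    have : iteratedDeriv n ee = fun t => (2 * Real.pi * Complex.I) ^ n * ee t := funext ih
    rw [this]
    rw [((gev_ee_hasDerivAt t).const_mul _).deriv]
    ring

theorem gev_ee : Gev 0 1 (2 * Real.pi) ee := by
  refine gev_of_iteratedDeriv gev_ee_contDiff fun x _ n => ?_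
  rw [gev_ee_iteratedDeriv, norm_mul, gev_ee_norm, norm_pow]
  have : ‖(2 * Real.pi * Complex.I : ℂ)‖ = 2 * Real.pi := by
    simp [abs_of_pos Real.pi_pos]
  rw [this]
  simp

/-- **phases**: `ee ∘ φ` has order 1 when `φ` has order 0 (polynomial phases on bounded sets) -/
theorem gev_ee_comp {B A : ℝ} {φ : E → ℝ} {S : Set E} (hA : 0 ≤ A) (hφ : GevOn 0 B A φ S) :
    GevOn 1 1 (2 * Real.pi * (max 1 B * A)) (fun x => ee (φ x)) S := by
  have h := gev_comp (by positivity) hA gev_ee hφ (fun x _ => Set.mem_univ _)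
  have e : max 1 (2 * Real.pi) = 2 * Real.pi := max_eq_right (by linarith [Real.pi_gt_three])
  rw [e] at h
  exact h

/-- linear phases are of order `0`, globally: `ee (∑ a_i x_i + c)` -/
theorem gev_ee_lin {ι : Type*} [Fintype ι] (a : ι → ℝ) (c : ℝ) :
    Gev 0 1 (2 * Real.pi * ∑ i, |a i|) (fun x : ι → ℝ => ee (∑ i, a i * x i + c)) := by
  have hL : ‖∑ i, a i • ContinuousLinearMap.proj (R := ℝ) (φ := fun _ : ι => ℝ) i‖ ≤ ∑ i, |a i| := by
    refine (norm_sum_le _ _).trans (Finset.sum_le_sum fun i _ => ?_)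
    rw [norm_smul, Real.norm_eq_abs]
    calc |a i| * ‖ContinuousLinearMap.proj (R := ℝ) (φ := fun _ : ι => ℝ) i‖ ≤ |a i| * 1 := by
          apply mul_le_mul_of_nonneg_left _ (abs_nonneg _)
          exact ContinuousLinearMap.opNorm_le_bound _ zero_le_one (fun x => by simpa using norm_le_pi_norm x i)
      _ = |a i| := mul_one _
  have h := gev_comp_affine (by positivity) gev_ee
    (∑ i, a i • ContinuousLinearMap.proj (R := ℝ) (φ := fun _ : ι => ℝ) i) c hL
  have h2 : Gev 0 1 (2 * Real.pi * ∑ i, |a i|)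
      (fun y : ι → ℝ => ee ((∑ i, a i • ContinuousLinearMap.proj (R := ℝ) (φ := fun _ : ι => ℝ) i) y + c)) :=
    gev_mono_set h (fun x _ => Set.mem_univ _)
  refine gev_congr h2 fun x => ?_
  simp

end

end Claimed.Agent.R258
end

/- ===== packed: Claimed.Agent.R258.Gev.Base ===== -/
section
/-
Row 258, block [GEV] (architect helper252).  FILE Base: `expNegInvGlue` (Mathlib: `exp (-1/x)` for `x > 0`, `0` for `x ≤ 0`) is `Gev 2 1 8`.
PLAN.  `gevG k x = (x⁻¹)^k * expNegInvGlue x`.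
 * smooth: `expNegInvGlue.contDiff_polynomial_eval_inv_mul` with `p = X^k`;
 * `deriv (gevG k) = gevG (k+2) - k * gevG (k+1)`: `expNegInvGlue.hasDerivAt_polynomial_eval_inv_mul` with `p = X^k`
   (derivative is `(X^2 * (p - derivative p)).eval x⁻¹ * expNegInvGlue x`);
 * `|gevG k x| ≤ k!`: for `x > 0`, `y = x⁻¹`: `y^k / k! ≤ exp y` (`Real.pow_div_factorial_le_exp`);
 * induction on `n` (for all `k`): `|iteratedDeriv n (gevG k) x| ≤ 2^n (k + 2n)!`
   (`iteratedDeriv_succ'`; `(k+2n+2)! + k (k+2n+1)! ≤ 2 (k+2n+2)!`);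
 * `(2n)! ≤ 4^n (n!)^2` (`Nat.choose_le_two_pow`/`Nat.centralBinom`).
-/
set_option autoImplicit false
open scoped ContDiff

namespace Claimed.Agent.R258

/-- `x^{-k} e^{-1/x}` for `x > 0`, `0` for `x ≤ 0` -/
noncomputable def gevG (k : ℕ) (x : ℝ) : ℝ := (x⁻¹) ^ k * expNegInvGlue x

theorem gev_G_contDiff (k : ℕ) : ContDiff ℝ ∞ (gevG k) := by
  have h := expNegInvGlue.contDiff_polynomial_eval_inv_mul (n := ⊤) (Polynomial.X ^ k)
  have e1 : (fun x => Polynomial.eval x⁻¹ (Polynomial.X ^ k : Polynomial ℝ) * expNegInvGlue x) = gevG k := by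
    funext y; simp [gevG]
  rw [e1] at h
  exact h

theorem gev_G_hasDerivAt (k : ℕ) (x : ℝ) : HasDerivAt (gevG k) (gevG (k + 2) x - k * gevG (k + 1) x) x := by
  have h := expNegInvGlue.hasDerivAt_polynomial_eval_inv_mul (Polynomial.X ^ k) x
  have e1 : (fun x => Polynomial.eval x⁻¹ (Polynomial.X ^ k : Polynomial ℝ) * expNegInvGlue x) = gevG k := by
    funext y; simp [gevG]
  rw [e1] at h
  convert h using 1
  simp only [gevG, Polynomial.derivative_X_pow, Polynomial.eval_mul, Polynomial.eval_pow, Polynomial.eval_X,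
    Polynomial.eval_sub, Polynomial.eval_natCast, map_natCast]
  rcases k with _ | k
  · simp
  · simp only [Nat.add_sub_cancel]
    push_cast
    ring

theorem gev_G_abs_le (k : ℕ) (x : ℝ) : |gevG k x| ≤ (k.factorial : ℝ) := by
  unfold gevG
  rcases le_or_gt x 0 with hx | hx
  · rw [expNegInvGlue.zero_of_nonpos hx]
    simp
  · have hy : 0 ≤ x⁻¹ := (inv_pos.mpr hx).le
    have h := Real.pow_div_factorial_le_exp x⁻¹ hy k
    have e : expNegInvGlue x = Real.exp (-x⁻¹) := by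
      simp [expNegInvGlue, not_le.mpr hx]
    rw [e, abs_of_nonneg (by positivity), Real.exp_neg]
    rw [div_le_iff₀ (by positivity)] at h
    rw [← div_eq_mul_inv, div_le_iff₀ (Real.exp_pos _)]
    linarith

theorem gev_G_iter (n : ℕ) : ∀ (k : ℕ) (x : ℝ), |iteratedDeriv n (gevG k) x| ≤ 2 ^ n * ((k + 2 * n).factorial : ℝ) := by
  induction n with
  | zero =>
    intro k x
    simpa using gev_G_abs_le k x
  | succ n ih =>
    intro k x
    have hd : deriv (gevG k) = fun y => gevG (k + 2) y - (k : ℝ) * gevG (k + 1) y :=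
      funext fun y => (gev_G_hasDerivAt k y).deriv
    rw [iteratedDeriv_succ', hd]
    have c1 : ContDiffAt ℝ n (gevG (k + 2)) x :=
      ((gev_G_contDiff (k + 2)).of_le (by exact_mod_cast le_top)).contDiffAt
    have c2 : ContDiffAt ℝ n (fun y => (k : ℝ) * gevG (k + 1) y) x :=
      ((contDiff_const.mul (gev_G_contDiff (k + 1))).of_le (by exact_mod_cast le_top)).contDiffAt
    rw [iteratedDeriv_fun_sub c1 c2, iteratedDeriv_const_mul_field]
    have h1 := ih (k + 2) x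
    have h2 := ih (k + 1) x
    have e1 : k + 2 + 2 * n = k + 2 * (n + 1) := by ring
    have e2 : k + 1 + 2 * n + 1 = k + 2 * (n + 1) := by ring
    rw [e1] at h1
    have h3 : (k : ℝ) * ((k + 1 + 2 * n).factorial : ℝ) ≤ ((k + 2 * (n + 1)).factorial : ℝ) := by
      rw [← e2, Nat.factorial_succ]
      push_cast
      apply mul_le_mul_of_nonneg_right _ (by positivity)
      have : (0 : ℝ) ≤ n := Nat.cast_nonneg n
      linarith
    calc |iteratedDeriv n (gevG (k + 2)) x - (k : ℝ) * iteratedDeriv n (gevG (k + 1)) x|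
        ≤ |iteratedDeriv n (gevG (k + 2)) x| + |(k : ℝ) * iteratedDeriv n (gevG (k + 1)) x| := abs_sub _ _
      _ = |iteratedDeriv n (gevG (k + 2)) x| + (k : ℝ) * |iteratedDeriv n (gevG (k + 1)) x| := by
          rw [abs_mul, abs_of_nonneg (Nat.cast_nonneg k : (0 : ℝ) ≤ (k : ℝ))]
      _ ≤ 2 ^ n * ((k + 2 * (n + 1)).factorial : ℝ) + (k : ℝ) * (2 ^ n * ((k + 1 + 2 * n).factorial : ℝ)) :=
          add_le_add h1 (mul_le_mul_of_nonneg_left h2 (Nat.cast_nonneg k))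
      _ = 2 ^ n * ((k + 2 * (n + 1)).factorial : ℝ) + 2 ^ n * ((k : ℝ) * ((k + 1 + 2 * n).factorial : ℝ)) := by ring
      _ ≤ 2 ^ n * ((k + 2 * (n + 1)).factorial : ℝ) + 2 ^ n * ((k + 2 * (n + 1)).factorial : ℝ) := by
          gcongr
      _ = _ := by rw [pow_succ]; ring

theorem gev_two_mul_factorial_le (n : ℕ) : ((2 * n).factorial : ℝ) ≤ 4 ^ n * (n.factorial : ℝ) ^ 2 := by
  have h := Nat.add_choose_mul_factorial_mul_factorial n n
  have h2 := Nat.choose_le_two_pow (n + n) n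
  have h3 : ((2 * n).factorial : ℝ) = ((n + n).choose n : ℝ) * (n.factorial : ℝ) * (n.factorial : ℝ) := by
    rw [two_mul]; exact_mod_cast h.symm
  rw [h3, sq, mul_assoc]
  apply mul_le_mul_of_nonneg_right _ (by positivity)
  have : (4 : ℝ) ^ n = 2 ^ (n + n) := by
    rw [pow_add, ← mul_pow]; norm_num
  rw [this]
  exact_mod_cast h2

/-- **the basic Gevrey-2 function** -/
theorem gev_expNegInvGlue : Gev 2 1 8 expNegInvGlue := by
  have e : gevG 0 = expNegInvGlue := by funext x; simp [gevG]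
  rw [← e]
  refine gev_of_iteratedDeriv (gev_G_contDiff 0) fun x _ n => ?_
  rw [Real.norm_eq_abs]
  refine (gev_G_iter n 0 x).trans ?_
  rw [zero_add, one_mul]
  calc (2 : ℝ) ^ n * ((2 * n).factorial : ℝ) ≤ 2 ^ n * (4 ^ n * (n.factorial : ℝ) ^ 2) :=
        mul_le_mul_of_nonneg_left (gev_two_mul_factorial_le n) (by positivity)
    _ = _ := by rw [← mul_assoc, ← mul_pow]; norm_num

end Claimed.Agent.R258
end

/- ===== packed: Claimed.Agent.R258.Gev.Step ===== -/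
section
/-
Row 258, block [GEV] (architect helper252).  FILE Step: the Gevrey-2 step function `gevStep`.
PLAN.  `gevBump0 x = expNegInvGlue x * expNegInvGlue (1 - x)` is `Gev 2 1 16` (`gev_mul`, `gev_comp_affine_real` with `a = -1`),
vanishes outside `(0,1)`, is `≥ 0`, and `≥ exp (-8)` on `[1/4, 3/4]`; hence `gevMass = ∫_0^1 gevBump0 ≥ exp (-8) / 2`, `1 / gevMass ≤ 2 e^8 ≤ 6000`
(`Real.exp_one_lt_d9`).  `gevStep x = (∫_0^x gevBump0) / gevMass` has derivative `gevBump0 / gevMass` (FTC, `intervalIntegral.integral_hasDerivAt_right`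
or `Continuous.deriv_integral`), so it is monotone, `0` for `x ≤ 0` (integrand zero), `1` for `x ≥ 1`, and `gev_of_deriv` with `B' = 1`, `A = 6000`
gives `Gev 2 1 6000`.
-/
set_option autoImplicit false
open scoped ContDiff

namespace Claimed.Agent.R258

noncomputable def gevBump0 (x : ℝ) : ℝ := expNegInvGlue x * expNegInvGlue (1 - x)

noncomputable def gevMass : ℝ := ∫ t in (0 : ℝ)..1, gevBump0 t

/-- the step function: `0` on `(-∞,0]`, `1` on `[1,∞)` -/
noncomputable def gevStep (x : ℝ) : ℝ := (∫ t in (0 : ℝ)..x, gevBump0 t) / gevMass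

theorem gev_bump0 : Gev 2 1 16 gevBump0 := by
  have h1 := gev_comp_affine_real (by norm_num : (0 : ℝ) ≤ 8) gev_expNegInvGlue (-1) 1
  have h2 : Gev 2 1 8 (fun x : ℝ => expNegInvGlue (1 - x)) := by
    have h3 := gev_mono_set h1 (S' := Set.univ) (fun x _ => Set.mem_univ _)
    have e : (8 : ℝ) * |(-1 : ℝ)| = 8 := by norm_num
    rw [e] at h3
    exact gev_congr h3 fun x => by congr 1; ring
  have h := gev_mul (by norm_num) (by norm_num) gev_expNegInvGlue h2
  have e1 : (1 : ℝ) * 1 = 1 := by norm_num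
  have e2 : (8 : ℝ) + 8 = 16 := by norm_num
  rw [e1, e2] at h
  exact h

theorem gev_bump0_nonneg (x : ℝ) : 0 ≤ gevBump0 x := by
  exact mul_nonneg (expNegInvGlue.nonneg _) (expNegInvGlue.nonneg _)

theorem gev_bump0_pos {x : ℝ} (h0 : 0 < x) (h1 : x < 1) : 0 < gevBump0 x := by
  exact mul_pos (expNegInvGlue.pos_of_pos h0) (expNegInvGlue.pos_of_pos (by linarith))

theorem gev_bump0_eq_zero {x : ℝ} (h : x ≤ 0 ∨ 1 ≤ x) : gevBump0 x = 0 := by
  unfold gevBump0
  rcases h with h | h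
  · rw [expNegInvGlue.zero_of_nonpos h, zero_mul]
  · rw [expNegInvGlue.zero_of_nonpos (by linarith : 1 - x ≤ 0), mul_zero]

theorem gev_bump0_continuous : Continuous gevBump0 := gev_bump0.smooth.continuous

theorem gev_glue_ge {x : ℝ} (hx : 1 / 4 ≤ x) : Real.exp (-4) ≤ expNegInvGlue x := by
  have h0 : 0 < x := by linarith
  have e : expNegInvGlue x = Real.exp (-x⁻¹) := by simp [expNegInvGlue, not_le.mpr h0]
  rw [e]
  apply Real.exp_le_exp.mpr
  have : x⁻¹ ≤ 4 := by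
    rw [inv_le_comm₀ h0 (by norm_num)]
    linarith
  linarith

theorem gev_mass_ge : Real.exp (-8) / 2 ≤ gevMass := by
  have hc := gev_bump0_continuous
  have h1 : ∫ t in (1 / 4 : ℝ)..(3 / 4), gevBump0 t ≤ gevMass := by
    apply intervalIntegral.integral_mono_interval (by norm_num) (by norm_num) (by norm_num)
    · exact Filter.Eventually.of_forall fun t => gev_bump0_nonneg t
    · exact hc.intervalIntegrable _ _
  have h2 : ∫ _t in (1 / 4 : ℝ)..(3 / 4), Real.exp (-8) ≤ ∫ t in (1 / 4 : ℝ)..(3 / 4), gevBump0 t := by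
    apply intervalIntegral.integral_mono_on (by norm_num) (continuous_const.intervalIntegrable _ _)
      (hc.intervalIntegrable _ _)
    intro t ht
    have e : Real.exp (-8) = Real.exp (-4) * Real.exp (-4) := by rw [← Real.exp_add]; norm_num
    rw [e]
    exact mul_le_mul (gev_glue_ge ht.1) (gev_glue_ge (by linarith [ht.2])) (Real.exp_pos _).le
      (expNegInvGlue.nonneg _)
  have h3 : ∫ _t in (1 / 4 : ℝ)..(3 / 4), Real.exp (-8) = Real.exp (-8) / 2 := by
    rw [intervalIntegral.integral_const, smul_eq_mul]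
    ring
  linarith

theorem gev_mass_inv_le : 1 / gevMass ≤ 6000 := by
  have h := gev_mass_ge
  have hp : 0 < Real.exp (-8) / 2 := by positivity
  have h1 : 1 / gevMass ≤ 1 / (Real.exp (-8) / 2) := one_div_le_one_div_of_le hp h
  refine h1.trans ?_
  have e : 1 / (Real.exp (-8) / 2) = 2 * Real.exp 1 ^ 8 := by
    rw [Real.exp_neg, ← Real.exp_nat_mul]
    norm_num
  rw [e]
  have h2 : Real.exp 1 ^ 8 ≤ 2.7182818286 ^ 8 := pow_le_pow_left₀ (Real.exp_pos _).le Real.exp_one_lt_d9.le 8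
  have h3 : (2.7182818286 : ℝ) ^ 8 ≤ 3000 := by norm_num
  linarith

theorem gev_mass_pos : 0 < gevMass := lt_of_lt_of_le (by positivity) gev_mass_ge

theorem gev_step_hasDerivAt (x : ℝ) : HasDerivAt gevStep (gevBump0 x / gevMass) x := by
  exact (gev_bump0_continuous.integral_hasStrictDerivAt 0 x).hasDerivAt.div_const gevMass

theorem gev_step_zero {x : ℝ} (h : x ≤ 0) : gevStep x = 0 := by
  unfold gevStep
  have : ∫ t in (0 : ℝ)..x, gevBump0 t = ∫ _t in (0 : ℝ)..x, (0 : ℝ) := by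
    apply intervalIntegral.integral_congr
    intro t ht
    rw [Set.uIcc_of_ge h] at ht
    exact gev_bump0_eq_zero (Or.inl ht.2)
  rw [this]
  simp

theorem gev_step_one {x : ℝ} (h : 1 ≤ x) : gevStep x = 1 := by
  unfold gevStep
  have hc := gev_bump0_continuous
  have h1 : ∫ t in (1 : ℝ)..x, gevBump0 t = ∫ _t in (1 : ℝ)..x, (0 : ℝ) := by
    apply intervalIntegral.integral_congr
    intro t ht
    rw [Set.uIcc_of_le h] at ht
    exact gev_bump0_eq_zero (Or.inr ht.1)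
  have h2 := intervalIntegral.integral_add_adjacent_intervals (μ := MeasureTheory.volume)
    (hc.intervalIntegrable 0 1) (hc.intervalIntegrable 1 x)
  rw [← h2, h1]
  simp only [intervalIntegral.integral_zero, add_zero]
  exact div_self gev_mass_pos.ne'

theorem gev_step_mono : Monotone gevStep := by
  apply monotone_of_deriv_nonneg (fun x => (gev_step_hasDerivAt x).differentiableAt)
  intro x
  rw [(gev_step_hasDerivAt x).deriv]
  exact div_nonneg (gev_bump0_nonneg x) gev_mass_pos.le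

theorem gev_step_nonneg (x : ℝ) : 0 ≤ gevStep x := by
  rcases le_total x 0 with h | h
  · rw [gev_step_zero h]
  · rw [← gev_step_zero (le_refl (0 : ℝ))]
    exact gev_step_mono h

theorem gev_step_le_one (x : ℝ) : gevStep x ≤ 1 := by
  rcases le_total 1 x with h | h
  · rw [gev_step_one h]
  · rw [← gev_step_one (le_refl (1 : ℝ))]
    exact gev_step_mono h

theorem gev_step_pos {x : ℝ} (h : 0 < x) : 0 < gevStep x := by
  rcases le_total 1 x with h1 | h1
  · rw [gev_step_one h1]; norm_num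
  · unfold gevStep
    apply div_pos _ gev_mass_pos
    apply intervalIntegral.intervalIntegral_pos_of_pos_on (gev_bump0_continuous.intervalIntegrable _ _) _ h
    intro t ht
    exact gev_bump0_pos ht.1 (by linarith [ht.2])

/-- symmetry `S(x) + S(1-x) = 1` -/
theorem gev_step_symm (x : ℝ) : gevStep x + gevStep (1 - x) = 1 := by
  have hd : ∀ y, HasDerivAt (fun y => gevStep y + gevStep (1 - y)) 0 y := by
    intro y
    have h1 := gev_step_hasDerivAt y
    have h2 : HasDerivAt (fun y => gevStep (1 - y)) (gevBump0 (1 - y) / gevMass * (-1)) y :=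
      (gev_step_hasDerivAt (1 - y)).comp y ((hasDerivAt_id y).const_sub 1)
    have h3 := h1.add h2
    have e : gevBump0 (1 - y) = gevBump0 y := by
      unfold gevBump0
      rw [sub_sub_cancel, mul_comm]
    rw [e] at h3
    have e0 : gevBump0 y / gevMass + gevBump0 y / gevMass * -1 = 0 := by ring
    rw [e0] at h3
    exact h3
  have hc := is_const_of_deriv_eq_zero (f := fun y => gevStep y + gevStep (1 - y))
    (fun y => (hd y).differentiableAt) (fun y => (hd y).deriv) x 0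
  rw [hc, gev_step_zero (le_refl _), sub_zero, gev_step_one (le_refl _), zero_add]

/-- **the Gevrey-2 step function** -/
theorem gev_step : Gev 2 1 6000 gevStep := by
  have h1 : Gev 2 (1 / gevMass) 6000 (fun x => gevBump0 x / gevMass) := by
    have h2 := gev_const_smul (1 / gevMass) gev_bump0
    have h3 := gev_mono h2 (le_refl 2) (le_refl _) (by norm_num) (by norm_num : (16 : ℝ) ≤ 6000) (le_refl _)
    have e : ‖1 / gevMass‖ * 1 = 1 / gevMass := by
      rw [mul_one, Real.norm_eq_abs, abs_of_pos (by have := gev_mass_pos; positivity)]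
    rw [e] at h3
    exact gev_congr h3 fun x => by rw [smul_eq_mul]; ring
  refine gev_of_deriv (by norm_num) h1 gev_step_hasDerivAt (fun x _ => ?_) ?_
  · rw [Real.norm_eq_abs, abs_of_nonneg (gev_step_nonneg x)]
    exact gev_step_le_one x
  · rw [one_mul]; exact gev_mass_inv_le

end Claimed.Agent.R258
end

/- ===== packed: Claimed.Agent.R258.Gev.Cut ===== -/
section
/-
Row 258, block [GEV] (architect helper252).  FILE Cut: the one-dimensional cutoffs, all built from `gevStep`.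
  gevStepAB a b   : 0 on (-∞,a], 1 on [b,∞)                                   Gev 2 1 (6000/(b-a))
  gevTrap a b c d : 0 on (-∞,a], 1 on [b,c], 0 on [d,∞)                        Gev 2 1 (6000/(b-a) + 6000/(d-c))
  gevWin a b      : even, 1 on |x| ≤ a, 0 on |x| ≥ b                           Gev 2 1 (12000/(b-a))
  gevPU           : ≥ 0, 0 on |x| ≥ 1, ∑_{n ∈ ℤ} gevPU (x - n) = 1             Gev 2 1 12000
  gevZeta δ       : 1-periodic, 0 within δ of ℤ, 1 at distance ≥ 2δ from ℤ      Gev 2 1 (12000/δ)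
All proofs: unfold, `gev_comp_affine_real`, `gev_mul`, `gev_sub` + `gev_improve`, and the properties of `gevStep`.
`gevZeta`: near a point `u₀ ∉ ℤ`, `Int.fract u = u - ⌊u₀⌋`; near `u₀ ∈ ℤ` the function vanishes (`gev_congr_near`-type argument;
smoothness via `contDiff_iff_contDiffAt` and `ContDiffAt.congr_of_eventuallyEq`).
-/
set_option autoImplicit false
open scoped ContDiff

namespace Claimed.Agent.R258

/-! ### steps -/

noncomputable def gevStepAB (a b x : ℝ) : ℝ := gevStep ((x - a) / (b - a))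

theorem gev_stepAB {a b : ℝ} (h : a < b) : Gev 2 1 (6000 / (b - a)) (gevStepAB a b) := by
  have hba : 0 < b - a := sub_pos.mpr h
  have h1 := gev_comp_affine_real (by norm_num : (0 : ℝ) ≤ 6000) gev_step (b - a)⁻¹ (-a / (b - a))
  have h2 := gev_mono_set h1 (S' := Set.univ) (fun x _ => Set.mem_univ _)
  have e : (6000 : ℝ) * |(b - a)⁻¹| = 6000 / (b - a) := by
    rw [abs_of_pos (inv_pos.mpr hba), div_eq_mul_inv]
  rw [e] at h2
  refine gev_congr h2 fun x => ?_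
  unfold gevStepAB
  congr 1
  field_simp
  ring

theorem gev_stepAB_zero {a b x : ℝ} (h : a < b) (hx : x ≤ a) : gevStepAB a b x = 0 := by
  exact gev_step_zero (div_nonpos_of_nonpos_of_nonneg (by linarith) (by linarith))

theorem gev_stepAB_one {a b x : ℝ} (h : a < b) (hx : b ≤ x) : gevStepAB a b x = 1 := by
  exact gev_step_one ((one_le_div (sub_pos.mpr h)).mpr (by linarith))

theorem gev_stepAB_mono {a b : ℝ} (h : a < b) : Monotone (gevStepAB a b) := by
  intro x y hxy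
  exact gev_step_mono (div_le_div_of_nonneg_right (by linarith) (sub_pos.mpr h).le)

theorem gev_stepAB_nonneg (a b x : ℝ) : 0 ≤ gevStepAB a b x := by
  exact gev_step_nonneg _

theorem gev_stepAB_le_one (a b x : ℝ) : gevStepAB a b x ≤ 1 := by
  exact gev_step_le_one _

theorem gev_stepAB_pos {a b x : ℝ} (h : a < b) (hx : a < x) : 0 < gevStepAB a b x := by
  exact gev_step_pos (div_pos (by linarith) (sub_pos.mpr h))

/-! ### trapezoids and windows -/

noncomputable def gevTrap (a b c d x : ℝ) : ℝ := gevStepAB a b x * gevStepAB (-d) (-c) (-x)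

theorem gev_trap {a b c d : ℝ} (hab : a < b) (hcd : c < d) :
    Gev 2 1 (6000 / (b - a) + 6000 / (d - c)) (gevTrap a b c d) := by
  have hba : 0 < b - a := sub_pos.mpr hab
  have hdc : 0 < d - c := sub_pos.mpr hcd
  have h1 := gev_stepAB hab
  have h2 := gev_stepAB (neg_lt_neg hcd)
  have h0 : (0 : ℝ) ≤ 6000 / (-c - -d) := by
    have : -c - -d = d - c := by ring
    rw [this]; positivity
  have h3 := gev_comp_affine_real h0 h2 (-1) 0
  have h4 := gev_mono_set h3 (S' := Set.univ) (fun x _ => Set.mem_univ _)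
  have e : (6000 : ℝ) / (-c - -d) * |(-1 : ℝ)| = 6000 / (d - c) := by
    have : -c - -d = d - c := by ring
    rw [this]; norm_num
  rw [e] at h4
  have h5 := gev_mul (by positivity) (by positivity) h1 h4
  rw [one_mul] at h5
  refine gev_congr h5 fun x => ?_
  unfold gevTrap
  congr 2
  ring

theorem gev_trap_zero {a b c d x : ℝ} (hab : a < b) (hcd : c < d) (hx : x ≤ a ∨ d ≤ x) : gevTrap a b c d x = 0 := by
  unfold gevTrap
  rcases hx with hx | hx
  · rw [gev_stepAB_zero hab hx, zero_mul]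
  · rw [gev_stepAB_zero (neg_lt_neg hcd) (neg_le_neg hx), mul_zero]

theorem gev_trap_one {a b c d x : ℝ} (hab : a < b) (hcd : c < d) (h1 : b ≤ x) (h2 : x ≤ c) : gevTrap a b c d x = 1 := by
  unfold gevTrap
  rw [gev_stepAB_one hab h1, gev_stepAB_one (neg_lt_neg hcd) (neg_le_neg h2), one_mul]

theorem gev_trap_nonneg (a b c d x : ℝ) : 0 ≤ gevTrap a b c d x := by
  exact mul_nonneg (gev_stepAB_nonneg _ _ _) (gev_stepAB_nonneg _ _ _)

theorem gev_trap_le_one (a b c d x : ℝ) : gevTrap a b c d x ≤ 1 := by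
  exact mul_le_one₀ (gev_stepAB_le_one _ _ _) (gev_stepAB_nonneg _ _ _) (gev_stepAB_le_one _ _ _)

theorem gev_trap_pos {a b c d x : ℝ} (hab : a < b) (hcd : c < d) (h1 : a < x) (h2 : x < d) : 0 < gevTrap a b c d x := by
  exact mul_pos (gev_stepAB_pos hab h1) (gev_stepAB_pos (neg_lt_neg hcd) (neg_lt_neg h2))

/-- even window -/
noncomputable def gevWin (a b x : ℝ) : ℝ := gevTrap (-b) (-a) a b x

theorem gev_win {a b : ℝ} (h : a < b) : Gev 2 1 (12000 / (b - a)) (gevWin a b) := by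
  have h1 := gev_trap (neg_lt_neg h) h
  have hba : 0 < b - a := sub_pos.mpr h
  have e : (6000 : ℝ) / (-a - -b) + 6000 / (b - a) = 12000 / (b - a) := by
    have : -a - -b = b - a := by ring
    rw [this]; ring
  rw [e] at h1
  exact h1

theorem gev_win_zero {a b x : ℝ} (h : a < b) (hx : b ≤ |x|) : gevWin a b x = 0 := by
  apply gev_trap_zero (neg_lt_neg h) h
  rcases le_abs'.mp hx with h1 | h1
  · left; linarith
  · right; exact h1

theorem gev_win_one {a b x : ℝ} (h : a < b) (hx : |x| ≤ a) : gevWin a b x = 1 := by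
  have := abs_le.mp hx
  exact gev_trap_one (neg_lt_neg h) h this.1 this.2

theorem gev_win_even (a b x : ℝ) : gevWin a b (-x) = gevWin a b x := by
  unfold gevWin gevTrap
  rw [neg_neg, mul_comm]

theorem gev_win_nonneg (a b x : ℝ) : 0 ≤ gevWin a b x := by
  exact gev_trap_nonneg _ _ _ _ _

theorem gev_win_le_one (a b x : ℝ) : gevWin a b x ≤ 1 := by
  exact gev_trap_le_one _ _ _ _ _

/-! ### the partition of unity -/

noncomputable def gevPU (x : ℝ) : ℝ := gevStep (x + 1) - gevStep x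

theorem gev_PU : Gev 2 1 12000 gevPU := by
  have h1 := gev_mono_set (gev_comp_add gev_step 1) (S' := Set.univ) (fun x _ => Set.mem_univ _)
  have h2 := gev_sub h1 gev_step
  have h3 := gev_improve h2 (by norm_num) (by norm_num : (1 : ℝ) ≤ 2) (B' := 1) (by norm_num) (fun x _ => by
    rw [Real.norm_eq_abs, abs_of_nonneg (sub_nonneg.mpr (gev_step_mono (by linarith)))]
    linarith [gev_step_le_one (x + 1), gev_step_nonneg x])
  have e : (2 : ℝ) * 6000 = 12000 := by norm_num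
  rw [e] at h3
  exact h3

theorem gev_PU_nonneg (x : ℝ) : 0 ≤ gevPU x := by
  exact sub_nonneg.mpr (gev_step_mono (by linarith))

theorem gev_PU_le_one (x : ℝ) : gevPU x ≤ 1 := by
  unfold gevPU
  linarith [gev_step_le_one (x + 1), gev_step_nonneg x]

theorem gev_PU_zero {x : ℝ} (hx : 1 ≤ |x|) : gevPU x = 0 := by
  unfold gevPU
  rcases le_abs'.mp hx with h1 | h1
  · rw [gev_step_zero (by linarith), gev_step_zero (by linarith), sub_zero]
  · rw [gev_step_one (by linarith), gev_step_one h1, sub_self]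

theorem gev_PU_supp {x : ℝ} (hx : gevPU x ≠ 0) : |x| < 1 := by
  by_contra h
  exact hx (gev_PU_zero (not_lt.mp h))

theorem gev_PU_even (x : ℝ) : gevPU (-x) = gevPU x := by
  unfold gevPU
  have h1 := gev_step_symm x
  have h2 := gev_step_symm (x + 1)
  have e1 : -x + 1 = 1 - x := by ring
  have e2 : 1 - (x + 1) = -x := by ring
  rw [e2] at h2
  rw [e1]
  linarith

theorem gev_PU_at_zero : gevPU 0 = 1 := by
  unfold gevPU
  rw [gev_step_one (by norm_num), gev_step_zero (le_refl _), sub_zero]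

theorem gev_PU_two (x : ℝ) : gevPU (x - ⌊x⌋) + gevPU (x - ⌊x⌋ - 1) = 1 := by
  unfold gevPU
  have h0 : 0 ≤ x - ⌊x⌋ := sub_nonneg.mpr (Int.floor_le x)
  have h1 : x - ⌊x⌋ < 1 := by linarith [Int.lt_floor_add_one x]
  rw [gev_step_one (by linarith : 1 ≤ x - ⌊x⌋ + 1), gev_step_zero (by linarith : x - ⌊x⌋ - 1 ≤ 0),
    sub_add_cancel]
  ring

theorem gev_PU_hasSum (x : ℝ) : HasSum (fun n : ℤ => gevPU (x - n)) 1 := by
  have h : HasSum (fun n : ℤ => gevPU (x - n)) (∑ n ∈ ({⌊x⌋, ⌊x⌋ + 1} : Finset ℤ), gevPU (x - n)) :=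
    hasSum_sum_of_ne_finset_zero (by
    intro n hn
    simp only [Finset.mem_insert, Finset.mem_singleton, not_or] at hn
    apply gev_PU_zero
    have h0 := Int.floor_le x
    have h1 := Int.lt_floor_add_one x
    rcases lt_or_gt_of_ne hn.1 with h2 | h2
    · have h3 : (n : ℝ) + 1 ≤ ⌊x⌋ := by exact_mod_cast h2
      exact le_trans (by linarith) (le_abs_self _)
    · have h3 : ⌊x⌋ + 1 < n := lt_of_le_of_ne h2 (Ne.symm hn.2)
      have h4 : (⌊x⌋ : ℝ) + 1 + 1 ≤ n := by exact_mod_cast h3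
      exact le_trans (by linarith) (neg_le_abs _))
  rw [Finset.sum_pair (by omega)] at h
  have e := gev_PU_two x
  have e2 : x - ((⌊x⌋ + 1 : ℤ) : ℝ) = x - ⌊x⌋ - 1 := by push_cast; ring
  rw [e2, e] at h
  exact h

/-! ### periodic cutoff away from the integers -/

noncomputable def gevZeta (δ u : ℝ) : ℝ := gevTrap δ (2 * δ) (1 - 2 * δ) (1 - δ) (Int.fract u)

theorem gev_zeta_periodic (δ u : ℝ) (n : ℤ) : gevZeta δ (u + n) = gevZeta δ u := by
  unfold gevZeta
  rw [Int.fract_add_intCast]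

theorem gev_zeta_zero {δ u : ℝ} (hδ : 0 < δ) (n : ℤ) (hu : |u - n| ≤ δ) : gevZeta δ u = 0 := by
  unfold gevZeta
  apply gev_trap_zero (by linarith) (by linarith)
  have e : Int.fract u = Int.fract (u - n) := (Int.fract_sub_intCast u n).symm
  rw [e]
  have hu' := abs_le.mp hu
  rcases le_or_gt 0 (u - n) with h | h
  · left
    have : Int.fract (u - n) ≤ u - n := by
      have : (0 : ℝ) ≤ ⌊u - n⌋ := by exact_mod_cast Int.floor_nonneg.mpr h
      unfold Int.fract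
      linarith
    linarith [hu'.2]
  · right
    have h1 : ⌊u - n⌋ ≤ -1 := by
      have : ⌊u - n⌋ < 0 := Int.floor_lt.mpr (by exact_mod_cast h)
      omega
    have h2 : (⌊u - n⌋ : ℝ) ≤ -1 := by exact_mod_cast h1
    unfold Int.fract
    linarith [hu'.1]

theorem gev_zeta_one {δ u : ℝ} (hδ : 0 < δ) (hu : ∀ n : ℤ, 2 * δ ≤ |u - n|) : gevZeta δ u = 1 := by
  unfold gevZeta
  apply gev_trap_one (by linarith) (by linarith)
  · have h := hu ⌊u⌋
    rw [abs_of_nonneg (sub_nonneg.mpr (Int.floor_le u))] at h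
    exact h
  · have h := hu (⌊u⌋ + 1)
    have h1 := Int.lt_floor_add_one u
    push_cast at h
    rw [abs_of_nonpos (by linarith)] at h
    unfold Int.fract
    linarith

theorem gev_zeta_nonneg (δ u : ℝ) : 0 ≤ gevZeta δ u := by
  exact gev_trap_nonneg _ _ _ _ _

theorem gev_zeta_le_one (δ u : ℝ) : gevZeta δ u ≤ 1 := by
  exact gev_trap_le_one _ _ _ _ _

theorem gev_zeta_near {δ : ℝ} (hδ : 0 < δ) (u₀ : ℝ) :
    gevZeta δ =ᶠ[nhds u₀] fun u => gevTrap δ (2 * δ) (1 - 2 * δ) (1 - δ) (u - ⌊u₀⌋) := by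
  have hmem : Set.Ioo ((⌊u₀⌋ : ℝ) - δ) (⌊u₀⌋ + 1) ∈ nhds u₀ :=
    Ioo_mem_nhds (by linarith [Int.floor_le u₀]) (Int.lt_floor_add_one u₀)
  filter_upwards [hmem] with u hu
  rcases le_or_gt (⌊u₀⌋ : ℝ) u with h | h
  · have : ⌊u⌋ = ⌊u₀⌋ := Int.floor_eq_iff.mpr ⟨h, hu.2⟩
    unfold gevZeta Int.fract
    rw [this]
  · rw [gev_zeta_zero hδ ⌊u₀⌋ (abs_le.mpr ⟨by linarith [hu.1], by linarith⟩),
      gev_trap_zero (by linarith) (by linarith) (Or.inl (by linarith))]

theorem gev_zeta {δ : ℝ} (hδ : 0 < δ) : Gev 2 1 (12000 / δ) (gevZeta δ) := by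
  have hT : Gev 2 1 (12000 / δ) (gevTrap δ (2 * δ) (1 - 2 * δ) (1 - δ)) := by
    have h := gev_trap (a := δ) (b := 2 * δ) (c := 1 - 2 * δ) (d := 1 - δ) (by linarith) (by linarith)
    have e : (6000 : ℝ) / (2 * δ - δ) + 6000 / (1 - δ - (1 - 2 * δ)) = 12000 / δ := by
      have e1 : 2 * δ - δ = δ := by ring
      have e2 : 1 - δ - (1 - 2 * δ) = δ := by ring
      rw [e1, e2]; ring
    rw [e] at h
    exact h
  have hTk : ∀ k : ℤ, Gev 2 1 (12000 / δ) (fun u : ℝ => gevTrap δ (2 * δ) (1 - 2 * δ) (1 - δ) (u - k)) :=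
    fun k => gev_mono_set (gev_comp_sub hT (k : ℝ)) (fun x _ => Set.mem_univ _)
  refine ⟨contDiff_iff_contDiffAt.mpr fun u₀ => ?_, fun u₀ _ n => ?_⟩
  · exact ((hTk ⌊u₀⌋).smooth.contDiffAt).congr_of_eventuallyEq (gev_zeta_near hδ u₀)
  · rw [((gev_zeta_near hδ u₀).iteratedFDeriv ℝ n).eq_of_nhds]
    exact (hTk ⌊u₀⌋).bound u₀ (Set.mem_univ _) n

end Claimed.Agent.R258
end

/- ===== packed: Claimed.Agent.R258.Gev.Prod ===== -/
section
/-
Row 258, block [GEV] (architect helper252).  FILE Prod: products over the coordinates of `ι → ℝ` (sup norm), d-dimensional cutoffs.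
  gev_pi_prod    : x ↦ ∏ i, f i (x i)         constants (∏ B i, ∑ A i)        (`gev_prod` + `gev_comp_proj`)
  gevPUd         : ∏ i, gevPU (x i)           partition of unity over `ι → ℤ`, Gev 2 1 (12000 * card ι)
  gevWind a b    : ∏ i, gevWin a b (x i)      1 on the cube |x i| ≤ a, 0 off the cube |x i| < b
  gevZetad δ     : ∏ i, gevZeta δ (x i)       periodic
`gev_PUd_hasSum`: only the `2^card ι` points `n i ∈ {⌊x i⌋, ⌊x i⌋ + 1}` contribute: `hasSum_sum_of_ne_finset_zero` with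
`Fintype.piFinset fun i => {⌊x i⌋, ⌊x i⌋ + 1}` and `Finset.prod_univ_sum` (∏ of sums = sum over piFinset of ∏), `gev_PU_two`.
-/
set_option autoImplicit false
open scoped ContDiff

namespace Claimed.Agent.R258

section
variable {ι : Type*} [Fintype ι]

theorem gev_pi_prod {𝔸 : Type*} [NormedCommRing 𝔸] [NormedAlgebra ℝ 𝔸] [NormOneClass 𝔸] {s : ℕ} {B A : ι → ℝ}
    {f : ι → ℝ → 𝔸} {S : ι → Set ℝ} (hA : ∀ i, 0 ≤ A i) (hf : ∀ i, GevOn s (B i) (A i) (f i) (S i)) :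
    GevOn s (∏ i, B i) (∑ i, A i) (fun x : ι → ℝ => ∏ i, f i (x i)) {x | ∀ i, x i ∈ S i} := by
  refine gev_prod Finset.univ (fun i _ => hA i) (fun i _ => ?_)
  exact gev_mono_set (gev_comp_proj (hA i) (hf i) i) (fun x hx => hx i)

/-- tensor product of two functions -/
theorem gev_tensor {E₁ E₂ 𝔸 : Type*} [NormedAddCommGroup E₁] [NormedSpace ℝ E₁] [NormedAddCommGroup E₂] [NormedSpace ℝ E₂]
    [NormedRing 𝔸] [NormedAlgebra ℝ 𝔸] {s : ℕ} {B₁ B₂ A₁ A₂ : ℝ} {f : E₁ → 𝔸} {g : E₂ → 𝔸} {S : Set E₁} {T : Set E₂}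
    (h₁ : 0 ≤ A₁) (h₂ : 0 ≤ A₂) (hf : GevOn s B₁ A₁ f S) (hg : GevOn s B₂ A₂ g T) :
    GevOn s (B₁ * B₂) (A₁ + A₂) (fun p : E₁ × E₂ => f p.1 * g p.2) {p | p.1 ∈ S ∧ p.2 ∈ T} := by
  exact gev_mul h₁ h₂ (gev_mono_set (gev_comp_fst (E' := E₂) h₁ hf) (fun p hp => hp.1))
    (gev_mono_set (gev_comp_snd (E := E₁) h₂ hg) (fun p hp => hp.2))

/-! ### partition of unity -/

noncomputable def gevPUd (x : ι → ℝ) : ℝ := ∏ i, gevPU (x i)

theorem gev_PUd : Gev 2 1 (12000 * (Fintype.card ι : ℝ)) (gevPUd : (ι → ℝ) → ℝ) := by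
  have h := gev_pi_prod (ι := ι) (B := fun _ => (1 : ℝ)) (A := fun _ => (12000 : ℝ)) (f := fun _ => gevPU)
    (S := fun _ => Set.univ) (fun _ => by norm_num) (fun _ => gev_PU)
  have h2 := gev_mono_set h (S' := Set.univ) (fun x _ i => Set.mem_univ _)
  simp only [Finset.prod_const_one, Finset.sum_const, Finset.card_univ, nsmul_eq_mul] at h2
  rw [mul_comm] at h2
  exact h2

theorem gev_PUd_nonneg (x : ι → ℝ) : 0 ≤ gevPUd x := by
  exact Finset.prod_nonneg fun i _ => gev_PU_nonneg _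

theorem gev_PUd_le_one (x : ι → ℝ) : gevPUd x ≤ 1 := by
  exact Finset.prod_le_one (fun i _ => gev_PU_nonneg _) (fun i _ => gev_PU_le_one _)

theorem gev_PUd_supp {x : ι → ℝ} (hx : gevPUd x ≠ 0) (i : ι) : |x i| < 1 := by
  apply gev_PU_supp
  intro h
  exact hx (Finset.prod_eq_zero (Finset.mem_univ i) h)

theorem gev_PU_off (x : ℝ) (n : ℤ) (hn : n ∉ ({⌊x⌋, ⌊x⌋ + 1} : Finset ℤ)) : gevPU (x - n) = 0 := by
  simp only [Finset.mem_insert, Finset.mem_singleton, not_or] at hn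
  apply gev_PU_zero
  have h0 := Int.floor_le x
  have h1 := Int.lt_floor_add_one x
  rcases lt_or_gt_of_ne hn.1 with h2 | h2
  · have h3 : (n : ℝ) + 1 ≤ ⌊x⌋ := by exact_mod_cast h2
    exact le_trans (by linarith) (le_abs_self _)
  · have h3 : ⌊x⌋ + 1 < n := lt_of_le_of_ne h2 (Ne.symm hn.2)
    have h4 : (⌊x⌋ : ℝ) + 1 + 1 ≤ n := by exact_mod_cast h3
    exact le_trans (by linarith) (neg_le_abs _)

theorem gev_PUd_hasSum (x : ι → ℝ) : HasSum (fun n : ι → ℤ => gevPUd (fun i => x i - (n i : ℝ))) 1 := by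
  classical
  have h : HasSum (fun n : ι → ℤ => gevPUd (fun i => x i - (n i : ℝ)))
      (∑ n ∈ Fintype.piFinset (fun i => ({⌊x i⌋, ⌊x i⌋ + 1} : Finset ℤ)), gevPUd (fun i => x i - (n i : ℝ))) :=
    hasSum_sum_of_ne_finset_zero (by
      intro n hn
      simp only [Fintype.mem_piFinset, not_forall] at hn
      obtain ⟨i, hi⟩ := hn
      apply Finset.prod_eq_zero (Finset.mem_univ i)
      exact gev_PU_off (x i) (n i) hi)
  have e : (∑ n ∈ Fintype.piFinset (fun i => ({⌊x i⌋, ⌊x i⌋ + 1} : Finset ℤ)), gevPUd (fun i => x i - (n i : ℝ))) = 1 := by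
    unfold gevPUd
    rw [← Finset.prod_univ_sum (fun i => ({⌊x i⌋, ⌊x i⌋ + 1} : Finset ℤ)) (fun i (k : ℤ) => gevPU (x i - (k : ℝ)))]
    apply Finset.prod_eq_one
    intro i _
    rw [Finset.sum_pair (by omega)]
    have e2 : x i - ((⌊x i⌋ + 1 : ℤ) : ℝ) = x i - ⌊x i⌋ - 1 := by push_cast; ring
    rw [e2]
    exact gev_PU_two (x i)
  rw [e] at h
  exact h

/-! ### box cutoffs -/

noncomputable def gevWind (a b : ℝ) (x : ι → ℝ) : ℝ := ∏ i, gevWin a b (x i)

theorem gev_wind {a b : ℝ} (h : a < b) :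
    Gev 2 1 ((Fintype.card ι : ℝ) * (12000 / (b - a))) (gevWind a b : (ι → ℝ) → ℝ) := by
  have hba : 0 < b - a := sub_pos.mpr h
  have h1 := gev_pi_prod (ι := ι) (B := fun _ => (1 : ℝ)) (A := fun _ => (12000 / (b - a) : ℝ)) (f := fun _ => gevWin a b)
    (S := fun _ => Set.univ) (fun _ => by positivity) (fun _ => gev_win h)
  have h2 := gev_mono_set h1 (S' := Set.univ) (fun x _ i => Set.mem_univ _)
  simp only [Finset.prod_const_one, Finset.sum_const, Finset.card_univ, nsmul_eq_mul] at h2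
  exact h2

theorem gev_wind_one {a b : ℝ} (h : a < b) {x : ι → ℝ} (hx : ∀ i, |x i| ≤ a) : gevWind a b x = 1 := by
  exact Finset.prod_eq_one fun i _ => gev_win_one h (hx i)

theorem gev_wind_zero {a b : ℝ} (h : a < b) {x : ι → ℝ} (i : ι) (hx : b ≤ |x i|) : gevWind a b x = 0 := by
  exact Finset.prod_eq_zero (Finset.mem_univ i) (gev_win_zero h hx)

theorem gev_wind_supp {a b : ℝ} (h : a < b) {x : ι → ℝ} (hx : gevWind a b x ≠ 0) (i : ι) : |x i| < b := by
  by_contra hc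
  exact hx (gev_wind_zero h i (not_lt.mp hc))

theorem gev_wind_nonneg (a b : ℝ) (x : ι → ℝ) : 0 ≤ gevWind a b x := by
  exact Finset.prod_nonneg fun i _ => gev_win_nonneg _ _ _

theorem gev_wind_le_one (a b : ℝ) (x : ι → ℝ) : gevWind a b x ≤ 1 := by
  exact Finset.prod_le_one (fun i _ => gev_win_nonneg _ _ _) (fun i _ => gev_win_le_one _ _ _)

/-! ### periodic product cutoff -/

noncomputable def gevZetad (δ : ℝ) (x : ι → ℝ) : ℝ := ∏ i, gevZeta δ (x i)

theorem gev_zetad {δ : ℝ} (hδ : 0 < δ) :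
    Gev 2 1 ((Fintype.card ι : ℝ) * (12000 / δ)) (gevZetad δ : (ι → ℝ) → ℝ) := by
  have h1 := gev_pi_prod (ι := ι) (B := fun _ => (1 : ℝ)) (A := fun _ => (12000 / δ : ℝ)) (f := fun _ => gevZeta δ)
    (S := fun _ => Set.univ) (fun _ => by positivity) (fun _ => gev_zeta hδ)
  have h2 := gev_mono_set h1 (S' := Set.univ) (fun x _ i => Set.mem_univ _)
  simp only [Finset.prod_const_one, Finset.sum_const, Finset.card_univ, nsmul_eq_mul] at h2
  exact h2

theorem gev_zetad_periodic (δ : ℝ) (x : ι → ℝ) (n : ι → ℤ) : gevZetad δ (fun i => x i + (n i : ℝ)) = gevZetad δ x := by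
  exact Finset.prod_congr rfl fun i _ => gev_zeta_periodic δ (x i) (n i)

theorem gev_zetad_zero {δ : ℝ} (hδ : 0 < δ) {x : ι → ℝ} (i : ι) (n : ℤ) (hx : |x i - n| ≤ δ) : gevZetad δ x = 0 := by
  exact Finset.prod_eq_zero (Finset.mem_univ i) (gev_zeta_zero hδ n hx)

theorem gev_zetad_one {δ : ℝ} (hδ : 0 < δ) {x : ι → ℝ} (hx : ∀ i, ∀ n : ℤ, 2 * δ ≤ |x i - n|) : gevZetad δ x = 1 := by
  exact Finset.prod_eq_one fun i _ => gev_zeta_one hδ (hx i)

theorem gev_zetad_nonneg (δ : ℝ) (x : ι → ℝ) : 0 ≤ gevZetad δ x := by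
  exact Finset.prod_nonneg fun i _ => gev_zeta_nonneg _ _

theorem gev_zetad_le_one (δ : ℝ) (x : ι → ℝ) : gevZetad δ x ≤ 1 := by
  exact Finset.prod_le_one (fun i _ => gev_zeta_nonneg _ _) (fun i _ => gev_zeta_le_one _ _)

end

end Claimed.Agent.R258
end

/- ===== packed: Claimed.Agent.R258.U3.Int ===== -/
section
/-
R258 / U3 / Int : INTEGRATION.  From (★) and the approximate symmetry of `M` to correlation of `f` with a locally quadratic phase on a Bohr set.
Blueprint owner: helper52.  Leaves: I1 `int_small_h`, I2 `int_local_x`, I3 `int_phase`, I4 `int_u2`, I5 `u3_int` (assembly).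
Statements verbatim; helper lemmas prefix `int_`.   `q x = 2⁻¹ * M x * x`.   `B'(t) = zbohr S' t`, `S ⊆ S'`.

I1.  `cover_trick` (for `S`, radius `r`, `Φ h = ‖dcoef f₁ f₂ h (M h)‖^2`, index set `B'(r') ⊆ zbohr S r`, `τ = id`): `h₁ ∈ zbohr S (2r)` with `(η/4^d) N^2 #B'(r') ≤ ∑_{h ∈ B'(r')} Φ (h₁ + h)`;
     `M (h₁ + h) = M h₁ + M h`;  `dcoef f₁ f₂ (h₁ + h) (M h₁ + M h) = dcoef g₁ g₂ h (M h)` with `g₁ x = f₁ (x + h₁)`, `g₂ x = f₂ x * eN (M h₁ * x)`.
I2.  For any `F : ZMod N → ℂ` and any nonempty Finset `B''`: `#B'' ∑_x F x = ∑_y ∑_{x' ∈ B''} F (y + x')`, so by Cauchy-Schwarz `#B''^2 ‖∑_x F x‖^2 ≤ N ∑_y ‖∑_{x' ∈ B''} F (y + x')‖^2`.  Apply to `F_h x = g₁(x + h) conj g₂(x) e(- M h x)`, sum over `h`, pigeonhole in `y`;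
     `‖∑_{x'} F_h (y + x')‖ = ‖∑_{x'} g₁(y + x' + h) conj g₂(y + x') e(- M h x')‖` (the factor `e(- M h y)` is unimodular).
I3.  For `h ∈ B'(r')`, `x ∈ B'(r'')`, `r', r'' ≤ ρ' ≤ 2r`:  `q (x + h) - q x - q h = 2⁻¹ (M x h + M h x) = M h x + 2⁻¹ {x, h}`, so `e(- M h x) = e(- q (x+h)) e(q x) e(q h) e(2⁻¹ {x,h})`, `‖e(2⁻¹{x,h}) - 1‖ ≤ 2 π ε`.
     With `A_h = ∑_x G₁(x + h) conj G₂(x) e(- M h x)`, `A'_h = ∑_x F₁(x+h) conj F₂(x)`, `F_i x = G_i x * e(- q x)`:  `‖A_h‖ ≤ ‖A'_h‖ + 2 π ε #B''`, `‖A_h‖^2 ≤ 2 ‖A'_h‖^2 + 2 (2 π ε)^2 #B''^2`.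
I4.  `u = F₂ 1_{B''}`, `v = F₁ 1_{B'(r' + r'')}`, `corr h = ∑_x conj (u x) v (x + h)`; for `h ∈ B'(r')` this is the inner sum.  `∑_{h ∈ B'(r')} ‖corr h‖^2 ≤ ∑_{all h} ‖corr h‖^2 = N^(-1) ∑_ξ ‖ft u ξ‖^2 ‖ft v ξ‖^2 ≤ max_ξ ‖ft v ξ‖^2 * ∑ ‖u‖^2 ≤ max_ξ ‖ft v ξ‖^2 #B''`
     (`ft corr ξ = conj (ft u ξ) * ft v ξ`, `ft_parseval` twice).
-/
set_option autoImplicit false

namespace Claimed.Agent.R258.U3

open Finset
open scoped ComplexConjugate Pointwise

variable {N : ℕ} [NeZero N]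

/-- I1: pass to small `h`. -/
theorem int_small_h (S S' : Finset (ZMod N)) (hS : S ⊆ S') {r r' η : ℝ} (hr : 0 ≤ r) (hr' : r' ≤ r) (M : ZMod N → ZMod N)
    (hM : LocLin S (2 * r) M) (f₁ f₂ : ZMod N → ℂ) (hf₂ : ∀ x, ‖f₂ x‖ ≤ 1)
    (hc : η * (zbohr S r).card * (N : ℝ) ^ 2 ≤ ∑ h ∈ zbohr S r, ‖dcoef f₁ f₂ h (M h)‖ ^ 2) :
    ∃ (h₁ : ZMod N) (g₂ : ZMod N → ℂ), (∀ x, ‖g₂ x‖ ≤ 1) ∧
      η / 4 ^ S.card * (zbohr S' r').card * (N : ℝ) ^ 2 ≤
        ∑ h ∈ zbohr S' r', ‖dcoef (fun x => f₁ (x + h₁)) g₂ h (M h)‖ ^ 2 := by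
  classical
  obtain ⟨h₁, hh₁, hsum⟩ := cover_trick S hr (fun h => ‖dcoef f₁ f₂ h (M h)‖ ^ 2) (fun _ => by positivity)
    (η := η * (N : ℝ) ^ 2) (by linarith) (zbohr S' r') id (fun i hi => zbohr_subset hS hr' hi)
  refine ⟨h₁, fun x => f₂ x * eN (M h₁ * x), ?_, ?_⟩
  · intro x; rw [norm_mul, norm_eN, mul_one]; exact hf₂ x
  · calc η / 4 ^ S.card * (zbohr S' r').card * (N : ℝ) ^ 2
        = η * (N : ℝ) ^ 2 / 4 ^ S.card * (zbohr S' r').card := by ring
      _ ≤ ∑ i ∈ zbohr S' r', ‖dcoef f₁ f₂ (h₁ + id i) (M (h₁ + id i))‖ ^ 2 := hsum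
      _ = _ := by
          refine Finset.sum_congr rfl fun h hh => ?_
          have hh' : h ∈ zbohr S (2 * r) := zbohr_subset hS (by linarith) hh
          simp only [id]
          rw [hM h₁ hh₁ h hh']
          congr 2
          unfold dcoef
          refine Finset.sum_congr rfl fun x _ => ?_
          rw [map_mul, ← eN_neg]
          have e1 : x + (h₁ + h) = x + h + h₁ := by ring
          have e2 : eN (-((M h₁ + M h) * x)) = eN (-(M h₁ * x)) * eN (-(M h * x)) := by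
            rw [← eN_add]; congr 1; ring
          rw [e1, e2]; ring

/-- I2: localise `x`. -/
theorem int_local_x (B' B'' : Finset (ZMod N)) (hB : B''.Nonempty) {c : ℝ} (M : ZMod N → ZMod N) (g₁ g₂ : ZMod N → ℂ)
    (hc : c * B'.card * (N : ℝ) ^ 2 ≤ ∑ h ∈ B', ‖dcoef g₁ g₂ h (M h)‖ ^ 2) :
    ∃ y : ZMod N, c * B'.card * (B''.card : ℝ) ^ 2 ≤
      ∑ h ∈ B', ‖∑ x ∈ B'', g₁ (y + x + h) * conj (g₂ (y + x)) * eN (-(M h * x))‖ ^ 2 := by
  classical
  have hNR : (0 : ℝ) < N := by exact_mod_cast Nat.pos_of_ne_zero (NeZero.ne N)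
  have hB0 : (0 : ℝ) < B''.card := by exact_mod_cast hB.card_pos
  set A : ZMod N → ZMod N → ℂ := fun h y => ∑ x ∈ B'', g₁ (y + x + h) * conj (g₂ (y + x)) * eN (-(M h * x)) with hA
  -- one `h`
  have h1 : ∀ h, (B''.card : ℝ) ^ 2 * ‖dcoef g₁ g₂ h (M h)‖ ^ 2 ≤ N * ∑ y, ‖A h y‖ ^ 2 := by
    intro h
    have e1 : (B''.card : ℂ) * dcoef g₁ g₂ h (M h) = ∑ y, eN (-(M h * y)) * A h y := by
      have : ∀ x ∈ B'', dcoef g₁ g₂ h (M h) = ∑ y, g₁ (y + x + h) * conj (g₂ (y + x)) * eN (-(M h * (y + x))) := by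
        intro x _
        unfold dcoef
        rw [← Equiv.sum_comp (Equiv.addRight x)]
        rfl
      rw [← nsmul_eq_mul, ← Finset.sum_const, Finset.sum_congr rfl this, Finset.sum_comm]
      refine Finset.sum_congr rfl fun y _ => ?_
      rw [hA, Finset.mul_sum]
      refine Finset.sum_congr rfl fun x _ => ?_
      have : eN (-(M h * (y + x))) = eN (-(M h * y)) * eN (-(M h * x)) := by rw [← eN_add]; congr 1; ring
      rw [this]; ring
    have e2 : (B''.card : ℝ) * ‖dcoef g₁ g₂ h (M h)‖ ≤ ∑ y, ‖A h y‖ := by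
      have : (B''.card : ℝ) * ‖dcoef g₁ g₂ h (M h)‖ = ‖(B''.card : ℂ) * dcoef g₁ g₂ h (M h)‖ := by
        rw [norm_mul, Complex.norm_natCast]
      rw [this, e1]
      refine le_trans (norm_sum_le _ _) (le_of_eq ?_)
      refine Finset.sum_congr rfl fun y _ => ?_
      rw [norm_mul, norm_eN, one_mul]
    calc (B''.card : ℝ) ^ 2 * ‖dcoef g₁ g₂ h (M h)‖ ^ 2 = ((B''.card : ℝ) * ‖dcoef g₁ g₂ h (M h)‖) ^ 2 := by ring
      _ ≤ (∑ y, ‖A h y‖) ^ 2 := pow_le_pow_left₀ (by positivity) e2 2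
      _ ≤ ((univ : Finset (ZMod N)).card : ℝ) * ∑ y, ‖A h y‖ ^ 2 := sq_sum_le_card_mul_sum_sq
      _ = N * ∑ y, ‖A h y‖ ^ 2 := by rw [Finset.card_univ, ZMod.card]
  by_contra hcon
  push Not at hcon
  have h2 : ∑ y : ZMod N, ∑ h ∈ B', ‖A h y‖ ^ 2 < ((univ : Finset (ZMod N)).card : ℝ) * (c * B'.card * (B''.card : ℝ) ^ 2) := by
    rw [← nsmul_eq_mul, ← Finset.sum_const]
    exact Finset.sum_lt_sum_of_nonempty ⟨0, Finset.mem_univ _⟩ (fun y _ => hcon y)
  rw [Finset.card_univ, ZMod.card] at h2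
  have h3 : (B''.card : ℝ) ^ 2 * ∑ h ∈ B', ‖dcoef g₁ g₂ h (M h)‖ ^ 2 ≤ N * ∑ y : ZMod N, ∑ h ∈ B', ‖A h y‖ ^ 2 := by
    rw [Finset.mul_sum, Finset.sum_comm, Finset.mul_sum]
    exact Finset.sum_le_sum fun h _ => h1 h
  have h4 : (B''.card : ℝ) ^ 2 * (c * B'.card * (N : ℝ) ^ 2) ≤ (B''.card : ℝ) ^ 2 * ∑ h ∈ B', ‖dcoef g₁ g₂ h (M h)‖ ^ 2 :=
    mul_le_mul_of_nonneg_left hc (by positivity)
  have h5 : (N : ℝ) * ∑ y : ZMod N, ∑ h ∈ B', ‖A h y‖ ^ 2 < N * ((N : ℝ) * (c * B'.card * (B''.card : ℝ) ^ 2)) :=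
    mul_lt_mul_of_pos_left h2 hNR
  nlinarith

/-- I3: replace the bilinear phase by the derivative of the quadratic phase `q x = 2⁻¹ M x x`. -/
theorem int_phase {N : ℕ} [Fact N.Prime] (hN : N ≠ 2) (S' : Finset (ZMod N)) {ρ r' r'' ε c : ℝ} (hr' : r' ≤ ρ) (hr'' : r'' ≤ ρ)
    (M : ZMod N → ZMod N) (hM : LocLin S' ρ M)
    (hsym : ∀ x ∈ zbohr S' ρ, ∀ y ∈ zbohr S' ρ, nrm ((2 : ZMod N)⁻¹ * asym M x y) ≤ ε)
    (hε : (2 * Real.pi * ε) ^ 2 ≤ c / 4) (G₁ G₂ : ZMod N → ℂ) (hG₁ : ∀ x, ‖G₁ x‖ ≤ 1) (hG₂ : ∀ x, ‖G₂ x‖ ≤ 1)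
    (hc : c * (zbohr S' r').card * ((zbohr S' r'').card : ℝ) ^ 2 ≤
      ∑ h ∈ zbohr S' r', ‖∑ x ∈ zbohr S' r'', G₁ (x + h) * conj (G₂ x) * eN (-(M h * x))‖ ^ 2) :
    c / 4 * (zbohr S' r').card * ((zbohr S' r'').card : ℝ) ^ 2 ≤
      ∑ h ∈ zbohr S' r', ‖∑ x ∈ zbohr S' r'',
        (G₁ (x + h) * eN (-((2 : ZMod N)⁻¹ * M (x + h) * (x + h)))) * conj (G₂ x * eN (-((2 : ZMod N)⁻¹ * M x * x)))‖ ^ 2 := by
  classical
  have h2 : (2 : ZMod N) ≠ 0 := by
    intro h
    have h' : ((2 : ℕ) : ZMod N) = 0 := by exact_mod_cast h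
    rw [ZMod.natCast_eq_zero_iff] at h'
    have := (Nat.prime_dvd_prime_iff_eq (Fact.out : N.Prime) Nat.prime_two).1 h'
    exact hN this
  have h22 : (2 : ZMod N) * (2 : ZMod N)⁻¹ = 1 := mul_inv_cancel₀ h2
  set B' := zbohr S' r' with hB'
  set B'' := zbohr S' r'' with hB''
  set q : ZMod N → ZMod N := fun z => (2 : ZMod N)⁻¹ * M z * z with hq
  set P : ZMod N → ZMod N → ℂ := fun h x => (G₁ (x + h) * eN (-(q (x + h)))) * conj (G₂ x * eN (-(q x))) with hP
  have hPn : ∀ h x, ‖P h x‖ ≤ 1 := by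
    intro h x
    rw [hP]
    simp only [norm_mul, RCLike.norm_conj, norm_eN, mul_one]
    calc ‖G₁ (x + h)‖ * ‖G₂ x‖ ≤ 1 * 1 := mul_le_mul (hG₁ _) (hG₂ _) (norm_nonneg _) (by norm_num)
      _ = 1 := one_mul 1
  -- one `h`
  have h1 : ∀ h ∈ B', ‖∑ x ∈ B'', G₁ (x + h) * conj (G₂ x) * eN (-(M h * x))‖ ≤
      ‖∑ x ∈ B'', P h x‖ + 2 * Real.pi * ε * B''.card := by
    intro h hh
    have hh' : h ∈ zbohr S' ρ := zbohr_mono S' hr' hh
    have e1 : ∑ x ∈ B'', G₁ (x + h) * conj (G₂ x) * eN (-(M h * x)) =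
        eN (q h) * ∑ x ∈ B'', P h x + eN (q h) * ∑ x ∈ B'', P h x * (eN ((2 : ZMod N)⁻¹ * asym M x h) - 1) := by
      rw [← mul_add, ← Finset.sum_add_distrib, Finset.mul_sum]
      refine Finset.sum_congr rfl fun x hx => ?_
      have hx' : x ∈ zbohr S' ρ := zbohr_mono S' hr'' hx
      have e2 : eN (-(M h * x)) = eN (q h) * (eN (-(q (x + h))) * eN (q x) * eN ((2 : ZMod N)⁻¹ * asym M x h)) := by
        rw [← eN_add, ← eN_add, ← eN_add]
        congr 1
        simp only [hq, asym]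
        rw [hM x hx' h hh']
        have : -(M h * x) = -((2 : ZMod N) * (2 : ZMod N)⁻¹ * (M h * x)) := by rw [h22, one_mul]
        rw [this]
        ring
      rw [e2, hP]
      simp only [map_mul, ← eN_neg, neg_neg]
      ring
    rw [e1]
    refine le_trans (norm_add_le _ _) ?_
    rw [norm_mul, norm_mul, norm_eN, one_mul, one_mul]
    apply add_le_add le_rfl
    refine le_trans (norm_sum_le _ _) ?_
    calc ∑ x ∈ B'', ‖P h x * (eN ((2 : ZMod N)⁻¹ * asym M x h) - 1)‖ ≤ ∑ x ∈ B'', 2 * Real.pi * ε := by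
          refine Finset.sum_le_sum fun x hx => ?_
          have hx' : x ∈ zbohr S' ρ := zbohr_mono S' hr'' hx
          rw [norm_mul]
          calc ‖P h x‖ * ‖eN ((2 : ZMod N)⁻¹ * asym M x h) - 1‖ ≤ 1 * ‖eN ((2 : ZMod N)⁻¹ * asym M x h) - 1‖ :=
                mul_le_mul_of_nonneg_right (hPn h x) (norm_nonneg _)
            _ = ‖eN ((2 : ZMod N)⁻¹ * asym M x h) - 1‖ := one_mul _
            _ ≤ 2 * Real.pi * nrm ((2 : ZMod N)⁻¹ * asym M x h) := norm_eN_sub_one_le _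
            _ ≤ 2 * Real.pi * ε := mul_le_mul_of_nonneg_left (hsym x hx' h hh') (by positivity)
      _ = 2 * Real.pi * ε * B''.card := by rw [Finset.sum_const, nsmul_eq_mul]; ring
  have h3 : ∀ h ∈ B', ‖∑ x ∈ B'', G₁ (x + h) * conj (G₂ x) * eN (-(M h * x))‖ ^ 2 ≤
      2 * ‖∑ x ∈ B'', P h x‖ ^ 2 + 2 * ((2 * Real.pi * ε) ^ 2 * (B''.card : ℝ) ^ 2) := by
    intro h hh
    have := pow_le_pow_left₀ (norm_nonneg _) (h1 h hh) 2
    refine le_trans this ?_
    nlinarith [sq_nonneg (‖∑ x ∈ B'', P h x‖ - 2 * Real.pi * ε * B''.card)]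
  have h4 : ∑ h ∈ B', ‖∑ x ∈ B'', G₁ (x + h) * conj (G₂ x) * eN (-(M h * x))‖ ^ 2 ≤
      2 * ∑ h ∈ B', ‖∑ x ∈ B'', P h x‖ ^ 2 + (B'.card : ℝ) * (2 * ((2 * Real.pi * ε) ^ 2 * (B''.card : ℝ) ^ 2)) := by
    refine le_trans (Finset.sum_le_sum h3) ?_
    rw [Finset.sum_add_distrib, ← Finset.mul_sum, Finset.sum_const, nsmul_eq_mul]
  have h5 : (B'.card : ℝ) * (2 * ((2 * Real.pi * ε) ^ 2 * (B''.card : ℝ) ^ 2)) ≤
      (B'.card : ℝ) * (2 * (c / 4 * (B''.card : ℝ) ^ 2)) := by gcongr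
  have h6 : c * B'.card * (B''.card : ℝ) ^ 2 ≤ 2 * ∑ h ∈ B', ‖∑ x ∈ B'', P h x‖ ^ 2 +
      (B'.card : ℝ) * (2 * (c / 4 * (B''.card : ℝ) ^ 2)) := by linarith
  have h7 : c / 4 * B'.card * (B''.card : ℝ) ^ 2 ≤ ∑ h ∈ B', ‖∑ x ∈ B'', P h x‖ ^ 2 := by nlinarith
  exact h7

/-- I4: the local `U^2` inverse theorem (with a loss that is harmless here). -/
theorem int_u2 (S' : Finset (ZMod N)) {r' r'' c : ℝ} (hr'' : 0 ≤ r'') (F₁ F₂ : ZMod N → ℂ) (hF₂ : ∀ x, ‖F₂ x‖ ≤ 1)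
    (hc : c * (zbohr S' r').card * ((zbohr S' r'').card : ℝ) ^ 2 ≤
      ∑ h ∈ zbohr S' r', ‖∑ x ∈ zbohr S' r'', F₁ (x + h) * conj (F₂ x)‖ ^ 2) :
    ∃ ξ : ZMod N, c * (zbohr S' r').card * (zbohr S' r'').card ≤ ‖∑ x ∈ zbohr S' (r' + r''), F₁ x * eN (-(ξ * x))‖ ^ 2 := by
  classical
  have hNR : (0 : ℝ) < N := by exact_mod_cast Nat.pos_of_ne_zero (NeZero.ne N)
  set B' := zbohr S' r' with hB'
  set B'' := zbohr S' r'' with hB''
  set Bs := zbohr S' (r' + r'') with hBs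
  set u : ZMod N → ℂ := fun x => if x ∈ B'' then F₂ x else 0 with hu
  set v : ZMod N → ℂ := fun x => if x ∈ Bs then F₁ x else 0 with hv
  set corr : ZMod N → ℂ := fun h => ∑ x, conj (u x) * v (x + h) with hcorr
  have hftv : ∀ ξ, ft v ξ = ∑ x ∈ Bs, F₁ x * eN (-(ξ * x)) := by
    intro ξ
    unfold ft
    simp only [hv, ite_mul, zero_mul]
    rw [Finset.sum_ite_mem, Finset.univ_inter]
  have hftc : ∀ ξ, ft corr ξ = conj (ft u ξ) * ft v ξ := by
    intro ξ
    unfold ft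
    simp only [hcorr]
    simp_rw [Finset.sum_mul]
    rw [Finset.sum_comm, map_sum, Finset.sum_mul]
    refine Finset.sum_congr rfl fun x _ => ?_
    rw [Finset.mul_sum, ← Equiv.sum_comp (Equiv.addLeft x) (fun y => conj (u x * eN (-(ξ * x))) * (v y * eN (-(ξ * y))))]
    refine Finset.sum_congr rfl fun h _ => ?_
    simp only [Equiv.coe_addLeft]
    rw [map_mul, ← eN_neg, neg_neg]
    have : eN (-(ξ * h)) = eN (ξ * x) * eN (-(ξ * (x + h))) := by rw [← eN_add]; congr 1; ring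
    rw [this]; ring
  obtain ⟨ξ, -, hξ⟩ := Finset.exists_max_image (univ : Finset (ZMod N)) (fun ξ => ‖ft v ξ‖) ⟨0, Finset.mem_univ _⟩
  refine ⟨ξ, ?_⟩
  rw [← hftv]
  set m := ‖ft v ξ‖ with hm
  have hu2 : ∑ x, ‖u x‖ ^ 2 ≤ B''.card := by
    calc ∑ x, ‖u x‖ ^ 2 ≤ ∑ x, (if x ∈ B'' then (1 : ℝ) else 0) := by
          refine Finset.sum_le_sum fun x _ => ?_
          by_cases hx : x ∈ B''
          · simp only [hu, if_pos hx]
            exact pow_le_one₀ (norm_nonneg _) (hF₂ x)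
          · simp [hu, hx]
      _ = B''.card := by rw [Finset.sum_ite_mem, Finset.univ_inter]; simp
  have hall : ∑ h, ‖corr h‖ ^ 2 ≤ m ^ 2 * B''.card := by
    have h1 : (N : ℝ) * ∑ h, ‖corr h‖ ^ 2 ≤ N * (m ^ 2 * B''.card) := by
      rw [← ft_parseval]
      calc ∑ ξ', ‖ft corr ξ'‖ ^ 2 ≤ ∑ ξ', m ^ 2 * ‖ft u ξ'‖ ^ 2 := by
            refine Finset.sum_le_sum fun ξ' _ => ?_
            rw [hftc, norm_mul, RCLike.norm_conj, mul_pow, mul_comm]
            exact mul_le_mul_of_nonneg_right (pow_le_pow_left₀ (norm_nonneg _) (hξ ξ' (Finset.mem_univ _)) 2) (by positivity)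
        _ = m ^ 2 * (N * ∑ x, ‖u x‖ ^ 2) := by rw [← Finset.mul_sum, ft_parseval]
        _ ≤ m ^ 2 * (N * B''.card) := by gcongr
        _ = N * (m ^ 2 * B''.card) := by ring
    exact le_of_mul_le_mul_left h1 hNR
  have hpart : ∑ h ∈ B', ‖∑ x ∈ B'', F₁ (x + h) * conj (F₂ x)‖ ^ 2 ≤ ∑ h, ‖corr h‖ ^ 2 := by
    calc ∑ h ∈ B', ‖∑ x ∈ B'', F₁ (x + h) * conj (F₂ x)‖ ^ 2 = ∑ h ∈ B', ‖corr h‖ ^ 2 := by
          refine Finset.sum_congr rfl fun h hh => ?_
          congr 2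
          simp only [hcorr, hu]
          have : ∀ x, conj (if x ∈ B'' then F₂ x else 0) * v (x + h) = if x ∈ B'' then F₁ (x + h) * conj (F₂ x) else 0 := by
            intro x
            by_cases hx : x ∈ B''
            · have hxh : x + h ∈ Bs := by
                have := add_mem_zbohr hh hx
                rwa [add_comm h x] at this
              simp only [if_pos hx, hv, if_pos hxh]
              ring
            · simp [hx]
          simp_rw [this]
          rw [Finset.sum_ite_mem, Finset.univ_inter]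
      _ ≤ _ := Finset.sum_le_sum_of_subset_of_nonneg (Finset.subset_univ _) (fun _ _ _ => by positivity)
  have hB0 : (0 : ℝ) < B''.card := by exact_mod_cast card_zbohr_pos S' hr''
  have hfin : (c * B'.card * B''.card) * B''.card ≤ m ^ 2 * B''.card := by
    calc (c * B'.card * B''.card) * B''.card = c * B'.card * (B''.card : ℝ) ^ 2 := by ring
      _ ≤ _ := le_trans hc (le_trans hpart hall)
  exact le_of_mul_le_mul_right hfin hB0

/-- I5: **integration.** -/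
theorem u3_int {N : ℕ} [Fact N.Prime] (hN : N ≠ 2) (S S' : Finset (ZMod N)) (hS : S ⊆ S') {r ρ r' r'' η ε : ℝ} (hρ : ρ ≤ r)
    (hr' : 0 ≤ r') (hr'' : 0 ≤ r'') (hrr : r' + r'' ≤ ρ) (M : ZMod N → ZMod N) (hM : LocLin S (2 * r) M)
    (f₁ f₂ : ZMod N → ℂ) (hf₁ : ∀ x, ‖f₁ x‖ ≤ 1) (hf₂ : ∀ x, ‖f₂ x‖ ≤ 1)
    (hc : η * (zbohr S r).card * (N : ℝ) ^ 2 ≤ ∑ h ∈ zbohr S r, ‖dcoef f₁ f₂ h (M h)‖ ^ 2)
    (hsym : ∀ x ∈ zbohr S' ρ, ∀ y ∈ zbohr S' ρ, nrm ((2 : ZMod N)⁻¹ * asym M x y) ≤ ε)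
    (hε : (2 * Real.pi * ε) ^ 2 ≤ η / 4 ^ S.card / 4) :
    ∃ xs ξ : ZMod N, η / 4 ^ S.card / 4 * (zbohr S' r').card * (zbohr S' r'').card ≤
      ‖∑ x ∈ zbohr S' (r' + r''), f₁ (xs + x) * eN (-((2 : ZMod N)⁻¹ * M x * x + ξ * x))‖ ^ 2 := by
  have hr : 0 ≤ r := by linarith
  obtain ⟨h₁, g₂, hg₂, h1⟩ := int_small_h S S' hS hr (by linarith : r' ≤ r) M hM f₁ f₂ hf₂ hc
  obtain ⟨y, h2⟩ := int_local_x (zbohr S' r') (zbohr S' r'') ⟨0, zero_mem_zbohr S' hr''⟩ M (fun x => f₁ (x + h₁)) g₂ h1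
  have h3 := int_phase hN S' (ρ := ρ) (r' := r') (r'' := r'') (ε := ε) (c := η / 4 ^ S.card) (by linarith) (by linarith) M
    (hM.mono hS (by linarith)) hsym hε (fun x => f₁ (y + x + h₁)) (fun x => g₂ (y + x)) (fun _ => hf₁ _) (fun _ => hg₂ _)
    (by
      refine le_trans h2 (le_of_eq ?_)
      refine Finset.sum_congr rfl fun h _ => ?_
      congr 2
      refine Finset.sum_congr rfl fun x _ => ?_
      have : y + x + h + h₁ = y + (x + h) + h₁ := by ring
      simp only [this])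
  obtain ⟨ξ, h4⟩ := int_u2 S' (r' := r') (r'' := r'') (c := η / 4 ^ S.card / 4) hr''
    (fun x => f₁ (y + x + h₁) * eN (-((2 : ZMod N)⁻¹ * M x * x)))
    (fun x => g₂ (y + x) * eN (-((2 : ZMod N)⁻¹ * M x * x)))
    (fun x => by rw [norm_mul, norm_eN, mul_one]; exact hg₂ _) h3
  refine ⟨y + h₁, ξ, le_trans h4 (le_of_eq ?_)⟩
  congr 2
  refine Finset.sum_congr rfl fun x _ => ?_
  have e1 : y + x + h₁ = y + h₁ + x := by ring
  have e2 : eN (-((2 : ZMod N)⁻¹ * M x * x + ξ * x)) = eN (-((2 : ZMod N)⁻¹ * M x * x)) * eN (-(ξ * x)) := by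
    rw [← eN_add]; congr 1; ring
  rw [e1, e2]; ring

end Claimed.Agent.R258.U3
end
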