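/- Packed by merge_tool.py (helper293): 7 modules of Claimed.Agent.R258 in one file, same declarations.
   Old modules, in this order: S9a.ToolDrc, S9a.ToolPack, S9a.ToolExtract, S9a.ToolOrder, U3.BR.Defs, U3.BR.Period, U3.BR.Smooth -/
import Mathlib

/- ===== packed: Claimed.Agent.R258.S9a.ToolDrc ===== -/
section
/-
R258 / block [S9a] (Lemma 9.1 = counting.tex `lem:finite-sparse-count`), file ToolDrc: dependent random choice (pure finite combinatorics).  Blueprint: helper261.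
RULES: fill the `sorry`s IN PLACE (auxiliary lemmas above, prefix `sc_`); statements change only via helper261.  No paper reading needed.

LEAF P-S9a-drc `sc_drc`, explicit constants.  PROOF.  `N y = {x ∈ X | (x,y) ∈ Ed}`, `codeg x x' = #{y | (x,y),(x',y) ∈ Ed}`.
 `∑_y #N y = #Ed ≥ η M²`; Cauchy-Schwarz: `∑_y (#N y)² ≥ (#Ed)²/#Y ≥ η² M³`.  A pair `(x,x') ∈ X²` is BAD if `codeg x x' < η² M / 200`.
 `∑_y #{bad pairs in (N y)²} = ∑_{bad} codeg ≤ M² · η² M/200`.  Hence some `y` has `(#N)² - 100 bad_y ≥ η² M²/2`: `#N ≥ η M/√2`, `bad_y < (#N)²/100`.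
 `X' := {x ∈ N | #{z ∈ N | (x,z) bad} ≤ #N/4}`; fewer than `#N/25` points are deleted.  For `x, x' ∈ X'` at least `#N/2` midpoints `z ∈ N` are good for both;
 each contributes `codeg x z * codeg z x' ≥ (η² M/200)²` paths.  `(η M/(2√2)) (η² M/200)² ≥ η⁵ M³/160000`.
-/
set_option autoImplicit false

namespace Claimed.Agent.R258

open Finset
open scoped Pointwise

/-- **Dependent random choice** with many four-step paths. -/
theorem sc_drc {α β : Type*} [DecidableEq α] [DecidableEq β] (X : Finset α) (Y : Finset β)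
    (Ed : Finset (α × β)) (M η : ℝ) (hM : 1 ≤ M) (hη0 : 0 < η) (hη1 : η ≤ 1)
    (hX : (X.card : ℝ) ≤ M) (hY : (Y.card : ℝ) ≤ M) (hEd : Ed ⊆ X ×ˢ Y)
    (hcard : η * M ^ 2 ≤ (Ed.card : ℝ)) :
    ∃ X' ⊆ X, η * M / 4 ≤ (X'.card : ℝ) ∧ ∀ x ∈ X', ∀ x' ∈ X',
      η ^ 5 * M ^ 3 / 160000 ≤
        (((Y ×ˢ (X ×ˢ Y)).filter fun z : β × α × β =>
          (x, z.1) ∈ Ed ∧ (z.2.1, z.1) ∈ Ed ∧ (z.2.1, z.2.2) ∈ Ed ∧ (x', z.2.2) ∈ Ed).card : ℝ) := by
  classical
  have hM0 : 0 < M := by linarith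
  obtain ⟨e, he⟩ : ∃ e : α → β → ℝ, ∀ x y, e x y = if (x, y) ∈ Ed then 1 else 0 := ⟨_, fun _ _ => rfl⟩
  have he0 : ∀ x y, 0 ≤ e x y := by
    intro x y
    rw [he]
    split_ifs <;> norm_num
  have he1 : ∀ x y, e x y ≤ 1 := by
    intro x y
    rw [he]
    split_ifs <;> norm_num
  obtain ⟨θ, hθ⟩ : ∃ θ : ℝ, θ = η ^ 2 * M / 200 := ⟨_, rfl⟩
  have hθ0 : 0 < θ := by
    rw [hθ]
    positivity
  obtain ⟨n, hn⟩ : ∃ n : β → ℝ, ∀ y, n y = ∑ x ∈ X, e x y := ⟨_, fun _ => rfl⟩
  obtain ⟨cd, hcd⟩ : ∃ cd : α → α → ℝ, ∀ x z, cd x z = ∑ y ∈ Y, e x y * e z y := ⟨_, fun _ _ => rfl⟩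
  obtain ⟨b, hb⟩ : ∃ b : α → α → ℝ, ∀ x z, b x z = if cd x z < θ then 1 else 0 := ⟨_, fun _ _ => rfl⟩
  obtain ⟨bd, hbd⟩ : ∃ bd : β → ℝ, ∀ y, bd y = ∑ x ∈ X, ∑ z ∈ X, b x z * (e x y * e z y) :=
    ⟨_, fun _ => rfl⟩
  have hn0 : ∀ y, 0 ≤ n y := fun y => by
    rw [hn]
    exact Finset.sum_nonneg fun x _ => he0 x y
  have hcd0 : ∀ x z, 0 ≤ cd x z := fun x z => by
    rw [hcd]
    exact Finset.sum_nonneg fun y _ => mul_nonneg (he0 _ _) (he0 _ _)
  have hb0 : ∀ x z, 0 ≤ b x z := by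
    intro x z
    rw [hb]
    split_ifs <;> norm_num
  -- F1
  have hF1 : ∑ y ∈ Y, n y = (Ed.card : ℝ) := by
    have h1 : Ed = (X ×ˢ Y).filter (fun p => p ∈ Ed) := by
      rw [Finset.filter_mem_eq_inter, Finset.inter_eq_right.2 hEd]
    conv_rhs => rw [h1, Finset.card_filter]
    push_cast
    rw [Finset.sum_product_right]
    refine Finset.sum_congr rfl fun y _ => ?_
    rw [hn]
    exact Finset.sum_congr rfl fun x _ => he x y
  -- F2
  have hF2 : η ^ 2 * M ^ 3 ≤ ∑ y ∈ Y, n y ^ 2 := by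
    have h1 := sq_sum_le_card_mul_sum_sq (s := Y) (f := n)
    rw [hF1] at h1
    have h2 : (η * M ^ 2) ^ 2 ≤ (Ed.card : ℝ) ^ 2 := pow_le_pow_left₀ (by positivity) hcard 2
    have h3 : 0 ≤ ∑ y ∈ Y, n y ^ 2 := Finset.sum_nonneg fun y _ => sq_nonneg _
    have h4 : (Y.card : ℝ) * ∑ y ∈ Y, n y ^ 2 ≤ M * ∑ y ∈ Y, n y ^ 2 :=
      mul_le_mul_of_nonneg_right hY h3
    have h5 : M * (η ^ 2 * M ^ 3) ≤ M * ∑ y ∈ Y, n y ^ 2 := by
      have : M * (η ^ 2 * M ^ 3) = (η * M ^ 2) ^ 2 := by ring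
      linarith
    exact le_of_mul_le_mul_left h5 hM0
  -- F3
  have hF3 : ∑ y ∈ Y, bd y ≤ M ^ 2 * θ := by
    have h1 : ∑ y ∈ Y, bd y = ∑ x ∈ X, ∑ z ∈ X, b x z * cd x z := by
      simp only [hbd]
      rw [Finset.sum_comm]
      refine Finset.sum_congr rfl fun x _ => ?_
      rw [Finset.sum_comm]
      refine Finset.sum_congr rfl fun z _ => ?_
      rw [← Finset.mul_sum, hcd]
    have h2 : ∀ x z, b x z * cd x z ≤ θ := by
      intro x z
      rw [hb]
      split_ifs with h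
      · linarith
      · rw [zero_mul]
        exact hθ0.le
    calc ∑ y ∈ Y, bd y = ∑ x ∈ X, ∑ z ∈ X, b x z * cd x z := h1
      _ ≤ ∑ x ∈ X, ∑ z ∈ X, θ := Finset.sum_le_sum fun x _ => Finset.sum_le_sum fun z _ => h2 x z
      _ = (X.card : ℝ) ^ 2 * θ := by
          simp only [Finset.sum_const, nsmul_eq_mul]
          ring
      _ ≤ M ^ 2 * θ :=
          mul_le_mul_of_nonneg_right (pow_le_pow_left₀ (Nat.cast_nonneg _) hX 2) hθ0.le
  -- F4
  have hYne : Y.Nonempty := by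
    by_contra h
    rw [Finset.not_nonempty_iff_eq_empty] at h
    rw [h, Finset.sum_empty] at hF1
    have : 0 < η * M ^ 2 := by positivity
    linarith
  obtain ⟨y, hy, hy'⟩ : ∃ y ∈ Y, η ^ 2 * M ^ 2 / 2 ≤ n y ^ 2 - 100 * bd y := by
    apply Finset.exists_le_of_sum_le hYne
    rw [Finset.sum_const, nsmul_eq_mul, Finset.sum_sub_distrib, ← Finset.mul_sum]
    have h1 : (Y.card : ℝ) * (η ^ 2 * M ^ 2 / 2) ≤ M * (η ^ 2 * M ^ 2 / 2) :=
      mul_le_mul_of_nonneg_right hY (by positivity)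
    rw [hθ] at hF3
    have h2 : M * (η ^ 2 * M ^ 2 / 2) = η ^ 2 * M ^ 3 / 2 := by ring
    have h3 : M ^ 2 * (η ^ 2 * M / 200) = η ^ 2 * M ^ 3 / 200 := by ring
    linarith
  -- the neighbourhood
  obtain ⟨N, hN⟩ : ∃ N : Finset α, N = X.filter (fun x => (x, y) ∈ Ed) := ⟨_, rfl⟩
  have hNX : N ⊆ X := hN ▸ Finset.filter_subset _ _
  have hNcard : (N.card : ℝ) = n y := by
    rw [hN, Finset.card_filter, hn]
    push_cast
    exact Finset.sum_congr rfl fun x _ => (he x y).symm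
  obtain ⟨bt, hbt⟩ : ∃ bt : α → ℝ, ∀ x, bt x = ∑ z ∈ X, b x z * e z y := ⟨_, fun _ => rfl⟩
  have hbt0 : ∀ x, 0 ≤ bt x := fun x => by
    rw [hbt]
    exact Finset.sum_nonneg fun z _ => mul_nonneg (hb0 _ _) (he0 _ _)
  have hbdN : bd y = ∑ x ∈ N, bt x := by
    rw [hN, Finset.sum_filter, hbd]
    refine Finset.sum_congr rfl fun x _ => ?_
    by_cases hx : (x, y) ∈ Ed
    · rw [if_pos hx, hbt]
      refine Finset.sum_congr rfl fun z _ => ?_
      rw [he x y, if_pos hx, one_mul]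
    · rw [if_neg hx]
      refine Finset.sum_eq_zero fun z _ => ?_
      rw [he x y, if_neg hx, zero_mul, mul_zero]
  have hbd0 : 0 ≤ bd y := by
    rw [hbdN]
    exact Finset.sum_nonneg fun x _ => hbt0 x
  have hηM : 0 < η * M := by positivity
  have hnge : η * M / 2 ≤ n y := by
    by_contra hlt
    rw [not_le] at hlt
    have h1 : n y ^ 2 < (η * M / 2) ^ 2 := pow_lt_pow_left₀ hlt (hn0 y) (by norm_num)
    have h2 : (η * M / 2) ^ 2 = η ^ 2 * M ^ 2 / 4 := by ring
    have h3 : 0 < η ^ 2 * M ^ 2 := by positivity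
    linarith
  have hnpos : 0 < n y := by linarith
  -- the deleted points
  have hsplit := Finset.card_filter_add_card_filter_not (s := N) (fun x => bt x ≤ n y / 4)
  have hD : (((N.filter fun x => ¬ bt x ≤ n y / 4).card : ℕ) : ℝ) ≤ n y / 25 := by
    have h1 : ((N.filter fun x => ¬ bt x ≤ n y / 4).card : ℝ) * (n y / 4) ≤
        ∑ x ∈ N.filter (fun x => ¬ bt x ≤ n y / 4), bt x := by
      have := Finset.card_nsmul_le_sum (N.filter fun x => ¬ bt x ≤ n y / 4) bt (n y / 4)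
        (fun x hx => (not_le.1 (Finset.mem_filter.1 hx).2).le)
      rwa [nsmul_eq_mul] at this
    have h2 : ∑ x ∈ N.filter (fun x => ¬ bt x ≤ n y / 4), bt x ≤ ∑ x ∈ N, bt x :=
      Finset.sum_le_sum_of_subset_of_nonneg (Finset.filter_subset _ _) fun x _ _ => hbt0 x
    rw [← hbdN] at h2
    have h3 : 0 < η ^ 2 * M ^ 2 := by positivity
    have h4 : ((N.filter fun x => ¬ bt x ≤ n y / 4).card : ℝ) * (n y / 4) ≤ n y / 25 * (n y / 4) := by
      have : n y / 25 * (n y / 4) = n y ^ 2 / 100 := by ring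
      linarith
    exact le_of_mul_le_mul_right h4 (by positivity)
  refine ⟨N.filter fun x => bt x ≤ n y / 4, (Finset.filter_subset _ _).trans hNX, ?_, ?_⟩
  · have h1 : ((N.filter fun x => bt x ≤ n y / 4).card : ℝ) +
        ((N.filter fun x => ¬ bt x ≤ n y / 4).card : ℝ) = n y := by
      have h2 : ((N.filter fun x => bt x ≤ n y / 4).card : ℝ) +
          ((N.filter fun x => ¬ bt x ≤ n y / 4).card : ℝ) = (N.card : ℝ) := by
        exact_mod_cast hsplit
      rw [h2, hNcard]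
    linarith
  · intro x hx x' hx'
    have hxb : bt x ≤ n y / 4 := (Finset.mem_filter.1 hx).2
    have hxb' : bt x' ≤ n y / 4 := (Finset.mem_filter.1 hx').2
    have hP : (((Y ×ˢ (X ×ˢ Y)).filter fun z : β × α × β =>
          (x, z.1) ∈ Ed ∧ (z.2.1, z.1) ∈ Ed ∧ (z.2.1, z.2.2) ∈ Ed ∧ (x', z.2.2) ∈ Ed).card : ℝ) =
        ∑ z ∈ X, cd x z * cd x' z := by
      rw [Finset.card_filter]
      push_cast
      rw [Finset.sum_product]
      simp only [Finset.sum_product]
      rw [Finset.sum_comm]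
      refine Finset.sum_congr rfl fun z _ => ?_
      rw [hcd, hcd, Finset.sum_mul_sum]
      refine Finset.sum_congr rfl fun y₁ _ => Finset.sum_congr rfl fun y₂ _ => ?_
      rw [he, he, he, he]
      by_cases h1 : (x, y₁) ∈ Ed <;> by_cases h2 : (z, y₁) ∈ Ed <;> by_cases h3 : (z, y₂) ∈ Ed <;>
        by_cases h4 : (x', y₂) ∈ Ed <;> simp [h1, h2, h3, h4]
    rw [hP]
    have hterm : ∀ z ∈ X, e z y * (1 - b x z - b x' z) * θ ^ 2 ≤ cd x z * cd x' z := by
      intro z _
      have hnn : 0 ≤ cd x z * cd x' z := mul_nonneg (hcd0 _ _) (hcd0 _ _)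
      have hθ2 : 0 ≤ θ ^ 2 := by positivity
      rw [hb x z, hb x' z]
      by_cases h1 : cd x z < θ
      · rw [if_pos h1]
        refine le_trans ?_ hnn
        have : (1 : ℝ) - 1 - (if cd x' z < θ then 1 else 0) ≤ 0 := by
          split_ifs <;> norm_num
        exact mul_nonpos_of_nonpos_of_nonneg (mul_nonpos_of_nonneg_of_nonpos (he0 _ _) this) hθ2
      · rw [if_neg h1]
        by_cases h2 : cd x' z < θ
        · rw [if_pos h2]
          refine le_trans ?_ hnn
          exact mul_nonpos_of_nonpos_of_nonneg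
            (mul_nonpos_of_nonneg_of_nonpos (he0 _ _) (by norm_num)) hθ2
        · rw [if_neg h2]
          rw [not_lt] at h1 h2
          calc e z y * (1 - 0 - 0) * θ ^ 2 ≤ 1 * (1 - 0 - 0) * θ ^ 2 := by
                refine mul_le_mul_of_nonneg_right ?_ hθ2
                exact mul_le_mul_of_nonneg_right (he1 _ _) (by norm_num)
            _ = θ * θ := by ring
            _ ≤ cd x z * cd x' z := mul_le_mul h1 h2 hθ0.le (hcd0 _ _)
    have hsum : ∑ z ∈ X, e z y * (1 - b x z - b x' z) * θ ^ 2 = (n y - bt x - bt x') * θ ^ 2 := by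
      rw [← Finset.sum_mul, hn, hbt, hbt, ← Finset.sum_sub_distrib, ← Finset.sum_sub_distrib]
      congr 1
      refine Finset.sum_congr rfl fun z _ => ?_
      ring
    calc η ^ 5 * M ^ 3 / 160000 = η * M / 4 * θ ^ 2 := by
          rw [hθ]
          ring
      _ ≤ (n y - bt x - bt x') * θ ^ 2 := by
          refine mul_le_mul_of_nonneg_right ?_ (by positivity)
          linarith
      _ = ∑ z ∈ X, e z y * (1 - b x z - b x' z) * θ ^ 2 := hsum.symm
      _ ≤ ∑ z ∈ X, cd x z * cd x' z := Finset.sum_le_sum hterm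

end Claimed.Agent.R258
end

/- ===== packed: Claimed.Agent.R258.S9a.ToolPack ===== -/
section
/-
R258 / block [S9a] (Lemma 9.1 = counting.tex `lem:finite-sparse-count`), file ToolPack: maximal packings, Petridis, packing bound (pure additive combinatorics in a commutative group).  Blueprint: helper261.
RULES: fill the `sorry`s IN PLACE (auxiliary lemmas above, prefix `sc_`); statements change only via helper261.  No paper reading needed.

LEAF P-S9a-pack `sc_max_packing`, `sc_petridis`, `sc_pack_bound`.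
 `sc_max_packing`: a subset of `S` of maximal cardinality among the packings (`Finset.exists_max_image` on the filtered powerset); if `x ∈ S` had no `y`, `insert x P` is a larger packing.
 `sc_petridis`: minimise `#(X - B)/#X` over nonempty `X ⊆ Z` (`Finset.exists_min_image` on `Z.powerset.erase ∅`), then induction on `m` with
 `Finset.pluennecke_petridis_inequality_add` (copy of the private `card_mul_pow_le`/`mul_aux` of Mathlib/Combinatorics/Additive/PluenneckeRuzsa.lean, with `-B`).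
 `sc_pack_bound`: `Z = B0 + UH`, `#Z = #B0 #UH` (disjoint translates), `Z - B ⊆ P0 + UH2`, so `#(Z-B) ≤ (2 #P0/#B0) #Z`; `X` from `sc_petridis`;
 some `a ∈ B0` has `Y = X ∩ (a + UH)`, `#Y ≥ #X/#B0`; the sets `Y - x`, `x ∈ Pk`, are disjoint subsets of `X - m • B`.
-/
set_option autoImplicit false

namespace Claimed.Agent.R258

open Finset
open scoped Pointwise

/-- maximal packings are covers -/
theorem sc_max_packing {G : Type*} [AddCommGroup G] [DecidableEq G] (S V : Finset G)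
    (h0 : (0 : G) ∈ V) (hneg : ∀ x ∈ V, -x ∈ V) :
    ∃ P ⊆ S, (∀ x ∈ P, ∀ y ∈ P, x ≠ y → x - y ∉ V) ∧ ∀ x ∈ S, ∃ y ∈ P, x - y ∈ V := by
  induction S using Finset.induction_on with
  | empty => exact ⟨∅, Finset.Subset.refl _, by simp, by simp⟩
  | insert a S _ ih =>
    obtain ⟨P, hPS, hpack, hcov⟩ := ih
    by_cases hex : ∃ y ∈ P, a - y ∈ V
    · refine ⟨P, hPS.trans (Finset.subset_insert _ _), hpack, ?_⟩
      intro x hx
      rcases Finset.mem_insert.1 hx with rfl | hx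
      · exact hex
      · exact hcov x hx
    · push Not at hex
      refine ⟨insert a P, Finset.insert_subset_insert _ hPS, ?_, ?_⟩
      · intro x hx y hy hne
        rcases Finset.mem_insert.1 hx with hxa | hxP
        · rcases Finset.mem_insert.1 hy with hya | hyP
          · exact absurd (hxa.trans hya.symm) hne
          · rw [hxa]
            exact hex y hyP
        · rcases Finset.mem_insert.1 hy with hya | hyP
          · intro h
            have h2 := hneg _ h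
            rw [neg_sub, hya] at h2
            exact hex x hxP h2
          · exact hpack x hxP y hyP hne
      · intro x hx
        rcases Finset.mem_insert.1 hx with rfl | hx
        · exact ⟨x, Finset.mem_insert_self _ _, by rw [sub_self]; exact h0⟩
        · obtain ⟨y, hy, hxy⟩ := hcov x hx
          exact ⟨y, Finset.mem_insert_of_mem hy, hxy⟩

/-- the minimal-growth subset argument (Petridis) -/
theorem sc_petridis {G : Type*} [AddCommGroup G] [DecidableEq G] (Z B : Finset G) (hZ : Z.Nonempty)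
    (r : ℝ) (hr : ((Z - B).card : ℝ) ≤ r * Z.card) :
    ∃ X ⊆ Z, X.Nonempty ∧ ∀ m : ℕ, ((X - m • B).card : ℝ) ≤ r ^ m * X.card := by
  obtain ⟨C, hC⟩ : ∃ C : Finset G, C = -B := ⟨_, rfl⟩
  have hZC : Z - B = Z + C := by rw [hC, sub_eq_add_neg]
  have hZmem : Z ∈ Z.powerset.erase ∅ := mem_erase_of_ne_of_mem hZ.ne_empty (mem_powerset_self _)
  obtain ⟨X, hX, hmin⟩ := exists_min_image (Z.powerset.erase ∅)
    (fun X => ((X + C).card : ℝ) / X.card) ⟨Z, hZmem⟩
  rw [mem_erase, mem_powerset, ← nonempty_iff_ne_empty] at hX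
  obtain ⟨hXne, hXZ⟩ := hX
  have hXpos : (0 : ℝ) < X.card := by exact_mod_cast hXne.card_pos
  have hZpos : (0 : ℝ) < Z.card := by exact_mod_cast hZ.card_pos
  obtain ⟨K, hK⟩ : ∃ K : ℝ, K = ((X + C).card : ℝ) / X.card := ⟨_, rfl⟩
  have hK0 : 0 ≤ K := by
    rw [hK]
    positivity
  have hKr : K ≤ r := by
    have h1 := hmin Z hZmem
    rw [hK]
    refine h1.trans ?_
    rw [div_le_iff₀ hZpos, ← hZC]
    exact hr
  have hAB : ∀ A' ⊆ X, (X + C).card * A'.card ≤ (A' + C).card * X.card := by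
    intro A' hA'
    obtain rfl | hA'ne := A'.eq_empty_or_nonempty
    · simp
    have hA'pos : (0 : ℝ) < A'.card := by exact_mod_cast hA'ne.card_pos
    have h1 := hmin A' (mem_erase_of_ne_of_mem hA'ne.ne_empty (mem_powerset.2 (hA'.trans hXZ)))
    rw [div_le_div_iff₀ hXpos hA'pos] at h1
    exact_mod_cast h1
  have key : ∀ m : ℕ, ((X + m • C).card : ℝ) ≤ K ^ m * X.card := by
    intro m
    induction m with
    | zero => simp
    | succ m ih =>
      refine le_of_mul_le_mul_right ?_ hXpos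
      have h1 : (m • C + X + C).card * X.card ≤ (X + C).card * (m • C + X).card :=
        pluennecke_petridis_inequality_add _ hAB
      have h1' : ((m • C + X + C).card : ℝ) * X.card ≤ (X + C).card * (m • C + X).card := by
        exact_mod_cast h1
      have h2 : X + (m + 1) • C = m • C + X + C := by
        rw [succ_nsmul, add_left_comm, add_assoc]
      have h3 : m • C + X = X + m • C := add_comm _ _
      have h4 : ((X + C).card : ℝ) = K * X.card := by
        rw [hK]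
        field_simp
      rw [h2]
      calc ((m • C + X + C).card : ℝ) * X.card ≤ (X + C).card * (m • C + X).card := h1'
        _ ≤ (X + C).card * (K ^ m * X.card) := by
            rw [h3]
            exact mul_le_mul_of_nonneg_left ih (Nat.cast_nonneg _)
        _ = K ^ (m + 1) * X.card * X.card := by
            rw [h4]
            ring
  refine ⟨X, hXZ, hXne, fun m => ?_⟩
  have e : X - m • B = X + m • C := by
    rw [hC, neg_nsmul, sub_eq_add_neg]
  rw [e]
  exact (key m).trans (mul_le_mul_of_nonneg_right (pow_le_pow_left₀ hK0 hKr m) hXpos.le)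

/-- packings of `m • B` outside `U2H` -/
theorem sc_pack_bound {G : Type*} [AddCommGroup G] [DecidableEq G] (B B0 P0 U2 UH UH2 U2H : Finset G)
    (hB0 : B0 ⊆ B) (hB0ne : B0.Nonempty) (hUH : UH.Nonempty)
    (hdisj : ∀ a ∈ B0, ∀ a' ∈ B0, a ≠ a' → a - a' ∉ U2H)
    (hcov : B - B ⊆ P0 + U2) (hadd : U2 + UH ⊆ UH2) (hgrow : UH2.card ≤ 2 * UH.card)
    (hsub : UH - UH ⊆ U2H) (m : ℕ) (Pk : Finset G) (hPk : Pk ⊆ m • B)
    (hpack : ∀ x ∈ Pk, ∀ y ∈ Pk, x ≠ y → x - y ∉ U2H) :
    (Pk.card : ℝ) ≤ (2 * (P0.card : ℝ) / B0.card) ^ m * B0.card := by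
  have hB0pos : (0 : ℝ) < B0.card := by exact_mod_cast hB0ne.card_pos
  have hUHpos : (0 : ℝ) < UH.card := by exact_mod_cast hUH.card_pos
  obtain ⟨Z, hZ⟩ : ∃ Z : Finset G, Z = B0 + UH := ⟨_, rfl⟩
  have hZne : Z.Nonempty := hZ ▸ hB0ne.add hUH
  have hZcard : Z.card = B0.card * UH.card := by
    rw [hZ, Finset.card_add_iff]
    rintro ⟨a, u⟩ h1 ⟨a', u'⟩ h2 h
    simp only [Set.mem_prod, Finset.mem_coe] at h1 h2
    simp only at h
    have haa : a = a' := by
      by_contra hne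
      apply hdisj a h1.1 a' h2.1 hne
      apply hsub
      have e : a - a' = u' - u := by
        rw [sub_eq_sub_iff_add_eq_add, h, add_comm]
      rw [e]
      exact sub_mem_sub h2.2 h1.2
    subst haa
    rw [add_left_cancel h]
  have hZB : Z - B ⊆ P0 + UH2 := by
    intro x hx
    obtain ⟨z, hz, b, hb, rfl⟩ := mem_sub.1 hx
    rw [hZ] at hz
    obtain ⟨a, ha, u, hu, rfl⟩ := mem_add.1 hz
    obtain ⟨p, hp, v, hv, hpv⟩ := mem_add.1 (hcov (sub_mem_sub (hB0 ha) hb))
    refine mem_add.2 ⟨p, hp, v + u, hadd (add_mem_add hv hu), ?_⟩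
    rw [← add_assoc, hpv]
    abel
  obtain ⟨r, hr⟩ : ∃ r : ℝ, r = 2 * (P0.card : ℝ) / B0.card := ⟨_, rfl⟩
  have hr0 : 0 ≤ r := by
    rw [hr]
    positivity
  have hrZ : ((Z - B).card : ℝ) ≤ r * Z.card := by
    calc ((Z - B).card : ℝ) ≤ ((P0 + UH2).card : ℝ) := by exact_mod_cast card_le_card hZB
      _ ≤ (P0.card : ℝ) * UH2.card := by exact_mod_cast card_add_le
      _ ≤ (P0.card : ℝ) * (2 * UH.card) :=
          mul_le_mul_of_nonneg_left (by exact_mod_cast hgrow) (Nat.cast_nonneg _)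
      _ = r * Z.card := by
          rw [hZcard, hr]
          push_cast
          field_simp
  obtain ⟨X, hXZ, hXne, hX⟩ := sc_petridis Z B hZne r hrZ
  have hXpos : (0 : ℝ) < X.card := by exact_mod_cast hXne.card_pos
  obtain ⟨a, ha, hYa⟩ : ∃ a ∈ B0, (X.card : ℝ) / B0.card ≤ ((X.filter fun x => x - a ∈ UH).card : ℝ) := by
    apply exists_le_of_sum_le hB0ne
    rw [sum_const, nsmul_eq_mul, mul_div_cancel₀ _ hB0pos.ne']
    have hsub' : X ⊆ B0.biUnion fun a => X.filter fun x => x - a ∈ UH := by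
      intro x hx
      have hxZ := hXZ hx
      rw [hZ] at hxZ
      obtain ⟨a, ha, u, hu, rfl⟩ := mem_add.1 hxZ
      refine mem_biUnion.2 ⟨a, ha, mem_filter.2 ⟨hx, ?_⟩⟩
      rw [add_sub_cancel_left]
      exact hu
    calc (X.card : ℝ) ≤ ((B0.biUnion fun a => X.filter fun x => x - a ∈ UH).card : ℝ) := by
          exact_mod_cast card_le_card hsub'
      _ ≤ ∑ a ∈ B0, ((X.filter fun x => x - a ∈ UH).card : ℝ) := by exact_mod_cast card_biUnion_le
  obtain ⟨Y, hY⟩ : ∃ Y : Finset G, Y = X.filter fun x => x - a ∈ UH := ⟨_, rfl⟩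
  rw [← hY] at hYa
  have hYpos : (0 : ℝ) < Y.card := lt_of_lt_of_le (by positivity) hYa
  have hYP : (Y - Pk).card = Y.card * Pk.card := by
    rw [Finset.sub_def, Finset.card_image_of_injOn, Finset.card_product]
    rintro ⟨y, x⟩ h1 ⟨y', x'⟩ h2 h
    simp only [Finset.coe_product, Set.mem_prod, Finset.mem_coe] at h1 h2
    simp only at h
    have hxx : x = x' := by
      by_contra hne
      apply hpack x h1.2 x' h2.2 hne
      apply hsub
      have e : x - x' = (y - a) - (y' - a) := by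
        have : y - y' = x - x' := by
          rw [sub_eq_sub_iff_add_eq_add]
          rw [sub_eq_sub_iff_add_eq_add] at h
          rw [h, add_comm]
        rw [← this]
        abel
      rw [e]
      rw [hY] at h1 h2
      exact sub_mem_sub (mem_filter.1 h1.1).2 (mem_filter.1 h2.1).2
    subst hxx
    rw [sub_left_inj.1 h]
  have hsubset : Y - Pk ⊆ X - m • B := sub_subset_sub (hY ▸ filter_subset _ _) hPk
  have h1 : (Y.card : ℝ) * Pk.card ≤ r ^ m * X.card := by
    calc (Y.card : ℝ) * Pk.card = ((Y - Pk).card : ℝ) := by rw [hYP]; push_cast; ring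
      _ ≤ ((X - m • B).card : ℝ) := by exact_mod_cast card_le_card hsubset
      _ ≤ r ^ m * X.card := hX m
  have h2 : (X.card : ℝ) ≤ B0.card * Y.card := by
    rw [div_le_iff₀ hB0pos] at hYa
    linarith
  have h3 : (Pk.card : ℝ) * Y.card ≤ r ^ m * B0.card * Y.card := by
    calc (Pk.card : ℝ) * Y.card = Y.card * Pk.card := mul_comm _ _
      _ ≤ r ^ m * X.card := h1
      _ ≤ r ^ m * (B0.card * Y.card) := mul_le_mul_of_nonneg_left h2 (pow_nonneg hr0 m)
      _ = r ^ m * B0.card * Y.card := by ring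
  rw [← hr]
  exact le_of_mul_le_mul_right h3 hYpos

end Claimed.Agent.R258
end

/- ===== packed: Claimed.Agent.R258.S9a.ToolExtract ===== -/
section
/-
R258 / block [S9a] (Lemma 9.1 = counting.tex `lem:finite-sparse-count`), file ToolExtract: one extraction of a subset with a small difference cover (pure combinatorics).  Blueprint: helper261.
RULES: fill the `sorry`s IN PLACE (auxiliary lemmas above, prefix `sc_`); statements change only via helper261.  No paper reading needed.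

LEAF P-S9a-extract `sc_extract`: `B0` from `sc_drc`; `P` = maximal packing of `B0 - B0` w.r.t. `U2` (`sc_max_packing`).  For `x ∈ P` pick `(a,a')`, `x = a - a'`; the colour
 tuples of the paths from `a` to `a'` are pairwise distinct (proper colouring: reconstruct `y1, z, y2` successively) and satisfy `x - q c ∈ U1`; two different
 `x, x' ∈ P` cannot share `c` (`x - x' ∈ U1 - U1 ⊆ U2`).  So `#P · η⁵M³/160000 ≤ #(Kc⁴) ≤ M⁴`.
-/
set_option autoImplicit false

namespace Claimed.Agent.R258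

open Finset
open scoped Pointwise

/-- one extraction of a subset with a small difference cover -/
theorem sc_extract {G : Type*} [AddCommGroup G] [DecidableEq G] {γ : Type*} [DecidableEq γ]
    (X Y : Finset G) (Kc : Finset γ) (Ed : Finset (G × G)) (col : G × G → γ)
    (q : γ × γ × γ × γ → G) (U1 U2 : Finset G) (M η : ℝ) (hM : 1 ≤ M) (hη0 : 0 < η) (hη1 : η ≤ 1)
    (hX : (X.card : ℝ) ≤ M) (hY : (Y.card : ℝ) ≤ M) (hK : (Kc.card : ℝ) ≤ M) (hEd : Ed ⊆ X ×ˢ Y)
    (hcard : η * M ^ 2 ≤ (Ed.card : ℝ)) (hcol : ∀ e ∈ Ed, col e ∈ Kc)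
    (hprop1 : ∀ x y y', (x, y) ∈ Ed → (x, y') ∈ Ed → col (x, y) = col (x, y') → y = y')
    (hprop2 : ∀ x x' y, (x, y) ∈ Ed → (x', y) ∈ Ed → col (x, y) = col (x', y) → x = x')
    (hpath : ∀ a y1 z y2 a', (a, y1) ∈ Ed → (z, y1) ∈ Ed → (z, y2) ∈ Ed → (a', y2) ∈ Ed →
      a - a' - q (col (a, y1), col (z, y1), col (z, y2), col (a', y2)) ∈ U1)
    (hU : U1 - U1 ⊆ U2) (hU0 : (0 : G) ∈ U2) (hUneg : ∀ x ∈ U2, -x ∈ U2) :
    ∃ B0 ⊆ X, η * M / 4 ≤ (B0.card : ℝ) ∧
      ∃ P : Finset G, (P.card : ℝ) ≤ 160000 * (η⁻¹) ^ 5 * M ∧ B0 - B0 ⊆ P + U2 := by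
  classical
  have hM0 : 0 < M := by linarith
  obtain ⟨B0, hB0X, hB0card, hpaths⟩ := sc_drc X Y Ed M η hM hη0 hη1 hX hY hEd hcard
  obtain ⟨P, hPS, hPpack, hPcov⟩ := sc_max_packing (B0 - B0) U2 hU0 hUneg
  refine ⟨B0, hB0X, hB0card, P, ?_, ?_⟩
  swap
  · intro x hx
    obtain ⟨y, hy, hxy⟩ := hPcov x hx
    exact mem_add.2 ⟨y, hy, x - y, hxy, by abel⟩
  have hch : ∀ x ∈ P, ∃ a a', a ∈ B0 ∧ a' ∈ B0 ∧ a - a' = x := by
    intro x hx
    obtain ⟨a, ha, a', ha', h⟩ := mem_sub.1 (hPS hx)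
    exact ⟨a, a', ha, ha', h⟩
  choose! fa fa' hfa hfa' hfx using hch
  obtain ⟨W, hW⟩ : ∃ W : G → Finset (G × G × G), ∀ x, W x = (Y ×ˢ (X ×ˢ Y)).filter fun z : G × G × G =>
      (fa x, z.1) ∈ Ed ∧ (z.2.1, z.1) ∈ Ed ∧ (z.2.1, z.2.2) ∈ Ed ∧ (fa' x, z.2.2) ∈ Ed :=
    ⟨_, fun _ => rfl⟩
  obtain ⟨cm, hcm⟩ : ∃ cm : G → G × G × G → γ × γ × γ × γ, ∀ x z, cm x z =
      (col (fa x, z.1), col (z.2.1, z.1), col (z.2.1, z.2.2), col (fa' x, z.2.2)) :=
    ⟨_, fun _ _ => rfl⟩
  have hinj : ∀ x, Set.InjOn (cm x) (W x : Set (G × G × G)) := by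
    rintro x ⟨y1, z, y2⟩ h1 ⟨y1', z', y2'⟩ h2 h
    rw [Finset.mem_coe, hW, mem_filter] at h1 h2
    rw [hcm, hcm] at h
    simp only [Prod.mk.injEq] at h
    obtain ⟨-, e1, e2, e3, e4⟩ := h1
    obtain ⟨-, e1', e2', e3', e4'⟩ := h2
    simp only at e1 e2 e3 e4 e1' e2' e3' e4'
    obtain ⟨c1, c2, c3, -⟩ := h
    have hy1 : y1 = y1' := hprop1 _ _ _ e1 e1' c1
    subst hy1
    have hz : z = z' := hprop2 _ _ _ e2 e2' c2
    subst hz
    have hy2 : y2 = y2' := hprop1 _ _ _ e3 e3' c3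
    subst hy2
    rfl
  have hTsub : ∀ x, (W x).image (cm x) ⊆ Kc ×ˢ (Kc ×ˢ (Kc ×ˢ Kc)) := by
    intro x c hc
    obtain ⟨z, hz, rfl⟩ := mem_image.1 hc
    rw [hW, mem_filter] at hz
    obtain ⟨-, e1, e2, e3, e4⟩ := hz
    rw [hcm]
    simp only [mem_product]
    exact ⟨hcol _ e1, hcol _ e2, hcol _ e3, hcol _ e4⟩
  have hTq : ∀ x ∈ P, ∀ c ∈ (W x).image (cm x), x - q c ∈ U1 := by
    intro x hx c hc
    obtain ⟨z, hz, rfl⟩ := mem_image.1 hc
    rw [hW, mem_filter] at hz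
    obtain ⟨-, e1, e2, e3, e4⟩ := hz
    rw [hcm]
    have := hpath _ _ _ _ _ e1 e2 e3 e4
    rwa [hfx x hx] at this
  have hdisj : (P : Set G).PairwiseDisjoint fun x => (W x).image (cm x) := by
    intro x hx x' hx' hne
    rw [Function.onFun, Finset.disjoint_left]
    intro c hc hc'
    apply hPpack x hx x' hx' hne
    apply hU
    have e : x - x' = (x - q c) - (x' - q c) := by abel
    rw [e]
    exact sub_mem_sub (hTq x hx c hc) (hTq x' hx' c hc')
  have hcardT : ∀ x ∈ P, η ^ 5 * M ^ 3 / 160000 ≤ (((W x).image (cm x)).card : ℝ) := by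
    intro x hx
    rw [Finset.card_image_of_injOn (hinj x), hW]
    exact hpaths _ (hfa x hx) _ (hfa' x hx)
  have hsum : (P.card : ℝ) * (η ^ 5 * M ^ 3 / 160000) ≤ M ^ 4 := by
    calc (P.card : ℝ) * (η ^ 5 * M ^ 3 / 160000) = ∑ _x ∈ P, η ^ 5 * M ^ 3 / 160000 := by
          rw [sum_const, nsmul_eq_mul]
      _ ≤ ∑ x ∈ P, (((W x).image (cm x)).card : ℝ) := sum_le_sum hcardT
      _ = ((P.biUnion fun x => (W x).image (cm x)).card : ℝ) := by
          rw [card_biUnion hdisj]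
          push_cast
          rfl
      _ ≤ ((Kc ×ˢ (Kc ×ˢ (Kc ×ˢ Kc))).card : ℝ) := by
          exact_mod_cast card_le_card (biUnion_subset.2 fun x _ => hTsub x)
      _ = (Kc.card : ℝ) ^ 4 := by
          simp only [card_product]
          push_cast
          ring
      _ ≤ M ^ 4 := pow_le_pow_left₀ (Nat.cast_nonneg _) hK 4
  have hc0 : 0 < η ^ 5 * M ^ 3 / 160000 := by positivity
  have e : 160000 * (η⁻¹) ^ 5 * M * (η ^ 5 * M ^ 3 / 160000) = M ^ 4 := by
    field_simp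
  rw [← e] at hsum
  exact le_of_mul_le_mul_right hsum hc0

end Claimed.Agent.R258
end

/- ===== packed: Claimed.Agent.R258.S9a.ToolOrder ===== -/
section
/-
R258 / block [S9a] (Lemma 9.1 = counting.tex `lem:finite-sparse-count`), file ToolOrder: thresholds, thinning, blocks, the block sum (pure finite combinatorics).  Blueprint + proofs: helper261.
-/
set_option autoImplicit false

namespace Claimed.Agent.R258

open Finset
open scoped Pointwise

section thresholds

variable {ι : Type*} [DecidableEq ι] (O : Finset ι) (sc : ι → ℤ)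

/-- splitting an upper range -/
theorem sc_cum_split (t u : ℤ) :
    (O.filter fun o => t < sc o).card ≤ (O.filter fun o => t < sc o ∧ sc o < u).card +
      (O.filter fun o => u < sc o).card + (O.filter fun o => sc o = u).card := by
  have hsub : (O.filter fun o => t < sc o) ⊆ (O.filter fun o => t < sc o ∧ sc o < u) ∪
      (O.filter fun o => u < sc o) ∪ (O.filter fun o => sc o = u) := by
    intro o ho
    obtain ⟨ho, ht⟩ := Finset.mem_filter.1 ho
    rcases lt_trichotomy (sc o) u with h | h | h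
    · exact Finset.mem_union_left _ (Finset.mem_union_left _ (Finset.mem_filter.2 ⟨ho, ht, h⟩))
    · exact Finset.mem_union_right _ (Finset.mem_filter.2 ⟨ho, h⟩)
    · exact Finset.mem_union_left _ (Finset.mem_union_right _ (Finset.mem_filter.2 ⟨ho, h⟩))
  exact (Finset.card_le_card hsub).trans ((Finset.card_union_le _ _).trans
    (Nat.add_le_add_right (Finset.card_union_le _ _) _))

/-- splitting the whole set -/
theorem sc_all_split (u : ℤ) :
    O.card ≤ (O.filter fun o => sc o < u).card +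
      (O.filter fun o => u < sc o).card + (O.filter fun o => sc o = u).card := by
  have hsub : O ⊆ (O.filter fun o => sc o < u) ∪
      (O.filter fun o => u < sc o) ∪ (O.filter fun o => sc o = u) := by
    intro o ho
    rcases lt_trichotomy (sc o) u with h | h | h
    · exact Finset.mem_union_left _ (Finset.mem_union_left _ (Finset.mem_filter.2 ⟨ho, h⟩))
    · exact Finset.mem_union_right _ (Finset.mem_filter.2 ⟨ho, h⟩)
    · exact Finset.mem_union_left _ (Finset.mem_union_right _ (Finset.mem_filter.2 ⟨ho, h⟩))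
  exact (Finset.card_le_card hsub).trans ((Finset.card_union_le _ _).trans
    (Nat.add_le_add_right (Finset.card_union_le _ _) _))

/-- a threshold for the mass `θ` -/
theorem sc_threshold (β : ℝ) (hbin : ∀ s : ℤ, ((O.filter fun o => sc o = s).card : ℝ) ≤ β) (θ : ℝ)
    (hθ0 : 0 < θ) (hθ : θ ≤ (O.card : ℝ)) :
    ∃ t : ℤ, θ - β ≤ ((O.filter fun o => t < sc o).card : ℝ) ∧
      ((O.filter fun o => t < sc o).card : ℝ) < θ := by
  set b : ℤ := ∑ o ∈ O, |sc o| with hb
  have hle : ∀ o ∈ O, |sc o| ≤ b := fun o ho =>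
    Finset.single_le_sum (f := fun o => |sc o|) (fun i _ => abs_nonneg _) ho
  obtain ⟨t, ht1, ht2⟩ := Int.exists_greatest_of_bdd
    (P := fun z => θ ≤ ((O.filter fun o => z ≤ sc o).card : ℝ))
    ⟨b, fun z hz => by
      have hpos : 0 < (O.filter fun o => z ≤ sc o).card := by
        have : (0 : ℝ) < ((O.filter fun o => z ≤ sc o).card : ℝ) := lt_of_lt_of_le hθ0 hz
        exact_mod_cast this
      obtain ⟨o, ho⟩ := Finset.card_pos.1 hpos
      obtain ⟨ho, hz'⟩ := Finset.mem_filter.1 ho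
      exact hz'.trans ((le_abs_self _).trans (hle o ho))⟩
    ⟨-b, by
      have : (O.filter fun o => -b ≤ sc o) = O := by
        apply Finset.filter_true_of_mem
        intro o ho
        have := hle o ho
        have := neg_abs_le (sc o)
        linarith
      show θ ≤ ((O.filter fun o => -b ≤ sc o).card : ℝ)
      rw [this]
      exact hθ⟩
  have hcum : (O.filter fun o => t < sc o) = O.filter fun o => t + 1 ≤ sc o := by
    apply Finset.filter_congr
    intro o _
    exact Iff.rfl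
  refine ⟨t, ?_, ?_⟩
  · have hsub : (O.filter fun o => t ≤ sc o) ⊆ (O.filter fun o => t < sc o) ∪ (O.filter fun o => sc o = t) := by
      intro o ho
      obtain ⟨ho, h⟩ := Finset.mem_filter.1 ho
      rcases lt_or_eq_of_le h with h | h
      · exact Finset.mem_union_left _ (Finset.mem_filter.2 ⟨ho, h⟩)
      · exact Finset.mem_union_right _ (Finset.mem_filter.2 ⟨ho, h.symm⟩)
    have h1 := (Finset.card_le_card hsub).trans (Finset.card_union_le _ _)
    have h2 : ((O.filter fun o => t ≤ sc o).card : ℝ) ≤ ((O.filter fun o => t < sc o).card : ℝ) +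
        ((O.filter fun o => sc o = t).card : ℝ) := by exact_mod_cast h1
    have h3 := hbin t
    have h4 : θ ≤ ((O.filter fun o => t ≤ sc o).card : ℝ) := ht1
    linarith
  · by_contra hcon
    have h1 : θ ≤ ((O.filter fun o => t + 1 ≤ sc o).card : ℝ) := by
      rw [← hcum]
      exact not_lt.1 hcon
    have := ht2 (t + 1) h1
    omega

/-- four ranges separated by three thresholds -/
theorem sc_quartiles (β : ℝ)
    (hbin : ∀ s : ℤ, ((O.filter fun o => sc o = s).card : ℝ) ≤ β) (hO : 16 * β ≤ (O.card : ℝ)) :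
    ∃ s1 s2 s3 : ℤ,
      (O.card : ℝ) / 8 ≤ ((O.filter fun o => s1 < sc o).card : ℝ) ∧
      (O.card : ℝ) / 8 ≤ ((O.filter fun o => s2 < sc o ∧ sc o < s1).card : ℝ) ∧
      (O.card : ℝ) / 8 ≤ ((O.filter fun o => s3 < sc o ∧ sc o < s2).card : ℝ) ∧
      (O.card : ℝ) / 8 ≤ ((O.filter fun o => sc o < s3).card : ℝ) := by
  rcases Nat.eq_zero_or_pos O.card with h0 | hpos
  · refine ⟨0, 0, 0, ?_, ?_, ?_, ?_⟩ <;>
    · rw [h0]
      simp
  · have hn : (0 : ℝ) < O.card := by exact_mod_cast hpos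
    obtain ⟨s1, a1, b1⟩ := sc_threshold O sc β hbin ((O.card : ℝ) / 4) (by linarith) (by linarith)
    obtain ⟨s2, a2, b2⟩ := sc_threshold O sc β hbin ((O.card : ℝ) / 2) (by linarith) (by linarith)
    obtain ⟨s3, a3, b3⟩ := sc_threshold O sc β hbin (3 * (O.card : ℝ) / 4) (by linarith) (by linarith)
    refine ⟨s1, s2, s3, by linarith, ?_, ?_, ?_⟩
    · have h1 : ((O.filter fun o => s2 < sc o).card : ℝ) ≤ ((O.filter fun o => s2 < sc o ∧ sc o < s1).card : ℝ) +
          ((O.filter fun o => s1 < sc o).card : ℝ) + ((O.filter fun o => sc o = s1).card : ℝ) := by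
        exact_mod_cast sc_cum_split O sc s2 s1
      have := hbin s1
      linarith
    · have h1 : ((O.filter fun o => s3 < sc o).card : ℝ) ≤ ((O.filter fun o => s3 < sc o ∧ sc o < s2).card : ℝ) +
          ((O.filter fun o => s2 < sc o).card : ℝ) + ((O.filter fun o => sc o = s2).card : ℝ) := by
        exact_mod_cast sc_cum_split O sc s3 s2
      have := hbin s2
      linarith
    · have h1 : (O.card : ℝ) ≤ ((O.filter fun o => sc o < s3).card : ℝ) +
          ((O.filter fun o => s3 < sc o).card : ℝ) + ((O.filter fun o => sc o = s3).card : ℝ) := by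
        exact_mod_cast sc_all_split O sc s3
      have := hbin s3
      linarith

end thresholds

/-- thinning a set of integers to gaps `≥ g` -/
theorem sc_thin (T : Finset ℤ) (g : ℕ) (hg : 1 ≤ g) :
    ∃ V ⊆ T, (∀ v ∈ V, ∀ v' ∈ V, v ≠ v' → (g : ℤ) ≤ |v - v'|) ∧ T.card ≤ g * V.card := by
  have hg0 : (0 : ℤ) < g := by exact_mod_cast hg
  have hne : (Finset.Ico (0 : ℤ) g).Nonempty := ⟨0, Finset.mem_Ico.2 ⟨le_rfl, hg0⟩⟩
  obtain ⟨r, -, hr⟩ := Finset.exists_max_image (Finset.Ico (0 : ℤ) g)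
    (fun r => (T.filter fun v => v % g = r).card) hne
  refine ⟨T.filter fun v => v % g = r, Finset.filter_subset _ _, ?_, ?_⟩
  · intro v hv v' hv' hne'
    have h1 := (Finset.mem_filter.1 hv).2
    have h2 := (Finset.mem_filter.1 hv').2
    have hdvd : (g : ℤ) ∣ v - v' := Int.ModEq.dvd (show v' ≡ v [ZMOD g] from h2.trans h1.symm)
    have hne0 : v - v' ≠ 0 := sub_ne_zero.2 hne'
    exact Int.le_of_dvd (abs_pos.2 hne0) ((dvd_abs _ _).2 hdvd)
  · rw [Finset.card_eq_sum_card_fiberwise (f := fun v => v % (g : ℤ)) (t := Finset.Ico (0 : ℤ) g)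
      (fun v _ => Finset.mem_coe.2 (Finset.mem_Ico.2 ⟨Int.emod_nonneg _ hg0.ne', Int.emod_lt_of_pos _ hg0⟩))]
    refine (Finset.sum_le_card_nsmul _ _ _ hr).trans (le_of_eq ?_)
    rw [Int.card_Ico, smul_eq_mul]
    simp

/-- consecutive blocks (in descending order of `sc`) of mass at most `a` -/
theorem sc_blocks {ι : Type*} [DecidableEq ι] (O : Finset ι) (sc : ι → ℤ) (β a : ℝ) (ha : 0 < a)
    (hβ : 2 * β ≤ a) (hbin : ∀ s : ℤ, ((O.filter fun o => sc o = s).card : ℝ) ≤ β) :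
    ∃ blk : ℤ → ℕ, (∀ s s' : ℤ, s ≤ s' → blk s' ≤ blk s) ∧ (∀ s, (blk s : ℝ) ≤ 2 * O.card / a) ∧
      ∀ b : ℕ, ((O.filter fun o => blk (sc o) = b).card : ℝ) ≤ a := by
  set cum : ℤ → ℝ := fun s => ((O.filter fun o => s < sc o).card : ℝ) with hcum
  have hcum0 : ∀ s, 0 ≤ cum s := fun s => Nat.cast_nonneg _
  have hanti : ∀ s s' : ℤ, s ≤ s' → cum s' ≤ cum s := by
    intro s s' hs
    have : (O.filter fun o => s' < sc o) ⊆ O.filter fun o => s < sc o := by
      intro o ho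
      obtain ⟨ho, h⟩ := Finset.mem_filter.1 ho
      exact Finset.mem_filter.2 ⟨ho, lt_of_le_of_lt hs h⟩
    simp only [hcum]
    exact_mod_cast Finset.card_le_card this
  have ha2 : 0 < a / 2 := by linarith
  refine ⟨fun s => ⌊cum s / (a / 2)⌋₊, ?_, ?_, ?_⟩
  · intro s s' hs
    exact Nat.floor_le_floor (div_le_div_of_nonneg_right (hanti s s' hs) ha2.le)
  · intro s
    refine (Nat.floor_le (div_nonneg (hcum0 s) ha2.le)).trans ?_
    have h1 : cum s ≤ O.card := by
      simp only [hcum]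
      exact_mod_cast Finset.card_le_card (Finset.filter_subset _ _)
    rw [div_le_div_iff₀ ha2 ha]
    nlinarith
  · intro b
    set S := O.filter fun o => ⌊cum (sc o) / (a / 2)⌋₊ = b with hS
    rcases S.eq_empty_or_nonempty with he | hne
    · rw [he, Finset.card_empty, Nat.cast_zero]
      exact ha.le
    · obtain ⟨omax, hmax, hmax'⟩ := Finset.exists_max_image S sc hne
      obtain ⟨omin, hmin, hmin'⟩ := Finset.exists_min_image S sc hne
      have e1 : ⌊cum (sc omax) / (a / 2)⌋₊ = b := (Finset.mem_filter.1 hmax).2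
      have e2 : ⌊cum (sc omin) / (a / 2)⌋₊ = b := (Finset.mem_filter.1 hmin).2
      have l1 : (b : ℝ) * (a / 2) ≤ cum (sc omax) := by
        have := Nat.floor_le (div_nonneg (hcum0 (sc omax)) ha2.le)
        rw [e1, le_div_iff₀ ha2] at this
        exact this
      have l2 : cum (sc omin) < ((b : ℝ) + 1) * (a / 2) := by
        have := Nat.lt_floor_add_one (cum (sc omin) / (a / 2))
        rw [e2, div_lt_iff₀ ha2] at this
        exact this
      have hdisj : Disjoint S (O.filter fun o => sc omax < sc o) := by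
        rw [Finset.disjoint_left]
        intro o ho ho'
        have h1 := hmax' o ho
        have h2 := (Finset.mem_filter.1 ho').2
        omega
      have hsub : S ∪ (O.filter fun o => sc omax < sc o) ⊆
          (O.filter fun o => sc omin < sc o) ∪ (O.filter fun o => sc o = sc omin) := by
        intro o ho
        have hoO : o ∈ O := by
          rcases Finset.mem_union.1 ho with h | h
          · exact (Finset.mem_filter.1 h).1
          · exact (Finset.mem_filter.1 h).1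
        have hge : sc omin ≤ sc o := by
          rcases Finset.mem_union.1 ho with h | h
          · exact hmin' o h
          · have h1 := (Finset.mem_filter.1 h).2
            have h2 := hmin' omax hmax
            omega
        rcases lt_or_eq_of_le hge with h | h
        · exact Finset.mem_union_left _ (Finset.mem_filter.2 ⟨hoO, h⟩)
        · exact Finset.mem_union_right _ (Finset.mem_filter.2 ⟨hoO, h.symm⟩)
      have h1 := (Finset.card_le_card hsub).trans (Finset.card_union_le _ _)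
      rw [Finset.card_union_of_disjoint hdisj] at h1
      have h2 : (S.card : ℝ) + cum (sc omax) ≤ cum (sc omin) +
          ((O.filter fun o => sc o = sc omin).card : ℝ) := by
        simp only [hcum]
        exact_mod_cast h1
      have h3 := hbin (sc omin)
      nlinarith

/-- `c ≤ x`, `c ≤ y` imply `c ≤ √(x y)` -/
theorem sc_le_sqrt_mul {c x y : ℝ} (hx : 0 ≤ x) (h1 : c ≤ x) (h2 : c ≤ y) :
    c ≤ Real.sqrt (x * y) := by
  rcases le_or_gt c 0 with hc | hc
  · exact hc.trans (Real.sqrt_nonneg _)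
  · apply Real.le_sqrt_of_sq_le
    nlinarith

/-- the sum over the blocks of `min (α M²) (L m m')` -/
theorem sc_sum_min_le (n : ℕ) (m m' c : ℕ → ℝ) (M L α : ℝ) (hM : 0 ≤ M) (hL : 0 ≤ L) (hα : 0 ≤ α)
    (hm : ∀ b, 0 ≤ m b) (hm' : ∀ b, 0 ≤ m' b) (hs : ∑ b ∈ range n, m b ≤ M)
    (hs' : ∑ b ∈ range n, m' b ≤ M) (hc1 : ∀ b, c b ≤ α * M ^ 2) (hc2 : ∀ b, c b ≤ L * m b * m' b) :
    ∑ b ∈ range n, c b ≤ Real.sqrt (L * α) * M ^ 2 := by
  have h1 : ∀ b, c b ≤ (Real.sqrt (L * α) * M) * (Real.sqrt (m b) * Real.sqrt (m' b)) := by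
    intro b
    have h2 := sc_le_sqrt_mul (by positivity) (hc1 b) (hc2 b)
    refine h2.trans (le_of_eq ?_)
    have : α * M ^ 2 * (L * m b * m' b) = (L * α) * M ^ 2 * (m b * m' b) := by ring
    rw [this, Real.sqrt_mul (by positivity), Real.sqrt_mul (by positivity), Real.sqrt_sq hM,
      Real.sqrt_mul (hm b)]
  have h3 := Real.sum_sqrt_mul_sqrt_le (range n) (fun b => hm b) (fun b => hm' b)
  have h4 : Real.sqrt (∑ b ∈ range n, m b) * Real.sqrt (∑ b ∈ range n, m' b) ≤ M := by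
    calc Real.sqrt (∑ b ∈ range n, m b) * Real.sqrt (∑ b ∈ range n, m' b)
        ≤ Real.sqrt M * Real.sqrt M :=
          mul_le_mul (Real.sqrt_le_sqrt hs) (Real.sqrt_le_sqrt hs') (Real.sqrt_nonneg _) (Real.sqrt_nonneg _)
      _ = M := Real.mul_self_sqrt hM
  calc ∑ b ∈ range n, c b ≤ ∑ b ∈ range n, (Real.sqrt (L * α) * M) * (Real.sqrt (m b) * Real.sqrt (m' b)) :=
        Finset.sum_le_sum fun b _ => h1 b
    _ = (Real.sqrt (L * α) * M) * ∑ b ∈ range n, Real.sqrt (m b) * Real.sqrt (m' b) := by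
        rw [Finset.mul_sum]
    _ ≤ (Real.sqrt (L * α) * M) * M :=
        mul_le_mul_of_nonneg_left (h3.trans h4) (mul_nonneg (Real.sqrt_nonneg _) hM)
    _ = Real.sqrt (L * α) * M ^ 2 := by ring

end Claimed.Agent.R258
end

/- ===== packed: Claimed.Agent.R258.U3.BR.Defs ===== -/
section
/-!
# Row 258, block U3 / B1: dense Bogolyubov-Ruzsa with quasipolynomial bounds   (DEFINITIONS, prefix `u3b`)

Architect: helper197.  `G` is a finite abelian group, `N = card G`.  Everything is elementary and paper-independent.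

EXPORT (`BR/Main.lean`): `u3b_bogolyubov_ruzsa` : if `α N ≤ #A` then there is `Λ : Finset (AddChar G ℂ)` with
`#Λ ≤ 10^7 log(2/α)^4` such that `{x | ∀ χ ∈ Λ, ‖χ x - 1‖ ≤ α / (10^8 log(2/α)^4)} ⊆ (A + A) - (A + A)`.

ROUTE (Croot-Sisask + Chang, in the DENSE setting all `L^p` norms are taken with even integer exponents `2 m`, no real powers):
* `F = 1_B * μ_{-A}` (`u3bF`), `B = A + A`;  `φ = F * μ_{-A}` (`u3bPhi`): `φ 0 = 1`, `φ s > 0 → s ∈ B - (A + A)`;
* `Moment.lean` : `∑_{a ∈ A^k} (∑_i Y (a i))^{2m} ≤ #A^k (6 m k)^m` for `Y` of mean zero on `A`, `|Y| ≤ 1` (Hoeffding, elementary);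
* `CS.lean`     : Croot-Sisask: `T` with `#T / N ≥ (#A / N)^k / 2` and `∑_x (F (x + t - t') - F x)^{2m} ≤ 2 N (24 m / k)^m` on `T - T`;
* `Period.lean` : `|φ (s + u) - φ s| ≤ 1/4` for `u ∈ l (T - T)`, hence `|Ψ - φ| ≤ 1/4` for the average `Ψ` (`u3bPsi`);
* `Smooth.lean` : Fourier: `|Ψ s - Ψ 0| ≤ (N / #A) (ρ + 2 / 4^l)` if `‖χ s - 1‖ ≤ ρ` on the large spectrum `u3bSpec T (1/2)`;
* `Chang.lean`  : Chang's theorem by the exponential form of Rudin's inequality (`AddDissociated.randomisation` of Mathlib);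
* `Main.lean`   : choice of the parameters.
-/

set_option autoImplicit false

namespace Claimed.Agent.R258.U3

open Finset
open scoped ComplexConjugate Pointwise

variable {G : Type*} [AddCommGroup G] [Fintype G] [DecidableEq G]

/-- `F = 1_B * μ_{-A}` : the proportion of `a ∈ A` with `x + a ∈ B` -/
noncomputable def u3bF (A B : Finset G) (x : G) : ℝ := (#A : ℝ)⁻¹ * #{a ∈ A | x + a ∈ B}

/-- `φ = 1_B * μ_{-A} * μ_{-A}` -/
noncomputable def u3bPhi (A B : Finset G) (s : G) : ℝ := (#A : ℝ)⁻¹ * ∑ x ∈ A, u3bF A B (x + s)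

/-- the empirical average of `1_B (x + ·)` along a tuple -/
noncomputable def u3bEmp (B : Finset G) {k : ℕ} (a : Fin k → G) (x : G) : ℝ :=
  (k : ℝ)⁻¹ * #{i | x + a i ∈ B}

/-- Fourier coefficient of the uniform probability measure on `T` -/
noncomputable def u3bMuHat (T : Finset G) (χ : AddChar G ℂ) : ℂ := (#T : ℂ)⁻¹ * ∑ x ∈ T, χ x

open scoped Classical in
/-- the large spectrum of `T` -/
noncomputable def u3bSpec (T : Finset G) (δ : ℝ) : Finset (AddChar G ℂ) :=
  univ.filter fun χ => δ ≤ ‖u3bMuHat T χ‖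

/-- the tuples with entries in `T` -/
def u3bTup (T : Finset G) (l : ℕ) : Finset (Fin l → G) := Fintype.piFinset fun _ => T

/-- `Ψ` = the average of `φ (s + u)`, `u = ∑_j (t j - t' j)`, over `t, t' ∈ T^l` -/
noncomputable def u3bPsi (A B T : Finset G) (l : ℕ) (s : G) : ℝ :=
  ((#T : ℝ)⁻¹) ^ (2 * l) * ∑ t ∈ u3bTup T l, ∑ t' ∈ u3bTup T l, u3bPhi A B (s + ∑ j, (t j - t' j))

/-- the Fourier transform (counting measure) -/
noncomputable def u3bHat (f : G → ℂ) (χ : AddChar G ℂ) : ℂ := ∑ x, f x * conj (χ x)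

end Claimed.Agent.R258.U3
end

/- ===== packed: Claimed.Agent.R258.U3.BR.Period ===== -/
section
/-!
# Row 258, U3 / B1: iterated almost periods   (LEAF `P-U3B-PERIOD`, prefix `u3b_`)

 * `u3b_period_iter` : telescoping `F (x + ∑_{j<l} d j) - F x = ∑_{j<l} (F (x_j + d j) - F x_j)`, `x_j = x + ∑_{i<j} d i`;
                       `(∑_{j<l} u j)^{2m} ≤ l^{2m-1} ∑_j (u j)^{2m}` (`inner_le_nnorm_mul_nnorm` / `Real.pow_sum_div_card_le_sum_pow` / convexity), each `∑_x` is
                       invariant under the shift `x ↦ x_j` (`Equiv.sum_comp (Equiv.addRight _)`).  Induction on `l` is also possible.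
 * `u3b_avg_pow_le`  : power mean on `A`, then enlarge the sum to `G` (even powers are nonnegative);
 * `u3b_phi_period`  : `φ (s + u) - φ s = #A⁻¹ ∑_{x ∈ A} (F (x + s + u) - F (x + s))`, the two previous lemmas, `a^{2m} ≤ (1/4)^{2m} → |a| ≤ 1/4`;
 * `u3b_psi_phi`     : `Ψ s - φ s` is the average of `φ (s + u) - φ s` over `#T^{2l}` pairs of tuples.
-/

set_option autoImplicit false

namespace Claimed.Agent.R258.U3

open Finset
open scoped Pointwise

variable {G : Type*} [AddCommGroup G] [Fintype G] [DecidableEq G]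

/-- power mean, even exponents, cleared of denominators -/
theorem u3b_pow_sum_le {ι : Type*} (s : Finset ι) (u : ι → ℝ) (m : ℕ) :
    (∑ i ∈ s, u i) ^ (2 * m) * #s ≤ (#s : ℝ) ^ (2 * m) * ∑ i ∈ s, u i ^ (2 * m) := by
  rcases s.eq_empty_or_nonempty with rfl | hs
  · simp
  have hc : (0 : ℝ) < #s := by exact_mod_cast hs.card_pos
  have h := Real.pow_arith_mean_le_arith_mean_pow_of_even s (fun _ => (#s : ℝ)⁻¹) u
    (fun _ _ => by positivity) (by simp [hc.ne']) (even_two_mul m)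
  rw [← Finset.mul_sum, ← Finset.mul_sum, mul_pow, inv_pow] at h
  have h2 := mul_le_mul_of_nonneg_left h (show (0 : ℝ) ≤ (#s : ℝ) ^ (2 * m) * #s by positivity)
  have e1 : (#s : ℝ) ^ (2 * m) * #s * (((#s : ℝ) ^ (2 * m))⁻¹ * (∑ i ∈ s, u i) ^ (2 * m))
      = (∑ i ∈ s, u i) ^ (2 * m) * #s := by
    field_simp
  have e2 : (#s : ℝ) ^ (2 * m) * #s * ((#s : ℝ)⁻¹ * ∑ i ∈ s, u i ^ (2 * m))
      = (#s : ℝ) ^ (2 * m) * ∑ i ∈ s, u i ^ (2 * m) := by
    field_simp
  rw [e1, e2] at h2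
  exact h2

theorem u3b_period_iter (F : G → ℝ) (T : Finset G) (m l : ℕ) (hm : 0 < m) (K : ℝ)
    (h : ∀ t ∈ T, ∀ t' ∈ T, ∑ x, (F (x + t - t') - F x) ^ (2 * m) ≤ K)
    (t t' : Fin l → G) (ht : ∀ j, t j ∈ T) (ht' : ∀ j, t' j ∈ T) :
    ∑ x, (F (x + ∑ j, (t j - t' j)) - F x) ^ (2 * m) ≤ (l : ℝ) ^ (2 * m) * K := by
  rcases Nat.eq_zero_or_pos l with rfl | hl
  · have : 2 * m ≠ 0 := by omega
    simp [this]
  have hl' : (0 : ℝ) < l := by exact_mod_cast hl
  set d : ℕ → G := fun j => if hj : j < l then t ⟨j, hj⟩ - t' ⟨j, hj⟩ else 0 with hd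
  set S : ℕ → G := fun j => ∑ i ∈ range j, d i with hS
  have hSl : ∑ j, (t j - t' j) = S l := by
    rw [hS]
    simp only
    rw [← Fin.sum_univ_eq_sum_range]
    refine Finset.sum_congr rfl fun j _ => ?_
    simp [hd]
  have htel : ∀ x, F (x + S l) - F x = ∑ j ∈ range l, (F (x + S (j + 1)) - F (x + S j)) := by
    intro x
    rw [Finset.sum_range_sub (fun j => F (x + S j)) l]
    simp [hS]
  have hj : ∀ j ∈ range l, ∑ x, (F (x + S (j + 1)) - F (x + S j)) ^ (2 * m) ≤ K := by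
    intro j hj
    have hjl : j < l := Finset.mem_range.1 hj
    have e := Equiv.sum_comp (Equiv.addRight (S j)) (fun y => (F (y + d j) - F y) ^ (2 * m))
    have e' : ∑ x, (F (x + S (j + 1)) - F (x + S j)) ^ (2 * m)
        = ∑ y, (F (y + d j) - F y) ^ (2 * m) := by
      rw [← e]
      refine Finset.sum_congr rfl fun x _ => ?_
      simp only [Equiv.coe_addRight]
      have : S (j + 1) = S j + d j := by simp only [hS]; rw [Finset.sum_range_succ]
      rw [this, add_assoc]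
    rw [e']
    have := h _ (ht ⟨j, hjl⟩) _ (ht' ⟨j, hjl⟩)
    refine le_trans (le_of_eq ?_) this
    refine Finset.sum_congr rfl fun x _ => ?_
    simp only [hd, hjl, dif_pos, add_sub_assoc]
  have key : (∑ x, (F (x + S l) - F x) ^ (2 * m)) * l ≤ (l : ℝ) ^ (2 * m) * K * l := by
    calc (∑ x, (F (x + S l) - F x) ^ (2 * m)) * l
        = ∑ x, (∑ j ∈ range l, (F (x + S (j + 1)) - F (x + S j))) ^ (2 * m) * (#(range l) : ℝ) := by
          rw [Finset.sum_mul]
          refine Finset.sum_congr rfl fun x _ => ?_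
          rw [htel x, Finset.card_range]
      _ ≤ ∑ x, (#(range l) : ℝ) ^ (2 * m) *
            ∑ j ∈ range l, (F (x + S (j + 1)) - F (x + S j)) ^ (2 * m) :=
          Finset.sum_le_sum fun x _ => u3b_pow_sum_le _ _ _
      _ = (l : ℝ) ^ (2 * m) * ∑ j ∈ range l, ∑ x, (F (x + S (j + 1)) - F (x + S j)) ^ (2 * m) := by
          rw [← Finset.mul_sum, Finset.sum_comm, Finset.card_range]
      _ ≤ (l : ℝ) ^ (2 * m) * ∑ _j ∈ range l, K :=
          mul_le_mul_of_nonneg_left (Finset.sum_le_sum hj) (by positivity)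
      _ = (l : ℝ) ^ (2 * m) * K * l := by
          rw [Finset.sum_const, Finset.card_range, nsmul_eq_mul]; ring
  rw [hSl]
  exact le_of_mul_le_mul_right key hl'

theorem u3b_avg_pow_le (A : Finset G) (hA : A.Nonempty) (u : G → ℝ) (m : ℕ) (hm : 0 < m) :
    ((#A : ℝ)⁻¹ * ∑ x ∈ A, u x) ^ (2 * m) ≤ (#A : ℝ)⁻¹ * ∑ x, (u x) ^ (2 * m) := by
  have hc : (0 : ℝ) < #A := by exact_mod_cast hA.card_pos
  have h := Real.pow_arith_mean_le_arith_mean_pow_of_even A (fun _ => (#A : ℝ)⁻¹) u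
    (fun _ _ => by positivity) (by simp [hc.ne']) (even_two_mul m)
  rw [← Finset.mul_sum, ← Finset.mul_sum] at h
  refine h.trans (mul_le_mul_of_nonneg_left ?_ (by positivity))
  refine Finset.sum_le_sum_of_subset_of_nonneg (Finset.subset_univ _) fun x _ _ => ?_
  exact (even_two_mul m).pow_nonneg _

theorem u3b_phi_period (A B T : Finset G) (hA : A.Nonempty) (m l : ℕ) (hm : 0 < m) (K : ℝ)
    (h : ∀ t ∈ T, ∀ t' ∈ T, ∑ x, (u3bF A B (x + t - t') - u3bF A B x) ^ (2 * m) ≤ K)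
    (hK : (#A : ℝ)⁻¹ * ((l : ℝ) ^ (2 * m) * K) ≤ (1 / 4) ^ (2 * m))
    (s : G) (t t' : Fin l → G) (ht : ∀ j, t j ∈ T) (ht' : ∀ j, t' j ∈ T) :
    |u3bPhi A B (s + ∑ j, (t j - t' j)) - u3bPhi A B s| ≤ 1 / 4 := by
  set w : G := ∑ j, (t j - t' j) with hw
  have e1 : u3bPhi A B (s + w) - u3bPhi A B s
      = (#A : ℝ)⁻¹ * ∑ x ∈ A, (u3bF A B (x + s + w) - u3bF A B (x + s)) := by
    unfold u3bPhi
    rw [← mul_sub, ← Finset.sum_sub_distrib]
    simp only [add_assoc]
  have h1 := u3b_avg_pow_le A hA (fun x => u3bF A B (x + s + w) - u3bF A B (x + s)) m hm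
  have h2 : ∑ x, (u3bF A B (x + s + w) - u3bF A B (x + s)) ^ (2 * m)
      = ∑ y, (u3bF A B (y + w) - u3bF A B y) ^ (2 * m) :=
    Equiv.sum_comp (Equiv.addRight s) (fun y => (u3bF A B (y + w) - u3bF A B y) ^ (2 * m))
  have h3 := u3b_period_iter (u3bF A B) T m l hm K h t t' ht ht'
  have h4 : (u3bPhi A B (s + w) - u3bPhi A B s) ^ (2 * m) ≤ (1 / 4) ^ (2 * m) := by
    rw [e1]
    refine h1.trans (le_trans ?_ hK)
    refine mul_le_mul_of_nonneg_left ?_ (by positivity)
    rw [h2]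
    exact h3
  rw [← (even_two_mul m).pow_abs] at h4
  exact le_of_pow_le_pow_left₀ (by omega) (by norm_num) h4

theorem u3b_psi_phi (A B T : Finset G) (hA : A.Nonempty) (hT : T.Nonempty) (m l : ℕ) (hm : 0 < m) (K : ℝ)
    (h : ∀ t ∈ T, ∀ t' ∈ T, ∑ x, (u3bF A B (x + t - t') - u3bF A B x) ^ (2 * m) ≤ K)
    (hK : (#A : ℝ)⁻¹ * ((l : ℝ) ^ (2 * m) * K) ≤ (1 / 4) ^ (2 * m)) (s : G) :
    |u3bPsi A B T l s - u3bPhi A B s| ≤ 1 / 4 := by
  have hc : (0 : ℝ) < #T := by exact_mod_cast hT.card_pos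
  have hcard : (#(u3bTup T l) : ℝ) = (#T : ℝ) ^ l := by
    unfold u3bTup
    rw [Fintype.card_piFinset]
    simp
  have e0 : ((#T : ℝ)⁻¹) ^ (2 * l) * ((#T : ℝ) ^ l * (#T : ℝ) ^ l) = 1 := by
    rw [← pow_add, ← two_mul, ← mul_pow, inv_mul_cancel₀ hc.ne', one_pow]
  have e1 : u3bPsi A B T l s - u3bPhi A B s = ((#T : ℝ)⁻¹) ^ (2 * l) *
      ∑ t ∈ u3bTup T l, ∑ t' ∈ u3bTup T l,
        (u3bPhi A B (s + ∑ j, (t j - t' j)) - u3bPhi A B s) := by
    unfold u3bPsi
    simp only [Finset.sum_sub_distrib, Finset.sum_const, nsmul_eq_mul, hcard]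
    rw [mul_sub, ← mul_assoc ((#T : ℝ) ^ l), ← mul_assoc, e0, one_mul]
  rw [e1, abs_mul, abs_of_nonneg (by positivity)]
  calc ((#T : ℝ)⁻¹) ^ (2 * l) * |∑ t ∈ u3bTup T l, ∑ t' ∈ u3bTup T l,
        (u3bPhi A B (s + ∑ j, (t j - t' j)) - u3bPhi A B s)|
      ≤ ((#T : ℝ)⁻¹) ^ (2 * l) * ∑ t ∈ u3bTup T l, ∑ t' ∈ u3bTup T l, (1 / 4 : ℝ) := by
        refine mul_le_mul_of_nonneg_left ?_ (by positivity)
        refine (Finset.abs_sum_le_sum_abs _ _).trans (Finset.sum_le_sum fun t ht => ?_)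
        refine (Finset.abs_sum_le_sum_abs _ _).trans (Finset.sum_le_sum fun t' ht' => ?_)
        exact u3b_phi_period A B T hA m l hm K h hK s t t'
          (fun j => Fintype.mem_piFinset.1 ht j) (fun j => Fintype.mem_piFinset.1 ht' j)
    _ = 1 / 4 := by
        simp only [Finset.sum_const, nsmul_eq_mul, hcard]
        rw [← mul_assoc ((#T : ℝ) ^ l), ← mul_assoc, e0, one_mul]

theorem u3b_phi_zero (A : Finset G) (hA : A.Nonempty) : u3bPhi A (A + A) 0 = 1 := by
  have hc : (0 : ℝ) < #A := by exact_mod_cast hA.card_pos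
  have hF : ∀ x ∈ A, u3bF A (A + A) (x + 0) = 1 := by
    intro x hx
    unfold u3bF
    have : A.filter (fun a => x + 0 + a ∈ A + A) = A := by
      refine Finset.filter_true_of_mem fun a ha => ?_
      rw [add_zero]
      exact Finset.add_mem_add hx ha
    rw [this, inv_mul_cancel₀ hc.ne']
  unfold u3bPhi
  rw [Finset.sum_congr rfl hF]
  simp [hc.ne']

theorem u3b_mem_of_phi_pos (A B : Finset G) (s : G) (h : 0 < u3bPhi A B s) : s ∈ B - (A + A) := by
  unfold u3bPhi at h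
  have h1 : 0 < ∑ x ∈ A, u3bF A B (x + s) := by
    by_contra hcon
    have := mul_nonpos_of_nonneg_of_nonpos (show (0 : ℝ) ≤ (#A : ℝ)⁻¹ by positivity) (not_lt.1 hcon)
    linarith
  obtain ⟨x, hx, hxp⟩ := Finset.exists_lt_of_sum_lt (s := A) (f := fun _ => (0 : ℝ))
    (g := fun x => u3bF A B (x + s)) (by simpa using h1)
  unfold u3bF at hxp
  have h2 : 0 < #{a ∈ A | x + s + a ∈ B} := by
    by_contra hcon
    have : #{a ∈ A | x + s + a ∈ B} = 0 := by omega
    rw [this] at hxp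
    simp at hxp
  obtain ⟨a, ha⟩ := Finset.card_pos.1 h2
  rw [Finset.mem_filter] at ha
  have : s = (x + s + a) - (x + a) := by abel
  rw [this]
  exact Finset.sub_mem_sub ha.2 (Finset.add_mem_add hx ha.1)

end Claimed.Agent.R258.U3
end

/- ===== packed: Claimed.Agent.R258.U3.BR.Smooth ===== -/
section
/-!
# Row 258, U3 / B1: the Fourier side   (LEAF `P-U3B-SMOOTH`, prefix `u3b_`)

Tools of Mathlib: `AddChar.sum_apply_eq_ite` (`∑_ψ ψ a = if a = 0 then card else 0`), `AddChar.card_eq`, `AddChar.map_neg_eq_conj`,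
`AddChar.map_add_eq_mul`, `AddChar.norm_apply`, `AddChar.wInner_cWeight_eq_boole` / `AddChar.sum_eq_ite` (orthogonality in `x`).
 * `u3b_inversion`   : exchange the sums, `∑_χ χ (s - x) = N [s = x]`;
 * `u3b_parseval_mu` : `∑_χ ‖μ̂_A χ‖² = #A⁻² ∑_{x, y ∈ A} ∑_χ χ (x - y) = N / #A`;
 * `u3b_phi_hat`     : `φ s = #A⁻² ∑_{x, a ∈ A} 1_B (x + s + a)`; substitute `b = x + s + a`;
 * `u3b_phi_l1`      : `‖∑_{b ∈ B} conj (χ b)‖ ≤ #B ≤ N`, then Parseval;
 * `u3b_psi_expand`  : inversion for `φ`; the average of `χ (∑_j (t j - t' j))` over `t, t' ∈ T^l` is `(μ̂_T χ * conj (μ̂_T χ))^l` (`Finset.prod_univ_sum`);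
 * `u3b_psi_bohr`    : on the spectrum `‖μ̂_T χ‖ ≤ 1`, `‖χ s - 1‖ ≤ ρ`; off the spectrum `‖μ̂_T χ‖^{2l} ≤ 4^{-l}`, `‖χ s - 1‖ ≤ 2`.
-/

set_option autoImplicit false

namespace Claimed.Agent.R258.U3

open Finset
open scoped ComplexConjugate Pointwise

variable {G : Type*} [AddCommGroup G] [Fintype G] [DecidableEq G]

theorem u3b_inversion (f : G → ℂ) (s : G) :
    f s = (Fintype.card G : ℂ)⁻¹ * ∑ χ : AddChar G ℂ, u3bHat f χ * χ s := by
  have hN : (Fintype.card G : ℂ) ≠ 0 := by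
    exact_mod_cast Fintype.card_ne_zero
  have h1 : ∑ χ : AddChar G ℂ, u3bHat f χ * χ s = f s * Fintype.card G := by
    unfold u3bHat
    simp only [sum_mul]
    rw [sum_comm]
    have h2 : ∀ x : G, ∑ χ : AddChar G ℂ, f x * conj (χ x) * χ s =
        f x * (if s - x = 0 then (Fintype.card G : ℂ) else 0) := by
      intro x
      rw [← AddChar.sum_apply_eq_ite, mul_sum]
      refine sum_congr rfl fun χ _ => ?_
      rw [← AddChar.map_neg_eq_conj, mul_assoc, ← AddChar.map_add_eq_mul, neg_add_eq_sub]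
    simp only [h2, sub_eq_zero]
    simp
  rw [h1]
  field_simp

theorem u3b_muHat_norm_le (T : Finset G) (χ : AddChar G ℂ) : ‖u3bMuHat T χ‖ ≤ 1 := by
  unfold u3bMuHat
  rcases T.eq_empty_or_nonempty with rfl | hT
  · simp
  · have h0 : (0 : ℝ) < #T := by exact_mod_cast hT.card_pos
    rw [norm_mul, norm_inv, Complex.norm_natCast, inv_mul_le_iff₀ h0, mul_one]
    calc ‖∑ x ∈ T, χ x‖ ≤ ∑ x ∈ T, ‖χ x‖ := norm_sum_le _ _
      _ = #T := by simp [AddChar.norm_apply]

theorem u3b_parseval_mu (A : Finset G) (hA : A.Nonempty) :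
    ∑ χ : AddChar G ℂ, ‖u3bMuHat A χ‖ ^ 2 = (Fintype.card G : ℝ) / #A := by
  have h0 : (#A : ℂ) ≠ 0 := by exact_mod_cast hA.card_pos.ne'
  have key : ∑ χ : AddChar G ℂ, ((‖u3bMuHat A χ‖ ^ 2 : ℝ) : ℂ) = (Fintype.card G : ℂ) / #A := by
    have h1 : ∀ χ : AddChar G ℂ, ((‖u3bMuHat A χ‖ ^ 2 : ℝ) : ℂ) =
        ((#A : ℂ)⁻¹) ^ 2 * ∑ x ∈ A, ∑ y ∈ A, χ (x - y) := by
      intro χ
      push_cast
      rw [← Complex.mul_conj']
      unfold u3bMuHat
      rw [map_mul, map_inv₀, Complex.conj_natCast, map_sum, mul_mul_mul_comm, ← sq, sum_mul_sum]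
      congr 1
      refine sum_congr rfl fun x _ => sum_congr rfl fun y _ => ?_
      rw [← AddChar.map_neg_eq_conj, ← AddChar.map_add_eq_mul, sub_eq_add_neg]
    simp only [h1]
    rw [← mul_sum, sum_comm]
    have h2 : ∀ x ∈ A, ∑ χ : AddChar G ℂ, ∑ y ∈ A, χ (x - y) = Fintype.card G := by
      intro x hx
      rw [sum_comm]
      simp only [AddChar.sum_apply_eq_ite, sub_eq_zero]
      simp [hx]
    rw [sum_congr rfl h2]
    simp only [sum_const, nsmul_eq_mul]
    field_simp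
  apply Complex.ofReal_injective
  rw [Complex.ofReal_sum, key]
  push_cast
  rfl

theorem u3b_phi_hat (A B : Finset G) (χ : AddChar G ℂ) :
    u3bHat (fun s => (u3bPhi A B s : ℂ)) χ = (∑ b ∈ B, conj (χ b)) * u3bMuHat A χ ^ 2 := by
  have h1 : ∀ s : G, (u3bPhi A B s : ℂ) =
      ((#A : ℂ)⁻¹) ^ 2 * ∑ x ∈ A, ∑ a ∈ A, (if x + s + a ∈ B then (1 : ℂ) else 0) := by
    intro s
    unfold u3bPhi u3bF
    push_cast
    rw [← mul_sum, ← mul_assoc, ← sq]
    congr 1
    refine sum_congr rfl fun x _ => ?_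
    simp
  have h2 : ∀ x a : G, ∑ s : G, (if x + s + a ∈ B then (1 : ℂ) else 0) * conj (χ s) =
      (∑ b ∈ B, conj (χ b)) * (χ x * χ a) := by
    intro x a
    rw [Fintype.sum_equiv ((Equiv.addLeft x).trans (Equiv.addRight a))
      (fun s => (if x + s + a ∈ B then (1 : ℂ) else 0) * conj (χ s))
      (fun b => (if b ∈ B then (1 : ℂ) else 0) * (conj (χ b) * (χ x * χ a))) (fun s => ?_)]
    · simp only [ite_mul, one_mul, zero_mul, sum_ite_mem, univ_inter, sum_mul]
    · simp only [Equiv.trans_apply, Equiv.coe_addLeft, Equiv.coe_addRight]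
      congr 1
      rw [AddChar.map_add_eq_mul, AddChar.map_add_eq_mul, map_mul, map_mul]
      have hx : conj (χ x) * χ x = 1 := by
        rw [Complex.conj_mul', AddChar.norm_apply]; simp
      have ha : conj (χ a) * χ a = 1 := by
        rw [Complex.conj_mul', AddChar.norm_apply]; simp
      calc conj (χ s) = conj (χ s) * (conj (χ x) * χ x) * (conj (χ a) * χ a) := by rw [hx, ha]; ring
        _ = _ := by ring
  unfold u3bHat
  simp only [h1]
  calc ∑ s : G, ((#A : ℂ)⁻¹) ^ 2 * (∑ x ∈ A, ∑ a ∈ A, (if x + s + a ∈ B then (1 : ℂ) else 0)) * conj (χ s)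
      = ((#A : ℂ)⁻¹) ^ 2 * ∑ x ∈ A, ∑ a ∈ A, ∑ s : G, (if x + s + a ∈ B then (1 : ℂ) else 0) * conj (χ s) := by
        simp only [mul_assoc, sum_mul]
        rw [← mul_sum, sum_comm]
        congr 1
        refine sum_congr rfl fun x _ => ?_
        rw [sum_comm]
    _ = _ := by
        simp only [h2]
        unfold u3bMuHat
        simp only [← mul_sum, ← sum_mul]
        ring

theorem u3b_phi_l1 (A B : Finset G) (hA : A.Nonempty) :
    ∑ χ : AddChar G ℂ, ‖u3bHat (fun s => (u3bPhi A B s : ℂ)) χ‖ ≤ (Fintype.card G : ℝ) ^ 2 / #A := by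
  calc ∑ χ : AddChar G ℂ, ‖u3bHat (fun s => (u3bPhi A B s : ℂ)) χ‖
      ≤ ∑ χ : AddChar G ℂ, (Fintype.card G : ℝ) * ‖u3bMuHat A χ‖ ^ 2 := by
        refine sum_le_sum fun χ _ => ?_
        rw [u3b_phi_hat, norm_mul, norm_pow]
        refine mul_le_mul_of_nonneg_right ?_ (by positivity)
        calc ‖∑ b ∈ B, conj (χ b)‖ ≤ ∑ b ∈ B, ‖conj (χ b)‖ := norm_sum_le _ _
          _ = #B := by simp [AddChar.norm_apply]
          _ ≤ Fintype.card G := by exact_mod_cast card_le_univ B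
    _ = (Fintype.card G : ℝ) ^ 2 / #A := by
        rw [← mul_sum, u3b_parseval_mu A hA]
        ring

theorem u3b_char_sum {ι : Type*} (χ : AddChar G ℂ) (S : Finset ι) (f : ι → G) :
    χ (∑ i ∈ S, f i) = ∏ i ∈ S, χ (f i) := by
  classical
  induction S using Finset.induction_on with
  | empty => simp
  | insert a S ha ih => rw [sum_insert ha, prod_insert ha, AddChar.map_add_eq_mul, ih]

theorem u3b_avg_char (T : Finset G) (l : ℕ) (χ : AddChar G ℂ) :
    ((#T : ℂ)⁻¹) ^ (2 * l) * ∑ t ∈ u3bTup T l, ∑ t' ∈ u3bTup T l, χ (∑ j, (t j - t' j)) =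
      ((‖u3bMuHat T χ‖ ^ (2 * l) : ℝ) : ℂ) := by
  have h1 : ∀ t t' : Fin l → G, χ (∑ j, (t j - t' j)) = (∏ j, χ (t j)) * ∏ j, conj (χ (t' j)) := by
    intro t t'
    rw [u3b_char_sum, ← prod_mul_distrib]
    refine prod_congr rfl fun j _ => ?_
    rw [← AddChar.map_neg_eq_conj, ← AddChar.map_add_eq_mul, sub_eq_add_neg]
  simp only [h1]
  rw [← sum_mul_sum]
  unfold u3bTup
  rw [← prod_univ_sum (fun _ : Fin l => T) (fun _ x => χ x),
    ← prod_univ_sum (fun _ : Fin l => T) (fun _ x => conj (χ x))]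
  simp only [prod_const, card_univ, Fintype.card_fin]
  push_cast
  rw [pow_mul, pow_mul, ← Complex.mul_conj']
  unfold u3bMuHat
  rw [map_mul, map_inv₀, Complex.conj_natCast, map_sum, ← mul_pow, ← mul_pow]
  congr 1
  ring

theorem u3b_psi_expand (A B T : Finset G) (l : ℕ) (s : G) :
    (u3bPsi A B T l s : ℂ) = (Fintype.card G : ℂ)⁻¹ * ∑ χ : AddChar G ℂ,
      u3bHat (fun s => (u3bPhi A B s : ℂ)) χ * ((‖u3bMuHat T χ‖ ^ (2 * l) : ℝ) : ℂ) * χ s := by
  have h1 : ∀ y : G, (u3bPhi A B y : ℂ) = (Fintype.card G : ℂ)⁻¹ * ∑ χ : AddChar G ℂ,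
      u3bHat (fun s => (u3bPhi A B s : ℂ)) χ * χ y := fun y => u3b_inversion (fun s => (u3bPhi A B s : ℂ)) y
  simp only [← u3b_avg_char]
  unfold u3bPsi
  push_cast
  generalize u3bHat (fun s => (u3bPhi A B s : ℂ)) = H at h1 ⊢
  simp only [h1, AddChar.map_add_eq_mul, mul_sum, sum_mul]
  symm
  rw [sum_comm]
  refine sum_congr rfl fun t _ => ?_
  rw [sum_comm]
  refine sum_congr rfl fun t' _ => sum_congr rfl fun χ _ => ?_
  ring

/-- `Ψ` is almost constant on the Bohr set of the large spectrum of `T` -/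
theorem u3b_psi_bohr (A B T : Finset G) (hA : A.Nonempty) (l : ℕ) (ρ : ℝ) (hρ : 0 ≤ ρ) (s : G)
    (hs : ∀ χ ∈ u3bSpec T (1 / 2), ‖χ s - 1‖ ≤ ρ) :
    |u3bPsi A B T l s - u3bPsi A B T l 0| ≤ ((Fintype.card G : ℝ) / #A) * (ρ + 2 / 4 ^ l) := by
  have hN : (0 : ℝ) < Fintype.card G := by exact_mod_cast Fintype.card_pos
  have h1 : ((u3bPsi A B T l s - u3bPsi A B T l 0 : ℝ) : ℂ) = (Fintype.card G : ℂ)⁻¹ * ∑ χ : AddChar G ℂ,
      u3bHat (fun s => (u3bPhi A B s : ℂ)) χ * ((‖u3bMuHat T χ‖ ^ (2 * l) : ℝ) : ℂ) * (χ s - 1) := by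
    rw [Complex.ofReal_sub, u3b_psi_expand, u3b_psi_expand, ← mul_sub, ← sum_sub_distrib]
    congr 1
    refine sum_congr rfl fun χ _ => ?_
    rw [AddChar.map_zero_eq_one]
    ring
  have h2 : ∀ χ : AddChar G ℂ, ‖u3bMuHat T χ‖ ^ (2 * l) * ‖χ s - 1‖ ≤ ρ + 2 / 4 ^ l := by
    intro χ
    have hl : (0 : ℝ) ≤ 2 / 4 ^ l := by positivity
    by_cases hχ : χ ∈ u3bSpec T (1 / 2)
    · have h3 : ‖u3bMuHat T χ‖ ^ (2 * l) ≤ 1 := pow_le_one₀ (norm_nonneg _) (u3b_muHat_norm_le T χ)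
      calc ‖u3bMuHat T χ‖ ^ (2 * l) * ‖χ s - 1‖ ≤ 1 * ρ :=
            mul_le_mul h3 (hs χ hχ) (norm_nonneg _) zero_le_one
        _ ≤ ρ + 2 / 4 ^ l := by linarith
    · have h3 : ‖u3bMuHat T χ‖ ≤ 1 / 2 := by
        unfold u3bSpec at hχ
        simp only [mem_filter, mem_univ, true_and, not_le] at hχ
        exact hχ.le
      have h4 : ‖u3bMuHat T χ‖ ^ (2 * l) ≤ 1 / 4 ^ l := by
        calc ‖u3bMuHat T χ‖ ^ (2 * l) ≤ (1 / 2) ^ (2 * l) := pow_le_pow_left₀ (norm_nonneg _) h3 _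
          _ = 1 / 4 ^ l := by rw [pow_mul, div_pow, div_pow]; norm_num
      have h5 : ‖χ s - 1‖ ≤ 2 := by
        calc ‖χ s - 1‖ ≤ ‖χ s‖ + ‖(1 : ℂ)‖ := norm_sub_le _ _
          _ = 2 := by rw [AddChar.norm_apply]; norm_num
      calc ‖u3bMuHat T χ‖ ^ (2 * l) * ‖χ s - 1‖ ≤ 1 / 4 ^ l * 2 :=
            mul_le_mul h4 h5 (norm_nonneg _) (by positivity)
        _ ≤ ρ + 2 / 4 ^ l := by
            have : (1 : ℝ) / 4 ^ l * 2 = 2 / 4 ^ l := by ring
            linarith
  have hc : (0 : ℝ) ≤ ρ + 2 / 4 ^ l := by positivity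
  calc |u3bPsi A B T l s - u3bPsi A B T l 0|
      = ‖((u3bPsi A B T l s - u3bPsi A B T l 0 : ℝ) : ℂ)‖ := by
        rw [Complex.norm_real, Real.norm_eq_abs]
    _ ≤ (Fintype.card G : ℝ)⁻¹ * ∑ χ : AddChar G ℂ,
          ‖u3bHat (fun s => (u3bPhi A B s : ℂ)) χ‖ * (ρ + 2 / 4 ^ l) := by
        rw [h1, norm_mul, norm_inv, Complex.norm_natCast]
        refine mul_le_mul_of_nonneg_left ?_ (by positivity)
        refine (norm_sum_le _ _).trans (sum_le_sum fun χ _ => ?_)
        rw [norm_mul, norm_mul, Complex.norm_real, Real.norm_eq_abs, abs_of_nonneg (by positivity), mul_assoc]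
        exact mul_le_mul_of_nonneg_left (h2 χ) (norm_nonneg _)
    _ ≤ (Fintype.card G : ℝ)⁻¹ * ((Fintype.card G : ℝ) ^ 2 / #A * (ρ + 2 / 4 ^ l)) := by
        rw [← sum_mul]
        exact mul_le_mul_of_nonneg_left (mul_le_mul_of_nonneg_right (u3b_phi_l1 A B hA) hc) (by positivity)
    _ = ((Fintype.card G : ℝ) / #A) * (ρ + 2 / 4 ^ l) := by
        field_simp

end Claimed.Agent.R258.U3
end
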