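/- Packed by merge_tool.py (helper293): 11 modules of Claimed.Agent.R258 in one file, same declarations.
   Old modules, in this order: S9a.BookDefs, S9a.BookNfA, S9a.BookNfB, S9a.CombDefs, S9a.CombRanges, S9a.CombOutA, S9a.CombPack, S9a.CombThird, S9a.CombSlab, S9a.CombOutB, S9a.CombMain -/
import Claimed.Agent.R258.S9a.Frame
import Claimed.Agent.R258.S9a.Growth
import Claimed.Agent.R258.Pack016
import Claimed.Agent.R258.Pack019

/- ===== packed: Claimed.Agent.R258.S9a.BookDefs ===== -/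
section
/-
R258 / block [S9a] (Lemma 9.1 = counting.tex `lem:finite-sparse-count`), file BookDefs: "Nonfuture pairs": definitions.  Architect: helper261.  DEFINITIONS ONLY.
-/
set_option autoImplicit false

namespace Claimed.Agent.R258

open Finset
open scoped Pointwise

namespace ScFrame

variable {p : ScPar} {O : Finset ScOcc} {α κ : ℝ} (Fr : ScFrame p O α κ)

/-- the role `i` of the occurrence is NONFUTURE (the side role always is) -/
def nfut (o : ScOcc) (i : Fin 4) : Prop := i ∉ p.J ∨ ¬ Fr.fut o i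

/-- the occurrence has three future core roles -/
def fut3 (o : ScOcc) : Prop := ∃ l' : Fin 4, ∀ i, i ≠ l' → i ∈ p.J ∧ Fr.fut o i

open Classical in
/-- the nonfuture allowed labels of the block `b` in the role `i` -/
noncomputable def NF (b : ℕ) (i : Fin 4) : Finset ℤ :=
  ((Fr.Cov b i).biUnion id).filter fun x => ∀ b', b < b' → ∀ Bs ∈ Fr.Cov b' i, x ∉ Bs

open Classical in
/-- the numbers `m_i^b` (core role: number of nonfuture allowed labels; side role: the budget of the block) -/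
noncomputable def mm (i : Fin 4) (b : ℕ) : ℝ :=
  if i ∈ p.J then ((Fr.NF b i).card : ℝ)
  else ∑ s ∈ (O.image Prod.fst).filter (fun s => Fr.blk s = b), p.w s

end ScFrame

end Claimed.Agent.R258
end

/- ===== packed: Claimed.Agent.R258.S9a.BookNfA ===== -/
section
/-
R258 / block [S9a] (Lemma 9.1 = counting.tex `lem:finite-sparse-count`), file BookNfA: "Nonfuture pairs", the numbers `m_i^b` and the mass of one pair in one block.  Blueprint + proofs: helper261.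
-/
set_option autoImplicit false

namespace Claimed.Agent.R258

open Finset
open scoped Pointwise

variable {p : ScPar} {O : Finset ScOcc} {α κ : ℝ}

theorem sc_mm_core (Fr : ScFrame p O α κ) {i : Fin 4} (hi : i ∈ p.J) (b : ℕ) :
    Fr.mm i b = ((Fr.NF b i).card : ℝ) := by
  unfold ScFrame.mm
  rw [if_pos hi]

theorem sc_mm_side (Fr : ScFrame p O α κ) {i : Fin 4} (hi : i ∉ p.J) (b : ℕ) :
    Fr.mm i b = ∑ s ∈ (O.image Prod.fst).filter (fun s => Fr.blk s = b), p.w s := by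
  unfold ScFrame.mm
  rw [if_neg hi]

theorem sc_mm_nonneg (h : p.Ok O) (Fr : ScFrame p O α κ) (i : Fin 4) (b : ℕ) : 0 ≤ Fr.mm i b := by
  by_cases hi : i ∈ p.J
  · rw [sc_mm_core Fr hi]
    exact Nat.cast_nonneg _
  · rw [sc_mm_side Fr hi]
    exact Finset.sum_nonneg fun s _ => h.w_nonneg s

theorem sc_mem_NF (Fr : ScFrame p O α κ) {b : ℕ} {i : Fin 4} {x : ℤ} : x ∈ Fr.NF b i ↔
    (∃ Bs ∈ Fr.Cov b i, x ∈ Bs) ∧ ∀ b', b < b' → ∀ Bs ∈ Fr.Cov b' i, x ∉ Bs := by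
  unfold ScFrame.NF
  simp only [Finset.mem_filter, Finset.mem_biUnion, id]

theorem sc_mm_sum (h : p.Ok O) (Fr : ScFrame p O α κ) (i : Fin 4) :
    ∑ b ∈ range Fr.J0, Fr.mm i b ≤ p.M := by
  by_cases hi : i ∈ p.J
  · have h1 : ∑ b ∈ range Fr.J0, Fr.mm i b = (((range Fr.J0).biUnion fun b => Fr.NF b i).card : ℝ) := by
      rw [Finset.card_biUnion]
      · push_cast
        exact Finset.sum_congr rfl fun b _ => sc_mm_core Fr hi b
      · intro b _ b' _ hne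
        show Disjoint (Fr.NF b i) (Fr.NF b' i)
        rw [Finset.disjoint_left]
        intro x hx hx'
        rw [sc_mem_NF] at hx hx'
        rcases lt_or_gt_of_ne hne with hlt | hgt
        · obtain ⟨Bs, hBs, hxB⟩ := hx'.1
          exact hx.2 b' hlt Bs hBs hxB
        · obtain ⟨Bs, hBs, hxB⟩ := hx.1
          exact hx'.2 b hgt Bs hBs hxB
    rw [h1]
    refine le_trans ?_ (h.card i hi)
    have hsub : ((range Fr.J0).biUnion fun b => Fr.NF b i) ⊆ O.image fun o => o.2 i := by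
      intro x hx
      obtain ⟨b, -, hx⟩ := Finset.mem_biUnion.1 hx
      rw [sc_mem_NF] at hx
      obtain ⟨Bs, hBs, hxB⟩ := hx.1
      exact Fr.cov_sub b i Bs hBs hxB
    exact_mod_cast Finset.card_le_card hsub
  · have h1 : ∑ b ∈ range Fr.J0, Fr.mm i b = ∑ s ∈ O.image Prod.fst, p.w s := by
      rw [← Finset.sum_fiberwise_of_maps_to (s := O.image Prod.fst) (t := range Fr.J0) (g := Fr.blk)]
      · exact Finset.sum_congr rfl fun b _ => sc_mm_side Fr hi b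
      · intro s hs
        obtain ⟨o, ho, rfl⟩ := Finset.mem_image.1 hs
        exact Finset.mem_range.2 (Fr.blk_lt o ho)
    rw [h1]
    exact h.w_sum (sc_side_card h.hJ hi)

theorem sc_nf_mem (Fr : ScFrame p O α κ) {o : ScOcc} (ho : Fr.own o) {i : Fin 4} (hi : i ∈ p.J)
    (hn : Fr.nfut o i) : o.2 i ∈ Fr.NF (Fr.blk o.1) i := by
  rw [sc_mem_NF]
  refine ⟨ho i hi, fun b' hb' Bs hBs hx => ?_⟩
  rcases hn with hn | hn
  · exact hn hi
  · exact hn ⟨b', hb', Bs, hBs, hx⟩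

open Classical in
/-- two core roles -/
theorem sc_nf_pair_core (h : p.Ok O) (Fr : ScFrame p O α κ) {i j : Fin 4} (hij : i ≠ j) (hi : i ∈ p.J)
    (hj : j ∈ p.J) (b : ℕ) :
    ((O.filter fun o => Fr.blk o.1 = b ∧ Fr.own o ∧ Fr.nfut o i ∧ Fr.nfut o j).card : ℝ) ≤
      p.L * Fr.mm i b * Fr.mm j b := by
  have h1 := sc_card_le_fibre (O.filter fun o => Fr.blk o.1 = b ∧ Fr.own o ∧ Fr.nfut o i ∧ Fr.nfut o j)
    (Fr.NF b i ×ˢ Fr.NF b j) (fun o => (o.2 i, o.2 j))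
    (fun o ho => by
      obtain ⟨-, hb, hown, hni, hnj⟩ := Finset.mem_filter.1 ho
      rw [← hb]
      exact Finset.mem_product.2 ⟨sc_nf_mem Fr hown hi hni, sc_nf_mem Fr hown hj hnj⟩) p.L
    (fun z _ => by
      refine le_trans ?_ (ScPar.sc_pair_fibre h hi hj hij z.1 z.2)
      have hsub : ((O.filter fun o => Fr.blk o.1 = b ∧ Fr.own o ∧ Fr.nfut o i ∧ Fr.nfut o j).filter
          fun o => (o.2 i, o.2 j) = z) ⊆ O.filter fun o => o.2 i = z.1 ∧ o.2 j = z.2 := by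
        intro o ho
        obtain ⟨ho1, ho2⟩ := Finset.mem_filter.1 ho
        exact Finset.mem_filter.2 ⟨(Finset.mem_filter.1 ho1).1, congrArg Prod.fst ho2, congrArg Prod.snd ho2⟩
      exact_mod_cast Finset.card_le_card hsub)
  rw [Finset.card_product] at h1
  rw [sc_mm_core Fr hi, sc_mm_core Fr hj]
  push_cast at h1
  linarith

open Classical in
/-- a core role and the side role -/
theorem sc_nf_pair_side (h : p.Ok O) (Fr : ScFrame p O α κ) {i j : Fin 4} (hi : i ∈ p.J)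
    (hj : j ∉ p.J) (b : ℕ) :
    ((O.filter fun o => Fr.blk o.1 = b ∧ Fr.own o ∧ Fr.nfut o i).card : ℝ) ≤
      p.L * Fr.mm i b * Fr.mm j b := by
  have hJ3 := sc_side_card h.hJ hj
  set S := O.filter fun o => Fr.blk o.1 = b ∧ Fr.own o ∧ Fr.nfut o i with hS
  set T := ((O.image Prod.fst).filter fun s => Fr.blk s = b) ×ˢ Fr.NF b i with hT
  have hmaps : ∀ o ∈ S, (o.1, o.2 i) ∈ T := by
    intro o ho
    obtain ⟨hoO, hb, hown, hni⟩ := Finset.mem_filter.1 ho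
    refine Finset.mem_product.2 ⟨Finset.mem_filter.2 ⟨Finset.mem_image_of_mem _ hoO, hb⟩, ?_⟩
    rw [← hb]
    exact sc_nf_mem Fr hown hi hni
  have h1 : (S.card : ℝ) = ∑ z ∈ T, ((S.filter fun o => (o.1, o.2 i) = z).card : ℝ) := by
    rw [Finset.card_eq_sum_card_fiberwise (f := fun o : ScOcc => (o.1, o.2 i)) (t := T)
      (fun o ho => Finset.mem_coe.2 (hmaps o ho))]
    push_cast
    rfl
  have h2 : ∀ z ∈ T, ((S.filter fun o => (o.1, o.2 i) = z).card : ℝ) ≤ p.w z.1 := by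
    intro z _
    refine le_trans ?_ (h.side hJ3 z.1 i hi z.2)
    have hsub : (S.filter fun o => (o.1, o.2 i) = z) ⊆ O.filter fun o => o.1 = z.1 ∧ o.2 i = z.2 := by
      intro o ho
      obtain ⟨ho1, ho2⟩ := Finset.mem_filter.1 ho
      exact Finset.mem_filter.2 ⟨(Finset.mem_filter.1 ho1).1, congrArg Prod.fst ho2, congrArg Prod.snd ho2⟩
    exact_mod_cast Finset.card_le_card hsub
  have h3 : ∑ z ∈ T, p.w z.1 = Fr.mm j b * Fr.mm i b := by
    rw [hT, Finset.sum_product, sc_mm_core Fr hi, sc_mm_side Fr hj, Finset.sum_mul]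
    refine Finset.sum_congr rfl fun s _ => ?_
    show ∑ _y ∈ Fr.NF b i, p.w s = p.w s * ((Fr.NF b i).card : ℝ)
    rw [Finset.sum_const, nsmul_eq_mul]
    ring
  have h4 := sc_mm_nonneg h Fr i b
  have h5 := sc_mm_nonneg h Fr j b
  have h6 : 0 ≤ Fr.mm i b * Fr.mm j b := mul_nonneg h4 h5
  have hL := h.hL
  calc (S.card : ℝ) ≤ ∑ z ∈ T, p.w z.1 := by rw [h1]; exact Finset.sum_le_sum h2
    _ = Fr.mm j b * Fr.mm i b := h3
    _ ≤ p.L * Fr.mm i b * Fr.mm j b := by nlinarith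

open Classical in
/-- the mass of one nonfuture pair in one block -/
theorem sc_nf_pair (h : p.Ok O) (Fr : ScFrame p O α κ) {i j : Fin 4} (hij : i ≠ j) (b : ℕ) :
    ((O.filter fun o => Fr.blk o.1 = b ∧ Fr.own o ∧ Fr.nfut o i ∧ Fr.nfut o j).card : ℝ) ≤
      p.L * Fr.mm i b * Fr.mm j b := by
  by_cases hi : i ∈ p.J
  · by_cases hj : j ∈ p.J
    · exact sc_nf_pair_core h Fr hij hi hj b
    · refine le_trans ?_ (sc_nf_pair_side h Fr hi hj b)
      have hsub : (O.filter fun o => Fr.blk o.1 = b ∧ Fr.own o ∧ Fr.nfut o i ∧ Fr.nfut o j) ⊆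
          O.filter fun o => Fr.blk o.1 = b ∧ Fr.own o ∧ Fr.nfut o i := by
        intro o ho
        obtain ⟨ho1, hb, hown, hni, -⟩ := Finset.mem_filter.1 ho
        exact Finset.mem_filter.2 ⟨ho1, hb, hown, hni⟩
      exact_mod_cast Finset.card_le_card hsub
  · by_cases hj : j ∈ p.J
    · have h1 := sc_nf_pair_side h Fr hj hi b
      have hsub : (O.filter fun o => Fr.blk o.1 = b ∧ Fr.own o ∧ Fr.nfut o i ∧ Fr.nfut o j) ⊆
          O.filter fun o => Fr.blk o.1 = b ∧ Fr.own o ∧ Fr.nfut o j := by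
        intro o ho
        obtain ⟨ho1, hb, hown, -, hnj⟩ := Finset.mem_filter.1 ho
        exact Finset.mem_filter.2 ⟨ho1, hb, hown, hnj⟩
      have h2 : ((O.filter fun o => Fr.blk o.1 = b ∧ Fr.own o ∧ Fr.nfut o i ∧ Fr.nfut o j).card : ℝ) ≤
          ((O.filter fun o => Fr.blk o.1 = b ∧ Fr.own o ∧ Fr.nfut o j).card : ℝ) := by
        exact_mod_cast Finset.card_le_card hsub
      linarith
    · exact absurd (sc_side_unique h.hJ hi hj) hij

end Claimed.Agent.R258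
end

/- ===== packed: Claimed.Agent.R258.S9a.BookNfB ===== -/
section
/-
R258 / block [S9a] (Lemma 9.1 = counting.tex `lem:finite-sparse-count`), file BookNfB: "Nonfuture pairs", the sum over blocks and pairs.  Blueprint + proofs: helper261.
-/
set_option autoImplicit false

namespace Claimed.Agent.R258

open Finset
open scoped Pointwise

variable {p : ScPar} {O : Finset ScOcc} {α κ : ℝ}

theorem sc_nf_exists_pair (Fr : ScFrame p O α κ) {o : ScOcc} (hn : ¬ Fr.fut3 o) :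
    ∃ i j : Fin 4, i < j ∧ Fr.nfut o i ∧ Fr.nfut o j := by
  have hex : ∀ l' : Fin 4, ∃ i, i ≠ l' ∧ Fr.nfut o i := by
    intro l'
    by_contra hcon
    push Not at hcon
    apply hn
    refine ⟨l', fun i hi => ?_⟩
    have h1 := hcon i hi
    unfold ScFrame.nfut at h1
    push Not at h1
    exact h1
  obtain ⟨i, -, hi⟩ := hex 0
  obtain ⟨j, hji, hj⟩ := hex i
  rcases lt_or_gt_of_ne hji with hlt | hgt
  · exact ⟨j, i, hlt, hj, hi⟩
  · exact ⟨i, j, hgt, hi, hj⟩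

open Classical in
theorem sc_nf_pair_sum (h : p.Ok O) (Fr : ScFrame p O α κ) (hα : 0 ≤ α) {i j : Fin 4} (hij : i ≠ j) :
    ((O.filter fun o => Fr.own o ∧ Fr.nfut o i ∧ Fr.nfut o j).card : ℝ) ≤
      Real.sqrt (p.L * α) * p.M ^ 2 := by
  set c : ℕ → ℝ := fun b =>
    ((O.filter fun o => Fr.blk o.1 = b ∧ Fr.own o ∧ Fr.nfut o i ∧ Fr.nfut o j).card : ℝ) with hc
  have h1 : ((O.filter fun o => Fr.own o ∧ Fr.nfut o i ∧ Fr.nfut o j).card : ℝ) =
      ∑ b ∈ range Fr.J0, c b := by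
    rw [Finset.card_eq_sum_card_fiberwise (f := fun o : ScOcc => Fr.blk o.1) (t := range Fr.J0)
      (fun o ho => Finset.mem_coe.2 (Finset.mem_range.2 (Fr.blk_lt o (Finset.mem_filter.1 ho).1)))]
    push_cast
    refine Finset.sum_congr rfl fun b _ => ?_
    rw [hc]
    simp only
    congr 2
    rw [Finset.filter_filter]
    apply Finset.filter_congr
    intro o _
    constructor
    · rintro ⟨h1, h2⟩
      exact ⟨h2, h1⟩
    · rintro ⟨h1, h2⟩
      exact ⟨h2, h1⟩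
  rw [h1]
  refine sc_sum_min_le Fr.J0 (Fr.mm i) (Fr.mm j) c p.M p.L α (by linarith [h.hM]) (by linarith [h.hL]) hα
    (sc_mm_nonneg h Fr i) (sc_mm_nonneg h Fr j) (sc_mm_sum h Fr i) (sc_mm_sum h Fr j) ?_ ?_
  · intro b
    refine le_trans ?_ (Fr.mass b)
    have hsub : (O.filter fun o => Fr.blk o.1 = b ∧ Fr.own o ∧ Fr.nfut o i ∧ Fr.nfut o j) ⊆
        O.filter fun o => Fr.blk o.1 = b := by
      intro o ho
      obtain ⟨ho1, hb, -⟩ := Finset.mem_filter.1 ho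
      exact Finset.mem_filter.2 ⟨ho1, hb⟩
    rw [hc]
    simp only
    exact_mod_cast Finset.card_le_card hsub
  · intro b
    exact sc_nf_pair h Fr hij b

open Classical in
/-- **the occurrences with fewer than three future roles** -/
theorem sc_book_nf (h : p.Ok O) (Fr : ScFrame p O α κ) (hα : 0 ≤ α) :
    ((O.filter fun o => Fr.own o ∧ ¬ Fr.fut3 o).card : ℝ) ≤ 6 * Real.sqrt (p.L * α) * p.M ^ 2 := by
  set Pr : Finset (Fin 4 × Fin 4) := (Finset.univ ×ˢ Finset.univ).filter fun z => z.1 < z.2 with hPr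
  have hPrcard : Pr.card = 6 := by
    rw [hPr]
    decide
  have hsub : (O.filter fun o => Fr.own o ∧ ¬ Fr.fut3 o) ⊆ Pr.biUnion fun z =>
      O.filter fun o => Fr.own o ∧ Fr.nfut o z.1 ∧ Fr.nfut o z.2 := by
    intro o ho
    obtain ⟨ho1, hown, hn⟩ := Finset.mem_filter.1 ho
    obtain ⟨i, j, hij, hi, hj⟩ := sc_nf_exists_pair Fr hn
    refine Finset.mem_biUnion.2 ⟨(i, j), Finset.mem_filter.2 ⟨Finset.mem_product.2
      ⟨Finset.mem_univ _, Finset.mem_univ _⟩, hij⟩, Finset.mem_filter.2 ⟨ho1, hown, hi, hj⟩⟩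
  have h1 := (Finset.card_le_card hsub).trans Finset.card_biUnion_le
  have h2 : ((O.filter fun o => Fr.own o ∧ ¬ Fr.fut3 o).card : ℝ) ≤ ∑ z ∈ Pr,
      ((O.filter fun o => Fr.own o ∧ Fr.nfut o z.1 ∧ Fr.nfut o z.2).card : ℝ) := by
    exact_mod_cast h1
  have h3 : ∑ z ∈ Pr, ((O.filter fun o => Fr.own o ∧ Fr.nfut o z.1 ∧ Fr.nfut o z.2).card : ℝ) ≤
      ∑ _z ∈ Pr, Real.sqrt (p.L * α) * p.M ^ 2 := by
    refine Finset.sum_le_sum fun z hz => ?_
    exact sc_nf_pair_sum h Fr hα (ne_of_lt (Finset.mem_filter.1 hz).2)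
  rw [Finset.sum_const, hPrcard, nsmul_eq_mul] at h3
  refine (h2.trans h3).trans (le_of_eq ?_)
  push_cast
  ring

end Claimed.Agent.R258
end

/- ===== packed: Claimed.Agent.R258.S9a.CombDefs ===== -/
section
/-
R258 / block [S9a] (Lemma 9.1 = counting.tex `lem:finite-sparse-count`), file CombDefs: ONE COMBINATION (current block, triple of roles, three future cover subsets).
Architect: helper261.  DEFINITIONS ONLY.
-/
set_option autoImplicit false

namespace Claimed.Agent.R258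

open Finset
open scoped Pointwise

/-- **A combination**: the occurrences `O` (all in the current block), the excluded role `l'`, and for each of the three other (core) roles `i` a set `Bs i ∋ o.2 i` whose
difference set is covered by `K M` translates of the neighbourhood `U (sp i) 2` of a LATER block (top scale `sp i` below all scales of `O`). -/
structure ScComb (p : ScPar) (O : Finset ScOcc) (l' : Fin 4) (K δ : ℝ) (Bs : Fin 4 → Finset ℤ)
    (sp : Fin 4 → ℤ) : Prop where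
  ok : p.Ok O
  core : ∀ i, i ≠ l' → i ∈ p.J
  bin : p.Bin O δ
  hδ0 : 0 < δ
  hδ1 : δ ≤ 1
  hK : 1 ≤ K
  mem : ∀ o ∈ O, ∀ i, i ≠ l' → o.2 i ∈ Bs i
  below : ∀ o ∈ O, ∀ i, i ≠ l' → sp i < o.1
  fine : ∀ i, i ≠ l' → 1 ≤ p.R (sp i)
  cover : ∀ i, i ≠ l' → ∃ P : Finset ℤ, (P.card : ℝ) ≤ K * p.M ∧ Bs i - Bs i ⊆ P + p.U (sp i) 2

/-- `Pk` is a packing outside `V` -/
def ScPacking (Pk V : Finset ℤ) : Prop := ∀ x ∈ Pk, ∀ y ∈ Pk, x ≠ y → x - y ∉ V

/-- the slab relation at the scale `s1` -/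
def ScPar.Slab (p : ScPar) (l' : Fin 4) (s1 : ℤ) (x : Fin 4 → ℤ) : Prop :=
  ∃ n : Fin p.d → ℤ, (∀ k, |(n k : ℝ)| ≤ 2 * p.B) ∧
    |((scLin l' x + 36 * p.dot n : ℤ) : ℝ)| ≤ 2 * p.ν * p.R s1

end Claimed.Agent.R258
end

/- ===== packed: Claimed.Agent.R258.S9a.CombRanges ===== -/
section
/-
R258 / block [S9a] (Lemma 9.1 = counting.tex `lem:finite-sparse-count`), file CombRanges: "Four ranges with scale margins".  Blueprint + proofs: helper261.
-/
set_option autoImplicit false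

namespace Claimed.Agent.R258

open Finset
open scoped Pointwise

variable {p : ScPar} {O : Finset ScOcc} {l' : Fin 4} {K δ : ℝ} {Bs : Fin 4 → Finset ℤ} {sp : Fin 4 → ℤ}

/-- anchors `B0 i` (occurring above `s1`), translators `(v, tv v)`, `v ∈ V` (below `s1`, pairwise gaps `≥ g`), last range `F` (one scale witness per tuple, `g` below `V`) -/
theorem sc_ranges (hC : ScComb p O l' K δ Bs sp) (hm : 16 * p.g * δ * p.M ^ 2 ≤ (O.card : ℝ)) :
    ∃ (s1 : ℤ) (B0 : Fin 4 → Finset ℤ) (V : Finset ℤ) (tv : ℤ → Fin 4 → ℤ) (F : Finset ScOcc),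
      (∀ i, i ≠ l' → (∀ a ∈ B0 i, ∃ o ∈ O, s1 < o.1 ∧ o.2 i = a) ∧
        (O.card : ℝ) ≤ 8 * p.L * p.M * (B0 i).card) ∧
      (∀ v ∈ V, (v, tv v) ∈ O ∧ v < s1) ∧
      (∀ v ∈ V, ∀ v' ∈ V, v ≠ v' → (p.g : ℤ) ≤ |v - v'|) ∧
      (O.card : ℝ) ≤ 8 * δ * p.M ^ 2 * p.g * V.card ∧
      F ⊆ O ∧ (∀ f ∈ F, ∀ f' ∈ F, f.2 = f'.2 → f = f') ∧ (O.card : ℝ) ≤ 8 * p.L * F.card ∧
      (∀ v ∈ V, ∀ f ∈ F, f.1 + p.g ≤ v) := by
  have hok := hC.ok
  have hg1n : 1 ≤ p.g := p.g_ge_one hok.hμ0 hok.hμ1 hok.hν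
  have hg1 : (1 : ℝ) ≤ p.g := by exact_mod_cast hg1n
  have hM0 : (0 : ℝ) < p.M := lt_of_lt_of_le one_pos hok.hM
  have hβ0 : 0 < δ * p.M ^ 2 := by
    have := hC.hδ0
    positivity
  have h16 : 16 * (δ * p.M ^ 2) ≤ (O.card : ℝ) := by
    refine le_trans ?_ hm
    nlinarith
  obtain ⟨s1, s2, s3, q1, q2, q3, q4⟩ := sc_quartiles O Prod.fst (δ * p.M ^ 2) hC.bin h16
  set O1 := O.filter fun o => s1 < o.1 with hO1
  set O2 := O.filter fun o => s2 < o.1 ∧ o.1 < s1 with hO2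
  set O3 := O.filter fun o => s3 < o.1 ∧ o.1 < s2 with hO3
  set O4 := O.filter fun o => o.1 < s3 with hO4
  -- translators
  obtain ⟨V, hVT, hVgap, hVcard⟩ := sc_thin (O2.image Prod.fst) p.g hg1n
  have hex : ∀ v ∈ O2.image Prod.fst, ∃ a : Fin 4 → ℤ, (v, a) ∈ O2 := by
    intro v hv
    obtain ⟨o, ho, rfl⟩ := Finset.mem_image.1 hv
    exact ⟨o.2, ho⟩
  choose! tv htv using hex
  -- last range
  obtain ⟨F, hF4, hFinj, hFcard⟩ := ScPar.sc_tuples_ge (hok.mono (Finset.filter_subset _ _ : O4 ⊆ O))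
  refine ⟨s1, fun i => O1.image fun o => o.2 i, V, tv, F, ?_, ?_, hVgap, ?_,
    hF4.trans (Finset.filter_subset _ _), hFinj, ?_, ?_⟩
  · intro i hi
    refine ⟨?_, ?_⟩
    · intro a ha
      obtain ⟨o, ho, rfl⟩ := Finset.mem_image.1 ha
      obtain ⟨ho1, ho2⟩ := Finset.mem_filter.1 ho
      exact ⟨o, ho1, ho2, rfl⟩
    · have h1 := ScPar.sc_labels_ge (hok.mono (Finset.filter_subset _ _ : O1 ⊆ O)) (hC.core i hi)
      linarith
  · intro v hv
    have h1 := htv v (hVT hv)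
    obtain ⟨h2, h3⟩ := Finset.mem_filter.1 h1
    exact ⟨h2, h3.2⟩
  · have h1 := ScPar.sc_scales_ge (hC.bin.mono (Finset.filter_subset _ _ : O2 ⊆ O))
    have h2 : ((O2.image Prod.fst).card : ℝ) ≤ p.g * V.card := by exact_mod_cast hVcard
    have h3 := mul_le_mul_of_nonneg_left h2 hβ0.le
    nlinarith
  · linarith
  · intro v hv f hf
    have hv2 : s2 < v := ((Finset.mem_filter.1 (htv v (hVT hv))).2).1
    have hf3 : f.1 < s3 := (Finset.mem_filter.1 (hF4 hf)).2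
    have h1 := ScPar.sc_scales_ge (hC.bin.mono (Finset.filter_subset _ _ : O3 ⊆ O))
    have hsub : O3.image Prod.fst ⊆ Finset.Ioo s3 s2 := by
      intro s hs
      obtain ⟨o, ho, rfl⟩ := Finset.mem_image.1 hs
      exact Finset.mem_Ioo.2 (Finset.mem_filter.1 ho).2
    have h2 := Finset.card_le_card hsub
    rw [Int.card_Ioo] at h2
    have h3 : (2 : ℝ) * p.g ≤ ((O3.image Prod.fst).card : ℝ) := by
      have h4 : 2 * p.g * (δ * p.M ^ 2) ≤ δ * p.M ^ 2 * ((O3.image Prod.fst).card : ℝ) := by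
        nlinarith
      have h5 : (2 * (p.g : ℝ)) * (δ * p.M ^ 2) ≤ ((O3.image Prod.fst).card : ℝ) * (δ * p.M ^ 2) := by
        linarith
      exact le_of_mul_le_mul_right h5 hβ0
    have h4 : 2 * p.g ≤ (O3.image Prod.fst).card := by exact_mod_cast h3
    have h5 : 2 * p.g ≤ (s2 - s3 - 1).toNat := h4.trans h2
    omega

end Claimed.Agent.R258
end

/- ===== packed: Claimed.Agent.R258.S9a.CombOutA ===== -/
section
/-
R258 / block [S9a] (Lemma 9.1 = counting.tex `lem:finite-sparse-count`), file CombOutA: "All translated last-range triples are separated".  Blueprint + proofs: helper261.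
-/
set_option autoImplicit false

namespace Claimed.Agent.R258

open Finset
open scoped Pointwise

variable {p : ScPar} {O : Finset ScOcc} {l' : Fin 4} {K δ : ℝ} {Bs : Fin 4 → Finset ℤ} {sp : Fin 4 → ℤ}

theorem sc_out_mem (hC : ScComb p O l' K δ Bs sp) {v f : ScOcc} (hv : v ∈ O) (hf : f ∈ O) {i : Fin 4}
    (hi : i ≠ l') : (v.2 + f.2) i ∈ 2 • Bs i := by
  rw [two_nsmul]
  exact Finset.add_mem_add (hC.mem v hv i hi) (hC.mem f hf i hi)

theorem sc_out_slab (hC : ScComb p O l' K δ Bs sp) {v f : ScOcc} (hv : v ∈ O) (hf : f ∈ O) {s1 : ℤ}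
    (hv1 : v.1 ≤ s1) (hf1 : f.1 ≤ s1) : p.Slab l' s1 (v.2 + f.2) := by
  have hok := hC.ok
  obtain ⟨n, hn, -, e⟩ := hok.ann l' hC.core v hv
  obtain ⟨n', hn', -, e'⟩ := hok.ann l' hC.core f hf
  have hν : 0 ≤ p.ν := by linarith [hok.hν]
  have r1 := mul_le_mul_of_nonneg_left (p.R_mono hok.hR0 hv1) hν
  have r2 := mul_le_mul_of_nonneg_left (p.R_mono hok.hR0 hf1) hν
  refine ⟨n + n', fun k => ?_, ?_⟩
  · simp only [Pi.add_apply, Int.cast_add]
    refine (abs_add_le _ _).trans ?_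
    linarith [hn k, hn' k]
  · rw [sc_lin_add, ScPar.dot_add]
    have : scLin l' v.2 + scLin l' f.2 + 36 * (p.dot n + p.dot n') =
        (scLin l' v.2 + 36 * p.dot n) + (scLin l' f.2 + 36 * p.dot n') := by ring
    rw [this, Int.cast_add]
    refine (abs_add_le _ _).trans ?_
    linarith

/-- a difference of two distinct labels of a core role is not in a neighbourhood of a later block -/
theorem sc_label_sep (hC : ScComb p O l' K δ Bs sp) {t : ℕ} (ht : (t : ℝ) ≤ 400 * p.D) {f f' : ScOcc}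
    (hf : f ∈ O) (hf' : f' ∈ O) {i : Fin 4} (hi : i ≠ l') (hne : f.2 i ≠ f'.2 i) :
    f.2 i - f'.2 i ∉ p.U (sp i) t := by
  intro hmem
  have hok := hC.ok
  have hD := p.D_ge_one
  have hnear := ScPar.near_of_mem_U' hok.hB hok.hν (hC.fine i hi) ht hmem
  refine hok.sep f hf f' hf' i (hC.core i hi) hne (hnear.mono ?_ ?_)
  · have h1 := hok.hQ
    have h2 : 0 ≤ p.D * p.B := by
      have := hok.hB
      positivity
    nlinarith
  · have h1 := hok.hSg
    have r1 := p.R_mono hok.hR0 (hC.below f hf i hi).le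
    have r2 : p.R f.1 ≤ max (p.R f.1) (p.R f'.1) := le_max_left _ _
    have r0 : 0 < p.R (sp i) := p.R_pos hok.hR0 _
    have h2 : 0 ≤ p.D * p.ν := by
      have := hok.hν
      positivity
    calc 17 * (400 * p.D) * p.ν * p.R (sp i) = (6800 * (p.D * p.ν)) * p.R (sp i) := by ring
      _ ≤ p.Sg * max (p.R f.1) (p.R f'.1) :=
        mul_le_mul (by nlinarith) (r1.trans r2) r0.le (by nlinarith)

/-- the same translator, different members of `F` -/
theorem sc_out_sep_same (hC : ScComb p O l' K δ Bs sp) {H : Fin 4 → ℕ} (hH : ∀ i, (H i : ℝ) ≤ 100 * p.D)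
    (t : Fin 4 → ℤ) {f f' : ScOcc} (hf : f ∈ O) (hf' : f' ∈ O) (hne : f.2 ≠ f'.2) :
    ∃ i, i ≠ l' ∧ (t + f.2) i - (t + f'.2) i ∉ p.U (sp i) (4 * H i) := by
  obtain ⟨i, hi, hne'⟩ := ScPar.sc_tuple_ne hC.ok hC.core hf hf' hne
  refine ⟨i, hi, ?_⟩
  have : (t + f.2) i - (t + f'.2) i = f.2 i - f'.2 i := by
    simp only [Pi.add_apply]
    ring
  rw [this]
  refine sc_label_sep hC ?_ hf hf' hi hne'
  have := hH i
  push_cast
  linarith

end Claimed.Agent.R258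
end

/- ===== packed: Claimed.Agent.R258.S9a.CombPack ===== -/
section
/-
R258 / block [S9a] (Lemma 9.1 = counting.tex `lem:finite-sparse-count`), file CombPack: "A small-growth scale" + "The minimal-growth subset argument" for one role.  Blueprint + proofs: helper261.
-/
set_option autoImplicit false

namespace Claimed.Agent.R258

open Finset
open scoped Pointwise

variable {p : ScPar} {O : Finset ScOcc} {l' : Fin 4} {K δ : ℝ} {Bs : Fin 4 → Finset ℤ} {sp : Fin 4 → ℤ}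

/-- the growth scale `H` of a role and the packing bound of the sumsets `m • Bs i` -/
theorem sc_role_pack (hC : ScComb p O l' K δ Bs sp) {i : Fin 4} (hi : i ≠ l') (B0 : Finset ℤ)
    (hB0 : ∀ a ∈ B0, ∃ o ∈ O, o.2 i = a) (hne : B0.Nonempty) :
    ∃ H : ℕ, 1 ≤ H ∧ (H : ℝ) ≤ 100 * p.D ∧ ∀ (m : ℕ) (Pk : Finset ℤ), Pk ⊆ m • Bs i →
      ScPacking Pk (p.U (sp i) (2 * H)) →
      (Pk.card : ℝ) ≤ (2 * K * p.M / B0.card) ^ m * B0.card := by
  obtain ⟨H, hH1, hH, hgrow⟩ := ScPar.sc_growth (p := p) (sp i)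
  obtain ⟨P0, hP0, hcov⟩ := hC.cover i hi
  refine ⟨H, hH1, hH, fun m Pk hPk hpack => ?_⟩
  have hsubB : B0 ⊆ Bs i := by
    intro a ha
    obtain ⟨o, ho, rfl⟩ := hB0 a ha
    exact hC.mem o ho i hi
  have hdisj : ∀ a ∈ B0, ∀ a' ∈ B0, a ≠ a' → a - a' ∉ p.U (sp i) (2 * H) := by
    intro a ha a' ha' hne'
    obtain ⟨o, ho, rfl⟩ := hB0 a ha
    obtain ⟨o', ho', rfl⟩ := hB0 a' ha'
    refine sc_label_sep hC ?_ ho ho' hi hne'
    have := p.D_ge_one
    push_cast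
    linarith
  have hadd : p.U (sp i) 2 + p.U (sp i) H ⊆ p.U (sp i) (H + 2) := by
    rw [add_comm H 2]
    exact ScPar.U_add_subset _ _ _
  have hsub : p.U (sp i) H - p.U (sp i) H ⊆ p.U (sp i) (2 * H) := by
    rw [two_mul]
    exact ScPar.U_sub_subset _ _ _
  have h1 := sc_pack_bound (Bs i) B0 P0 (p.U (sp i) 2) (p.U (sp i) H) (p.U (sp i) (H + 2))
    (p.U (sp i) (2 * H)) hsubB hne ⟨0, ScPar.zero_mem_U _ _⟩ hdisj hcov hadd hgrow hsub m Pk hPk hpack
  refine h1.trans ?_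
  have hb : (0 : ℝ) < B0.card := by exact_mod_cast Finset.card_pos.2 hne
  have h2 : 2 * (P0.card : ℝ) / B0.card ≤ 2 * K * p.M / B0.card := by
    apply div_le_div_of_nonneg_right _ hb.le
    linarith
  exact mul_le_mul_of_nonneg_right (pow_le_pow_left₀ (by positivity) h2 m) hb.le

end Claimed.Agent.R258
end

/- ===== packed: Claimed.Agent.R258.S9a.CombThird ===== -/
section
/-
R258 / block [S9a] (Lemma 9.1 = counting.tex `lem:finite-sparse-count`), file CombThird: "A slab cover with only two label-count factors".  Blueprint + proofs: helper261.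
-/
set_option autoImplicit false

namespace Claimed.Agent.R258

open Finset
open scoped Pointwise

variable {p : ScPar} {O : Finset ScOcc} {l' : Fin 4} {K δ : ℝ} {Bs : Fin 4 → Finset ℤ} {sp : Fin 4 → ℤ}

/-- `4 H ≤ 400 D` -/
theorem sc_four_H_le {p : ScPar} {H : ℕ} (hH : (H : ℝ) ≤ 100 * p.D) : ((4 * H : ℕ) : ℝ) ≤ 400 * p.D := by
  push_cast
  linarith

/-- `2 H ≤ 200 D` -/
theorem sc_two_H_le {p : ScPar} {H : ℕ} (hH : (H : ℝ) ≤ 100 * p.D) : ((2 * H : ℕ) : ℝ) ≤ 200 * p.D := by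
  push_cast
  linarith

/-- `|α x| ≤ 3 c` -/
theorem sc_al_mul_le (l' i : Fin 4) {x c : ℝ} (hx : |x| ≤ c) : |(scAl l' i : ℝ) * x| ≤ 3 * c := by
  rw [abs_mul]
  have h4 : |(scAl l' i : ℝ)| ≤ 3 := by exact_mod_cast sc_al_abs l' i
  exact mul_le_mul h4 hx (abs_nonneg _) (by norm_num)

/-- two points of the slab over the same pair of boxes: the third coordinates differ by a near shift -/
theorem sc_third_near (hC : ScComb p O l' K δ Bs sp) {i1 i2 i3 : Fin 4} (h1 : i1 ≠ l') (h2 : i2 ≠ l')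
    (h3 : i3 ≠ l') (h12 : i1 ≠ i2) (h13 : i1 ≠ i3) (h23 : i2 ≠ i3) {s1 : ℤ}
    (hs1 : ∀ i, i ≠ l' → sp i ≤ s1) {H : Fin 4 → ℕ} (hH : ∀ i, (H i : ℝ) ≤ 100 * p.D)
    {x x' : Fin 4 → ℤ} (hx : p.Slab l' s1 x) (hx' : p.Slab l' s1 x')
    (hd1 : x i1 - x' i1 ∈ p.U (sp i1) (4 * H i1)) (hd2 : x i2 - x' i2 ∈ p.U (sp i2) (4 * H i2)) :
    p.Near (480000 * p.D * p.B) (41000 * p.D * p.ν * p.R s1) (x i3 - x' i3) := by
  have hok := hC.ok
  have hB := hok.hB
  have hν := hok.hν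
  have hD := p.D_ge_one
  have hR : 0 < p.R s1 := p.R_pos hok.hR0 s1
  obtain ⟨n, hn, e⟩ := hx
  obtain ⟨n', hn', e'⟩ := hx'
  obtain ⟨m1, u1, hx1, hm1, hu1⟩ := ScPar.exists_of_mem_U' hB hν (hC.fine i1 h1) (sc_four_H_le (hH i1)) hd1
  obtain ⟨m2, u2, hx2, hm2, hu2⟩ := ScPar.exists_of_mem_U' hB hν (hC.fine i2 h2) (sc_four_H_le (hH i2)) hd2
  rw [sc_lin_eq h1 h2 h3 h12 h13 h23] at e e'
  set E : ℤ := scAl l' i1 * x i1 + scAl l' i2 * x i2 + scAl l' i3 * x i3 + 36 * p.dot n with hE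
  set E' : ℤ := scAl l' i1 * x' i1 + scAl l' i2 * x' i2 + scAl l' i3 * x' i3 + 36 * p.dot n' with hE'
  have hkey : scAl l' i3 * (x i3 - x' i3) =
      6 * p.dot ((-6 : ℤ) • (n - n') - scAl l' i1 • m1 - scAl l' i2 • m2) +
        (E - E' - scAl l' i1 * u1 - scAl l' i2 * u2) := by
    rw [ScPar.dot_sub, ScPar.dot_sub, ScPar.dot_smul, ScPar.dot_smul, ScPar.dot_smul, ScPar.dot_sub, hE, hE']
    linear_combination (-(scAl l' i1)) * hx1 - (scAl l' i2) * hx2
  have hDB : 0 ≤ p.D * p.B := by positivity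
  have hnear := ScPar.near_of_mul (N := 24 * p.B + 79200 * p.D * p.B) (sc_al_dvd h3) hkey (fun k => by
    simp only [Pi.sub_apply, Pi.smul_apply, smul_eq_mul]
    push_cast
    have a1 := abs_le.1 (hn k)
    have a2 := abs_le.1 (hn' k)
    have a3 := abs_le.1 (sc_al_mul_le l' i1 (hm1 k))
    have a4 := abs_le.1 (sc_al_mul_le l' i2 (hm2 k))
    rw [abs_le]
    constructor <;> linarith [a1.1, a1.2, a2.1, a2.2, a3.1, a3.2, a4.1, a4.2])
  refine hnear.mono ?_ ?_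
  · nlinarith
  · have r1 := p.R_mono hok.hR0 (hs1 i1 h1)
    have r2 := p.R_mono hok.hR0 (hs1 i2 h2)
    have hDν : 0 ≤ p.D * p.ν := by positivity
    have b1 : |(u1 : ℝ)| ≤ 6800 * (p.D * p.ν * p.R s1) := by
      refine hu1.trans ?_
      have := mul_le_mul_of_nonneg_left r1 hDν
      linarith
    have b2 : |(u2 : ℝ)| ≤ 6800 * (p.D * p.ν * p.R s1) := by
      refine hu2.trans ?_
      have := mul_le_mul_of_nonneg_left r2 hDν
      linarith
    have a1 := abs_le.1 e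
    have a2 := abs_le.1 e'
    have a3 := abs_le.1 (sc_al_mul_le l' i1 b1)
    have a4 := abs_le.1 (sc_al_mul_le l' i2 b2)
    have hνR : 0 ≤ p.ν * p.R s1 := by positivity
    have hDνR : p.ν * p.R s1 ≤ p.D * p.ν * p.R s1 := by nlinarith
    push_cast
    rw [abs_le]
    constructor <;> linarith [a1.1, a1.2, a2.1, a2.2, a3.1, a3.2, a4.1, a4.2]

end Claimed.Agent.R258
end

/- ===== packed: Claimed.Agent.R258.S9a.CombSlab ===== -/
section
/-
R258 / block [S9a] (Lemma 9.1 = counting.tex `lem:finite-sparse-count`), file CombSlab: "A slab cover with only two label-count factors".  Blueprint + proofs: helper261.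
-/
set_option autoImplicit false

namespace Claimed.Agent.R258

open Finset
open scoped Pointwise

variable {p : ScPar} {O : Finset ScOcc} {l' : Fin 4} {K δ : ℝ} {Bs : Fin 4 → Finset ℤ} {sp : Fin 4 → ℤ}

/-- two points in the same box -/
theorem sc_same_box {p : ScPar} {s : ℤ} {H : ℕ} {a b c : ℤ} (ha : a - c ∈ p.U s (2 * H))
    (hb : b - c ∈ p.U s (2 * H)) : a - b ∈ p.U s (4 * H) := by
  have h1 := ScPar.U_sub_subset s (2 * H) (2 * H) (Finset.sub_mem_sub ha hb)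
  have h2 : a - c - (b - c) = a - b := by ring
  have h3 : 2 * H + 2 * H = 4 * H := by ring
  rwa [h2, h3] at h1

/-- anchors above `s1` plus third coordinates of slab points over the same pair of boxes are separated -/
theorem sc_slab_sep (hC : ScComb p O l' K δ Bs sp) {i3 : Fin 4} (h3 : i3 ≠ l') {s1 : ℤ}
    (hs1 : ∀ i, i ≠ l' → sp i ≤ s1) {H : Fin 4 → ℕ} (hH : ∀ i, (H i : ℝ) ≤ 100 * p.D)
    {o o' : ScOcc} (ho : o ∈ O) (ho' : o' ∈ O) (hos : s1 < o.1) (hne : o.2 i3 ≠ o'.2 i3) {q q' : ℤ}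
    (hq : p.Near (480000 * p.D * p.B) (41000 * p.D * p.ν * p.R s1) (q - q')) :
    (o.2 i3 + q) - (o'.2 i3 + q') ∉ p.U (sp i3) (2 * H i3) := by
  intro hmem
  have hok := hC.ok
  have hD := p.D_ge_one
  have hn1 := ScPar.near_of_mem_U' hok.hB hok.hν (hC.fine i3 h3) (sc_two_H_le (hH i3)) hmem
  have hn2 := hn1.sub hq
  have he : o.2 i3 + q - (o'.2 i3 + q') - (q - q') = o.2 i3 - o'.2 i3 := by ring
  rw [he] at hn2
  refine hok.sep o ho o' ho' i3 (hC.core i3 h3) hne (hn2.mono ?_ ?_)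
  · have h1 := hok.hQ
    have h2 : 0 ≤ p.D * p.B := by
      have := hok.hB
      positivity
    nlinarith
  · have h1 := hok.hSg
    have r0 := p.R_mono hok.hR0 (hs1 i3 h3)
    have r1 := p.R_mono hok.hR0 hos.le
    have r2 : p.R o.1 ≤ max (p.R o.1) (p.R o'.1) := le_max_left _ _
    have r3 : 0 < p.R s1 := p.R_pos hok.hR0 _
    have h2 : 0 ≤ p.D * p.ν := by
      have := hok.hν
      positivity
    have h4 := mul_le_mul_of_nonneg_left r0 h2
    calc 17 * (200 * p.D) * p.ν * p.R (sp i3) + 41000 * p.D * p.ν * p.R s1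
        ≤ (44400 * (p.D * p.ν)) * p.R s1 := by nlinarith
      _ ≤ p.Sg * max (p.R o.1) (p.R o'.1) :=
        mul_le_mul (by nlinarith) (r1.trans r2) r3.le (by nlinarith)

/-- one fibre: slab points over the same pair of boxes -/
theorem sc_slab_fibre (hC : ScComb p O l' K δ Bs sp) {i1 i2 i3 : Fin 4} (h1 : i1 ≠ l') (h2 : i2 ≠ l')
    (h3 : i3 ≠ l') (h12 : i1 ≠ i2) (h13 : i1 ≠ i3) (h23 : i2 ≠ i3) {s1 : ℤ}
    (hs1 : ∀ i, i ≠ l' → sp i ≤ s1) (B0 : Finset ℤ) (hB0 : ∀ a ∈ B0, ∃ o ∈ O, s1 < o.1 ∧ o.2 i3 = a)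
    {H : Fin 4 → ℕ} (hH : ∀ i, (H i : ℝ) ≤ 100 * p.D) (c3 : ℝ)
    (hp3 : ∀ Pk : Finset ℤ, Pk ⊆ 3 • Bs i3 → ScPacking Pk (p.U (sp i3) (2 * H i3)) → (Pk.card : ℝ) ≤ c3)
    {ι : Type} [DecidableEq ι] (I : Finset ι) (x : ι → Fin 4 → ℤ)
    (hx : ∀ e ∈ I, ∀ i, i ≠ l' → x e i ∈ 2 • Bs i) (hslab : ∀ e ∈ I, p.Slab l' s1 (x e))
    (hsep : ∀ e ∈ I, ∀ e' ∈ I, e ≠ e' → ∃ i, i ≠ l' ∧ x e i - x e' i ∉ p.U (sp i) (4 * H i))
    (hb1 : ∀ e ∈ I, ∀ e' ∈ I, x e i1 - x e' i1 ∈ p.U (sp i1) (4 * H i1))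
    (hb2 : ∀ e ∈ I, ∀ e' ∈ I, x e i2 - x e' i2 ∈ p.U (sp i2) (4 * H i2)) :
    (I.card : ℝ) * B0.card ≤ c3 := by
  obtain ⟨P3, hP3sub, hP3pack, hP3cov⟩ := sc_max_packing (I.image fun e => x e i3)
    (p.U (sp i3) (2 * H i3)) (ScPar.zero_mem_U _ _) (fun _ h => ScPar.neg_mem_U h)
  have hex : ∀ e ∈ I, ∃ y ∈ P3, x e i3 - y ∈ p.U (sp i3) (2 * H i3) := fun e he =>
    hP3cov _ (Finset.mem_image_of_mem _ he)
  choose! π3 hπ3 hπ3' using hex
  -- (a)
  have hinj : Set.InjOn π3 (I : Set ι) := by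
    intro e he e' he' heq
    by_contra hne
    obtain ⟨i, hi, hni⟩ := hsep e he e' he' hne
    rcases sc_roles_cases h1 h2 h3 h12 h13 h23 i with rfl | rfl | rfl | rfl
    · exact hi rfl
    · exact hni (hb1 e he e' he')
    · exact hni (hb2 e he e' he')
    · refine hni (sc_same_box (c := π3 e) (hπ3' e he) ?_)
      rw [heq]
      exact hπ3' e' he'
  have hcardI : I.card ≤ P3.card := Finset.card_le_card_of_injOn π3 (fun e he => hπ3 e he) hinj
  -- (b)
  have hclaim : ∀ z ∈ B0 ×ˢ P3, ∀ z' ∈ B0 ×ˢ P3, z ≠ z' →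
      (z.1 + z.2) - (z'.1 + z'.2) ∉ p.U (sp i3) (2 * H i3) := by
    intro z hz z' hz' hne
    obtain ⟨hz1, hz2⟩ := Finset.mem_product.1 hz
    obtain ⟨hz1', hz2'⟩ := Finset.mem_product.1 hz'
    by_cases ha : z.1 = z'.1
    · have hq : z.2 ≠ z'.2 := fun h => hne (Prod.ext ha h)
      have : z.1 + z.2 - (z'.1 + z'.2) = z.2 - z'.2 := by rw [ha]; ring
      rw [this]
      exact hP3pack _ hz2 _ hz2' hq
    · obtain ⟨o, ho, hos, hoa⟩ := hB0 _ hz1
      obtain ⟨o', ho', -, hoa'⟩ := hB0 _ hz1'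
      obtain ⟨e, he, heq⟩ := Finset.mem_image.1 (hP3sub hz2)
      obtain ⟨e', he', heq'⟩ := Finset.mem_image.1 (hP3sub hz2')
      have hnear := sc_third_near hC h1 h2 h3 h12 h13 h23 hs1 hH (hslab e he) (hslab e' he')
        (hb1 e he e' he') (hb2 e he e' he')
      rw [← hoa, ← hoa', ← heq, ← heq']
      exact sc_slab_sep hC h3 hs1 hH ho ho' hos (by rw [hoa, hoa']; exact ha) hnear
  set S := (B0 ×ˢ P3).image fun z => z.1 + z.2 with hS
  have hScard : S.card = B0.card * P3.card := by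
    rw [hS, Finset.card_image_of_injOn, Finset.card_product]
    intro z hz z' hz' heq
    by_contra hne
    apply hclaim z hz z' hz' hne
    have heq' : z.1 + z.2 = z'.1 + z'.2 := heq
    rw [heq', sub_self]
    exact ScPar.zero_mem_U _ _
  have hSsub : S ⊆ 3 • Bs i3 := by
    intro y hy
    obtain ⟨z, hz, rfl⟩ := Finset.mem_image.1 hy
    obtain ⟨hz1, hz2⟩ := Finset.mem_product.1 hz
    obtain ⟨o, ho, -, hoa⟩ := hB0 _ hz1
    obtain ⟨e, he, heq⟩ := Finset.mem_image.1 (hP3sub hz2)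
    have m1 : z.1 ∈ Bs i3 := by rw [← hoa]; exact hC.mem o ho i3 h3
    have m2 : z.2 ∈ 2 • Bs i3 := by rw [← heq]; exact hx e he i3 h3
    have : (3 : ℕ) • Bs i3 = Bs i3 + 2 • Bs i3 := by
      rw [show (3 : ℕ) = 2 + 1 from rfl, succ_nsmul, add_comm]
    rw [this]
    exact Finset.add_mem_add m1 m2
  have hSpack : ScPacking S (p.U (sp i3) (2 * H i3)) := by
    intro y hy y' hy' hne
    obtain ⟨z, hz, rfl⟩ := Finset.mem_image.1 hy
    obtain ⟨z', hz', rfl⟩ := Finset.mem_image.1 hy'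
    exact hclaim z hz z' hz' (fun h => hne (by rw [h]))
  have h5 := hp3 S hSsub hSpack
  rw [hScard] at h5
  push_cast at h5
  have h6 : (I.card : ℝ) ≤ P3.card := by exact_mod_cast hcardI
  have h7 : (0 : ℝ) ≤ B0.card := Nat.cast_nonneg _
  nlinarith

/-- **the number of separated outputs in the slab** -/
theorem sc_slab_count (hC : ScComb p O l' K δ Bs sp) {i1 i2 i3 : Fin 4} (h1 : i1 ≠ l') (h2 : i2 ≠ l')
    (h3 : i3 ≠ l') (h12 : i1 ≠ i2) (h13 : i1 ≠ i3) (h23 : i2 ≠ i3) {s1 : ℤ}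
    (hs1 : ∀ i, i ≠ l' → sp i ≤ s1) (B0 : Finset ℤ) (hB0 : ∀ a ∈ B0, ∃ o ∈ O, s1 < o.1 ∧ o.2 i3 = a)
    {H : Fin 4 → ℕ} (hH : ∀ i, (H i : ℝ) ≤ 100 * p.D) (c1 c2 c3 : ℝ)
    (hp1 : ∀ Pk : Finset ℤ, Pk ⊆ 2 • Bs i1 → ScPacking Pk (p.U (sp i1) (2 * H i1)) → (Pk.card : ℝ) ≤ c1)
    (hp2 : ∀ Pk : Finset ℤ, Pk ⊆ 2 • Bs i2 → ScPacking Pk (p.U (sp i2) (2 * H i2)) → (Pk.card : ℝ) ≤ c2)
    (hp3 : ∀ Pk : Finset ℤ, Pk ⊆ 3 • Bs i3 → ScPacking Pk (p.U (sp i3) (2 * H i3)) → (Pk.card : ℝ) ≤ c3)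
    {ι : Type} [DecidableEq ι] (I : Finset ι) (x : ι → Fin 4 → ℤ)
    (hx : ∀ e ∈ I, ∀ i, i ≠ l' → x e i ∈ 2 • Bs i) (hslab : ∀ e ∈ I, p.Slab l' s1 (x e))
    (hsep : ∀ e ∈ I, ∀ e' ∈ I, e ≠ e' → ∃ i, i ≠ l' ∧ x e i - x e' i ∉ p.U (sp i) (4 * H i)) :
    (I.card : ℝ) * B0.card ≤ c1 * c2 * c3 := by
  obtain ⟨P1, hP1sub, hP1pack, hP1cov⟩ := sc_max_packing (2 • Bs i1)
    (p.U (sp i1) (2 * H i1)) (ScPar.zero_mem_U _ _) (fun _ h => ScPar.neg_mem_U h)
  obtain ⟨P2, hP2sub, hP2pack, hP2cov⟩ := sc_max_packing (2 • Bs i2)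
    (p.U (sp i2) (2 * H i2)) (ScPar.zero_mem_U _ _) (fun _ h => ScPar.neg_mem_U h)
  have hex1 : ∀ e ∈ I, ∃ y ∈ P1, x e i1 - y ∈ p.U (sp i1) (2 * H i1) := fun e he =>
    hP1cov _ (hx e he i1 h1)
  have hex2 : ∀ e ∈ I, ∃ y ∈ P2, x e i2 - y ∈ p.U (sp i2) (2 * H i2) := fun e he =>
    hP2cov _ (hx e he i2 h2)
  choose! π1 hπ1 hπ1' using hex1
  choose! π2 hπ2 hπ2' using hex2
  have hc1 := hp1 P1 hP1sub hP1pack
  have hc2 := hp2 P2 hP2sub hP2pack
  have hc3 : 0 ≤ c3 := by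
    have := hp3 ∅ (Finset.empty_subset _) (fun x hx => absurd hx (Finset.notMem_empty x))
    simpa using this
  have hfib : ∀ z ∈ P1 ×ˢ P2, (((I.filter fun e => (π1 e, π2 e) = z).card : ℕ) : ℝ) * B0.card ≤ c3 := by
    intro z _
    have hsubI : (I.filter fun e => (π1 e, π2 e) = z) ⊆ I := Finset.filter_subset _ _
    refine sc_slab_fibre hC h1 h2 h3 h12 h13 h23 hs1 B0 hB0 hH c3 hp3 _ x
      (fun e he => hx e (hsubI he)) (fun e he => hslab e (hsubI he))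
      (fun e he e' he' => hsep e (hsubI he) e' (hsubI he')) ?_ ?_
    · intro e he e' he'
      obtain ⟨heI, hez⟩ := Finset.mem_filter.1 he
      obtain ⟨heI', hez'⟩ := Finset.mem_filter.1 he'
      have e1 : π1 e = z.1 := congrArg Prod.fst hez
      have e1' : π1 e' = z.1 := congrArg Prod.fst hez'
      refine sc_same_box (c := z.1) ?_ ?_
      · rw [← e1]; exact hπ1' e heI
      · rw [← e1']; exact hπ1' e' heI'
    · intro e he e' he'
      obtain ⟨heI, hez⟩ := Finset.mem_filter.1 he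
      obtain ⟨heI', hez'⟩ := Finset.mem_filter.1 he'
      have e1 : π2 e = z.2 := congrArg Prod.snd hez
      have e1' : π2 e' = z.2 := congrArg Prod.snd hez'
      refine sc_same_box (c := z.2) ?_ ?_
      · rw [← e1]; exact hπ2' e heI
      · rw [← e1']; exact hπ2' e' heI'
  have hsum : (I.card : ℝ) * B0.card ≤ ((P1 ×ˢ P2).card : ℝ) * c3 := by
    rw [Finset.card_eq_sum_card_fiberwise (f := fun e => (π1 e, π2 e)) (t := P1 ×ˢ P2)
      (fun e he => Finset.mem_coe.2 (Finset.mem_product.2 ⟨hπ1 e he, hπ2 e he⟩))]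
    push_cast
    rw [Finset.sum_mul]
    refine (Finset.sum_le_sum hfib).trans (le_of_eq ?_)
    rw [Finset.sum_const, nsmul_eq_mul, Finset.card_product]
  refine hsum.trans ?_
  rw [Finset.card_product]
  push_cast
  have h0 : (0 : ℝ) ≤ P1.card := Nat.cast_nonneg _
  have h0' : (0 : ℝ) ≤ P2.card := Nat.cast_nonneg _
  exact mul_le_mul_of_nonneg_right (mul_le_mul hc1 hc2 h0' (h0.trans hc1)) hc3

end Claimed.Agent.R258
end

/- ===== packed: Claimed.Agent.R258.S9a.CombOutB ===== -/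
section
/-
R258 / block [S9a] (Lemma 9.1 = counting.tex `lem:finite-sparse-count`), file CombOutB: "All translated last-range triples are separated".  Blueprint + proofs: helper261.
-/
set_option autoImplicit false

namespace Claimed.Agent.R258

open Finset
open scoped Pointwise

variable {p : ScPar} {O : Finset ScOcc} {l' : Fin 4} {K δ : ℝ} {Bs : Fin 4 → Finset ℤ} {sp : Fin 4 → ℤ}

/-- the final arithmetic: a dominant term and a small perturbation -/
theorem sc_outB_arith {X Ev Pt G ν Rv μ : ℝ} (hX : X = Ev + Pt) (hP : |Pt| ≤ G / 2) (h1 : G ≤ |Ev|)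
    (h2 : |Ev| ≤ ν * Rv) (hG : G = μ * Rv) (hμ0 : 0 < μ) (hν : 1 ≤ ν) (hR : 0 ≤ Rv) :
    G / 100 ≤ |X| ∧ |X| ≤ 100 * ν * Rv := by
  have hG0 : 0 ≤ G := by rw [hG]; positivity
  have h3 : |Ev| ≤ |X| + |Pt| := by
    have : Ev = X - Pt := by rw [hX]; ring
    rw [this]
    exact abs_sub _ _
  have h4 : |X| ≤ |Ev| + |Pt| := by
    rw [hX]
    exact abs_add_le _ _
  constructor
  · linarith
  · have h5 : G ≤ ν * Rv := h1.trans h2
    have h6 : 0 ≤ ν * Rv := by positivity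
    nlinarith

/-- `|α x| ≤ 3 c` -/
theorem sc_al_mul_le' (l' i : Fin 4) {x c : ℝ} (hx : |x| ≤ c) : |(scAl l' i : ℝ) * x| ≤ 3 * c := by
  rw [abs_mul]
  have h4 : |(scAl l' i : ℝ)| ≤ 3 := by exact_mod_cast sc_al_abs l' i
  exact mul_le_mul h4 hx (abs_nonneg _) (by norm_num)

/-- different translators: `v` is the larger one -/
theorem sc_out_sep_diff (hC : ScComb p O l' K δ Bs sp) {H : Fin 4 → ℕ} (hH : ∀ i, (H i : ℝ) ≤ 100 * p.D)
    {v v' f f' : ScOcc} (hv : v ∈ O) (hv' : v' ∈ O) (hf : f ∈ O) (hf' : f' ∈ O)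
    (hvv : v'.1 + p.g ≤ v.1) (hfv : f.1 + p.g ≤ v.1) (hfv' : f'.1 + p.g ≤ v.1) :
    ∃ i, i ≠ l' ∧ (v.2 + f.2) i - (v'.2 + f'.2) i ∉ p.U (sp i) (4 * H i) := by
  by_contra hcon
  push Not at hcon
  have hok := hC.ok
  have hB := hok.hB
  have hν := hok.hν
  have hD := p.D_ge_one
  obtain ⟨i1, i2, i3, h1, h2, h3, h12, h13, h23, -⟩ := sc_roles l'
  have h4H : ∀ i, ((4 * H i : ℕ) : ℝ) ≤ 400 * p.D := by
    intro i
    have := hH i
    push_cast
    linarith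
  obtain ⟨m1, u1, hx1, hm1, hu1⟩ := ScPar.exists_of_mem_U' hB hν (hC.fine i1 h1) (h4H i1) (hcon i1 h1)
  obtain ⟨m2, u2, hx2, hm2, hu2⟩ := ScPar.exists_of_mem_U' hB hν (hC.fine i2 h2) (h4H i2) (hcon i2 h2)
  obtain ⟨m3, u3, hx3, hm3, hu3⟩ := ScPar.exists_of_mem_U' hB hν (hC.fine i3 h3) (h4H i3) (hcon i3 h3)
  obtain ⟨nv, hnv, ev1, ev2⟩ := hok.ann l' hC.core v hv
  obtain ⟨nv', hnv', -, ev'⟩ := hok.ann l' hC.core v' hv'
  obtain ⟨nf, hnf, -, ef⟩ := hok.ann l' hC.core f hf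
  obtain ⟨nf', hnf', -, ef'⟩ := hok.ann l' hC.core f' hf'
  rw [sc_lin_eq h1 h2 h3 h12 h13 h23] at ev1 ev2 ev' ef ef'
  simp only [Pi.add_apply] at hx1 hx2 hx3
  set Ev : ℤ := scAl l' i1 * v.2 i1 + scAl l' i2 * v.2 i2 + scAl l' i3 * v.2 i3 + 36 * p.dot nv with hEv
  set Ev' : ℤ := scAl l' i1 * v'.2 i1 + scAl l' i2 * v'.2 i2 + scAl l' i3 * v'.2 i3 + 36 * p.dot nv' with hEv'
  set Ef : ℤ := scAl l' i1 * f.2 i1 + scAl l' i2 * f.2 i2 + scAl l' i3 * f.2 i3 + 36 * p.dot nf with hEf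
  set Ef' : ℤ := scAl l' i1 * f'.2 i1 + scAl l' i2 * f'.2 i2 + scAl l' i3 * f'.2 i3 + 36 * p.dot nf' with hEf'
  set N : Fin p.d → ℤ := (6 : ℤ) • (scAl l' i1 • m1 + scAl l' i2 • m2 + scAl l' i3 • m3) +
    (36 : ℤ) • (nv + nf - nv' - nf') with hN
  have hkey : p.dot N = Ev + (Ef - Ev' - Ef' - scAl l' i1 * u1 - scAl l' i2 * u2 - scAl l' i3 * u3) := by
    rw [hN, ScPar.dot_add, ScPar.dot_smul, ScPar.dot_smul, ScPar.dot_add, ScPar.dot_add, ScPar.dot_smul,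
      ScPar.dot_smul, ScPar.dot_smul, ScPar.dot_sub, ScPar.dot_sub, ScPar.dot_add, hEv, hEv', hEf, hEf']
    linear_combination (-(scAl l' i1)) * hx1 - (scAl l' i2) * hx2 - (scAl l' i3) * hx3
  have hDB : 0 ≤ p.D * p.B := by positivity
  have hNk : ∀ k, |(N k : ℝ)| ≤ p.Q := by
    intro k
    refine le_trans ?_ hok.hQ
    rw [hN]
    simp only [Pi.add_apply, Pi.sub_apply, Pi.smul_apply, smul_eq_mul]
    push_cast
    have a1 := abs_le.1 (hnv k)
    have a2 := abs_le.1 (hnv' k)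
    have a3 := abs_le.1 (hnf k)
    have a4 := abs_le.1 (hnf' k)
    have a5 := abs_le.1 (sc_al_mul_le' l' i1 (hm1 k))
    have a6 := abs_le.1 (sc_al_mul_le' l' i2 (hm2 k))
    have a7 := abs_le.1 (sc_al_mul_le' l' i3 (hm3 k))
    have hBD : p.B ≤ p.D * p.B := by nlinarith
    rw [abs_le]
    constructor <;>
      linarith [a1.1, a1.2, a2.1, a2.2, a3.1, a3.2, a4.1, a4.2, a5.1, a5.2, a6.1, a6.2, a7.1, a7.2]
  apply hok.gap v hv N hNk
  -- the gaps
  have gap : ∀ s : ℤ, s + p.g ≤ v.1 → 2 ^ 19 * (p.D * p.ν * p.R s) ≤ p.μ * p.R v.1 := by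
    intro s hs
    have := p.R_gap hok.hR0 hok.hμ0 hν hs
    linarith
  have gsp : ∀ i, i ≠ l' → 2 ^ 19 * (p.D * p.ν * p.R (sp i)) ≤ p.μ * p.R v.1 := by
    intro i hi
    apply gap
    have := hC.below f hf i hi
    omega
  have hpos : ∀ s : ℤ, p.ν * p.R s ≤ p.D * p.ν * p.R s := by
    intro s
    have : 0 ≤ p.ν * p.R s := mul_nonneg (by linarith) (p.R_pos hok.hR0 s).le
    nlinarith
  have hres := sc_outB_arith (X := ((p.dot N : ℤ) : ℝ)) (Ev := (Ev : ℝ))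
    (Pt := ((Ef - Ev' - Ef' - scAl l' i1 * u1 - scAl l' i2 * u2 - scAl l' i3 * u3 : ℤ) : ℝ))
    (G := p.μ * p.R v.1) (ν := p.ν) (Rv := p.R v.1) (μ := p.μ) (by rw [hkey]; push_cast; ring) (by
      push_cast
      have a1 := abs_le.1 ev'
      have a2 := abs_le.1 ef
      have a3 := abs_le.1 ef'
      have a5 := abs_le.1 (sc_al_mul_le' l' i1 hu1)
      have a6 := abs_le.1 (sc_al_mul_le' l' i2 hu2)
      have a7 := abs_le.1 (sc_al_mul_le' l' i3 hu3)
      have g1 := gap _ hvv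
      have g2 := gap _ hfv
      have g3 := gap _ hfv'
      have g5 := gsp i1 h1
      have g6 := gsp i2 h2
      have g7 := gsp i3 h3
      have q1 := hpos v'.1
      have q2 := hpos f.1
      have q3 := hpos f'.1
      rw [abs_le]
      constructor <;>
        linarith [a1.1, a1.2, a2.1, a2.2, a3.1, a3.2, a5.1, a5.2, a6.1, a6.2, a7.1, a7.2])
    ev1 ev2 rfl hok.hμ0 hν (p.R_pos hok.hR0 _).le
  exact hres

end Claimed.Agent.R258
end

/- ===== packed: Claimed.Agent.R258.S9a.CombMain ===== -/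
section
/-
R258 / block [S9a] (Lemma 9.1 = counting.tex `lem:finite-sparse-count`), file CombMain: THE BOUND OF ONE COMBINATION (assembly).  Blueprint: helper261.

LEAF P-S9a-arith `sc_comb_arith` (real arithmetic).  `c_1 = 4K²M²/b1`, `c_2 = 4K²M²/b2`, `c_3 = 8K³M³/b3²`, so `q F ≤ 128 K⁷ M⁷/(b1 b2 b3³)`; `b_i ≥ m/(8 L M) > 0`:
 `q F ≤ 2^22 K⁷ L⁵ M^12/m⁵`; `q F ≥ m²/(64 δ g L M²)`.  Hence `m⁷ ≤ 2^28 δ g K⁷ L⁶ M^14 ≤ (16 g K L δ^(1/7) M²)^7` and `δ^(1/7) ≤ δ^(1/10)`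
 (`Real.rpow_le_rpow_of_exponent_ge`; `pow_le_pow_left₀` / `lt_of_pow_lt_pow_left₀` to take 7th roots; `(δ^(1/7))^7 = δ` by `Real.rpow_natCast`, `Real.rpow_mul`).
`sc_comb_bound` is PROVED from the leaves.
-/
set_option autoImplicit false

namespace Claimed.Agent.R258

open Finset
open scoped Pointwise

variable {p : ScPar} {O : Finset ScOcc} {l' : Fin 4} {K δ : ℝ} {Bs : Fin 4 → Finset ℤ} {sp : Fin 4 → ℤ}

/-- the final arithmetic of one combination -/
theorem sc_comb_arith {m M L K δ g b1 b2 b3 q F : ℝ} (hm : 0 < m) (hM : 1 ≤ M) (hL : 1 ≤ L) (hK : 1 ≤ K)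
    (hδ0 : 0 < δ) (hδ1 : δ ≤ 1) (hg : 1 ≤ g) (hb1 : m ≤ 8 * L * M * b1) (hb2 : m ≤ 8 * L * M * b2)
    (hb3 : m ≤ 8 * L * M * b3) (hq : m ≤ 8 * δ * M ^ 2 * g * q) (hF : m ≤ 8 * L * F)
    (hcount : q * F * b3 ≤
      ((2 * K * M / b1) ^ 2 * b1) * ((2 * K * M / b2) ^ 2 * b2) * ((2 * K * M / b3) ^ 3 * b3)) :
    m ≤ 16 * g * K * L * δ ^ (1 / 10 : ℝ) * M ^ 2 := by
  have hM0 : 0 < M := by linarith
  have hL0 : 0 < L := by linarith
  have hK0 : 0 < K := by linarith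
  have hg0 : 0 < g := by linarith
  have hpos : ∀ b : ℝ, m ≤ 8 * L * M * b → 0 < b := by
    intro b hb
    by_contra hcon
    have h1 : b ≤ 0 := not_lt.1 hcon
    have h2 : 8 * L * M * b ≤ 0 := mul_nonpos_of_nonneg_of_nonpos (by positivity) h1
    linarith
  have p1 := hpos b1 hb1
  have p2 := hpos b2 hb2
  have p3 := hpos b3 hb3
  have pq : 0 < q := by
    by_contra hcon
    have h1 : q ≤ 0 := not_lt.1 hcon
    have h2 : 8 * δ * M ^ 2 * g * q ≤ 0 := mul_nonpos_of_nonneg_of_nonpos (by positivity) h1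
    linarith
  have pF : 0 < F := by
    by_contra hcon
    have h1 : F ≤ 0 := not_lt.1 hcon
    have h2 : 8 * L * F ≤ 0 := mul_nonpos_of_nonneg_of_nonpos (by positivity) h1
    linarith
  have hc : q * F * b3 * (b1 * b2 * b3 ^ 2) ≤ (2 * K * M) ^ 7 := by
    have h1 := mul_le_mul_of_nonneg_right hcount (show 0 ≤ b1 * b2 * b3 ^ 2 by positivity)
    refine h1.trans (le_of_eq ?_)
    field_simp
  have h7 : m ^ 7 ≤ (8 * δ * M ^ 2 * g * q) * (8 * L * F) * (8 * L * M * b1) * (8 * L * M * b2) *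
      (8 * L * M * b3) ^ 3 := by
    calc m ^ 7 = m * m * m * m * m ^ 3 := by ring
      _ ≤ _ := by gcongr
  have h8 : m ^ 7 ≤ 2 ^ 28 * δ * g * K ^ 7 * L ^ 6 * M ^ 14 := by
    calc m ^ 7 ≤ (8 * δ * M ^ 2 * g * q) * (8 * L * F) * (8 * L * M * b1) * (8 * L * M * b2) *
          (8 * L * M * b3) ^ 3 := h7
      _ = (8 ^ 7 * δ * g * L ^ 6 * M ^ 7) * (q * F * b3 * (b1 * b2 * b3 ^ 2)) := by ring
      _ ≤ (8 ^ 7 * δ * g * L ^ 6 * M ^ 7) * (2 * K * M) ^ 7 := by gcongr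
      _ = 2 ^ 28 * δ * g * K ^ 7 * L ^ 6 * M ^ 14 := by ring
  set t := δ ^ (1 / 10 : ℝ) with ht
  have ht0 : 0 < t := Real.rpow_pos_of_pos hδ0 _
  have ht7 : δ ≤ t ^ 7 := by
    have h1 : t ^ 7 = δ ^ (7 / 10 : ℝ) := by
      rw [ht, ← Real.rpow_natCast, ← Real.rpow_mul hδ0.le]
      norm_num
    rw [h1]
    have := Real.rpow_le_rpow_of_exponent_ge hδ0 hδ1 (show (7 / 10 : ℝ) ≤ 1 by norm_num)
    simpa using this
  have h9 : m ^ 7 ≤ (16 * g * K * L * t * M ^ 2) ^ 7 := by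
    have hg7 : g ≤ g ^ 7 := by
      calc g = g ^ 1 := (pow_one _).symm
        _ ≤ g ^ 7 := pow_le_pow_right₀ hg (by norm_num)
    have hL7 : L ^ 6 ≤ L ^ 7 := pow_le_pow_right₀ hL (by norm_num)
    calc m ^ 7 ≤ 2 ^ 28 * δ * g * K ^ 7 * L ^ 6 * M ^ 14 := h8
      _ ≤ 2 ^ 28 * t ^ 7 * g ^ 7 * K ^ 7 * L ^ 7 * M ^ 14 := by gcongr
      _ = (16 * g * K * L * t * M ^ 2) ^ 7 := by ring
  exact (pow_le_pow_iff_left₀ hm.le (by positivity) (by norm_num)).1 h9

/-- **The mass of one combination.** -/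
theorem sc_comb_bound (hC : ScComb p O l' K δ Bs sp) :
    (O.card : ℝ) ≤ 16 * p.g * K * p.L * δ ^ (1 / 10 : ℝ) * p.M ^ 2 := by
  have hok := hC.ok
  have hg1 : (1 : ℝ) ≤ p.g := by exact_mod_cast p.g_ge_one hok.hμ0 hok.hμ1 hok.hν
  have hM0 : (0 : ℝ) < p.M := lt_of_lt_of_le one_pos hok.hM
  by_cases hm : 16 * p.g * δ * p.M ^ 2 ≤ (O.card : ℝ)
  swap
  · -- the small case
    have h1 : δ ≤ δ ^ (1 / 10 : ℝ) := by
      have := Real.rpow_le_rpow_of_exponent_ge hC.hδ0 hC.hδ1 (show (1 / 10 : ℝ) ≤ 1 by norm_num)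
      simpa using this
    have h2 : (O.card : ℝ) ≤ 16 * p.g * δ * p.M ^ 2 := (not_le.1 hm).le
    refine h2.trans ?_
    have h3 : (0 : ℝ) ≤ 16 * p.g := by positivity
    have h4 : 1 ≤ K * p.L := one_le_mul_of_one_le_of_one_le hC.hK hok.hL
    have h5 : 0 ≤ δ ^ (1 / 10 : ℝ) := Real.rpow_nonneg hC.hδ0.le _
    have h6 : δ ≤ K * p.L * δ ^ (1 / 10 : ℝ) := by nlinarith
    calc 16 * p.g * δ * p.M ^ 2 = 16 * p.g * δ * p.M ^ 2 := rfl
      _ ≤ 16 * p.g * (K * p.L * δ ^ (1 / 10 : ℝ)) * p.M ^ 2 := by gcongr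
      _ = 16 * p.g * K * p.L * δ ^ (1 / 10 : ℝ) * p.M ^ 2 := by ring
  -- the main case
  have hmpos : (0 : ℝ) < O.card := by
    refine lt_of_lt_of_le ?_ hm
    have := hC.hδ0
    positivity
  obtain ⟨s1, B0, V, tv, F, hB0, hV, hVgap, hVcard, hFO, hFinj, hFcard, hFV⟩ := sc_ranges hC hm
  obtain ⟨i1, i2, i3, h1, h2, h3, h12, h13, h23, -⟩ := sc_roles l'
  -- anchors are nonempty
  have hne : ∀ i, i ≠ l' → (B0 i).Nonempty := by
    intro i hi
    rw [Finset.nonempty_iff_ne_empty]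
    intro he
    have := (hB0 i hi).2
    rw [he, Finset.card_empty, Nat.cast_zero, mul_zero] at this
    linarith
  -- growth scales
  have hrole : ∀ i, ∃ H : ℕ, (H : ℝ) ≤ 100 * p.D ∧ (i ≠ l' → ∀ (m : ℕ) (Pk : Finset ℤ), Pk ⊆ m • Bs i →
      ScPacking Pk (p.U (sp i) (2 * H)) →
      (Pk.card : ℝ) ≤ (2 * K * p.M / (B0 i).card) ^ m * (B0 i).card) := by
    intro i
    by_cases hi : i = l'
    · refine ⟨0, ?_, fun h => absurd hi h⟩
      have := p.D_ge_one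
      push_cast
      linarith
    · obtain ⟨H, -, hH, hpk⟩ := sc_role_pack hC hi (B0 i)
        (fun a ha => by
          obtain ⟨o, ho, -, hoa⟩ := (hB0 i hi).1 a ha
          exact ⟨o, ho, hoa⟩) (hne i hi)
      exact ⟨H, hH, fun _ => hpk⟩
  choose H hH hpk using hrole
  -- scales
  have hs1 : ∀ i, i ≠ l' → sp i ≤ s1 := by
    intro i hi
    obtain ⟨a, ha⟩ := hne i hi
    by_cases hVe : V.Nonempty
    · obtain ⟨v, hv⟩ := hVe
      have := hC.below _ (hV v hv).1 i hi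
      have h' := (hV v hv).2
      simp only at this
      omega
    · exfalso
      rw [Finset.not_nonempty_iff_eq_empty] at hVe
      rw [hVe, Finset.card_empty, Nat.cast_zero, mul_zero] at hVcard
      linarith
  -- the outputs
  have hcount := sc_slab_count hC h1 h2 h3 h12 h13 h23 hs1 (B0 i3) (hB0 i3 h3).1 hH _ _ _
    (hpk i1 h1 2) (hpk i2 h2 2) (hpk i3 h3 3) (V ×ˢ F) (fun e => tv e.1 + e.2.2)
    (fun e he i hi => by
      obtain ⟨hev, hef⟩ := Finset.mem_product.1 he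
      exact sc_out_mem hC (v := (e.1, tv e.1)) (hV _ hev).1 (hFO hef) hi)
    (fun e he => by
      obtain ⟨hev, hef⟩ := Finset.mem_product.1 he
      refine sc_out_slab hC (v := (e.1, tv e.1)) (hV _ hev).1 (hFO hef) (hV _ hev).2.le ?_
      have h5 := hFV _ hev _ hef
      have h6 := (hV _ hev).2
      omega)
    (fun e he e' he' hne' => by
      obtain ⟨hev, hef⟩ := Finset.mem_product.1 he
      obtain ⟨hev', hef'⟩ := Finset.mem_product.1 he'
      by_cases hvv : e.1 = e'.1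
      · have hff : e.2.2 ≠ e'.2.2 := by
          intro hcon
          exact hne' (Prod.ext hvv (hFinj _ hef _ hef' hcon))
        have := sc_out_sep_same hC hH (tv e.1) (hFO hef) (hFO hef') hff
        rw [← hvv]
        exact this
      · have hgap := hVgap _ hev _ hev' hvv
        rcases lt_or_gt_of_ne hvv with hlt | hgt
        · -- `e'` is the larger translator
          have hgap' : e.1 + p.g ≤ e'.1 := by
            rw [abs_of_neg (by omega)] at hgap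
            omega
          obtain ⟨i, hi, hni⟩ := sc_out_sep_diff hC hH (v := (e'.1, tv e'.1)) (v' := (e.1, tv e.1))
            (hV _ hev').1 (hV _ hev).1 (hFO hef') (hFO hef) hgap' (hFV _ hev' _ hef') (hFV _ hev' _ hef)
          refine ⟨i, hi, fun hmem => hni ?_⟩
          have := ScPar.neg_mem_U hmem
          rwa [neg_sub] at this
        · have hgap' : e'.1 + p.g ≤ e.1 := by
            rw [abs_of_pos (by omega)] at hgap
            omega
          exact sc_out_sep_diff hC hH (v := (e.1, tv e.1)) (v' := (e'.1, tv e'.1))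
            (hV _ hev).1 (hV _ hev').1 (hFO hef) (hFO hef') hgap' (hFV _ hev _ hef) (hFV _ hev _ hef'))
  rw [Finset.card_product] at hcount
  push_cast at hcount
  exact sc_comb_arith hmpos hok.hM hok.hL hC.hK hC.hδ0 hC.hδ1 hg1 (hB0 i1 h1).2 (hB0 i2 h2).2
    (hB0 i3 h3).2 hVcard hFcard hcount

end Claimed.Agent.R258
end
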