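/- Packed by merge_tool.py (helper293): 7 modules of Claimed.Agent.R258 in one file, same declarations.
   Old modules, in this order: S8c.Tower, S8.Iface, S9a.GridDefs, S9a.GridA, S9a.GridB, S9a.GridC, Max.Lp -/
import Claimed.Agent.R258.S8c.Rank
import Claimed.Agent.R258.S5.Base
import Claimed.Agent.R258.S8c.Lin
import Claimed.Agent.R258.Pack006
import Claimed.Agent.R258.Pack009
import Claimed.Agent.R258.Pack016
import Claimed.Agent.R258.Pack001

/- ===== packed: Claimed.Agent.R258.S8c.Tower ===== -/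
section
/-
Row 258 (S0498).  Block [S8c] = combinatorial core of Sec. 8 (linearization.tex).  Architect: helper61.
File Tower.lean: the abstract two-graph package.

A POSITION `p : Pos` is a retained pre-cell `(b, J)` (`J` a `v_b`-cell); `anc p p'` = "`p` is `p'` or an earlier
pre-cell containing `p'`"; `time p` = index of the block.  At each position we have the frozen list of mode labels
`lst p`, and for every height `h` the relations "same PRE component" `pre p h` and "same CURRENT component" `cur p h`.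
`prim m` is the primary label of the mode `m`; `exc p` = primaries exceptional at the block of `p`;
`hbad p h` = nonexceptional primaries that are not height-good at `h` (Lemma 8.3).

This file: DEFINITIONS only.  Results: Good.lean (Lemma 8.4, coherence of good predicates), ChainLe.lean (the chain bound used in Prop. 8.9),
Hered.lean (Lemma 8.10, hereditary representatives, combinatorial part).
-/
set_option autoImplicit false

namespace Claimed.Agent.R258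

open scoped BigOperators
open Classical

noncomputable section

/-- the data of the two component graphs on a forest of positions. -/
structure S8cTower (Pos Md Pr : Type*) where
  anc : Pos → Pos → Prop
  time : Pos → ℕ
  prim : Md → Pr
  lst : Pos → Finset Md
  pre : Pos → ℕ → Md → Md → Prop
  cur : Pos → ℕ → Md → Md → Prop
  exc : Pos → Finset Pr
  hbad : Pos → ℕ → Finset Pr

namespace S8cTower

variable {Pos Md Pr : Type*} (T : S8cTower Pos Md Pr)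

/-- PRE component of `m` at height `h`. -/
def E (p : Pos) (h : ℕ) (m : Md) : Finset Md := (T.lst p).filter (T.pre p h m)
/-- CURRENT component of `m` at height `h`. -/
def F (p : Pos) (h : ℕ) (m : Md) : Finset Md := (T.lst p).filter (T.cur p h m)
/-- primaries of the PRE component. -/
def piE (p : Pos) (h : ℕ) (m : Md) : Finset Pr := (T.E p h m).image T.prim
/-- primaries of the CURRENT component. -/
def piF (p : Pos) (h : ℕ) (m : Md) : Finset Pr := (T.F p h m).image T.prim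

/-- the structural properties (paper: "Two component graphs", Lemma 8.3). -/
structure Valid (Δ J : ℕ) : Prop where
  anc_refl : ∀ p, T.anc p p
  anc_trans : ∀ p p' p'', T.anc p p' → T.anc p' p'' → T.anc p p''
  anc_time : ∀ p p', T.anc p p' → T.time p ≤ T.time p'
  anc_eq : ∀ p p', T.anc p p' → T.time p = T.time p' → p = p'
  anc_tree : ∀ p₁ p₂ p, T.anc p₁ p → T.anc p₂ p → T.time p₁ ≤ T.time p₂ → T.anc p₁ p₂
  pre_eqv : ∀ p h, Equivalence (T.pre p h)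
  cur_eqv : ∀ p h, Equivalence (T.cur p h)
  pre_cur : ∀ p h m m', T.pre p h m m' → T.cur p h m m'
  pre_mono : ∀ p h h' m m', h ≤ h' → T.pre p h m m' → T.pre p h' m m'
  cur_mono : ∀ p h h' m m', h ≤ h' → T.cur p h m m' → T.cur p h' m m'
  lst_mono : ∀ p p', T.anc p p' → T.lst p ⊆ T.lst p'
  pre_pers : ∀ p p' h m m', T.anc p p' → m ∈ T.lst p → m' ∈ T.lst p → T.pre p h m m' → T.pre p' h m m'
  cur_pers : ∀ p p' h m m', T.anc p p' → m ∈ T.lst p → m' ∈ T.lst p → T.cur p h m m' → T.cur p' h m m'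
  stab : ∀ p h m m', Δ ≤ h → h ≤ J → m ∈ T.lst p → m' ∈ T.lst p → T.prim m = T.prim m' →
    T.prim m ∉ T.exc p → T.prim m ∉ T.hbad p h → T.cur p h m m' → T.pre p (h - Δ) m m'

/-- `m` is good at the height `h` (paper, Sec. 8.5; `β = 1/10`). -/
def Good (Δ : ℕ) (p : Pos) (h : ℕ) (m : Md) : Prop :=
  ¬ s8cBad (1 / 10) Δ (fun h => T.piE p h m) (fun h => T.piF p h m) (T.exc p) (T.hbad p) h

/-- number of bad heights of `m` in `[0, J]`. -/
def badCount (Δ J : ℕ) (p : Pos) (m : Md) : ℕ :=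
  ((Finset.range (J + 1)).filter (fun h => ¬ T.Good Δ p h m)).card

/-- core modes; the other modes are the linear-side modes. -/
def Core (Δ J : ℕ) (δ : ℝ) (p : Pos) (m : Md) : Prop := (T.badCount Δ J p m : ℝ) ≤ δ * ((J : ℝ) + 1)

/-- the upper height range `𝓗_up`. -/
def s8cUp (J : ℕ) (δ : ℝ) : Finset ℕ := (Finset.range (J + 1)).filter (fun h => ⌈4 * δ * J⌉₊ ≤ h)

/-- the type of the predecessor of a good mode. -/
def typ (Δ : ℕ) (p : Pos) (h : ℕ) (m : Md) : ℕ × ℕ :=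
  (s8cLog (T.piE p (h - Δ) m).card, s8cLog (T.E p (h - Δ) m).card)

/-- pull-back of a tower along a map of positions (used to restrict to the retained pre-cells); all predicates are preserved
definitionally: `(T.comap f).Good Δ p h m ↔ T.Good Δ (f p) h m` is `Iff.rfl`, etc. -/
def comap {Pos' : Type*} (f : Pos' → Pos) : S8cTower Pos' Md Pr where
  anc := fun p p' => T.anc (f p) (f p')
  time := fun p => T.time (f p)
  prim := T.prim
  lst := fun p => T.lst (f p)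
  pre := fun p => T.pre (f p)
  cur := fun p => T.cur (f p)
  exc := fun p => T.exc (f p)
  hbad := fun p => T.hbad (f p)

end S8cTower

end

end Claimed.Agent.R258
end

/- ===== packed: Claimed.Agent.R258.S8.Iface ===== -/
section
/-
Row 258 (S0498), Sec. 8 (linearization.tex).  HOME ARCHITECT: helper61.      THE INTERFACE OF SEC. 8.

Everything is PER LEAF of the localization identity, on one attempt with root `R`.  Conventions:
* groups, main labels (primaries), mode labels are natural numbers; ONE common horizontal dimension `d = d_max`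
  (all horizontal vectors `θ_v`, `ϑ = θ_z / Q_0` are padded by zeros);
* blocks `[b, b+K)`, `b = R.depth + K j`.  All block data are indexed by CELLS: for a cell `I` of the block,
  `s8Frz K R I` = its `u_b`-cell, `s8Pre K R I` = its `v_b`-cell; a block is LIVE if `u_b` does not precede the attempt (`j ≥ 4`);
  in the other blocks everything frozen is zero.  For a pre-cell `J` the frozen cell is `J.anc (2K)`, `r_{v_b} = J.len`,
  `r_{t_b} = J.len / 2^(3K)`;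
* `ModeSys d` = the OUTPUT of Lemma 8.1 + the choice of the offsets: gauges, permanently labelled modes, nested lists, frozen coefficients;
  `ModeSys.Valid` = its properties, INCLUDING the conclusion of Lemma 8.8 (field `rows`);
* from a `ModeSys` and the numerical parameters `S8Par` everything else is DEFINED here: graphs (22), exceptional primaries (23),
  height-good heights, good / core / side modes, `V`, `A`, types, sizes (26);
* the results of Sec. 8 are the `Prop`s `G17` (Prop. 8.9), `G25` (Lemma 8.10), `G27` (Lemma 8.11), `G28` (Prop. 8.12) at the end.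

Layers:  (A) Lemma 8.1 + offsets + Sec. 8.3:  localized leaf  ⟹  `ModeSys` with `Valid`, `Link`       [files S8/A*.lean]
         (B) `Valid` + `S8Par.Ok`  ⟹  `G17, G25, G27, G28`, coherence (Lemma 8.4)                      [files S8/B*.lean, S8c/*.lean]
-/
set_option autoImplicit false
open MeasureTheory

namespace Claimed.Agent.R258

open scoped BigOperators
open Classical

noncomputable section

/-! ## 1. Blocks -/

/-- depth of `I` below the root -/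
def s8Rel (R I : Cell) : ℕ := (I.depth - R.depth).toNat
/-- index `j` of the block `[b, b+K)`, `b = R.depth + K j`, containing the depth of `I` -/
def s8Blk (K : ℕ) (R I : Cell) : ℕ := s8Rel R I / K
/-- `s - b` -/
def s8Off (K : ℕ) (R I : Cell) : ℕ := s8Rel R I % K
/-- the `v_b`-cell containing `I` (`v_b = b - 2K`) -/
def s8Pre (K : ℕ) (R I : Cell) : Cell := I.anc (s8Off K R I + 2 * K)
/-- the `u_b`-cell containing `I` (`u_b = b - 4K`) -/
def s8Frz (K : ℕ) (R I : Cell) : Cell := I.anc (s8Off K R I + 4 * K)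
/-- the block of `I` is live: `u_b` does not precede the attempt -/
def s8Live (K : ℕ) (R I : Cell) : Prop := I ≤ R ∧ 4 ≤ s8Blk K R I

/-- the progression coefficients `c = (-1,3,-3,1)` -/
def s8c4 : Fin 4 → ℝ := ![-1, 3, -3, 1]

/-! ## 2. Gauges -/

/-- the gauge of one (role, group): tag `(θ_z, C_z, λ_z)` of the primary centre, `Q_0`, the branch offset `ρ`, and the periodic
cutoff `ζ` on the torus (`ζ^ρ(y) = ζ(θ_z y - ρ)`). -/
structure S8Gauge (d : ℕ) where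
  th : Fin d → ℝ
  C : Matrix (Fin d) (Fin d) ℚ
  lam : ℝ
  Q0 : ℕ
  rho : Fin d → ℝ
  zeta : (Fin d → ℝ) → ℝ

namespace S8Gauge
variable {d : ℕ} (g : S8Gauge d)

/-- `ϑ = θ_z / Q_0` -/
def vth (i : Fin d) : ℝ := g.th i / g.Q0
/-- `d^ρ(y) = ρ + {θ_z y - ρ}` -/
def dbr (y : ℝ) (i : Fin d) : ℝ := g.rho i + Int.fract (g.th i * y - g.rho i)
/-- `p^ρ(y) = λ_z y² + (θ_z y)ᵀ C_z d^ρ(y)` -/
def pph (y : ℝ) : ℝ := g.lam * y ^ 2 + ∑ i, ∑ j, (g.th i * y) * ((g.C i j : ℚ) : ℝ) * g.dbr y j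
/-- `ζ^ρ(y)` -/
def cut (y : ℝ) : ℝ := g.zeta fun i => g.th i * y - g.rho i
/-- the common factor `ζ^ρ(y) e(c p^ρ(y))` of the mode atoms (20) -/
def gau (c : ℝ) (y : ℝ) : ℂ := (g.cut y : ℂ) * ee (c * g.pph y)
/-- `n · ϑ` -/
def dotv (n : Fin d → ℤ) : ℝ := ∑ i, (n i : ℝ) * g.vth i

end S8Gauge

/-! ## 3. Numerical parameters -/

/-- the numerical parameters of Sec. 8.3 (`Δ = 10`, `Ξ = D_*^1000`, `𝒯 = 2^tau`, `L_h = 6^h`, `E_h = A0^(h+1)`). -/
structure S8Par where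
  K : ℕ
  Dm : ℕ
  Ds : ℕ
  Bs : ℕ
  A0 : ℕ
  Js : ℕ
  Hh : ℕ
  tau : ℕ
  δs : ℝ

namespace S8Par
variable (p : S8Par)

def Xi : ℝ := (p.Ds : ℝ) ^ 1000
def TT : ℝ := (2 : ℝ) ^ p.tau
/-- `E_h` -/
def E (h : ℕ) : ℕ := p.A0 ^ (h + 1)
/-- `C_*` (the vectors `Θ = (θ_v, ϑ)` have `2 d` coordinates) -/
def Cs (d : ℕ) : ℕ := s8cCr (2 * d) p.Ds
/-- `R_*^{ht}` -/
def Rht (d : ℕ) : ℕ := Nat.clog 2 (p.Cs d) + 30
/-- multiplicity of height-bad heights (Lemma 8.3) -/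
def Aht (d : ℕ) : ℕ := (3 * d + 1) * p.Rht d
/-- the upper height range -/
def up : Finset ℕ := S8cTower.s8cUp p.Js p.δs
/-- the chain bound of Prop. 8.9 (`10 d` = multiplicity of exceptional blocks, Lemma 8.2) -/
def N0 (d : ℕ) : ℝ := 2 / p.δs * ((s8cLog p.Dm : ℝ) + 10 * ((10 * d : ℕ) : ℝ) * (harmonic p.Dm : ℝ))
/-- the constant of (17) (Prop. 8.9) -/
def X17 (d : ℕ) (G0 : ℝ) : ℝ := (80 * G0 + 1) * (p.N0 d + 1)
/-- number of choices (role, height, type, dyadic threshold) in Prop. 8.12 -/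
def nCh : ℕ := 4 * (p.Js + 1) * (s8cLog p.Ds + 1) ^ 2 * (2 * Nat.clog 2 p.Ds + 6)
/-- the constant of (28) (Prop. 8.12) -/
def X28 (d : ℕ) (G0 : ℝ) : ℝ := 160 * (G0 + p.K * p.X17 d G0 + 1) * p.nCh
/-- PRE threshold on the pre-cell `J` -/
def thrPre (J : Cell) : ℝ := p.Xi / J.len
/-- CURRENT threshold on the pre-cell `J` (`r_{t_b} = |J| 2^{-3K}`) -/
def thrCur (J : Cell) : ℝ := p.Xi * 2 ^ (3 * p.K) / J.len
/-- the tiny bound of (23) -/
def gapLo (J : Cell) : ℝ := p.TT⁻¹ / J.len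
/-- the huge bound of (23) -/
def gapHi (J : Cell) : ℝ := p.TT * 2 ^ (3 * p.K) / J.len

/-- the inequalities between the parameters used in layer (B).  (Fields may be ADDED; satisfiability = `s8_par_exists`.) -/
structure Ok (d : ℕ) : Prop where
  d_ge : 2 ≤ d
  K_pos : 0 < p.K
  Ds_ge : 100 ≤ p.Ds
  Dm_pos : 1 ≤ p.Dm
  Dm_le : p.Dm ≤ p.Ds
  δ_pos : 0 < p.δs
  δ_le : p.δs ≤ 1 / 1024
  stab : S8cStabPar (2 * d) d p.Ds (p.Cs d) p.A0 10 (p.Rht d)
  Bs_le : p.Bs ≤ p.A0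
  Js_big : 2 * ((10 : ℝ) * ((s8cLog p.Dm : ℝ) + 1) + 10 * (p.Aht d : ℝ) * (harmonic p.Dm : ℝ)) / p.δs ≤ (p.Js : ℝ) + 1
  Js_big' : 2 / p.δs ≤ (p.Js : ℝ)
  Hh_big : p.Ds * 6 ^ p.Js + p.Ds ^ 2 * p.A0 ^ (p.Js + 1) ≤ p.Hh
  TT_big : (p.Ds : ℝ) * p.Xi < p.TT
  TT_cr : ((2 * d : ℕ) : ℝ) * (s8cCr (2 * d) p.Hh : ℝ) < p.TT
  K_big : Nat.clog 2 (2 * d * s8cCr (2 * d) p.Hh + 1) + 2 * p.tau ≤ p.K
  K_lag : (p.Ds : ℝ) ^ 1000 ≤ 2 ^ p.K

end S8Par

/-! ## 4. Mode systems -/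

/-- the output of Lemma 8.1 (all roles and groups of one leaf). -/
structure ModeSys (d : ℕ) where
  root : Cell
  /-- `true`: basic-`B` role (linearized); `false`: basic-`U` role -/
  isB : Fin 4 → Bool
  /-- the relevant groups -/
  grps : Finset ℕ
  /-- the actual uses `(G, I)` -/
  uses : Finset (ℕ × Cell)
  gauge : Fin 4 → ℕ → S8Gauge d
  /-- `λ_m`, `γ_m`, the primary of `m` -/
  lam : ℕ → ℝ
  gam : ℕ → ℝ
  pr : ℕ → ℕ
  /-- horizontal vector `θ_v` of a primary -/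
  thv : ℕ → Fin d → ℝ
  /-- the private weight `ε_m` of all mode atoms -/
  epsm : ℝ
  /-- the list of modes available at a cell (role, group, cell) -/
  lst : Fin 4 → ℕ → Cell → Finset ℕ
  /-- the coefficients `α_m` of `Z̃` frozen at the cell -/
  alpha : Fin 4 → ℕ → Cell → ℕ → ℂ

namespace ModeSys
variable {d : ℕ} (M : ModeSys d)

/-- `U` is a cell of the attempt with a downstream actual use of the group `G` -/
def cert (G : ℕ) (U : Cell) : Prop := U ≤ M.root ∧ ∃ u ∈ M.uses, u.1 = G ∧ u.2 ≤ U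
/-- `U` is a cell of the attempt with some downstream actual use -/
def certAny (U : Cell) : Prop := U ≤ M.root ∧ ∃ u ∈ M.uses, u.2 ≤ U

/-- the augmented mode atom (20) -/
def psi (l : Fin 4) (G m : ℕ) : Col where
  lab := m
  birth := M.root
  phi := fun y => (M.gauge l G).gau (s8c4 l) y * ee (M.lam m * y ^ 2 + M.gam m * y)
  eps := M.epsm

/-- coefficient subtotal over the labels `𝒟`, coefficients frozen at `U`, restricted to the cell `I` -/
def sub (l : Fin 4) (G : ℕ) (U I : Cell) (𝒟 : Finset ℕ) : XV :=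
  ∑ m ∈ 𝒟, M.alpha l G U m • (M.psi l G m).vec I

/-- `Z̃_{l,G}` frozen at the cell `U` -/
def Ztil (l : Fin 4) (G : ℕ) (U : Cell) : XV := M.sub l G U U (M.lst l G U)

/-- orthogonal projection onto the restrictions to `I` of the atoms with labels in `𝒟` -/
def proj (l : Fin 4) (G : ℕ) (I : Cell) (𝒟 : Finset ℕ) : XV →L[ℂ] XV := cproj (𝒟.image (M.psi l G)) I

/-- `ω_m(x) = 2 λ_m x + γ_m` -/
def om (m : ℕ) (x : ℝ) : ℝ := 2 * M.lam m * x + M.gam m

/-- `Θ = (θ_v, ϑ)` for the primary `π` -/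
def Th (l : Fin 4) (G π : ℕ) : Fin d ⊕ Fin d → ℝ := Sum.elim (M.thv π) (M.gauge l G).vth

variable (p : S8Par)

/-- the list used on the pre-cell `J`: frozen at `J.anc (2K)` -/
def lstJ (l : Fin 4) (G : ℕ) (J : Cell) : Finset ℕ := M.lst l G (J.anc (2 * p.K))

/-- retained pre-cells of the group `G` -/
def pres (G : ℕ) : Finset Cell :=
  (M.uses.filter fun u => u.1 = G ∧ s8Live p.K M.root u.2).image fun u => s8Pre p.K M.root u.2

/-- the edge relation (22) at height `h` with threshold `thr` on the cell `J` -/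
def adj (l : Fin 4) (G : ℕ) (thr : ℝ) (J : Cell) (h : ℕ) (m m' : ℕ) : Prop :=
  ∃ n : Fin d → ℤ, (∀ i, |n i| ≤ (p.E h : ℤ)) ∧
    ∀ x ∈ J.set, |M.om m x - M.om m' x + (M.gauge l G).dotv n / 6 ^ h| ≤ thr

/-- same component of the graph (22) on the list of `J` -/
def conn (l : Fin 4) (G : ℕ) (thr : ℝ) (J : Cell) (h : ℕ) : ℕ → ℕ → Prop :=
  Relation.ReflTransGen fun a b => a ∈ M.lstJ p l G J ∧ b ∈ M.lstJ p l G J ∧ M.adj p l G thr J h a b

/-- (23): the primary `π` is nonexceptional at the block of the pre-cell `J` -/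
def nonexc (l : Fin 4) (G : ℕ) (J : Cell) (π : ℕ) : Prop := s8cGap (M.Th l G π) p.Hh (p.gapLo J) (p.gapHi J)

/-- the height `h` is height-good for the primary `π` (Lemma 8.3) -/
def htGood (l : Fin 4) (G : ℕ) (J : Cell) (h : ℕ) (π : ℕ) : Prop :=
  10 ≤ h ∧ ∀ m ∈ M.lstJ p l G J, ∀ m' ∈ M.lstJ p l G J, M.pr m = π → M.pr m' = π →
    M.conn p l G (p.thrCur J) J h m m' → M.adj p l G (p.thrPre J) J (h - 10) m m'

/-- the two-graph tower of block [S8c]; positions = cells (only retained pre-cells matter) -/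
def tower (l : Fin 4) (G : ℕ) : S8cTower Cell ℕ ℕ where
  anc := fun J J' => J' ≤ J
  time := fun J => s8Rel M.root J
  prim := M.pr
  lst := M.lstJ p l G
  pre := fun J h => M.conn p l G (p.thrPre J) J h
  cur := fun J h => M.conn p l G (p.thrCur J) J h
  exc := fun J => ((M.lstJ p l G J).image M.pr).filter fun π => ¬ M.nonexc p l G J π
  hbad := fun J h => ((M.lstJ p l G J).image M.pr).filter fun π => M.nonexc p l G J π ∧ ¬ M.htGood p l G J h π

/-- PRE component `𝓔_h(m)` on the pre-cell `J` -/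
def cE (l : Fin 4) (G : ℕ) (J : Cell) (h m : ℕ) : Finset ℕ := (M.tower p l G).E J h m
/-- CURRENT component `𝓕_h(m)` on the pre-cell `J` -/
def cF (l : Fin 4) (G : ℕ) (J : Cell) (h m : ℕ) : Finset ℕ := (M.tower p l G).F J h m
/-- `m` is good at the height `h` -/
def good (l : Fin 4) (G : ℕ) (J : Cell) (h m : ℕ) : Prop := (M.tower p l G).Good 10 J h m
/-- core modes -/
def core (l : Fin 4) (G : ℕ) (J : Cell) (m : ℕ) : Prop := (M.tower p l G).Core 10 p.Js p.δs J m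
/-- the type of the predecessor -/
def typ (l : Fin 4) (G : ℕ) (J : Cell) (h m : ℕ) : ℕ × ℕ := (M.tower p l G).typ 10 J h m
/-- core / side labels of the list of `J` -/
def coreL (l : Fin 4) (G : ℕ) (J : Cell) : Finset ℕ := (M.lstJ p l G J).filter fun m => M.core p l G J m
def sideL (l : Fin 4) (G : ℕ) (J : Cell) : Finset ℕ := (M.lstJ p l G J).filter fun m => ¬ M.core p l G J m

/-- `V_{l,G,b}` on the pre-cell `J`: exact subtotal of the linear-side modes -/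
def V (l : Fin 4) (G : ℕ) (J : Cell) : XV := M.sub l G (J.anc (2 * p.K)) J (M.sideL p l G J)
/-- `A_{l,G,b}` on the pre-cell `J`: exact core subtotal -/
def A (l : Fin 4) (G : ℕ) (J : Cell) : XV := M.sub l G (J.anc (2 * p.K)) J (M.coreL p l G J)

/-! ### objects at an actual cell `I` -/

/-- the core argument at the cell `I` -/
def Ac (l : Fin 4) (G : ℕ) (I : Cell) : XV :=
  if s8Live p.K M.root I then
    M.sub l G (s8Frz p.K M.root I) I (M.coreL p l G (s8Pre p.K M.root I)) else 0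
/-- the linear side at the cell `I` -/
def Vc (l : Fin 4) (G : ℕ) (I : Cell) : XV :=
  if s8Live p.K M.root I then
    M.sub l G (s8Frz p.K M.root I) I (M.sideL p l G (s8Pre p.K M.root I)) else 0
/-- the frozen localized argument at the cell `I` -/
def Zf (Z : Fin 4 → ℕ → Cell → XV) (l : Fin 4) (G : ℕ) (I : Cell) : XV :=
  if s8Live p.K M.root I then restr I.set (Z l G (s8Frz p.K M.root I)) else 0
/-- the side state `S_{l,G,s} = Z_s - Z_{u_b} + V` (basic-`B` role), `Z_s` (basic-`U` role) -/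
def Sc (Z : Fin 4 → ℕ → Cell → XV) (l : Fin 4) (G : ℕ) (I : Cell) : XV :=
  if M.isB l = true then Z l G I - M.Zf p Z l G I + M.Vc p l G I else Z l G I
/-- the error `Z_{u_b} - Z̃` (ONLY its physical component is small; the forms see only the physical component) -/
def Ec (Z : Fin 4 → ℕ → Cell → XV) (l : Fin 4) (G : ℕ) (I : Cell) : XV :=
  if M.isB l = true then M.Zf p Z l G I - (M.Ac p l G I + M.Vc p l G I) else 0

/-- minimal CURRENT components inside `𝓕_h(m)` -/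
def minC (l : Fin 4) (G : ℕ) (J : Cell) (h m : ℕ) : Finset (Finset ℕ) :=
  (M.cF p l G J h m).image fun a => M.cF p l G J 0 a

/-- `σ_𝓕²`, display (26), at the actual cell `I`, for `𝓕 = 𝓕_h(m)` -/
def sig2 (l : Fin 4) (G : ℕ) (I : Cell) (h m : ℕ) : ℝ :=
  ∑ 𝒟 ∈ M.minC p l G (s8Pre p.K M.root I) h m,
    (n2 I (M.sub l G (s8Frz p.K M.root I) I (𝒟 ∩ M.coreL p l G (s8Pre p.K M.root I)))
      + ((p.Ds : ℝ) ^ 30)⁻¹ * ∑ a ∈ 𝒟 ∩ M.coreL p l G (s8Pre p.K M.root I), ‖M.alpha l G (s8Frz p.K M.root I) a‖) ^ 2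

/-! ### validity -/

/-- the properties of a mode system (Lemma 8.1, the budget `D_*`, Sec. 8.3 for `(ζ^ρ)²`, and Lemma 8.8 = `rows`). -/
structure Valid (G0 : ℝ) : Prop where
  G0_nonneg : 0 ≤ G0
  uses_le : ∀ u ∈ M.uses, u.1 ∈ M.grps ∧ u.2 ≤ M.root
  lst_U : ∀ l G U, M.isB l = false → M.lst l G U = ∅
  lst_mono : ∀ l G U U', U ≤ M.root → U' ≤ U → M.lst l G U ⊆ M.lst l G U'
  /-- private labels: a label determines its role and group -/
  lst_inj : ∀ l G U l' G' U' m, m ∈ M.lst l G U → m ∈ M.lst l' G' U' → l = l' ∧ G = G'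
  /-- the number of available modes over all groups along a path -/
  lst_count : ∀ l U, M.certAny U → ∑ G ∈ M.grps, (M.lst l G U).card ≤ p.Ds
  prim_count : ∀ l G U, M.cert G U → ((M.lst l G U).image M.pr).card ≤ p.Dm
  /-- `|λ_m| |I_0|² ≤ D_1` at the first match, hence at every later cell -/
  curv : ∀ l G U, M.cert G U → ∀ m ∈ M.lst l G U, |M.lam m| * U.len ^ 2 ≤ p.Ds
  lam_prim : ∀ l G U, ∀ m ∈ M.lst l G U, ∀ m' ∈ M.lst l G U, M.pr m = M.pr m' → M.lam m = M.lam m'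
  /-- (21) -/
  gam_prim : ∀ l G U, ∀ m ∈ M.lst l G U, ∀ m' ∈ M.lst l G U, M.pr m = M.pr m' →
    ∃ a : Fin d ⊕ Fin d → ℚ, s8cHtLe p.Ds a ∧ M.gam m - M.gam m' = s8cEv a (M.Th l G (M.pr m))
  alpha_sum : ∀ l G U, M.cert G U → ∑ m ∈ M.lst l G U, ‖M.alpha l G U m‖ ≤ p.Ds
  eps_lo : ((p.Ds : ℝ))⁻¹ ≤ Real.sqrt M.epsm
  eps_le : M.epsm ≤ 1
  cut_meas : ∀ l G, Measurable (M.gauge l G).cut
  cut_range : ∀ l G y, 0 ≤ (M.gauge l G).cut y ∧ (M.gauge l G).cut y ≤ 1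
  pph_meas : ∀ l G, Measurable (M.gauge l G).pph
  /-- truncated Fourier series of `(ζ^ρ)²` on the `ϑ` torus -/
  cut_fourier : ∀ l G, ∃ c : (Fin d → ℤ) → ℂ,
    ∑ n ∈ Fintype.piFinset (fun _ : Fin d => Finset.Icc (-(p.Bs : ℤ)) p.Bs), ‖c n‖ ≤ p.Ds ∧
    ∀ y, ‖(((M.gauge l G).cut y ^ 2 : ℝ) : ℂ)
        - ∑ n ∈ Fintype.piFinset (fun _ : Fin d => Finset.Icc (-(p.Bs : ℤ)) p.Bs),
            c n * ee ((M.gauge l G).dotv n * y)‖ ≤ ((p.Ds : ℝ) ^ 300)⁻¹
  /-- **Lemma 8.8** (lifted-row compression): rows local to certified frozen cells that are Bessel for each group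
  are jointly square-summable on the frozen outputs. -/
  rows : ∀ l, M.isB l = true → ∀ (ι : Type) [Fintype ι] (Ge : ι → ℕ) (Ue : ι → Cell) (Te : ι → XV →L[ℂ] XV) (Bz : ℝ),
    0 ≤ Bz → (∀ e, M.cert (Ge e) (Ue e)) →
    (∀ e F, Te e (restr (Ue e).set F) = Te e F) →
    (∀ G F, ∑ e with Ge e = G, ‖Te e F‖ ^ 2 ≤ Bz * ‖F‖ ^ 2) →
    ∑ e, ‖Te e (M.Ztil l (Ge e) (Ue e))‖ ^ 2 ≤ G0 * Bz * M.root.len

/-- the link with the localized arguments `Z l G I` of Sec. 6: bounded lift and small physical error (Sec. 8.8). -/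
structure Link (Z : Fin 4 → ℕ → Cell → XV) (CR small : ℝ) : Prop where
  /-- the pointwise lift is bounded -/
  lift : ∀ l G U I, M.isB l = true → M.cert G U → I ≤ U → n2 I (M.Ztil l G U) ≤ CR * n2 I (Z l G U)
  /-- the integrated physical error over all actual uses -/
  err : ∀ l, M.isB l = true →
    ∑ u ∈ M.uses, ∫ y in u.2.set, ‖physFn (M.Ec p Z l u.1 u.2) y‖ ^ 2 ≤ small * M.root.len

/-! ## 5. The results of Sec. 8 -/

/-- **Prop. 8.9** = display (17). -/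
def G17 (X : ℝ) : Prop :=
  ∀ l, M.isB l = true → ∑ G ∈ M.grps, ∑ J ∈ M.pres p G, ‖M.V p l G J‖ ^ 2 ≤ X * M.root.len

/-- **Lemma 8.10**: hereditary representatives `rep l G h J m` of the good modes, with (25). -/
def G25 (rep : Fin 4 → ℕ → ℕ → Cell → ℕ → ℕ) : Prop :=
  ∀ l G h, h ≤ p.Js →
    (∀ J ∈ M.pres p G, ∀ m ∈ M.lstJ p l G J, M.good p l G J h m → rep l G h J m ∈ M.cE p l G J (h - 10) m) ∧
    (∀ J ∈ M.pres p G, ∀ J' ∈ M.pres p G, J' ≤ J → ∀ m ∈ M.lstJ p l G J, ∀ m' ∈ M.lstJ p l G J',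
      M.good p l G J h m → M.good p l G J' h m' → M.typ p l G J h m = M.typ p l G J' h m' →
      M.conn p l G (p.thrCur J') J' h m m' → rep l G h J m = rep l G h J' m') ∧
    (∀ I I' : Cell, (G, I) ∈ M.uses → (G, I') ∈ M.uses → s8Live p.K M.root I → s8Live p.K M.root I' →
      ∀ m ∈ M.lstJ p l G (s8Pre p.K M.root I), ∀ m' ∈ M.lstJ p l G (s8Pre p.K M.root I'),
      M.good p l G (s8Pre p.K M.root I) h m → M.good p l G (s8Pre p.K M.root I') h m' →
      M.typ p l G (s8Pre p.K M.root I) h m = M.typ p l G (s8Pre p.K M.root I') h m' →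
      rep l G h (s8Pre p.K M.root I) m ≠ rep l G h (s8Pre p.K M.root I') m' →
      ∀ x ∈ I.set ∩ I'.set, ∀ n : Fin d → ℤ, (∀ i, |n i| ≤ (p.E h : ℤ)) →
        p.Xi / 2 * max I.len⁻¹ I'.len⁻¹ <
          |M.om (rep l G h (s8Pre p.K M.root I) m) x - M.om (rep l G h (s8Pre p.K M.root I') m') x
            + (M.gauge l G).dotv n / 6 ^ h|)

/-- **Lemma 8.11** = display (27), at every live actual use. -/
def G27 : Prop :=
  ∀ l G I, (G, I) ∈ M.uses → s8Live p.K M.root I → ∀ h ≤ p.Js,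
    (∀ m ∈ M.lstJ p l G (s8Pre p.K M.root I),
      M.sig2 p l G I h m ≤ 10 * (n2 I (M.proj l G I (M.cF p l G (s8Pre p.K M.root I) h m)
            (M.Ztil l G (s8Frz p.K M.root I))) ^ 2
        + n2 I (M.sub l G (s8Frz p.K M.root I) I
            (M.cF p l G (s8Pre p.K M.root I) h m ∩ M.sideL p l G (s8Pre p.K M.root I))) ^ 2
        + ((p.Ds : ℝ) ^ 50)⁻¹)) ∧
    ∑ 𝓕 ∈ (M.lstJ p l G (s8Pre p.K M.root I)).image (fun m => M.cF p l G (s8Pre p.K M.root I) h m),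
        n2 I (M.sub l G (s8Frz p.K M.root I) I (𝓕 ∩ M.sideL p l G (s8Pre p.K M.root I))) ^ 2
      ≤ 2 * n2 I (M.Vc p l G I) ^ 2

/-- the pairs (group, representative) used in the amplitude bin `[σ, 2σ)` at a cell above `I₀`
(fixed role, height, type). -/
def usedReps (rep : Fin 4 → ℕ → ℕ → Cell → ℕ → ℕ) (l : Fin 4) (h : ℕ) (ty : ℕ × ℕ) (σ : ℝ) (I₀ : Cell) : Set (ℕ × ℕ) :=
  {Ga | ∃ I, I₀ ≤ I ∧ (Ga.1, I) ∈ M.uses ∧ s8Live p.K M.root I ∧
    ∃ m ∈ M.coreL p l Ga.1 (s8Pre p.K M.root I), M.good p l Ga.1 (s8Pre p.K M.root I) h m ∧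
      M.typ p l Ga.1 (s8Pre p.K M.root I) h m = ty ∧ σ ^ 2 ≤ M.sig2 p l Ga.1 I h m ∧ M.sig2 p l Ga.1 I h m < (2 * σ) ^ 2 ∧
      Ga.2 = rep l Ga.1 h (s8Pre p.K M.root I) m}

/-- **Prop. 8.12** = display (28): after stops of total length `≤ ε |R|`, on retained cells. -/
def G28 (rep : Fin 4 → ℕ → ℕ → Cell → ℕ → ℕ) (X : ℝ) : Prop :=
  ∀ ε : ℝ, 0 < ε → ε < 1 → ∃ stops : Finset Cell, StopSet M.root stops ε ∧
    ∀ I₀, I₀ ≤ M.root → Retained stops I₀ → ∀ l, M.isB l = true → ∀ h ∈ p.up, ∀ ty : ℕ × ℕ, ∀ σ : ℝ, 0 < σ →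
      (M.usedReps p rep l h ty σ I₀).Finite ∧
        ((M.usedReps p rep l h ty σ I₀).ncard : ℝ) ≤ min (p.Ds : ℝ) (X / ε * (σ ^ 2)⁻¹)

end ModeSys

end

end Claimed.Agent.R258
end

/- ===== packed: Claimed.Agent.R258.S9a.GridDefs ===== -/
section
/-
R258 / block [S9a] (Lemma 9.1 = counting.tex `lem:finite-sparse-count`), file GridDefs: THE REAL FORM of the hypotheses and the passage to a fine grid.
Architect: helper261.  DEFINITIONS ONLY.

Real form: labels are real numbers, `ζ ∈ ℝ^d`; reserve `C_res = 4·10^6`, pure-shift gap `[μ R/1000, 1000 ν R]` (as in the paper).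
Grid: step `h > 0`; label `a ↦ scRd h a = 6 round (a/(6h))`, `ζ_k ↦ round (ζ_k/h)`, `R0 ↦ R0/h`, `μ ↦ μ/2`, `ν ↦ 2ν`, `Σ ↦ Σ/2`.
-/
set_option autoImplicit false

namespace Claimed.Agent.R258

open Finset

/-- a real occurrence: (scale index, tuple of real labels) -/
abbrev ScOccR : Type := ℤ × (Fin 4 → ℝ)

/-- the linear form of the triple excluding `l'` (real labels) -/
noncomputable def scLinR (l' : Fin 4) (a : Fin 4 → ℝ) : ℝ := ∑ i : Fin 4, (scAl l' i : ℝ) * a i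

/-- Parameters of the real form of Lemma 9.1. -/
structure ScParR where
  d : ℕ
  ζ : Fin d → ℝ
  J : Finset (Fin 4)
  M : ℝ
  L : ℝ
  B : ℝ
  μ : ℝ
  ν : ℝ
  Q : ℝ
  Sg : ℝ
  R0 : ℝ
  w : ℤ → ℝ

namespace ScParR

variable (P : ScParR)

/-- reciprocal scale -/
noncomputable def R (s : ℤ) : ℝ := P.R0 * (2 : ℝ) ^ s

/-- `n · ζ` -/
noncomputable def dot (n : Fin P.d → ℤ) : ℝ := ∑ k, (n k : ℝ) * P.ζ k

/-- **The hypotheses of Lemma 9.1** for the finite set `O` of (real) occurrences. -/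
structure Ok (O : Finset ScOccR) : Prop where
  hJ : 3 ≤ P.J.card
  hM : 1 ≤ P.M
  hL : 1 ≤ P.L
  hB : 1 ≤ P.B
  hμ0 : 0 < P.μ
  hμ1 : P.μ ≤ 1
  hν : 1 ≤ P.ν
  hR0 : 0 < P.R0
  hQ : 4 * 10 ^ 6 * ((P.d : ℝ) + 1) ^ 2 * P.B ≤ P.Q
  hSg : 4 * 10 ^ 6 * ((P.d : ℝ) + 1) ^ 2 * P.ν ≤ P.Sg
  zero : ∀ o ∈ O, ∀ i, i ∉ P.J → o.2 i = 0
  card : ∀ i ∈ P.J, ((O.image fun o => o.2 i).card : ℝ) ≤ P.M
  pair : ∀ o ∈ O, ∀ o' ∈ O, ∀ i ∈ P.J, ∀ j ∈ P.J, i ≠ j → o.2 i = o'.2 i → o.2 j = o'.2 j → o.2 = o'.2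
  mult : ∀ a : Fin 4 → ℝ, ((O.filter fun o => o.2 = a).card : ℝ) ≤ P.L
  w_nonneg : ∀ s, 0 ≤ P.w s
  w_sum : P.J.card = 3 → ∑ s ∈ O.image Prod.fst, P.w s ≤ P.M
  side : P.J.card = 3 → ∀ s : ℤ, ∀ i ∈ P.J, ∀ x : ℝ,
    ((O.filter fun o => o.1 = s ∧ o.2 i = x).card : ℝ) ≤ P.w s
  sep : ∀ o ∈ O, ∀ o' ∈ O, ∀ i ∈ P.J, o.2 i ≠ o'.2 i → ∀ n : Fin P.d → ℤ, (∀ k, |(n k : ℝ)| ≤ P.Q) →
    P.Sg * max (P.R o.1) (P.R o'.1) < |o.2 i - o'.2 i + P.dot n|
  ann : ∀ l' : Fin 4, (∀ i, i ≠ l' → i ∈ P.J) → ∀ o ∈ O, ∃ n : Fin P.d → ℤ, (∀ k, |(n k : ℝ)| ≤ P.B) ∧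
    P.μ * P.R o.1 ≤ |scLinR l' o.2 + 36 * P.dot n| ∧ |scLinR l' o.2 + 36 * P.dot n| ≤ P.ν * P.R o.1
  gap : ∀ o ∈ O, ∀ n : Fin P.d → ℤ, (∀ k, |(n k : ℝ)| ≤ P.Q) →
    ¬ (P.μ * P.R o.1 / 1000 ≤ |P.dot n| ∧ |P.dot n| ≤ 1000 * P.ν * P.R o.1)

/-- every scale bin has mass at most `δ M²` -/
def Bin (O : Finset ScOccR) (δ : ℝ) : Prop :=
  ∀ s : ℤ, ((O.filter fun o => o.1 = s).card : ℝ) ≤ δ * P.M ^ 2

/-- the grid parameters for the step `h` -/
noncomputable def grid (h : ℝ) : ScPar where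
  d := P.d
  ζ := fun k => round (P.ζ k / h)
  J := P.J
  M := P.M
  L := P.L
  B := P.B
  μ := P.μ / 2
  ν := 2 * P.ν
  Q := P.Q
  Sg := P.Sg / 2
  R0 := P.R0 / h
  w := P.w

/-- the step `h` is fine enough for `O` -/
def Fine (O : Finset ScOccR) (h : ℝ) : Prop :=
  0 < h ∧ ∀ o ∈ O, 1000 * (20 + 18 * P.d * (P.Q + P.B)) / P.μ ≤ P.R o.1 / h

end ScParR

/-- rounding a label to the grid `6 h ℤ` (in units of `h`) -/
noncomputable def scRd (h a : ℝ) : ℤ := 6 * round (a / (6 * h))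

/-- rounding an occurrence -/
noncomputable def scRdOcc (h : ℝ) (o : ScOccR) : ScOcc := (o.1, fun i => scRd h (o.2 i))

end Claimed.Agent.R258
end

/- ===== packed: Claimed.Agent.R258.S9a.GridA ===== -/
section
/-
R258 / block [S9a] (Lemma 9.1 = counting.tex `lem:finite-sparse-count`), file GridA: rounding estimates, existence of a fine step, injectivity.  Blueprint + proofs: helper261.
-/
set_option autoImplicit false

namespace Claimed.Agent.R258

open Finset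

variable {P : ScParR} {O : Finset ScOccR} {h : ℝ}

theorem sc_rd_err (hh : 0 < h) (a : ℝ) : |a / h - (scRd h a : ℝ)| ≤ 3 := by
  unfold scRd
  have h1 := abs_sub_round (a / (6 * h))
  have h2 : a / h - ((6 * round (a / (6 * h)) : ℤ) : ℝ) = 6 * (a / (6 * h) - round (a / (6 * h))) := by
    push_cast
    field_simp
  rw [h2, abs_mul]
  have : |(6 : ℝ)| = 6 := by norm_num
  rw [this]
  linarith

theorem sc_rd_six (h a : ℝ) : (6 : ℤ) ∣ scRd h a := Dvd.intro _ rfl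

theorem sc_rd_zero (h : ℝ) : scRd h 0 = 0 := by
  unfold scRd
  simp

theorem sc_grid_R (P : ScParR) (h : ℝ) (s : ℤ) : (P.grid h).R s = P.R s / h := by
  unfold ScPar.R ScParR.R ScParR.grid
  ring

theorem sc_grid_D (P : ScParR) (h : ℝ) : (P.grid h).D = ((P.d : ℝ) + 1) ^ 2 := rfl

/-- error of a shift -/
theorem sc_grid_dot_err (P : ScParR) (hh : 0 < h) {N : ℝ} (n : Fin P.d → ℤ) (hn : ∀ k, |(n k : ℝ)| ≤ N) :
    |P.dot n / h - (((P.grid h).dot n : ℤ) : ℝ)| ≤ P.d * N / 2 := by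
  have h1 : P.dot n / h - (((P.grid h).dot n : ℤ) : ℝ) =
      ∑ k : Fin P.d, (n k : ℝ) * (P.ζ k / h - (round (P.ζ k / h) : ℝ)) := by
    unfold ScParR.dot ScPar.dot
    show (∑ k : Fin P.d, (n k : ℝ) * P.ζ k) / h - ((∑ k : Fin P.d, n k * round (P.ζ k / h) : ℤ) : ℝ) = _
    rw [Finset.sum_div]
    push_cast
    rw [← Finset.sum_sub_distrib]
    refine Finset.sum_congr rfl fun k _ => ?_
    ring
  rw [h1]
  refine (Finset.abs_sum_le_sum_abs _ _).trans ?_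
  have h2 : ∀ k ∈ (Finset.univ : Finset (Fin P.d)),
      |(n k : ℝ) * (P.ζ k / h - (round (P.ζ k / h) : ℝ))| ≤ N / 2 := by
    intro k _
    rw [abs_mul]
    have h3 := abs_sub_round (P.ζ k / h)
    have h4 := hn k
    have h5 : |(n k : ℝ)| * |P.ζ k / h - (round (P.ζ k / h) : ℝ)| ≤ N * (1 / 2) :=
      mul_le_mul h4 h3 (abs_nonneg _) ((abs_nonneg _).trans h4)
    linarith
  refine (Finset.sum_le_card_nsmul _ _ _ h2).trans (le_of_eq ?_)
  rw [Finset.card_univ, Fintype.card_fin, nsmul_eq_mul]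
  ring

/-- error of the linear form -/
theorem sc_grid_lin_err (hh : 0 < h) (l' : Fin 4) (a : Fin 4 → ℝ) :
    |scLinR l' a / h - ((scLin l' (fun i => scRd h (a i)) : ℤ) : ℝ)| ≤ 36 := by
  have h1 : scLinR l' a / h - ((scLin l' (fun i => scRd h (a i)) : ℤ) : ℝ) =
      ∑ i : Fin 4, (scAl l' i : ℝ) * (a i / h - (scRd h (a i) : ℝ)) := by
    unfold scLinR scLin
    rw [Finset.sum_div]
    push_cast
    rw [← Finset.sum_sub_distrib]
    refine Finset.sum_congr rfl fun k _ => ?_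
    ring
  rw [h1]
  refine (Finset.abs_sum_le_sum_abs _ _).trans ?_
  have h2 : ∀ i ∈ (Finset.univ : Finset (Fin 4)),
      |(scAl l' i : ℝ) * (a i / h - (scRd h (a i) : ℝ))| ≤ 9 := by
    intro i _
    rw [abs_mul]
    have h3 := sc_rd_err hh (a i)
    have h4 : |(scAl l' i : ℝ)| ≤ 3 := by exact_mod_cast sc_al_abs l' i
    have h5 : |(scAl l' i : ℝ)| * |a i / h - (scRd h (a i) : ℝ)| ≤ 3 * 3 :=
      mul_le_mul h4 h3 (abs_nonneg _) (by norm_num)
    linarith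
  refine (Finset.sum_le_card_nsmul _ _ _ h2).trans (le_of_eq ?_)
  rw [Finset.card_univ, Fintype.card_fin, nsmul_eq_mul]
  norm_num

theorem sc_R_mono_real (P : ScParR) (h0 : 0 < P.R0) {s s' : ℤ} (hs : s ≤ s') : P.R s ≤ P.R s' := by
  unfold ScParR.R
  exact mul_le_mul_of_nonneg_left (zpow_le_zpow_right₀ (by norm_num) hs) h0.le

theorem sc_R_pos_real (P : ScParR) (h0 : 0 < P.R0) (s : ℤ) : 0 < P.R s := by
  unfold ScParR.R
  positivity

theorem sc_Q_nonneg (hO : P.Ok O) : 0 ≤ P.Q := by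
  refine le_trans ?_ hO.hQ
  have := hO.hB
  positivity

theorem sc_fine_T_pos (hO : P.Ok O) : 0 < 1000 * (20 + 18 * P.d * (P.Q + P.B)) / P.μ := by
  have h1 := sc_Q_nonneg hO
  have h2 := hO.hB
  have h3 := hO.hμ0
  have h4 : (0 : ℝ) ≤ 18 * P.d * (P.Q + P.B) := by positivity
  positivity

theorem sc_fine_exists (hO : P.Ok O) : ∃ h, P.Fine O h := by
  rcases O.eq_empty_or_nonempty with rfl | hne
  · exact ⟨1, one_pos, fun o ho => absurd ho (Finset.notMem_empty o)⟩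
  · have hne' : (O.image Prod.fst).Nonempty := hne.image _
    set s0 := (O.image Prod.fst).min' hne' with hs0
    have hT := sc_fine_T_pos hO
    set T := 1000 * (20 + 18 * P.d * (P.Q + P.B)) / P.μ with hTdef
    have hR := sc_R_pos_real P hO.hR0 s0
    refine ⟨P.R s0 / T, div_pos hR hT, fun o ho => ?_⟩
    have h1 : s0 ≤ o.1 := Finset.min'_le _ _ (Finset.mem_image_of_mem _ ho)
    have h2 := sc_R_mono_real P hO.hR0 h1
    rw [le_div_iff₀ (div_pos hR hT)]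
    calc T * (P.R s0 / T) = P.R s0 := by field_simp
      _ ≤ P.R o.1 := h2

/-- what is used of a fine step -/
theorem sc_fine_ge (hO : P.Ok O) (hf : P.Fine O h) {o : ScOccR} (ho : o ∈ O) :
    20000 ≤ P.R o.1 / h ∧ 1000 * (20 + 18 * P.d * (P.Q + P.B)) ≤ P.μ * (P.R o.1 / h) := by
  have h1 := hf.2 o ho
  have h2 := hO.hμ0
  rw [div_le_iff₀ h2] at h1
  have h3 := sc_Q_nonneg hO
  have h4 := hO.hB
  have h5 : (0 : ℝ) ≤ 18 * P.d * (P.Q + P.B) := by positivity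
  have h6 : 0 < P.R o.1 / h := div_pos (sc_R_pos_real P hO.hR0 _) hf.1
  refine ⟨?_, by linarith⟩
  have h7 := hO.hμ1
  nlinarith

theorem sc_rd_inj (hO : P.Ok O) (hf : P.Fine O h) {o o' : ScOccR} (ho : o ∈ O) (ho' : o' ∈ O) {i : Fin 4}
    (hi : i ∈ P.J) (he : scRd h (o.2 i) = scRd h (o'.2 i)) : o.2 i = o'.2 i := by
  by_contra hne
  have hh := hf.1
  have h1 := hO.sep o ho o' ho' i hi hne 0 (fun k => by
    simp only [Pi.zero_apply, Int.cast_zero, abs_zero]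
    exact sc_Q_nonneg hO)
  have hdot : P.dot 0 = 0 := by
    unfold ScParR.dot
    simp
  rw [hdot, add_zero] at h1
  have h2 := sc_rd_err hh (o.2 i)
  have h3 := sc_rd_err hh (o'.2 i)
  rw [he] at h2
  have h4 : |o.2 i / h - o'.2 i / h| ≤ 6 := by
    have : o.2 i / h - o'.2 i / h =
        (o.2 i / h - (scRd h (o'.2 i) : ℝ)) - (o'.2 i / h - (scRd h (o'.2 i) : ℝ)) := by ring
    rw [this]
    exact (abs_sub _ _).trans (by linarith)
  have h5 : |o.2 i - o'.2 i| ≤ 6 * h := by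
    have : o.2 i / h - o'.2 i / h = (o.2 i - o'.2 i) / h := by ring
    rw [this, abs_div, abs_of_pos hh, div_le_iff₀ hh] at h4
    exact h4
  have h6 := (sc_fine_ge hO hf ho).1
  rw [le_div_iff₀ hh] at h6
  have h7 : P.R o.1 ≤ max (P.R o.1) (P.R o'.1) := le_max_left _ _
  have h8 : (1 : ℝ) ≤ P.Sg := by
    refine le_trans ?_ hO.hSg
    have h9 := hO.hν
    have h10 : (1 : ℝ) ≤ ((P.d : ℝ) + 1) ^ 2 := by
      have : (0 : ℝ) ≤ P.d := Nat.cast_nonneg _
      nlinarith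
    have h11 : (1 : ℝ) ≤ ((P.d : ℝ) + 1) ^ 2 * P.ν := one_le_mul_of_one_le_of_one_le h10 h9
    nlinarith
  have h12 : 0 < P.R o.1 := sc_R_pos_real P hO.hR0 _
  have h13 : P.R o.1 ≤ P.Sg * max (P.R o.1) (P.R o'.1) := by
    calc P.R o.1 = 1 * P.R o.1 := (one_mul _).symm
      _ ≤ P.Sg * max (P.R o.1) (P.R o'.1) := mul_le_mul h8 h7 h12.le (by linarith)
  nlinarith

theorem sc_rdOcc_tuple_inj (hO : P.Ok O) (hf : P.Fine O h) {o o' : ScOccR} (ho : o ∈ O) (ho' : o' ∈ O)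
    (he : (scRdOcc h o).2 = (scRdOcc h o').2) : o.2 = o'.2 := by
  funext i
  by_cases hi : i ∈ P.J
  · exact sc_rd_inj hO hf ho ho' hi (congrFun he i)
  · rw [hO.zero o ho i hi, hO.zero o' ho' i hi]

theorem sc_rdOcc_inj (hO : P.Ok O) (hf : P.Fine O h) : Set.InjOn (scRdOcc h) (O : Set ScOccR) := by
  intro o ho o' ho' he
  have h1 : (scRdOcc h o).1 = (scRdOcc h o').1 := congrArg Prod.fst he
  exact Prod.ext h1 (sc_rdOcc_tuple_inj hO hf ho ho' (congrArg Prod.snd he))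

end Claimed.Agent.R258
end

/- ===== packed: Claimed.Agent.R258.S9a.GridB ===== -/
section
/-
R258 / block [S9a] (Lemma 9.1 = counting.tex `lem:finite-sparse-count`), file GridB: the COUNTING fields of the grid form.  Blueprint + proofs: helper261.
-/
set_option autoImplicit false

namespace Claimed.Agent.R258

open Finset

variable {P : ScParR} {O : Finset ScOccR} {h : ℝ}

theorem sc_gridB_card_eq (hO : P.Ok O) (hf : P.Fine O h) : (O.image (scRdOcc h)).card = O.card :=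
  Finset.card_image_of_injOn (sc_rdOcc_inj hO hf)

/-- transport of a filter (any decidability instances) -/
theorem sc_gridB_filter' (hO : P.Ok O) (hf : P.Fine O h) (q : ScOcc → Prop) (q' : ScOccR → Prop)
    [DecidablePred q] [DecidablePred q'] (hq : ∀ o ∈ O, q (scRdOcc h o) ↔ q' o) :
    ((O.image (scRdOcc h)).filter q).card = (O.filter q').card := by
  have h1 : (O.image (scRdOcc h)).filter q = (O.filter q').image (scRdOcc h) := by
    ext x
    simp only [Finset.mem_filter, Finset.mem_image]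
    constructor
    · rintro ⟨⟨o, ho, rfl⟩, hx⟩
      exact ⟨o, ⟨ho, (hq o ho).1 hx⟩, rfl⟩
    · rintro ⟨o, ⟨ho, hx⟩, rfl⟩
      exact ⟨⟨o, ho, rfl⟩, (hq o ho).2 hx⟩
  rw [h1]
  exact Finset.card_image_of_injOn ((sc_rdOcc_inj hO hf).mono (by
    intro o ho
    exact (Finset.mem_filter.1 ho).1))

open Classical in
/-- transport of a filter -/
theorem sc_gridB_filter (hO : P.Ok O) (hf : P.Fine O h) (q : ScOcc → Prop) (q' : ScOccR → Prop)
    (hq : ∀ o ∈ O, q (scRdOcc h o) ↔ q' o) :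
    ((O.image (scRdOcc h)).filter q).card = (O.filter q').card :=
  sc_gridB_filter' hO hf q q' hq

theorem sc_gridB_card (hO : P.Ok O) (hf : P.Fine O h) : ∀ i ∈ P.J,
    ((((O.image (scRdOcc h)).image fun o => o.2 i).card : ℕ) : ℝ) ≤ P.M := by
  intro i hi
  refine le_trans ?_ (hO.card i hi)
  have h1 : ((O.image (scRdOcc h)).image fun o => o.2 i) = (O.image fun o => o.2 i).image (scRd h) := by
    rw [Finset.image_image, Finset.image_image]
    rfl
  rw [h1]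
  exact_mod_cast Finset.card_image_le

theorem sc_gridB_pair (hO : P.Ok O) (hf : P.Fine O h) : ∀ o ∈ O.image (scRdOcc h),
    ∀ o' ∈ O.image (scRdOcc h), ∀ i ∈ P.J, ∀ j ∈ P.J, i ≠ j → o.2 i = o'.2 i → o.2 j = o'.2 j →
      o.2 = o'.2 := by
  intro o ho o' ho' i hi j hj hij hei hej
  obtain ⟨o0, ho0, rfl⟩ := Finset.mem_image.1 ho
  obtain ⟨o0', ho0', rfl⟩ := Finset.mem_image.1 ho'
  have h1 := sc_rd_inj hO hf ho0 ho0' hi hei
  have h2 := sc_rd_inj hO hf ho0 ho0' hj hej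
  have h3 := hO.pair o0 ho0 o0' ho0' i hi j hj hij h1 h2
  show (fun i => scRd h (o0.2 i)) = fun i => scRd h (o0'.2 i)
  rw [h3]

theorem sc_gridB_mult (hO : P.Ok O) (hf : P.Fine O h) : ∀ a : Fin 4 → ℤ,
    ((((O.image (scRdOcc h)).filter fun o => o.2 = a).card : ℕ) : ℝ) ≤ P.L := by
  intro a
  rcases ((O.image (scRdOcc h)).filter fun o => o.2 = a).eq_empty_or_nonempty with he | ⟨x, hx⟩
  · rw [he, Finset.card_empty, Nat.cast_zero]
    linarith [hO.hL]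
  · obtain ⟨hx1, rfl⟩ := Finset.mem_filter.1 hx
    obtain ⟨o0, ho0, rfl⟩ := Finset.mem_image.1 hx1
    refine le_trans (le_of_eq ?_) (hO.mult o0.2)
    rw [sc_gridB_filter' hO hf (fun o => o.2 = (scRdOcc h o0).2) (fun o => o.2 = o0.2)]
    intro o ho
    constructor
    · intro he
      exact sc_rdOcc_tuple_inj hO hf ho ho0 he
    · intro he
      show (fun i => scRd h (o.2 i)) = fun i => scRd h (o0.2 i)
      rw [he]

theorem sc_gridB_fst (O : Finset ScOccR) (h : ℝ) :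
    (O.image (scRdOcc h)).image Prod.fst = O.image Prod.fst := by
  rw [Finset.image_image]
  rfl

theorem sc_gridB_w_sum (hO : P.Ok O) (hf : P.Fine O h) : P.J.card = 3 →
    ∑ s ∈ (O.image (scRdOcc h)).image Prod.fst, P.w s ≤ P.M := by
  intro hJ
  rw [sc_gridB_fst]
  exact hO.w_sum hJ

theorem sc_gridB_side (hO : P.Ok O) (hf : P.Fine O h) : P.J.card = 3 → ∀ s : ℤ, ∀ i ∈ P.J, ∀ x : ℤ,
    ((((O.image (scRdOcc h)).filter fun o => o.1 = s ∧ o.2 i = x).card : ℕ) : ℝ) ≤ P.w s := by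
  intro hJ s i hi x
  rcases ((O.image (scRdOcc h)).filter fun o => o.1 = s ∧ o.2 i = x).eq_empty_or_nonempty with he | ⟨y, hy⟩
  · rw [he, Finset.card_empty, Nat.cast_zero]
    exact hO.w_nonneg s
  · obtain ⟨hy1, rfl, rfl⟩ := Finset.mem_filter.1 hy
    obtain ⟨o0, ho0, rfl⟩ := Finset.mem_image.1 hy1
    refine le_trans (le_of_eq ?_) (hO.side hJ o0.1 i hi (o0.2 i))
    rw [sc_gridB_filter' hO hf (fun o => o.1 = (scRdOcc h o0).1 ∧ o.2 i = (scRdOcc h o0).2 i)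
      (fun o => o.1 = o0.1 ∧ o.2 i = o0.2 i)]
    intro o ho
    constructor
    · rintro ⟨h1, h2⟩
      exact ⟨h1, sc_rd_inj hO hf ho ho0 hi h2⟩
    · rintro ⟨h1, h2⟩
      refine ⟨h1, ?_⟩
      show scRd h (o.2 i) = scRd h (o0.2 i)
      rw [h2]

theorem sc_gridB_bin (hO : P.Ok O) (hf : P.Fine O h) {δ : ℝ} (hb : P.Bin O δ) :
    (P.grid h).Bin (O.image (scRdOcc h)) δ := by
  intro s
  refine le_trans (le_of_eq ?_) (hb s)
  rw [sc_gridB_filter' hO hf (fun o => o.1 = s) (fun o => o.1 = s)]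
  intro o _
  exact Iff.rfl

end Claimed.Agent.R258
end

/- ===== packed: Claimed.Agent.R258.S9a.GridC ===== -/
section
/-
R258 / block [S9a] (Lemma 9.1 = counting.tex `lem:finite-sparse-count`), file GridC: the METRIC fields of the grid form.  Blueprint + proofs: helper261.
-/
set_option autoImplicit false

namespace Claimed.Agent.R258

open Finset

variable {P : ScParR} {O : Finset ScOccR} {h : ℝ}

theorem sc_gridC_fine (hO : P.Ok O) (hf : P.Fine O h) : ∀ o ∈ O.image (scRdOcc h), 1 ≤ (P.grid h).R o.1 := by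
  intro o ho
  obtain ⟨o0, ho0, rfl⟩ := Finset.mem_image.1 ho
  rw [sc_grid_R]
  have := (sc_fine_ge hO hf ho0).1
  show 1 ≤ P.R o0.1 / h
  linarith

theorem sc_dot_neg_real (P : ScParR) (n : Fin P.d → ℤ) : P.dot (-n) = -P.dot n := by
  unfold ScParR.dot
  rw [← Finset.sum_neg_distrib]
  refine Finset.sum_congr rfl fun k _ => ?_
  simp only [Pi.neg_apply, Int.cast_neg]
  ring

theorem sc_Sg_ge (hO : P.Ok O) : 2 ≤ P.Sg := by
  refine le_trans ?_ hO.hSg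
  have h9 := hO.hν
  have h10 : (1 : ℝ) ≤ ((P.d : ℝ) + 1) ^ 2 := by
    have : (0 : ℝ) ≤ P.d := Nat.cast_nonneg _
    nlinarith
  have h11 : (1 : ℝ) ≤ ((P.d : ℝ) + 1) ^ 2 * P.ν := one_le_mul_of_one_le_of_one_le h10 h9
  nlinarith

/-- the arithmetic of the separation -/
theorem sc_gridC_sep_arith {A A' Dn rA rA' rD Sg m R' dQ : ℝ} (h1 : |A - rA| ≤ 3) (h2 : |A' - rA'| ≤ 3)
    (h3 : |Dn - rD| ≤ dQ / 2) (h4 : |rA - rA' - rD| ≤ Sg / 2 * m) (h5 : Sg * m < |A - A' - Dn|)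
    (h6 : R' ≤ m) (h7 : 6 + dQ / 2 ≤ R') (h8 : 2 ≤ Sg) (h9 : 0 ≤ R') : False := by
  have h10 : |A - A' - Dn| ≤ |A - rA| + |A' - rA'| + |Dn - rD| + |rA - rA' - rD| := by
    have : A - A' - Dn = (A - rA) - (A' - rA') - (Dn - rD) + (rA - rA' - rD) := by ring
    rw [this]
    refine (abs_add_le _ _).trans ?_
    refine add_le_add ((abs_sub _ _).trans ?_) le_rfl
    exact add_le_add (abs_sub _ _) le_rfl
  nlinarith

theorem sc_gridC_sep (hO : P.Ok O) (hf : P.Fine O h) : ∀ o ∈ O.image (scRdOcc h),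
    ∀ o' ∈ O.image (scRdOcc h), ∀ i ∈ P.J, o.2 i ≠ o'.2 i →
      ¬ (P.grid h).Near P.Q (P.Sg / 2 * max ((P.grid h).R o.1) ((P.grid h).R o'.1)) (o.2 i - o'.2 i) := by
  intro o ho o' ho' i hi hne hnear
  obtain ⟨o0, ho0, rfl⟩ := Finset.mem_image.1 ho
  obtain ⟨o0', ho0', rfl⟩ := Finset.mem_image.1 ho'
  have hh := hf.1
  have hne' : o0.2 i ≠ o0'.2 i := by
    intro he
    apply hne
    show scRd h (o0.2 i) = scRd h (o0'.2 i)
    rw [he]
  obtain ⟨n, hn, he⟩ : ∃ n : Fin P.d → ℤ, (∀ k, |(n k : ℝ)| ≤ P.Q) ∧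
      |(((scRdOcc h o0).2 i - (scRdOcc h o0').2 i - (P.grid h).dot n : ℤ) : ℝ)| ≤
        P.Sg / 2 * max ((P.grid h).R o0.1) ((P.grid h).R o0'.1) := hnear
  have hsep := hO.sep o0 ho0 o0' ho0' i hi hne' (-n) (fun k => by
    simp only [Pi.neg_apply, Int.cast_neg, abs_neg]
    exact hn k)
  rw [sc_dot_neg_real] at hsep
  rw [sc_grid_R, sc_grid_R] at he
  have hmax : max (P.R o0.1 / h) (P.R o0'.1 / h) = max (P.R o0.1) (P.R o0'.1) / h := by
    rw [div_eq_mul_inv, div_eq_mul_inv, div_eq_mul_inv, max_mul_of_nonneg _ _ (inv_nonneg.2 hh.le)]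
  obtain ⟨hg1, hg2⟩ := sc_fine_ge hO hf ho0
  have hQ := sc_Q_nonneg hO
  have hB := hO.hB
  have hd : (0 : ℝ) ≤ P.d := Nat.cast_nonneg _
  have hμ1 := hO.hμ1
  have hR' : 0 < P.R o0.1 / h := by linarith
  refine sc_gridC_sep_arith (A := o0.2 i / h) (A' := o0'.2 i / h) (Dn := P.dot n / h)
    (rA := (scRd h (o0.2 i) : ℝ)) (rA' := (scRd h (o0'.2 i) : ℝ)) (rD := (((P.grid h).dot n : ℤ) : ℝ))
    (Sg := P.Sg) (m := max (P.R o0.1 / h) (P.R o0'.1 / h)) (R' := P.R o0.1 / h)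
    (dQ := P.d * P.Q) (sc_rd_err hh _) (sc_rd_err hh _) (sc_grid_dot_err P hh n hn) ?_ ?_
    (le_max_left _ _) ?_ (sc_Sg_ge hO) hR'.le
  · have : ((scRd h (o0.2 i) : ℝ)) - (scRd h (o0'.2 i) : ℝ) - (((P.grid h).dot n : ℤ) : ℝ) =
        (((scRdOcc h o0).2 i - (scRdOcc h o0').2 i - (P.grid h).dot n : ℤ) : ℝ) := by
      push_cast
      rfl
    rw [this]
    exact he
  · rw [hmax]
    have : o0.2 i / h - o0'.2 i / h - P.dot n / h = (o0.2 i - o0'.2 i + -P.dot n) / h := by ring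
    rw [this, abs_div, abs_of_pos hh, ← mul_div_assoc]
    exact div_lt_div_of_pos_right hsep hh
  · have h1 : P.μ * (P.R o0.1 / h) ≤ P.R o0.1 / h := by nlinarith
    have h2 : 0 ≤ (P.d : ℝ) * P.Q := mul_nonneg hd hQ
    have h3 : 0 ≤ (P.d : ℝ) * P.B := mul_nonneg hd (by linarith)
    nlinarith

/-- the arithmetic of the annular relations -/
theorem sc_gridC_ann_arith {X Y μ ν R' E : ℝ} (h1 : |X - Y| ≤ E) (h2 : μ * R' ≤ |X|) (h3 : |X| ≤ ν * R')
    (h4 : E ≤ μ * R' / 2) (h5 : μ ≤ 1) (h6 : 1 ≤ ν) (h7 : 0 ≤ R') :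
    μ / 2 * R' ≤ |Y| ∧ |Y| ≤ 2 * ν * R' := by
  have h8 : |X| ≤ |X - Y| + |Y| := by
    have : X = (X - Y) + Y := by ring
    calc |X| = |(X - Y) + Y| := by rw [← this]
      _ ≤ _ := abs_add_le _ _
  have h9 : |Y| ≤ |X - Y| + |X| := by
    have : Y = -(X - Y) + X := by ring
    calc |Y| = |-(X - Y) + X| := by rw [← this]
      _ ≤ |-(X - Y)| + |X| := abs_add_le _ _
      _ = _ := by rw [abs_neg]
  constructor
  · linarith
  · nlinarith

theorem sc_gridC_ann (hO : P.Ok O) (hf : P.Fine O h) : ∀ l' : Fin 4, (∀ i, i ≠ l' → i ∈ P.J) →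
    ∀ o ∈ O.image (scRdOcc h), ∃ n : Fin (P.grid h).d → ℤ, (∀ k, |(n k : ℝ)| ≤ P.B) ∧
      P.μ / 2 * (P.grid h).R o.1 ≤ |((scLin l' o.2 + 36 * (P.grid h).dot n : ℤ) : ℝ)| ∧
        |((scLin l' o.2 + 36 * (P.grid h).dot n : ℤ) : ℝ)| ≤ 2 * P.ν * (P.grid h).R o.1 := by
  intro l' hl o ho
  obtain ⟨o0, ho0, rfl⟩ := Finset.mem_image.1 ho
  have hh := hf.1
  obtain ⟨n, hn, ha1, ha2⟩ := hO.ann l' hl o0 ho0
  refine ⟨n, hn, ?_⟩
  rw [sc_grid_R]
  obtain ⟨hg1, hg2⟩ := sc_fine_ge hO hf ho0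
  have hQ := sc_Q_nonneg hO
  have hB := hO.hB
  have hd : (0 : ℝ) ≤ P.d := Nat.cast_nonneg _
  have hR' : 0 < P.R o0.1 / h := by linarith
  have e1 := sc_grid_lin_err hh l' o0.2
  have e2 := sc_grid_dot_err P hh n hn
  refine sc_gridC_ann_arith (X := (scLinR l' o0.2 + 36 * P.dot n) / h) (E := 36 + 18 * (P.d * P.B))
    ?_ ?_ ?_ ?_ hO.hμ1 hO.hν hR'.le
  · have : (scLinR l' o0.2 + 36 * P.dot n) / h -
        ((scLin l' (scRdOcc h o0).2 + 36 * (P.grid h).dot n : ℤ) : ℝ) =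
        (scLinR l' o0.2 / h - ((scLin l' (fun i => scRd h (o0.2 i)) : ℤ) : ℝ)) +
          36 * (P.dot n / h - (((P.grid h).dot n : ℤ) : ℝ)) := by
      push_cast
      have : (scRdOcc h o0).2 = fun i => scRd h (o0.2 i) := rfl
      rw [this]
      ring
    rw [this]
    refine (abs_add_le _ _).trans ?_
    rw [abs_mul]
    have : |(36 : ℝ)| = 36 := by norm_num
    rw [this]
    linarith
  · rw [abs_div, abs_of_pos hh, ← mul_div_assoc]
    exact div_le_div_of_nonneg_right ha1 hh.le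
  · rw [abs_div, abs_of_pos hh, ← mul_div_assoc]
    exact div_le_div_of_nonneg_right ha2 hh.le
  · have h2 : 0 ≤ (P.d : ℝ) * P.Q := mul_nonneg hd hQ
    have h3 : 0 ≤ (P.d : ℝ) * P.B := mul_nonneg hd (by linarith)
    show 36 + 18 * ((P.d : ℝ) * P.B) ≤ P.μ * (P.R o0.1 / h) / 2
    nlinarith

/-- the arithmetic of the gap -/
theorem sc_gridC_gap_arith {X Y μ ν R' E : ℝ} (h1 : |X - Y| ≤ E) (h2 : μ / 2 * R' / 100 ≤ |Y|)
    (h3 : |Y| ≤ 100 * (2 * ν) * R') (h4 : E ≤ μ * R' / 250) (h5 : μ ≤ 1) (h6 : 1 ≤ ν) (h7 : 0 ≤ R') :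
    μ * R' / 1000 ≤ |X| ∧ |X| ≤ 1000 * ν * R' := by
  have h8 : |X| ≤ |X - Y| + |Y| := by
    have : X = (X - Y) + Y := by ring
    calc |X| = |(X - Y) + Y| := by rw [← this]
      _ ≤ _ := abs_add_le _ _
  have h9 : |Y| ≤ |X - Y| + |X| := by
    have : Y = -(X - Y) + X := by ring
    calc |Y| = |-(X - Y) + X| := by rw [← this]
      _ ≤ |-(X - Y)| + |X| := abs_add_le _ _
      _ = _ := by rw [abs_neg]
  constructor
  · linarith
  · nlinarith

theorem sc_gridC_gap (hO : P.Ok O) (hf : P.Fine O h) : ∀ o ∈ O.image (scRdOcc h),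
    ∀ n : Fin (P.grid h).d → ℤ, (∀ k, |(n k : ℝ)| ≤ P.Q) →
      ¬ (P.μ / 2 * (P.grid h).R o.1 / 100 ≤ |(((P.grid h).dot n : ℤ) : ℝ)| ∧
        |(((P.grid h).dot n : ℤ) : ℝ)| ≤ 100 * (2 * P.ν) * (P.grid h).R o.1) := by
  intro o ho n hn hcon
  obtain ⟨o0, ho0, rfl⟩ := Finset.mem_image.1 ho
  have hh := hf.1
  rw [sc_grid_R] at hcon
  obtain ⟨hc1, hc2⟩ := hcon
  obtain ⟨hg1, hg2⟩ := sc_fine_ge hO hf ho0
  have hQ := sc_Q_nonneg hO
  have hB := hO.hB
  have hd : (0 : ℝ) ≤ P.d := Nat.cast_nonneg _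
  have hR' : 0 < P.R o0.1 / h := by linarith
  have e2 := sc_grid_dot_err P hh n hn
  obtain ⟨r1, r2⟩ := sc_gridC_gap_arith (X := P.dot n / h) (E := P.d * P.Q / 2) e2 hc1 hc2 (by
    have h2 : 0 ≤ (P.d : ℝ) * P.Q := mul_nonneg hd hQ
    have h3 : 0 ≤ (P.d : ℝ) * P.B := mul_nonneg hd (by linarith)
    show (P.d : ℝ) * P.Q / 2 ≤ P.μ * (P.R o0.1 / h) / 250
    nlinarith) hO.hμ1 hO.hν hR'.le
  apply hO.gap o0 ho0 n hn
  rw [abs_div, abs_of_pos hh] at r1 r2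
  constructor
  · rw [le_div_iff₀ hh] at r1
    have : P.μ * (P.R o0.1 / h) / 1000 * h = P.μ * P.R o0.1 / 1000 := by field_simp
    show P.μ * P.R o0.1 / 1000 ≤ _
    rw [← this]
    exact r1
  · rw [div_le_iff₀ hh] at r2
    have : 1000 * P.ν * (P.R o0.1 / h) * h = 1000 * P.ν * P.R o0.1 := by field_simp
    show _ ≤ 1000 * P.ν * P.R o0.1
    rw [← this]
    exact r2

end Claimed.Agent.R258
end

/- ===== packed: Claimed.Agent.R258.Max.Lp ===== -/
section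
/-
Row 258, block [MAX], package P-MAX-LP (architect helper192).

Interface corollaries for Sec 2 (outer.tex): `M_q` on `L^p` for normed-space valued functions, the final Hölder step
`∫ ∏_{j=0}^3 M_q f_j ≤ C_q ‖f_0‖_∞ ∏_{j=1}^3 ‖f_j‖_3` (`q < 3`), and `f ≤ M f` a.e. (Lebesgue differentiation; not used
by the block itself).

PROOF NOTES.
* `mxMq_strong`: `mxMqE_strong` for `fun y => ‖f y‖ₑ`.
* `mx_holder3`: Hölder with three exponents 3: `ENNReal.lintegral_prod_norm_pow_le` (weights `1/3`) applied to the cubes, or twice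
  `ENNReal.lintegral_mul_le_Lp_mul_Lq` (exponents `3, 3/2`, then `2, 2` for the squares... ).
* `mx_four_prod_le`: `mxMqE q f0 ≤ c` everywhere (`mxMqE_le_of_ae_le`), `mx_holder3`, `mxMqE_strong` with `p = 3`;
  `((C I₁)(C I₂)(C I₃))^(1/3) = C (I₁ I₂ I₃)^(1/3)`.
* `mx_four_prod_le_eLpNorm`: `eLpNorm_exponent_top`, `ae_le_eLpNormEssSup` (`‖f 0 y‖ₑ ≤ eLpNormEssSup` a.e.);
  `eLpNorm f 3 = (∫⁻ ‖f‖ₑ^3)^(1/3)` (`eLpNorm_eq_lintegral_rpow_enorm`), `Fin.prod_univ_four`.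
* `mx_le_mxM_ae`: reduce to `f 1_{Ioo (-n) n} ∧ n` (integrable), Mathlib's Lebesgue differentiation theorem
  (`Besicovitch.ae_tendsto_lintegral_div` or `IsUnifLocDoublingMeasure.ae_tendsto_average` along `closedBall x r = Icc (x-r) (x+r)`),
  each average is `≤ mxM f x` by `mx_avg_set_le`; `le_of_tendsto`; finally `f = ⨆ n, f_n`.
-/
set_option autoImplicit false

open MeasureTheory Set
open scoped ENNReal NNReal

namespace Claimed.Agent.R258

theorem mxMq_strong {E : Type*} [NormedAddCommGroup E] (f : ℝ → E)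
    (hf : AEStronglyMeasurable f volume) {p q : ℝ} (hq : 0 < q) (hpq : q < p) :
    ∫⁻ x, mxMq q f x ^ p ≤ mxCp (p / q) * ∫⁻ x, ‖f x‖ₑ ^ p :=
  mxMqE_strong (fun y => ‖f y‖ₑ) hf.enorm hq hpq

theorem mx_holder3 {α : Type*} [MeasurableSpace α] (μ : Measure α) (F₁ F₂ F₃ : α → ℝ≥0∞)
    (h₁ : AEMeasurable F₁ μ) (h₂ : AEMeasurable F₂ μ) (h₃ : AEMeasurable F₃ μ) :
    ∫⁻ x, F₁ x * F₂ x * F₃ x ∂μ ≤
      (∫⁻ x, F₁ x ^ (3 : ℝ) ∂μ) ^ (1 / 3 : ℝ) * (∫⁻ x, F₂ x ^ (3 : ℝ) ∂μ) ^ (1 / 3 : ℝ) *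
        (∫⁻ x, F₃ x ^ (3 : ℝ) ∂μ) ^ (1 / 3 : ℝ) := by
  have h := ENNReal.lintegral_prod_norm_pow_le (μ := μ) (Finset.univ : Finset (Fin 3))
    (f := ![fun x => F₁ x ^ (3 : ℝ), fun x => F₂ x ^ (3 : ℝ), fun x => F₃ x ^ (3 : ℝ)])
    (p := fun _ => (1 / 3 : ℝ))
    (by
      intro i _
      fin_cases i
      · exact h₁.pow_const _
      · exact h₂.pow_const _
      · exact h₃.pow_const _)
    (by simp) (by intro i _; positivity)
  simp only [Fin.prod_univ_three, Matrix.cons_val_zero, Matrix.cons_val_one, Matrix.cons_val_two,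
    Matrix.head_cons, Matrix.tail_cons] at h
  have e : ∀ u : ℝ≥0∞, (u ^ (3 : ℝ)) ^ (1 / 3 : ℝ) = u := by
    intro u
    rw [← ENNReal.rpow_mul]
    norm_num
  simpa only [e] using h

theorem mx_four_prod_le {q : ℝ} (hq : 0 < q) (hq3 : q < 3) (f₀ f₁ f₂ f₃ : ℝ → ℝ≥0∞)
    (h₁ : AEMeasurable f₁) (h₂ : AEMeasurable f₂) (h₃ : AEMeasurable f₃) {c : ℝ≥0∞}
    (h₀ : ∀ᵐ y, f₀ y ≤ c) :
    ∫⁻ x, mxMqE q f₀ x * mxMqE q f₁ x * mxMqE q f₂ x * mxMqE q f₃ x ≤
      mxCp (3 / q) * (c * (∫⁻ x, f₁ x ^ (3 : ℝ)) ^ (1 / 3 : ℝ) * (∫⁻ x, f₂ x ^ (3 : ℝ)) ^ (1 / 3 : ℝ) *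
        (∫⁻ x, f₃ x ^ (3 : ℝ)) ^ (1 / 3 : ℝ)) := by
  set C : ℝ≥0∞ := (mxCp (3 / q) : ℝ≥0∞) with hC
  have hm : ∀ f : ℝ → ℝ≥0∞, Measurable (mxMqE q f) := mxMqE_measurable q
  have hs : ∀ f : ℝ → ℝ≥0∞, AEMeasurable f →
      (∫⁻ x, mxMqE q f x ^ (3 : ℝ)) ^ (1 / 3 : ℝ) ≤ C ^ (1 / 3 : ℝ) * (∫⁻ x, f x ^ (3 : ℝ)) ^ (1 / 3 : ℝ) := by
    intro f hf
    rw [← ENNReal.mul_rpow_of_nonneg _ _ (by norm_num)]
    exact ENNReal.rpow_le_rpow (mxMqE_strong f hf hq hq3) (by norm_num)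
  have hC3 : C ^ (1 / 3 : ℝ) * C ^ (1 / 3 : ℝ) * C ^ (1 / 3 : ℝ) = C := by
    rw [← ENNReal.rpow_add_of_nonneg _ _ (by norm_num) (by norm_num),
      ← ENNReal.rpow_add_of_nonneg _ _ (by norm_num) (by norm_num)]
    norm_num
  have hmm : Measurable fun x => mxMqE q f₁ x * mxMqE q f₂ x * mxMqE q f₃ x :=
    ((hm f₁).mul (hm f₂)).mul (hm f₃)
  calc ∫⁻ x, mxMqE q f₀ x * mxMqE q f₁ x * mxMqE q f₂ x * mxMqE q f₃ x
      ≤ ∫⁻ x, c * (mxMqE q f₁ x * mxMqE q f₂ x * mxMqE q f₃ x) := by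
        refine lintegral_mono fun x => ?_
        rw [mul_assoc, mul_assoc, mul_assoc (mxMqE q f₁ x)]
        exact mul_le_mul_left (mxMqE_le_of_ae_le hq h₀ x) _
    _ = c * ∫⁻ x, mxMqE q f₁ x * mxMqE q f₂ x * mxMqE q f₃ x := lintegral_const_mul _ hmm
    _ ≤ c * ((C ^ (1 / 3 : ℝ) * (∫⁻ x, f₁ x ^ (3 : ℝ)) ^ (1 / 3 : ℝ)) *
          (C ^ (1 / 3 : ℝ) * (∫⁻ x, f₂ x ^ (3 : ℝ)) ^ (1 / 3 : ℝ)) *
          (C ^ (1 / 3 : ℝ) * (∫⁻ x, f₃ x ^ (3 : ℝ)) ^ (1 / 3 : ℝ))) := by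
        refine mul_le_mul_right ?_ _
        refine (mx_holder3 volume _ _ _ (hm f₁).aemeasurable (hm f₂).aemeasurable
          (hm f₃).aemeasurable).trans ?_
        exact mul_le_mul' (mul_le_mul' (hs f₁ h₁) (hs f₂ h₂)) (hs f₃ h₃)
    _ = (C ^ (1 / 3 : ℝ) * C ^ (1 / 3 : ℝ) * C ^ (1 / 3 : ℝ)) *
          (c * (∫⁻ x, f₁ x ^ (3 : ℝ)) ^ (1 / 3 : ℝ) * (∫⁻ x, f₂ x ^ (3 : ℝ)) ^ (1 / 3 : ℝ) *
            (∫⁻ x, f₃ x ^ (3 : ℝ)) ^ (1 / 3 : ℝ)) := by ring
    _ = _ := by rw [hC3]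

/-- The last display of the proof of Lemma 2.4 (outer reduction). -/
theorem mx_four_prod_le_eLpNorm {E : Type*} [NormedAddCommGroup E] {q : ℝ} (hq : 0 < q)
    (hq3 : q < 3) (f : Fin 4 → ℝ → E) (hf : ∀ j, AEStronglyMeasurable (f j) volume) :
    ∫⁻ x, ∏ j, mxMq q (f j) x ≤
      mxCp (3 / q) * (eLpNorm (f 0) ⊤ volume * eLpNorm (f 1) 3 volume * eLpNorm (f 2) 3 volume *
        eLpNorm (f 3) 3 volume) := by
  have e : ∀ g : ℝ → E, eLpNorm g 3 volume = (∫⁻ x, ‖g x‖ₑ ^ (3 : ℝ)) ^ (1 / 3 : ℝ) := by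
    intro g
    rw [eLpNorm_eq_lintegral_rpow_enorm_toReal (by norm_num) (by norm_num)]
    norm_num
  have h0 : ∀ᵐ y, ‖f 0 y‖ₑ ≤ eLpNorm (f 0) ⊤ volume := by
    rw [eLpNorm_exponent_top]
    exact ae_le_eLpNormEssSup
  have h := mx_four_prod_le hq hq3 (fun y => ‖f 0 y‖ₑ) (fun y => ‖f 1 y‖ₑ) (fun y => ‖f 2 y‖ₑ)
    (fun y => ‖f 3 y‖ₑ) (hf 1).enorm (hf 2).enorm (hf 3).enorm h0
  simp only [Fin.prod_univ_four, e]
  exact h

/-- truncation (height and support) -/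
noncomputable def mxCut (U : ℝ → ℝ≥0∞) (n : ℕ) : ℝ → ℝ≥0∞ :=
  (Ioo (-((n : ℝ) + 1)) ((n : ℝ) + 1)).indicator fun x => min (U x) ((n + 1 : ℕ) : ℝ≥0∞)

theorem mxCut_aemeasurable {U : ℝ → ℝ≥0∞} (hU : AEMeasurable U) (n : ℕ) :
    AEMeasurable (mxCut U n) :=
  (hU.min aemeasurable_const).indicator measurableSet_Ioo

theorem mxCut_le (U : ℝ → ℝ≥0∞) (n : ℕ) (x : ℝ) : mxCut U n x ≤ U x := by
  unfold mxCut
  refine indicator_le' (fun _ _ => min_le_left _ _) (fun _ _ => zero_le) x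

theorem mxCut_tendsto (U : ℝ → ℝ≥0∞) (x : ℝ) :
    Filter.Tendsto (fun n => mxCut U n x) Filter.atTop (nhds (U x)) := by
  have h1 : Filter.Tendsto (fun n : ℕ => min (U x) ((n + 1 : ℕ) : ℝ≥0∞)) Filter.atTop
      (nhds (min (U x) ⊤)) :=
    tendsto_const_nhds.min (ENNReal.tendsto_nat_nhds_top.comp (Filter.tendsto_add_atTop_nat 1))
  rw [min_eq_left le_top] at h1
  refine h1.congr' ?_
  obtain ⟨N, hN⟩ := exists_nat_gt |x|
  filter_upwards [Filter.eventually_ge_atTop N] with n hn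
  have hn' : (N : ℝ) ≤ n := by exact_mod_cast hn
  have := abs_lt.mp hN
  unfold mxCut
  rw [indicator_of_mem]
  exact ⟨by linarith [this.1], by linarith [this.2]⟩

theorem mxCut_lintegral_ne_top (U : ℝ → ℝ≥0∞) (n : ℕ) : ∫⁻ y, mxCut U n y ≠ ⊤ := by
  have hle : ∀ y, mxCut U n y
      ≤ (Ioo (-((n : ℝ) + 1)) ((n : ℝ) + 1)).indicator (fun _ => ((n + 1 : ℕ) : ℝ≥0∞)) y := by
    intro y
    unfold mxCut
    exact indicator_le_indicator (min_le_right _ _)
  refine ne_top_of_le_ne_top ?_ (lintegral_mono hle)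
  rw [lintegral_indicator measurableSet_Ioo, setLIntegral_const, Real.volume_Ioo]
  exact ENNReal.mul_ne_top (ENNReal.natCast_ne_top _) ENNReal.ofReal_ne_top

theorem mx_le_mxM_ae_of_lintegral_ne_top (f : ℝ → ℝ≥0∞) (hf : AEMeasurable f)
    (hfin : ∫⁻ y, f y ≠ ⊤) : ∀ᵐ x, f x ≤ mxM f x := by
  filter_upwards [(Besicovitch.vitaliFamily (volume : Measure ℝ)).ae_tendsto_lintegral_div hf hfin]
    with x hx
  have h2 := hx.comp (Besicovitch.tendsto_filterAt (volume : Measure ℝ) x)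
  refine le_of_tendsto h2 ?_
  filter_upwards [self_mem_nhdsWithin] with r hr
  have hr' : (0 : ℝ) < r := hr
  simp only [Function.comp_apply]
  rw [Real.closedBall_eq_Icc, Real.volume_Icc, div_eq_mul_inv, mul_comm]
  exact mx_avg_set_le f (by linarith) ⟨by linarith, by linarith⟩ subset_rfl

/-- Lebesgue differentiation: `f ≤ M f` almost everywhere. -/
theorem mx_le_mxM_ae (f : ℝ → ℝ≥0∞) (hf : AEMeasurable f) : ∀ᵐ x, f x ≤ mxM f x := by
  have h : ∀ n : ℕ, ∀ᵐ x, mxCut f n x ≤ mxM (mxCut f n) x := fun n =>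
    mx_le_mxM_ae_of_lintegral_ne_top _ (mxCut_aemeasurable hf n) (mxCut_lintegral_ne_top f n)
  rw [← ae_all_iff] at h
  filter_upwards [h] with x hx
  refine le_of_tendsto' (mxCut_tendsto f x) fun n => ?_
  exact (hx n).trans (mxMax_mono (mxCut_le f n) x)

end Claimed.Agent.R258
end
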