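/- Packed by merge_tool.py (helper293): 18 modules of Claimed.Agent.R258 in one file, same declarations.
   Old modules, in this order: Max.Lam, Max.LamLp, CellApi.MaxD, S4b.Defs, S4b.Gev, S4a.Defs, S4b.Qp, S5.EDefs, CellApi.Extra, Weyl.W1, Weyl.W12, Weyl.W3, Weyl.Main, S9.Basic, S9a.BookUnc, S9a.IntMain, S9a.Grid, S9a.Main -/
import Claimed.Agent.R258.CellApi.Pack
import Claimed.Agent.R258.S5.Base
import Claimed.Agent.R258.Gev.Conv
import Claimed.Agent.R258.S8c.Lin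
import Claimed.Agent.R258.Weyl.W1b
import Claimed.Agent.R258.Weyl.W2
import Claimed.Agent.R258.Weyl.Cont
import Claimed.Agent.R258.Weyl.W3a
import Claimed.Agent.R258.Weyl.W3b
import Claimed.Agent.R258.Weyl.W3c
import Claimed.Agent.R258.Weyl.Clears
import Claimed.Agent.R258.S9a.BookFut
import Claimed.Agent.R258.Pack001
import Claimed.Agent.R258.Pack021
import Claimed.Agent.R258.Pack006
import Claimed.Agent.R258.Pack004
import Claimed.Agent.R258.Pack010
import Claimed.Agent.R258.Pack011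
import Claimed.Agent.R258.Pack013

/- ===== packed: Claimed.Agent.R258.Max.Lam ===== -/
section
/-
Row 258, block [MAX], package P-MAX-LAM (architect helper192).

Maximal operator `mxLam μ D f x = sup { average of f over I : I ∈ D, x ∈ I }` of a countable LAMINAR family `D` of
measurable sets in an arbitrary measure space (dyadic maximal function within a cell `J`: `D` = dyadic subcells
of `J`; hull maxima of Sec 7: `D` = cells of the hull).  Used in Sec 3 (compression.tex, `M_d`), Sec 7 (hull maxima).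
  * elementary properties, measurability;
  * localised weak type (1,1) with constant 1.   (Doob's `L^p` inequality: LamLp.lean.)

PROOF NOTES.
* `mx_lam_weak_finite`: `E = {c < M_D f}` is the union of `G = {I ∈ D : c < avg_I f}`; let `G'` be the set of the maximal elements
  of `G` w.r.t. inclusion (finite family: every member lies in a maximal one, `Finset.exists_le_maximal` /
  `Set.Finite.exists_le_maximal`); two different maximal elements are disjoint by laminarity.  For `I ∈ G`: `c * μ I ≤ ∫_I f`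
  (`μ I ≠ 0, ⊤` necessarily).  Sum: `measure_biUnion_finset`, `lintegral_biUnion_finset`.
* `mx_lam_weak`: enumerate `D` (countable), `D_n` = first `n` members: `mxLam μ D_n f x ↑ mxLam μ D f x`, the sets
  `E_n = {c < M_{D_n} f}` increase to `E`; `c μ(E_n) ≤ ∫_{E_n} f ≤ ∫_E f`; continuity from below.
-/
set_option autoImplicit false

open MeasureTheory Set
open scoped ENNReal NNReal

namespace Claimed.Agent.R258

variable {α : Type*} [MeasurableSpace α]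

theorem mx_lam_avg_le (μ : Measure α) (D : Set (Set α)) (f : α → ℝ≥0∞) {I : Set α} (hI : I ∈ D)
    {x : α} (hx : x ∈ I) : (μ I)⁻¹ * ∫⁻ y in I, f y ∂μ ≤ mxLam μ D f x := by
  unfold mxLam
  exact le_iSup₂_of_le I hI (le_iSup_of_le hx le_rfl)

theorem mx_lam_le_iff (μ : Measure α) (D : Set (Set α)) (f : α → ℝ≥0∞) (x : α) (c : ℝ≥0∞) :
    mxLam μ D f x ≤ c ↔ ∀ I ∈ D, x ∈ I → (μ I)⁻¹ * ∫⁻ y in I, f y ∂μ ≤ c := by
  unfold mxLam
  simp only [iSup_le_iff]

theorem mx_lt_lam_iff (μ : Measure α) (D : Set (Set α)) (f : α → ℝ≥0∞) (x : α) (c : ℝ≥0∞) :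
    c < mxLam μ D f x ↔ ∃ I ∈ D, x ∈ I ∧ c < (μ I)⁻¹ * ∫⁻ y in I, f y ∂μ := by
  unfold mxLam
  simp only [lt_iSup_iff, exists_prop]

theorem mx_lam_mono_family (μ : Measure α) {D D' : Set (Set α)} (h : D ⊆ D') (f : α → ℝ≥0∞)
    (x : α) : mxLam μ D f x ≤ mxLam μ D' f x :=
  (mx_lam_le_iff μ D f x _).2 fun _ hI hx => mx_lam_avg_le μ D' f (h hI) hx

theorem mx_lam_mono (μ : Measure α) (D : Set (Set α)) {f g : α → ℝ≥0∞} (h : f ≤ᵐ[μ] g) (x : α) :
    mxLam μ D f x ≤ mxLam μ D g x := by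
  refine (mx_lam_le_iff μ D f x _).2 fun I hI hx => le_trans ?_ (mx_lam_avg_le μ D g hI hx)
  exact mul_le_mul' le_rfl (lintegral_mono_ae (ae_restrict_of_ae h))

theorem mx_lam_eq_zero_of_notMem (μ : Measure α) (D : Set (Set α)) (f : α → ℝ≥0∞) {x : α}
    (hx : ∀ I ∈ D, x ∉ I) : mxLam μ D f x = 0 :=
  nonpos_iff_eq_zero.1 ((mx_lam_le_iff μ D f x _).2 fun I hI hxI => absurd hxI (hx I hI))

theorem mx_lam_measurable (μ : Measure α) {D : Set (Set α)} (hD : D.Countable)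
    (hm : ∀ I ∈ D, MeasurableSet I) (f : α → ℝ≥0∞) : Measurable (mxLam μ D f) := by
  have h : mxLam μ D f =
      fun x => ⨆ I ∈ D, Set.indicator I (fun _ => (μ I)⁻¹ * ∫⁻ y in I, f y ∂μ) x := by
    ext x
    unfold mxLam
    refine iSup_congr fun I => iSup_congr fun _ => ?_
    by_cases hx : x ∈ I <;> simp [hx]
  rw [h]
  exact Measurable.biSup D hD fun I hI => measurable_const.indicator (hm I hI)

/-- The maximal functions of an increasing exhaustion of the family increase to the maximal function. -/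
theorem mx_lam_iSup (μ : Measure α) (Dn : ℕ → Set (Set α)) (f : α → ℝ≥0∞) (x : α) :
    mxLam μ (⋃ n, Dn n) f x = ⨆ n, mxLam μ (Dn n) f x := by
  apply le_antisymm
  · rw [mx_lam_le_iff]
    intro I hI hx
    obtain ⟨n, hn⟩ := mem_iUnion.1 hI
    exact le_iSup_of_le n (mx_lam_avg_le μ (Dn n) f hn hx)
  · exact iSup_le fun n => mx_lam_mono_family μ (subset_iUnion Dn n) f x

/-- a member with a large average: `c μ(I) ≤ ∫_I f` -/
theorem mx_lam_mul_le (μ : Measure α) (f : α → ℝ≥0∞) {c : ℝ≥0∞} {I : Set α}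
    (hc : c < (μ I)⁻¹ * ∫⁻ y in I, f y ∂μ) : c * μ I ≤ ∫⁻ y in I, f y ∂μ := by
  have h0 : μ I ≠ 0 := by
    intro h0
    have h1 : ∫⁻ y in I, f y ∂μ = 0 := by
      rw [Measure.restrict_eq_zero.2 h0, lintegral_zero_measure]
    rw [h1, mul_zero] at hc
    exact not_lt_bot hc
  have ht : μ I ≠ ⊤ := by
    intro ht
    rw [ht, ENNReal.inv_top, zero_mul] at hc
    exact not_lt_bot hc
  calc c * μ I ≤ ((μ I)⁻¹ * ∫⁻ y in I, f y ∂μ) * μ I := by gcongr
    _ = ∫⁻ y in I, f y ∂μ := by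
      rw [mul_comm, ← mul_assoc, ENNReal.mul_inv_cancel h0 ht, one_mul]

/-- exhaustion of a countable family by an increasing sequence of finite subfamilies -/
theorem mx_lam_exhaust {β : Type*} {D : Set β} (hD : D.Countable) :
    ∃ Dn : ℕ → Set β, Monotone Dn ∧ (∀ n, (Dn n).Finite) ∧ (∀ n, Dn n ⊆ D) ∧ D = ⋃ n, Dn n := by
  rcases D.eq_empty_or_nonempty with rfl | hne
  · exact ⟨fun _ => ∅, monotone_const, fun _ => finite_empty, fun _ => subset_rfl, by simp⟩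
  · obtain ⟨e, rfl⟩ := hD.exists_eq_range hne
    refine ⟨fun n => e '' Iic n, fun m n h => image_mono (Iic_subset_Iic.2 h),
      fun n => (finite_Iic n).image e, fun n => image_subset_range e _, ?_⟩
    ext I
    simp only [mem_range, mem_iUnion, mem_image, mem_Iic]
    constructor
    · rintro ⟨k, rfl⟩
      exact ⟨k, k, le_rfl, rfl⟩
    · rintro ⟨_, k, _, rfl⟩
      exact ⟨k, rfl⟩

theorem MxLaminar.mono {β : Type*} {D D' : Set (Set β)} (hl : MxLaminar D') (h : D ⊆ D') : MxLaminar D :=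
  fun I hI J hJ => hl I (h hI) J (h hJ)

theorem mx_lam_weak_finite (μ : Measure α) {D : Set (Set α)} (hD : D.Finite)
    (hm : ∀ I ∈ D, MeasurableSet I) (hl : MxLaminar D) (f : α → ℝ≥0∞) (c : ℝ≥0∞) :
    c * μ {x | c < mxLam μ D f x} ≤ ∫⁻ y in {x | c < mxLam μ D f x}, f y ∂μ := by
  classical
  set G : Set (Set α) := {I | I ∈ D ∧ c < (μ I)⁻¹ * ∫⁻ y in I, f y ∂μ} with hG
  have hGfin : G.Finite := hD.subset fun I hI => hI.1
  set G' : Set (Set α) := {I | Maximal (· ∈ G) I} with hG'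
  have hG'fin : G'.Finite := hGfin.subset fun I hI => hI.prop
  have hE : {x | c < mxLam μ D f x} = ⋃ I ∈ hG'fin.toFinset, I := by
    ext x
    simp only [mem_ofPred_eq, mx_lt_lam_iff, mem_iUnion, exists_prop, Set.Finite.mem_toFinset]
    constructor
    · rintro ⟨I, hI, hx, hc⟩
      obtain ⟨J, hIJ, hJ⟩ := hGfin.exists_le_maximal (show I ∈ G from ⟨hI, hc⟩)
      exact ⟨J, hJ, hIJ hx⟩
    · rintro ⟨J, hJ, hx⟩
      exact ⟨J, hJ.prop.1, hx, hJ.prop.2⟩
  have hdisj : Set.PairwiseDisjoint (↑hG'fin.toFinset) (fun I : Set α => I) := by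
    intro I hI J hJ hne
    have hI' : Maximal (· ∈ G) I := hG'fin.mem_toFinset.1 (Finset.mem_coe.1 hI)
    have hJ' : Maximal (· ∈ G) J := hG'fin.mem_toFinset.1 (Finset.mem_coe.1 hJ)
    rcases hl I hI'.prop.1 J hJ'.prop.1 with h | h | h
    · exact absurd (hI'.eq_of_subset hJ'.prop h) hne
    · exact absurd (hJ'.eq_of_subset hI'.prop h).symm hne
    · exact h
  have hmeas : ∀ I ∈ hG'fin.toFinset, MeasurableSet I := fun I hI => by
    have hI' : Maximal (· ∈ G) I := hG'fin.mem_toFinset.1 hI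
    exact hm I hI'.prop.1
  rw [hE, measure_biUnion_finset hdisj hmeas, lintegral_biUnion_finset hdisj hmeas, Finset.mul_sum]
  refine Finset.sum_le_sum fun I hI => ?_
  have hI' : Maximal (· ∈ G) I := hG'fin.mem_toFinset.1 hI
  exact mx_lam_mul_le μ f hI'.prop.2

/-- Localised weak type (1,1) with constant 1. -/
theorem mx_lam_weak (μ : Measure α) {D : Set (Set α)} (hD : D.Countable)
    (hm : ∀ I ∈ D, MeasurableSet I) (hl : MxLaminar D) (f : α → ℝ≥0∞) (c : ℝ≥0∞) :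
    c * μ {x | c < mxLam μ D f x} ≤ ∫⁻ y in {x | c < mxLam μ D f x}, f y ∂μ := by
  obtain ⟨Dn, hmono, hfin, hsub, hU⟩ := mx_lam_exhaust hD
  have hE : {x | c < mxLam μ D f x} = ⋃ n, {x | c < mxLam μ (Dn n) f x} := by
    ext x
    rw [mem_ofPred_eq, hU, mx_lam_iSup, lt_iSup_iff, mem_iUnion]
    rfl
  have hEmono : Monotone fun n => {x | c < mxLam μ (Dn n) f x} := fun m n h x hx =>
    lt_of_lt_of_le hx (mx_lam_mono_family μ (hmono h) f x)
  conv_lhs => rw [hE, hEmono.measure_iUnion, ENNReal.mul_iSup]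
  refine iSup_le fun n => ?_
  refine (mx_lam_weak_finite μ (hfin n) (fun I hI => hm I (hsub n hI)) (hl.mono (hsub n)) f c).trans ?_
  refine lintegral_mono_set ?_
  rw [hE]
  exact subset_iUnion (fun n => {x | c < mxLam μ (Dn n) f x}) n

end Claimed.Agent.R258
end

/- ===== packed: Claimed.Agent.R258.Max.LamLp ===== -/
section
/-
Row 258, block [MAX], package P-MAX-LAM-LP (architect helper192).

Doob's inequality `‖M_D f‖_p ≤ p/(p-1) ‖f‖_p` for the maximal operator of a countable laminar family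
(for `p = 2`: `∫ (M_D f)^2 ≤ 4 ∫ f^2`, used in Sec 3, compression.tex).

PROOF NOTES.
* `mx_lam_Lp_finite`: may assume `∫ f^p < ∞`.  Members with `μ I ∈ {0, ⊤}` contribute `0`.  For the others
  `avg_I f < ∞` (Hölder: `∫_I f ≤ (∫ f^p)^(1/p) (μ I)^(1-1/p)`), so `F = M_D f` is bounded and vanishes off a set of finite
  measure: `∫ F^p < ∞`.  Layer cake (`mx_layercake`) + weak type (`mx_lam_weak_finite`) + Tonelli:
  `∫ F^p = p ∫_0^∞ t^(p-1) μ{F > t} dt ≤ p ∫_0^∞ t^(p-2) ∫_{F > t} f dμ dt = p/(p-1) ∫ f F^(p-1) dμ`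
  (inner integral: `mx_rpow_eq_lintegral` with exponent `p - 1`)
  `≤ p/(p-1) (∫ f^p)^(1/p) (∫ F^p)^(1-1/p)` (Hölder); divide by `(∫ F^p)^(1-1/p) ∈ [0,∞)`.
* `mx_lam_Lp`: enumerate `D`, `D = ⋃ n, D_n` with `D_n` finite increasing (sub-families of a laminar family are laminar);
  `mx_lam_iSup`, monotone convergence.
* `mx_lam_L2`: `p = 2` (`ENNReal.rpow_two` / `ENNReal.rpow_natCast`); note that `^ 2` in the statement is the natural-number power.
-/
set_option autoImplicit false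

open MeasureTheory Set
open scoped ENNReal NNReal

namespace Claimed.Agent.R258

variable {α : Type*} [MeasurableSpace α]

/-- the maximal function only depends on the a.e. class of `f` -/
theorem mx_lam_congr_ae (μ : Measure α) (D : Set (Set α)) {f g : α → ℝ≥0∞} (h : f =ᵐ[μ] g) :
    mxLam μ D f = mxLam μ D g :=
  funext fun x => le_antisymm (mx_lam_mono μ D h.le x) (mx_lam_mono μ D h.symm.le x)

/-- one member of the family: `(avg_I f)^p μ(I) < ∞` -/
theorem mx_lam_term_ne_top (μ : Measure α) (f : α → ℝ≥0∞) {p : ℝ} (hp : 1 < p)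
    (hA : ∫⁻ x, f x ^ p ∂μ ≠ ⊤) (I : Set α) :
    ((μ I)⁻¹ * ∫⁻ y in I, f y ∂μ) ^ p * μ I ≠ ⊤ := by
  have hp0 : 0 < p := by linarith
  by_cases h0 : μ I = 0
  · rw [h0, mul_zero]
    exact ENNReal.zero_ne_top
  by_cases ht : μ I = ⊤
  · rw [ht, ENNReal.inv_top, zero_mul, ENNReal.zero_rpow_of_pos hp0, zero_mul]
    exact ENNReal.zero_ne_top
  have h1 : ∀ y, f y ≤ 1 + f y ^ p := by
    intro y
    rcases le_total (f y) 1 with h | h
    · exact h.trans le_self_add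
    · calc f y = f y ^ (1 : ℝ) := (ENNReal.rpow_one _).symm
        _ ≤ f y ^ p := ENNReal.rpow_le_rpow_of_exponent_le h hp.le
        _ ≤ 1 + f y ^ p := le_add_self
  have h2 : ∫⁻ y in I, f y ∂μ ≤ μ I + ∫⁻ x, f x ^ p ∂μ := by
    calc ∫⁻ y in I, f y ∂μ ≤ ∫⁻ y in I, (1 + f y ^ p) ∂μ := lintegral_mono h1
      _ = μ I + ∫⁻ y in I, f y ^ p ∂μ := by
        rw [lintegral_add_left measurable_const, setLIntegral_one]
      _ ≤ μ I + ∫⁻ x, f x ^ p ∂μ := by
        gcongr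
        exact Measure.restrict_le_self
  have h3 : ∫⁻ y in I, f y ∂μ ≠ ⊤ := ne_top_of_le_ne_top (ENNReal.add_ne_top.2 ⟨ht, hA⟩) h2
  exact ENNReal.mul_ne_top (ENNReal.rpow_ne_top_of_nonneg hp0.le
    (ENNReal.mul_ne_top (ENNReal.inv_ne_top.2 h0) h3)) ht

/-- a priori finiteness for a finite family -/
theorem mx_lam_Lp_ne_top (μ : Measure α) {D : Set (Set α)} (hD : D.Finite)
    (hm : ∀ I ∈ D, MeasurableSet I) (f : α → ℝ≥0∞) {p : ℝ} (hp : 1 < p)
    (hA : ∫⁻ x, f x ^ p ∂μ ≠ ⊤) : ∫⁻ x, mxLam μ D f x ^ p ∂μ ≠ ⊤ := by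
  classical
  have hp0 : 0 < p := by linarith
  have h1 : ∀ x, mxLam μ D f x ^ p ≤ ∑ I ∈ hD.toFinset,
      Set.indicator I (fun _ => ((μ I)⁻¹ * ∫⁻ y in I, f y ∂μ) ^ p) x := by
    intro x
    rw [← ENNReal.le_rpow_inv_iff hp0, mx_lam_le_iff]
    intro I hI hx
    rw [ENNReal.le_rpow_inv_iff hp0]
    have h2 := Finset.single_le_sum (f := fun I : Set α =>
      Set.indicator I (fun _ => ((μ I)⁻¹ * ∫⁻ y in I, f y ∂μ) ^ p) x) (fun _ _ => zero_le)
      (hD.mem_toFinset.2 hI)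
    simp only [indicator_of_mem hx] at h2
    exact h2
  refine ne_top_of_le_ne_top ?_ (lintegral_mono h1)
  rw [lintegral_finsetSum _ fun I hI => measurable_const.indicator (hm I (hD.mem_toFinset.1 hI))]
  refine (ENNReal.sum_lt_top.2 fun I hI => ?_).ne
  rw [lintegral_indicator_const (hm I (hD.mem_toFinset.1 hI))]
  exact (mx_lam_term_ne_top μ f hp hA I).lt_top

/-- layer cake + weak type + Tonelli -/
theorem mx_lam_Lp_key (μ : Measure α) [SFinite μ] {D : Set (Set α)} (hD : D.Finite)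
    (hm : ∀ I ∈ D, MeasurableSet I) (hl : MxLaminar D) (f : α → ℝ≥0∞) (hf : Measurable f)
    {p : ℝ} (hp : 1 < p) :
    ∫⁻ x, mxLam μ D f x ^ p ∂μ ≤
      ENNReal.ofReal (p / (p - 1)) * ∫⁻ y, f y * mxLam μ D f y ^ (p - 1) ∂μ := by
  have hp0 : 0 < p := by linarith
  have hp1 : 0 < p - 1 := by linarith
  have hF : Measurable (mxLam μ D f) := mx_lam_measurable μ hD.countable hm f
  set F := mxLam μ D f with hFdef
  rw [mx_layercake μ F hF.aemeasurable hp0]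
  have h1 : ∀ t ∈ Ioi (0 : ℝ), ENNReal.ofReal (t ^ (p - 1)) * μ {x | ENNReal.ofReal t < F x} ≤
      ∫⁻ y, ENNReal.ofReal (t ^ (p - 2)) *
        (Set.indicator {s : ℝ | ENNReal.ofReal s < F y} (fun _ => (1 : ℝ≥0∞)) t) * f y ∂μ := by
    intro t ht
    have ht0 : (0 : ℝ) < t := ht
    have e1 : ENNReal.ofReal (t ^ (p - 1)) = ENNReal.ofReal (t ^ (p - 2)) * ENNReal.ofReal t := by
      rw [← ENNReal.ofReal_mul (by positivity)]
      congr 1
      have : p - 1 = (p - 2) + 1 := by ring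
      rw [this, Real.rpow_add ht0, Real.rpow_one]
    have hs : MeasurableSet {y | ENNReal.ofReal t < F y} := measurableSet_lt measurable_const hF
    have e2 : ∫⁻ y, ENNReal.ofReal (t ^ (p - 2)) *
        (Set.indicator {s : ℝ | ENNReal.ofReal s < F y} (fun _ => (1 : ℝ≥0∞)) t) * f y ∂μ =
        ENNReal.ofReal (t ^ (p - 2)) * ∫⁻ y in {y | ENNReal.ofReal t < F y}, f y ∂μ := by
      rw [← lintegral_indicator hs, ← lintegral_const_mul' _ _ ENNReal.ofReal_ne_top]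
      refine lintegral_congr fun y => ?_
      rw [mul_assoc]
      congr 1
      by_cases hy : ENNReal.ofReal t < F y
      · rw [indicator_of_mem (by exact hy), indicator_of_mem (by exact hy), one_mul]
      · rw [indicator_of_notMem (by exact hy), indicator_of_notMem (by exact hy), zero_mul]
    rw [e1, e2, mul_assoc]
    exact mul_le_mul_right (mx_lam_weak_finite μ hD hm hl f (ENNReal.ofReal t)) _
  have hset : MeasurableSet {q : ℝ × α | ENNReal.ofReal q.1 < F q.2} :=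
    measurableSet_lt measurable_fst.ennreal_ofReal (hF.comp measurable_snd)
  have hmeas : Measurable (Function.uncurry fun (t : ℝ) (y : α) => ENNReal.ofReal (t ^ (p - 2)) *
      (Set.indicator {s : ℝ | ENNReal.ofReal s < F y} (fun _ => (1 : ℝ≥0∞)) t) * f y) := by
    have h2 : (Function.uncurry fun (t : ℝ) (y : α) => ENNReal.ofReal (t ^ (p - 2)) *
        (Set.indicator {s : ℝ | ENNReal.ofReal s < F y} (fun _ => (1 : ℝ≥0∞)) t) * f y) =
        fun q : ℝ × α => ENNReal.ofReal (q.1 ^ (p - 2)) *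
          (Set.indicator {q : ℝ × α | ENNReal.ofReal q.1 < F q.2} (fun _ => (1 : ℝ≥0∞)) q) * f q.2 := by
      ext q
      rfl
    rw [h2]
    exact ((measurable_fst.pow_const _).ennreal_ofReal.mul (measurable_const.indicator hset)).mul
      (hf.comp measurable_snd)
  have hne : ENNReal.ofReal (p - 1) ≠ 0 := by
    rw [Ne, ENNReal.ofReal_eq_zero, not_le]
    exact hp1
  calc ENNReal.ofReal p * ∫⁻ t in Ioi (0 : ℝ), ENNReal.ofReal (t ^ (p - 1)) *
        μ {x | ENNReal.ofReal t < F x}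
      ≤ ENNReal.ofReal p * ∫⁻ t in Ioi (0 : ℝ), ∫⁻ y, ENNReal.ofReal (t ^ (p - 2)) *
        (Set.indicator {s : ℝ | ENNReal.ofReal s < F y} (fun _ => (1 : ℝ≥0∞)) t) * f y ∂μ :=
        mul_le_mul_right (setLIntegral_mono' measurableSet_Ioi h1) _
    _ = ENNReal.ofReal p * ∫⁻ y, (∫⁻ t in Ioi (0 : ℝ), ENNReal.ofReal (t ^ (p - 2)) *
        (Set.indicator {s : ℝ | ENNReal.ofReal s < F y} (fun _ => (1 : ℝ≥0∞)) t)) * f y ∂μ := by
        rw [lintegral_lintegral_swap hmeas.aemeasurable]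
        congr 1
        refine lintegral_congr fun y => ?_
        rw [lintegral_mul_const'']
        have hsy : MeasurableSet {s : ℝ | ENNReal.ofReal s < F y} :=
          measurableSet_lt measurable_id.ennreal_ofReal measurable_const
        exact ((measurable_id.pow_const _).ennreal_ofReal.mul (measurable_const.indicator hsy)).aemeasurable
    _ = ENNReal.ofReal p * ∫⁻ y, (ENNReal.ofReal (p - 1))⁻¹ * (f y * F y ^ (p - 1)) ∂μ := by
        congr 1
        refine lintegral_congr fun y => ?_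
        have h3 := mx_rpow_eq_lintegral (F y) hp1
        have h5 : p - 1 - 1 = p - 2 := by ring
        rw [h5] at h3
        have h4 : ∫⁻ t in Ioi (0 : ℝ), ENNReal.ofReal (t ^ (p - 2)) *
            (Set.indicator {s : ℝ | ENNReal.ofReal s < F y} (fun _ => (1 : ℝ≥0∞)) t) =
            (ENNReal.ofReal (p - 1))⁻¹ * F y ^ (p - 1) := by
          rw [h3, ← mul_assoc, ENNReal.inv_mul_cancel hne ENNReal.ofReal_ne_top, one_mul]
        rw [h4]
        ring
    _ = ENNReal.ofReal (p / (p - 1)) * ∫⁻ y, f y * F y ^ (p - 1) ∂μ := by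
        rw [lintegral_const_mul' _ _ (ENNReal.inv_ne_top.2 hne), ← mul_assoc,
          ← ENNReal.ofReal_inv_of_pos hp1, ← ENNReal.ofReal_mul hp0.le, div_eq_mul_inv]

/-- the division step -/
theorem mx_doob_algebra {X A C : ℝ≥0∞} {p : ℝ} (hp : 1 < p) (hX : X ≠ ⊤)
    (h : X ≤ C * (A ^ (1 / p) * X ^ (1 - 1 / p))) : X ≤ C ^ p * A := by
  have hp0 : 0 < p := by linarith
  by_cases h0 : X = 0
  · rw [h0]
    exact zero_le
  have hY0 : X ^ (1 - 1 / p) ≠ 0 := by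
    rw [Ne, ENNReal.rpow_eq_zero_iff]
    rintro (⟨h1, -⟩ | ⟨h1, -⟩)
    · exact h0 h1
    · exact hX h1
  have hq : 0 ≤ 1 - 1 / p := by
    rw [sub_nonneg, div_le_one hp0]
    exact hp.le
  have hYt : X ^ (1 - 1 / p) ≠ ⊤ := ENNReal.rpow_ne_top_of_nonneg hq hX
  have e1 : X = X ^ (1 / p) * X ^ (1 - 1 / p) := by
    rw [← ENNReal.rpow_add _ _ h0 hX]
    have : 1 / p + (1 - 1 / p) = 1 := by ring
    rw [this, ENNReal.rpow_one]
  have h2 : X ^ (1 / p) * X ^ (1 - 1 / p) ≤ (C * A ^ (1 / p)) * X ^ (1 - 1 / p) := by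
    rw [← e1, mul_assoc]
    exact h
  have h3 : X ^ (1 / p) ≤ C * A ^ (1 / p) := (ENNReal.mul_le_mul_iff_left hY0 hYt).1 h2
  have h4 := ENNReal.rpow_le_rpow h3 hp0.le
  rw [← ENNReal.rpow_mul, ENNReal.mul_rpow_of_nonneg _ _ hp0.le, ← ENNReal.rpow_mul,
    one_div_mul_cancel hp0.ne', ENNReal.rpow_one, ENNReal.rpow_one] at h4
  exact h4

theorem mx_lam_Lp_finite_meas (μ : Measure α) [SFinite μ] {D : Set (Set α)} (hD : D.Finite)
    (hm : ∀ I ∈ D, MeasurableSet I) (hl : MxLaminar D) (f : α → ℝ≥0∞) (hf : Measurable f)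
    {p : ℝ} (hp : 1 < p) :
    ∫⁻ x, mxLam μ D f x ^ p ∂μ ≤ ENNReal.ofReal (p / (p - 1)) ^ p * ∫⁻ x, f x ^ p ∂μ := by
  have hp0 : 0 < p := by linarith
  have hp1 : 0 < p - 1 := by linarith
  by_cases hA : ∫⁻ x, f x ^ p ∂μ = ⊤
  · rw [hA, ENNReal.mul_top]
    · exact le_top
    · have : ENNReal.ofReal (p / (p - 1)) ≠ 0 := by
        rw [Ne, ENNReal.ofReal_eq_zero, not_le]
        positivity
      rw [Ne, ENNReal.rpow_eq_zero_iff]
      rintro (⟨h1, -⟩ | ⟨h1, -⟩)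
      · exact this h1
      · exact ENNReal.ofReal_ne_top h1
  have hF : Measurable (mxLam μ D f) := mx_lam_measurable μ hD.countable hm f
  apply mx_doob_algebra hp (mx_lam_Lp_ne_top μ hD hm f hp hA)
  refine (mx_lam_Lp_key μ hD hm hl f hf hp).trans (mul_le_mul_right ?_ _)
  have hpq := Real.HolderConjugate.conjExponent hp
  have h1 := ENNReal.lintegral_mul_le_Lp_mul_Lq μ hpq hf.aemeasurable (hF.pow_const (p - 1)).aemeasurable
  have e1 : ∀ x, (mxLam μ D f x ^ (p - 1)) ^ Real.conjExponent p = mxLam μ D f x ^ p := by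
    intro x
    rw [← ENNReal.rpow_mul]
    congr 1
    unfold Real.conjExponent
    field_simp
  have e2 : 1 / Real.conjExponent p = 1 - 1 / p := by
    unfold Real.conjExponent
    field_simp
  simp only [e1, e2] at h1
  exact h1

theorem mx_lam_Lp_finite (μ : Measure α) [SFinite μ] {D : Set (Set α)} (hD : D.Finite)
    (hm : ∀ I ∈ D, MeasurableSet I) (hl : MxLaminar D) (f : α → ℝ≥0∞) (hf : AEMeasurable f μ)
    {p : ℝ} (hp : 1 < p) :
    ∫⁻ x, mxLam μ D f x ^ p ∂μ ≤ ENNReal.ofReal (p / (p - 1)) ^ p * ∫⁻ x, f x ^ p ∂μ := by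
  have h := mx_lam_Lp_finite_meas μ hD hm hl (hf.mk f) hf.measurable_mk hp
  have h1 : ∫⁻ x, f x ^ p ∂μ = ∫⁻ x, hf.mk f x ^ p ∂μ := by
    refine lintegral_congr_ae ?_
    filter_upwards [hf.ae_eq_mk] with x hx
    rw [hx]
  rw [mx_lam_congr_ae μ D hf.ae_eq_mk, h1]
  exact h

/-- Doob's maximal inequality. -/
theorem mx_lam_Lp (μ : Measure α) [SFinite μ] {D : Set (Set α)} (hD : D.Countable)
    (hm : ∀ I ∈ D, MeasurableSet I) (hl : MxLaminar D) (f : α → ℝ≥0∞) (hf : AEMeasurable f μ)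
    {p : ℝ} (hp : 1 < p) :
    ∫⁻ x, mxLam μ D f x ^ p ∂μ ≤ ENNReal.ofReal (p / (p - 1)) ^ p * ∫⁻ x, f x ^ p ∂μ := by
  have hp0 : 0 < p := by linarith
  obtain ⟨Dn, hmono, hfin, hsub, hU⟩ := mx_lam_exhaust hD
  have e1 : ∀ x, mxLam μ D f x ^ p = ⨆ n, mxLam μ (Dn n) f x ^ p := by
    intro x
    rw [hU, mx_lam_iSup]
    exact (ENNReal.orderIsoRpow p hp0).map_iSup _
  simp only [e1]
  rw [lintegral_iSup
    (fun n => (mx_lam_measurable μ (hfin n).countable (fun I hI => hm I (hsub n hI)) f).pow_const p)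
    (fun m n h x => ENNReal.rpow_le_rpow (mx_lam_mono_family μ (hmono h) f x) hp0.le)]
  exact iSup_le fun n =>
    mx_lam_Lp_finite μ (hfin n) (fun I hI => hm I (hsub n hI)) (hl.mono (hsub n)) f hf hp

theorem mx_lam_L2 (μ : Measure α) [SFinite μ] {D : Set (Set α)} (hD : D.Countable)
    (hm : ∀ I ∈ D, MeasurableSet I) (hl : MxLaminar D) (f : α → ℝ≥0∞) (hf : AEMeasurable f μ) :
    ∫⁻ x, mxLam μ D f x ^ 2 ∂μ ≤ 4 * ∫⁻ x, f x ^ 2 ∂μ := by
  have h := mx_lam_Lp μ hD hm hl f hf (p := 2) (by norm_num)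
  simp only [ENNReal.rpow_two] at h
  have e : ENNReal.ofReal (2 / (2 - 1)) ^ 2 = 4 := by
    have : (2 : ℝ) / (2 - 1) = 2 := by norm_num
    rw [this]
    norm_num
  rw [e] at h
  exact h

end Claimed.Agent.R258
end

/- ===== packed: Claimed.Agent.R258.CellApi.MaxD ===== -/
section
/-
Row 258, block [CELL] (architect helper132).  API OF THE DYADIC CELLS, file 4: THE DYADIC MAXIMAL FUNCTION ON A ROOT.
`cellMax R f x = sup { average of f on I : x ∈ I ≤ R }` = helper192's `mxLam volume (cellFam R) f x` (Max/Defs.lean): weak type (1,1) with constant 1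
(localised), Doob's inequality in `L^p`, constant `4` in `L^2` (Max/Lam.lean, Max/LamLp.lean).
RULES FOR THE OWNER OF THE LEAF: fill the `sorry`s IN PLACE (auxiliary lemmas above, prefix `cell_`); do not change a statement without telling
helper132.   LEAF: P-CELL-J = this file.
-/
set_option autoImplicit false

open MeasureTheory Finset
open scoped ENNReal

namespace Claimed.Agent.R258

/-- the intervals of the cells below `R` -/
def cellFam (R : Cell) : Set (Set ℝ) := {E | ∃ I : Cell, I ≤ R ∧ I.set = E}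

/-- the intervals of all cells -/
def cellFamAll : Set (Set ℝ) := Set.range Cell.set

theorem cell_fam_subset (R : Cell) : cellFam R ⊆ cellFamAll := by
  rintro E ⟨I, -, rfl⟩
  exact ⟨I, rfl⟩

theorem cell_famAll_countable : cellFamAll.Countable := by
  exact Set.countable_range Cell.set

theorem cell_famAll_measurable : ∀ E ∈ cellFamAll, MeasurableSet E := by
  rintro E ⟨I, rfl⟩
  exact cell_measurableSet I

theorem cell_famAll_laminar : MxLaminar cellFamAll := by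
  rintro _ ⟨I, rfl⟩ _ ⟨J, rfl⟩
  rcases cell_nested_or_disjoint I J with h | h | h
  · exact Or.inl (cell_set_subset h)
  · exact Or.inr (Or.inl (cell_set_subset h))
  · exact Or.inr (Or.inr h)

theorem cell_fam_countable (R : Cell) : (cellFam R).Countable := cell_famAll_countable.mono (cell_fam_subset R)

theorem cell_fam_measurable (R : Cell) : ∀ E ∈ cellFam R, MeasurableSet E :=
  fun E hE => cell_famAll_measurable E (cell_fam_subset R hE)

theorem cell_fam_laminar (R : Cell) : MxLaminar (cellFam R) :=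
  fun I hI J hJ => cell_famAll_laminar I (cell_fam_subset R hI) J (cell_fam_subset R hJ)

/-- THE DYADIC MAXIMAL FUNCTION ON THE ROOT `R` (zero outside `R`) -/
noncomputable def cellMax (R : Cell) (f : ℝ → ℝ≥0∞) (x : ℝ) : ℝ≥0∞ := mxLam volume (cellFam R) f x

/-- the average of `f` on a cell -/
noncomputable def cellAvg (I : Cell) (f : ℝ → ℝ≥0∞) : ℝ≥0∞ := (ENNReal.ofReal I.len)⁻¹ * ∫⁻ y in I.set, f y

theorem cell_avg_eq (I : Cell) (f : ℝ → ℝ≥0∞) :
    cellAvg I f = (volume I.set)⁻¹ * ∫⁻ y in I.set, f y := by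
  rw [cellAvg, cell_volume_set]

theorem cell_max_eq_iSup (R : Cell) (f : ℝ → ℝ≥0∞) (x : ℝ) :
    cellMax R f x = ⨆ (I : Cell) (_ : I ≤ R) (_ : x ∈ I.set), cellAvg I f := by
  apply le_antisymm
  · rw [cellMax, mx_lam_le_iff]
    rintro E ⟨I, hI, rfl⟩ hx
    rw [← cell_avg_eq]
    exact le_iSup₂_of_le I hI (le_iSup_of_le hx le_rfl)
  · refine iSup_le fun I => iSup_le fun hI => iSup_le fun hx => ?_
    rw [cell_avg_eq]
    exact mx_lam_avg_le volume (cellFam R) f ⟨I, hI, rfl⟩ hx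

theorem cell_avg_le_max {R I : Cell} (hI : I ≤ R) (f : ℝ → ℝ≥0∞) {x : ℝ} (hx : x ∈ I.set) :
    cellAvg I f ≤ cellMax R f x := by
  rw [cell_avg_eq]
  exact mx_lam_avg_le volume (cellFam R) f ⟨I, hI, rfl⟩ hx

theorem cell_max_le_iff (R : Cell) (f : ℝ → ℝ≥0∞) (x : ℝ) (c : ℝ≥0∞) :
    cellMax R f x ≤ c ↔ ∀ I : Cell, I ≤ R → x ∈ I.set → cellAvg I f ≤ c := by
  rw [cellMax, mx_lam_le_iff]
  constructor
  · intro h I hI hx
    rw [cell_avg_eq]
    exact h _ ⟨I, hI, rfl⟩ hx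
  · rintro h E ⟨I, hI, rfl⟩ hx
    rw [← cell_avg_eq]
    exact h I hI hx

theorem cell_lt_max_iff (R : Cell) (f : ℝ → ℝ≥0∞) (x : ℝ) (c : ℝ≥0∞) :
    c < cellMax R f x ↔ ∃ I : Cell, I ≤ R ∧ x ∈ I.set ∧ c < cellAvg I f := by
  rw [cellMax, mx_lt_lam_iff]
  constructor
  · rintro ⟨E, ⟨I, hI, rfl⟩, hx, hc⟩
    exact ⟨I, hI, hx, by rw [cell_avg_eq]; exact hc⟩
  · rintro ⟨I, hI, hx, hc⟩
    exact ⟨I.set, ⟨I, hI, rfl⟩, hx, by rw [← cell_avg_eq]; exact hc⟩

theorem cell_max_eq_zero {R : Cell} (f : ℝ → ℝ≥0∞) {x : ℝ} (hx : x ∉ R.set) : cellMax R f x = 0 := by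
  refine mx_lam_eq_zero_of_notMem volume (cellFam R) f ?_
  rintro E ⟨I, hI, rfl⟩ hxI
  exact hx (cell_set_subset hI hxI)

theorem cell_max_measurable (R : Cell) (f : ℝ → ℝ≥0∞) : Measurable (cellMax R f) := by
  exact mx_lam_measurable volume (cell_fam_countable R) (cell_fam_measurable R) f

theorem cell_max_le_of_le_on (R : Cell) {f g : ℝ → ℝ≥0∞} (h : ∀ y ∈ R.set, f y ≤ g y) (x : ℝ) :
    cellMax R f x ≤ cellMax R g x := by
  rw [cell_max_le_iff]
  intro I hI hx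
  refine le_trans ?_ (cell_avg_le_max hI g hx)
  unfold cellAvg
  exact mul_le_mul' le_rfl
    (setLIntegral_mono' (cell_measurableSet I) fun y hy => h y (cell_set_subset hI hy))

/-- only the values of `f` on `R` matter -/
theorem cell_max_indicator (R : Cell) (f : ℝ → ℝ≥0∞) : cellMax R (R.set.indicator f) = cellMax R f := by
  funext x
  apply le_antisymm
  · exact cell_max_le_of_le_on R (fun y hy => by rw [Set.indicator_of_mem hy]) x
  · exact cell_max_le_of_le_on R (fun y hy => by rw [Set.indicator_of_mem hy]) x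

theorem cell_max_mono (R : Cell) {f g : ℝ → ℝ≥0∞} (h : ∀ y ∈ R.set, f y ≤ g y) (x : ℝ) :
    cellMax R f x ≤ cellMax R g x := by
  exact cell_max_le_of_le_on R h x

/-- the dyadic maximal function is dominated by the uncentered Hardy-Littlewood maximal function, up to the factor `2`
(a half-open cell is inside open intervals of almost the same length; the factor `2` is generous) -/
theorem cell_max_le_mxM (R : Cell) (f : ℝ → ℝ≥0∞) (x : ℝ) : cellMax R f x ≤ 2 * mxM f x := by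
  rw [cell_max_le_iff]
  intro I _ hx
  have hlen := cell_len_pos I
  have hx' : x ∈ Set.Ioo (I.left - I.len) I.right := ⟨by linarith [hx.1], hx.2⟩
  have h1 := mx_avg_le volume f hx'
  have hvol : volume (Set.Ioo (I.left - I.len) I.right) = 2 * ENNReal.ofReal I.len := by
    rw [Real.volume_Ioo, cell_right_eq]
    have : I.left + I.len - (I.left - I.len) = 2 * I.len := by ring
    rw [this, ENNReal.ofReal_mul (by norm_num)]
    norm_num
  have hsub : I.set ⊆ Set.Ioo (I.left - I.len) I.right := fun y hy => ⟨by linarith [hy.1], hy.2⟩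
  have h0 : ENNReal.ofReal I.len ≠ 0 := by
    rw [Ne, ENNReal.ofReal_eq_zero, not_le]
    exact hlen
  calc cellAvg I f = 2 * ((2 * ENNReal.ofReal I.len)⁻¹ * ∫⁻ y in I.set, f y) := by
        unfold cellAvg
        rw [ENNReal.mul_inv (Or.inl (by norm_num)) (Or.inl (by norm_num)), ← mul_assoc, ← mul_assoc,
          ENNReal.mul_inv_cancel (by norm_num) (by norm_num), one_mul]
    _ ≤ 2 * ((2 * ENNReal.ofReal I.len)⁻¹ * ∫⁻ y in Set.Ioo (I.left - I.len) I.right, f y) := by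
        gcongr
    _ ≤ 2 * mxM f x := by
        rw [← hvol]
        exact mul_le_mul' le_rfl h1

/-- **weak type (1,1)**, localised, constant `1` -/
theorem cell_max_weak (R : Cell) (f : ℝ → ℝ≥0∞) (c : ℝ≥0∞) :
    c * volume {x | c < cellMax R f x} ≤ ∫⁻ y in {x | c < cellMax R f x}, f y :=
  mx_lam_weak volume (cell_fam_countable R) (cell_fam_measurable R) (cell_fam_laminar R) f c

theorem cell_max_weak' (R : Cell) (f : ℝ → ℝ≥0∞) (c : ℝ≥0∞) :
    c * volume {x | c < cellMax R f x} ≤ ∫⁻ y in R.set, f y := by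
  refine (cell_max_weak R f c).trans (lintegral_mono_set ?_)
  intro x hx
  by_contra hxR
  have hx' : c < cellMax R f x := hx
  rw [cell_max_eq_zero f hxR] at hx'
  exact not_lt_bot hx'

/-- **Doob's inequality** -/
theorem cell_max_Lp (R : Cell) (f : ℝ → ℝ≥0∞) (hf : AEMeasurable f volume) {p : ℝ} (hp : 1 < p) :
    ∫⁻ x, cellMax R f x ^ p ≤ ENNReal.ofReal (p / (p - 1)) ^ p * ∫⁻ x in R.set, f x ^ p := by
  have hp0 : 0 < p := by linarith
  have h := mx_lam_Lp volume (cell_fam_countable R) (cell_fam_measurable R) (cell_fam_laminar R)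
    (R.set.indicator f) (hf.indicator (cell_measurableSet R)) hp
  have e1 : mxLam volume (cellFam R) (R.set.indicator f) = cellMax R f := cell_max_indicator R f
  have e2 : ∫⁻ x, R.set.indicator f x ^ p = ∫⁻ x in R.set, f x ^ p := by
    rw [← lintegral_indicator (cell_measurableSet R)]
    refine lintegral_congr fun x => ?_
    by_cases hx : x ∈ R.set
    · rw [Set.indicator_of_mem hx, Set.indicator_of_mem hx]
    · rw [Set.indicator_of_notMem hx, Set.indicator_of_notMem hx, ENNReal.zero_rpow_of_pos hp0]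
  rw [e1, e2] at h
  exact h

theorem cell_max_L2 (R : Cell) (f : ℝ → ℝ≥0∞) (hf : AEMeasurable f volume) :
    ∫⁻ x, cellMax R f x ^ 2 ≤ 4 * ∫⁻ x in R.set, f x ^ 2 := by
  have h := cell_max_Lp R f hf (p := 2) (by norm_num)
  simp only [ENNReal.rpow_two] at h
  have e : ENNReal.ofReal (2 / (2 - 1)) ^ 2 = 4 := by
    have : (2 : ℝ) / (2 - 1) = 2 := by norm_num
    rw [this]
    norm_num
  rw [e] at h
  exact h

/-- length-weighted sums over an antichain of averages are controlled by the maximal function: for an antichain `A` below `R`,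
`∑_A |I| Φ(avg_I f) ≤ ∫_R Φ(M f)` for the powers `Φ(t) = t^p` -/
theorem cell_sum_avg_pow_le {R : Cell} {A : Finset Cell} (hA : IsAntichain (· ≤ ·) (A : Set Cell))
    (hle : ∀ I ∈ A, I ≤ R) (f : ℝ → ℝ≥0∞) {p : ℝ} (hp : 0 ≤ p) :
    ∑ I ∈ A, ENNReal.ofReal I.len * cellAvg I f ^ p ≤ ∫⁻ x in R.set, cellMax R f x ^ p := by
  refine le_trans (Finset.sum_le_sum fun I hI => ?_)
    (cell_sum_lintegral_antichain_le hA hle fun x => cellMax R f x ^ p)
  calc ENNReal.ofReal I.len * cellAvg I f ^ p = ∫⁻ _ in I.set, cellAvg I f ^ p := by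
        rw [setLIntegral_const, cell_volume_set, mul_comm]
    _ ≤ ∫⁻ y in I.set, cellMax R f y ^ p :=
        setLIntegral_mono' (cell_measurableSet I) fun y hy =>
          ENNReal.rpow_le_rpow (cell_avg_le_max (hle I hI) f hy) hp

end Claimed.Agent.R258
end

/- ===== packed: Claimed.Agent.R258.S4b.Defs ===== -/
section
/-
Row 258 (S0498), block [S4b] (architect helper99): charts.tex l.693-end
(continuous inverse theorem, bounded-input decomposition, von Neumann bound, LOCAL DETECTION = Lemma 4.12).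

ONLY EXPORT of the block: `s4b_detection` (file `S4b/Det.lean`).

DEVIATIONS FROM THE PAPER (all internal to the block, they shorten the proof):
* no circle `T_16`: cube integrals are taken over `ℝ⁴`, and only of BOUNDED functions supported in a cell;
* the seminorm property of `U³`, the mixed `L²` cube bound and the `L²` closure (Lemma 4.8) are NOT needed: in the
  Hahn-Banach decomposition the "uniform part" is measured by the dual seminorm `sup |H_I(R,u,b,c)|` (`s4b_StarLe`);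
* the kernel is removed in the von Neumann bound by a step approximation in the two slots which do not carry `g`
  (no Fourier series); this costs a power: `|H_I| ≤ K ‖R‖₂ (N² U + 1/N)`;
* Theorem 4.7 (Leng-Sah-Sawhney) is replaced by the bracket form `s4b_U3Target` proved by crew [U3] (helper52).
-/
set_option autoImplicit false
open MeasureTheory
open scoped ENNReal ContDiff ComplexConjugate

namespace Claimed.Agent.R258

/-- quasipolynomial budget `exp (C (1+x)^C)`; `x` = sum of the logarithms of the parameters -/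
noncomputable def s4b_qp (C : ℕ) (x : ℝ) : ℝ := Real.exp ((C : ℝ) * (1 + x) ^ C)

/-- signed fractional part `t - round t ∈ [-1/2, 1/2]` -/
noncomputable def s4b_fr (t : ℝ) : ℝ := t - (round t : ℝ)

/-- the eight-fold cube product `∏_ω C^{|ω|} f(x + ω·h)` -/
def s4b_cubeProd {G : Type*} [Add G] (f : G → ℂ) (x h₁ h₂ h₃ : G) : ℂ :=
  f x * conj (f (x + h₁)) * conj (f (x + h₂)) * conj (f (x + h₃)) *
    f (x + h₁ + h₂) * f (x + h₁ + h₃) * f (x + h₂ + h₃) * conj (f (x + h₁ + h₂ + h₃))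

/-- raw cube sum of a function on `ℤ` supported in `[0,L)` -/
noncomputable def s4b_cubeSum (L : ℕ) (f : ℤ → ℂ) : ℂ :=
  ∑ x ∈ Finset.Ico (0 : ℤ) L, ∑ h₁ ∈ Finset.Ioo (-(L : ℤ)) L, ∑ h₂ ∈ Finset.Ioo (-(L : ℤ)) L,
    ∑ h₃ ∈ Finset.Ioo (-(L : ℤ)) L, s4b_cubeProd f x h₁ h₂ h₃

/-- raw cube integral over `ℝ⁴` (iterated integral) -/
noncomputable def s4b_cubeInt (g : ℝ → ℂ) : ℂ :=
  ∫ x : ℝ, ∫ h₁ : ℝ, ∫ h₂ : ℝ, ∫ h₃ : ℝ, s4b_cubeProd g x h₁ h₂ h₃

/-- `‖g‖_{U(I)}^8`, normalized: `|I|^{-4} Re (cube integral of 1_I g)` (the cube integral is a nonnegative real number, but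
this fact is never needed) -/
noncomputable def s4b_U8 (I : Cell) (g : ℝ → ℂ) : ℝ :=
  (I.len ^ 4)⁻¹ * (s4b_cubeInt (I.set.indicator g)).re

/-- normalized moment `⨍_I R \bar φ` -/
noncomputable def s4b_mom (I : Cell) (R φ : ℝ → ℂ) : ℂ :=
  ((I.len)⁻¹ : ℝ) * ∫ y in I.set, R y * conj (φ y)

/-- the bracket phase of the `U³` interface: `λ n² + β n + ∑_j α_j (n - y) {θ_j (n - y)}` -/
noncomputable def s4b_brPhase {d : ℕ} (θ α : Fin d → ℝ) (lam β : ℝ) (y n : ℤ) : ℝ :=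
  lam * (n : ℝ) ^ 2 + β * n + ∑ j, α j * ((n : ℝ) - y) * s4b_fr (θ j * ((n : ℝ) - y))

/-- **Interface with crew [U3]** (helper52, final form of msg 10238): the quasipolynomial `U³` inverse theorem on `[0,L)` in
bracket form. -/
def s4b_U3Target : Prop :=
  ∃ C : ℕ, ∀ (L : ℕ) (δ : ℝ) (f : ℤ → ℂ), 0 < δ → δ ≤ 1 / 2 → 1 ≤ L → (∀ n, ‖f n‖ ≤ 1) →
    (∀ n, f n ≠ 0 → 0 ≤ n ∧ n < (L : ℤ)) → δ ^ 8 * (L : ℝ) ^ 4 ≤ (s4b_cubeSum L f).re →
    ∃ (d : ℕ) (θ α : Fin d → ℝ) (y : ℤ) (lam β ρ κ : ℝ),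
      (d : ℝ) ≤ (C : ℝ) * (1 + Real.log (1 / δ)) ^ C ∧
      (s4b_qp C (Real.log (1 / δ)))⁻¹ ≤ ρ ∧ ρ ≤ 1 / 4 ∧ (s4b_qp C (Real.log (1 / δ)))⁻¹ ≤ κ ∧
      ∀ χ : (Fin d → ℝ) → ℝ, (∀ t, 0 ≤ χ t ∧ χ t ≤ 1) → (∀ t, (∀ j, |t j| ≤ ρ * (1 - κ)) → χ t = 1) →
        (∀ t, (∃ j, ρ < |t j|) → χ t = 0) →
        (L : ℝ) * (s4b_qp C (Real.log (1 / δ)))⁻¹ ≤
          ‖∑ n ∈ Finset.Ico (0 : ℤ) L, f n * (χ (fun j => s4b_fr (θ j * ((n : ℝ) - y))) : ℂ) *
              ee (-(s4b_brPhase θ α lam β y n))‖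

/-- square integrability on the cell -/
def s4b_L2 (I : Cell) (f : ℝ → ℂ) : Prop := MemLp f 2 (volume.restrict I.set)

/-- `‖u‖_* ≤ τ`: the dual seminorm of the form `H_I` with the fixed kernel `w`: `u` in the slot `i`, an `L²(I)` function in
the slot `j`, functions bounded by one in the two other slots. -/
def s4b_StarLe (I : Cell) (w : ℝ × ℝ → ℂ) (u : ℝ → ℂ) (τ : ℝ) : Prop :=
  ∀ (i j : Fin 4) (z : Fin 4 → ℝ → ℂ), i ≠ j → z i = u → (∀ k, Measurable (z k)) → s4b_L2 I (z j) →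
    (∀ k, k ≠ i → k ≠ j → SupLe I (z k) 1) → ‖form I w z‖ ≤ τ * nnorm 2 I (z j)

/-- **Interface with block [S4a]** (end of the proof of Lemma 4.12 = Lemmas 4.5 + 4.6): two bounded atoms in two slots, two
`L²(I)` functions in the others; a large form forces a large atom moment of the first `L²` function.
`σ 0` = slot of `R`, `σ 1, σ 2` = slots of the atoms, `σ 3` = slot of `v`. -/
def s4b_PairDetect (c0 C0 : ℝ) : Prop :=
  ∃ C : ℕ, ∀ (H C1 δ : ℝ) (I : Cell) (w : ℝ × ℝ → ℂ) (σ : Equiv.Perm (Fin 4)) (z : Fin 4 → ℝ → ℂ) (a b : Chart),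
    1 ≤ C1 → 0 < δ → δ < 1 / 2 → Admissible c0 C0 I w → a.Bdd → b.Bdd → a.Cplx H → b.Cplx H →
    z (σ 1) = a.eval → z (σ 2) = b.eval → Measurable (z (σ 0)) → Measurable (z (σ 3)) →
    s4b_L2 I (z (σ 0)) → s4b_L2 I (z (σ 3)) → nnorm 2 I (z (σ 0)) ≤ C1 → nnorm 2 I (z (σ 3)) ≤ 1 →
    δ < ‖form I w z‖ →
    ∃ φ : Chart, φ.Bdd ∧ φ.Cplx (s4b_qp C (Real.log H + Real.log C1 + Real.log (1 / δ))) ∧
      (s4b_qp C (Real.log H + Real.log C1 + Real.log (1 / δ)))⁻¹ ≤ ‖s4b_mom I (z (σ 0)) φ.eval‖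

end Claimed.Agent.R258
end

/- ===== packed: Claimed.Agent.R258.S4b.Gev ===== -/
section
/-
Row 258, block [S4b] (architect helper99).  FILE Gev: the interface of S4b with block [GEV] (helper252, `R258/Gev/*`, prefix `gev_`).
S4b uses the calculus of `GevOn s B A f S` (`‖D^n f x‖ ≤ B A^n (n!)^s` on `S`) directly: `gev_mul`, `gev_prod`, `gev_sub`, `gev_mono`, `gev_comp_affine`, `gev_comp_proj`, `gev_ofReal`,
`gev_linform`, `gev_quadform`, `gev_ee_comp`, `gev_of_closed`, `gev_to_chart`, `gev_of_cplx`, and `gev_ee_add`, `gev_ee_norm`, `gev_ee_int`, `gev_ee_neg`.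
-/
set_option autoImplicit false
open MeasureTheory
open scoped ENNReal ContDiff ComplexConjugate Nat

namespace Claimed.Agent.R258

/-- a Gevrey-2 step function with constant `A` -/
structure s4b_IsStep (S : ℝ → ℝ) (A : ℝ) : Prop where
  A_ge : 1 ≤ A
  mono : Monotone S
  zero : ∀ t, t ≤ 0 → S t = 0
  one : ∀ t, 1 ≤ t → S t = 1
  gev : Gev 2 1 A S

/-- **The Gevrey-2 step function** (block [GEV]). -/
theorem s4b_gevStep : ∃ (S : ℝ → ℝ) (A : ℝ), s4b_IsStep S A :=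
  ⟨gevStep, 6000, by norm_num, gev_step_mono, fun _ h => gev_step_zero h, fun _ h => gev_step_one h, gev_step⟩

theorem s4b_IsStep.nonneg {S : ℝ → ℝ} {A : ℝ} (h : s4b_IsStep S A) (t : ℝ) : 0 ≤ S t := by
  have := h.mono (min_le_left t 0)
  rw [h.zero _ (min_le_right t 0)] at this
  exact this

theorem s4b_IsStep.le_one {S : ℝ → ℝ} {A : ℝ} (h : s4b_IsStep S A) (t : ℝ) : S t ≤ 1 := by
  have := h.mono (le_max_left t 1)
  rw [h.one _ (le_max_right t 1)] at this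
  exact this

/-- from Gevrey-2 bounds on a closed set containing the support to the derivative clause of `Chart.Cplx` -/
theorem s4b_cplx_deriv_of_gev {ι : Type*} [Fintype ι] {S : Set (ι → ℝ)} {A B H : ℝ} {f : (ι → ℝ) → ℂ} (hf : GevOn 2 B A f S)
    (hSc : IsClosed S) (hS : ∀ x, f x ≠ 0 → x ∈ S) (hH : 1 ≤ H) (hA0 : 0 ≤ A) (hB0 : 0 ≤ B) (hA : A ≤ H) (hB : B ≤ H) :
    ∀ (n : ℕ) (x : ι → ℝ),
      ‖iteratedFDeriv ℝ n f x‖ ≤ H ^ (cGev * ((n : ℝ) + 1)) * ((n : ℝ) + 1) ^ (cGev * ((n : ℝ) + 1)) := by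
  intro n x
  have hg : Gev 2 B A f := gev_of_closed hf hB0 hA0 hSc hS
  have hH10 : H ≤ H ^ 10 := by
    calc H = H ^ 1 := (pow_one H).symm
      _ ≤ H ^ 10 := pow_le_pow_right₀ hH (by norm_num)
  exact gev_to_chart hg (by norm_num) hH hA0 (hA.trans hH10) (hB.trans hH10) (Set.mem_univ x) n

end Claimed.Agent.R258
end

/- ===== packed: Claimed.Agent.R258.S4a.Defs ===== -/
section
/-
Row 258 (S0498), block [S4a] (architect helper78): charts.tex l.1-130 and l.343-692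
(Lemma 4.2 chart operations, Lemma 4.4 chart expansion, Lemma 4.5 progression separation, Lemma 4.6 single-scale separation).
Lemma 4.3 (Weyl alternative) is block [Weyl] of helper197.

DESIGN (deviations from the paper, all of them simplifications):
* Everything is done for the BRACKET SUM `s4a_br C chi u = ∑_n chi(u-n) e(uᵀ C (u-n))`, a function of `u ∈ ℝ^ι` (`ι` any finite type).
  A chart atom is `unit * e(lam y² + bet y) * s4a_br C chi (th y)` (`s4a_eval_eq`, by `rfl`); a multivariable chart is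
  `e(zᵀΛz + bᵀz) * s4a_br C chi (V z)`.  No statement of this block mentions `V`, `Λ` or the number `k` of variables.
* `s4a_mk` turns data indexed by an arbitrary finite type into a `Chart` (index `Fin (card ι)`).
* Gevrey class: `s4a_Gev S A B f` : `‖D^m f x‖ ≤ B A^m (m+1)^(10(m+1))` on `S` (the class of `Chart.Cplx`, `cGev = 10`); it contains the
  Gevrey-2 class `s4b_Gev` of S4b/Gev.lean and is closed under products (`s4a_w_mul_le`).
* Lemma 4.4: for a rational orthogonal projection `Pf` with `Pfᵀ (C - Cᵀ) Pf = 0`,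
  `e(-quad(u)) s4a_br C chi u = ∑_{ℓ ∈ ℤ^ι} a_ℓ e(ℓ·u / R)` on `{‖(1-Pf) u‖_∞ ≤ B}`: ONE Fourier series in `card ι` variables, frequencies `ℓ/R`,
  the coefficients depend only on `(C, chi, Pf, B)` (NOT on the scale / on `V`): no cutoffs, no families `(N,a)`, no envelopes.
* quasipolynomial bounds: `s4b_qp C x = exp (C (1+x)^C)`, `C : ℕ`, `x` = sum of the logarithms.
-/
set_option autoImplicit false
open MeasureTheory
open scoped ENNReal ContDiff ComplexConjugate Nat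

namespace Claimed.Agent.R258

/-! ## Linear algebra with rational matrices acting on real vectors -/

/-- `uᵀ C w` -/
noncomputable def s4a_bil {ι : Type} [Fintype ι] (C : Matrix ι ι ℚ) (u w : ι → ℝ) : ℝ :=
  ∑ i, ∑ j, u i * ((C i j : ℚ) : ℝ) * w j

/-- `P u` -/
noncomputable def s4a_mv {ι : Type} [Fintype ι] (P : Matrix ι ι ℚ) (u : ι → ℝ) : ι → ℝ :=
  fun i => ∑ j, ((P i j : ℚ) : ℝ) * u j

/-- `σ · u` -/
noncomputable def s4a_dot {ι : Type} [Fintype ι] (σ u : ι → ℝ) : ℝ := ∑ i, σ i * u i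

/-- all entries have height at most `H` -/
def s4a_HtLe {ι κ : Type} (C : Matrix ι κ ℚ) (H : ℝ) : Prop := ∀ i j, (qHeight (C i j) : ℝ) ≤ H

/-- rational orthogonal projection -/
def s4a_IsProj {ι : Type} [Fintype ι] (P : Matrix ι ι ℚ) : Prop := P.transpose = P ∧ P * P = P

/-- `A|_{U × U} = 0`, `A = C - Cᵀ`, `U` = range of `P` -/
def s4a_Iso {ι : Type} [Fintype ι] (C P : Matrix ι ι ℚ) : Prop := P.transpose * (C - C.transpose) * P = 0

/-- the quadratic form `½ uᵀ C_sy u + (P_f u)ᵀ C_sk (P_s u)`; with `u = V z` it is `zᵀ (Λ_* - Λ) z` of display (2) -/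
noncomputable def s4a_quad {ι : Type} [Fintype ι] [DecidableEq ι] (C P : Matrix ι ι ℚ) (u : ι → ℝ) : ℝ :=
  s4a_bil C u u / 2 + (s4a_bil C (s4a_mv P u) (s4a_mv (1 - P) u) - s4a_bil C (s4a_mv (1 - P) u) (s4a_mv P u)) / 2

/-! ## The bracket sum -/

/-- `∑_{n ∈ ℤ^ι} chi(u - n) e(uᵀ C (u - n))` -/
noncomputable def s4a_br {ι : Type} [Fintype ι] (C : Matrix ι ι ℚ) (chi : (ι → ℝ) → ℂ) (u : ι → ℝ) : ℂ :=
  ∑' n : ι → ℤ, chi (fun i => u i - (n i : ℝ)) * ee (s4a_bil C u fun i => u i - (n i : ℝ))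

theorem s4a_eval_eq (a : Chart) (y : ℝ) :
    a.eval y = a.unit * ee (a.lam * y ^ 2 + a.bet * y) * s4a_br a.C a.chi (fun i => a.th i * y) := rfl

/-! ## Gevrey classes -/

/-- the weight `(m+1)^(10(m+1))` -/
noncomputable def s4a_w (m : ℕ) : ℝ := ((m : ℝ) + 1) ^ (10 * (m + 1))

/-- `‖D^m f(x)‖ ≤ B A^m (m+1)^(10(m+1))` for `x ∈ S` -/
structure s4a_Gev {E : Type*} [NormedAddCommGroup E] [NormedSpace ℝ E] (S : Set E) (A B : ℝ) (f : E → ℂ) : Prop where
  smooth : ContDiff ℝ ∞ f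
  bound : ∀ (m : ℕ), ∀ x ∈ S, ‖iteratedFDeriv ℝ m f x‖ ≤ B * A ^ m * s4a_w m

/-- amplitudes: support in the box `[-K,K]^ι`, global Gevrey bounds -/
structure s4a_Amp {ι : Type} [Fintype ι] (K A B : ℝ) (chi : (ι → ℝ) → ℂ) : Prop where
  gev : s4a_Gev Set.univ A B chi
  supp : ∀ x, chi x ≠ 0 → ∀ i, |x i| ≤ K

/-- the box `[-K,K]^ι` -/
def s4a_box (ι : Type) (K : ℝ) : Set (ι → ℝ) := {x | ∀ i, |x i| ≤ K}

/-! ## Charts indexed by an arbitrary finite type -/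

/-- the chart with data indexed by `ι` -/
noncomputable def s4a_mk {ι : Type} [Fintype ι] (th : ι → ℝ) (C : Matrix ι ι ℚ) (lam bet : ℝ) (chi : (ι → ℝ) → ℂ)
    (unit : ℂ) : Chart where
  d := Fintype.card ι
  th := fun i => th ((Fintype.equivFin ι).symm i)
  C := fun i j => C ((Fintype.equivFin ι).symm i) ((Fintype.equivFin ι).symm j)
  lam := lam
  bet := bet
  chi := fun x => chi fun i => x (Fintype.equivFin ι i)
  unit := unit

/-! ## The fixed cutoff `ζ` and two-input forms (Lemma 4.6) -/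

/-- the fixed cutoff: smooth, `0 ≤ ζ ≤ 1`, `ζ = 1` on `[-1,1]`, `ζ = 0` off `(-2,2)` -/
noncomputable def s4a_zeta (u : ℝ) : ℝ := Real.smoothTransition (2 - u) * Real.smoothTransition (2 + u)

/-- the Fourier integral whose supremum over `ξ` is `A_r` -/
noncomputable def s4a_AInt (Q : ℝ → ℂ) (r ξ : ℝ) : ℂ := ∫ u : ℝ, Q (r * u) * (s4a_zeta u : ℂ) * ee (-(ξ * u))

/-- `A_r = sup_ξ |∫ Q(ru) ζ(u) e(-ξu) du|` -/
noncomputable def s4a_Ar (Q : ℝ → ℂ) (r : ℝ) : ℝ := ⨆ ξ : ℝ, ‖s4a_AInt Q r ξ‖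

/-- the two-input integral with kernel `w(x,t) Q(t)`: `|I|^{-2} ∫∫ w(x,t) Q(t) f(x + a t) g(x + b t) dx dt` -/
noncomputable def s4a_form2 (I : Cell) (w : ℝ × ℝ → ℂ) (a b : Fin 4) (Q f g : ℝ → ℂ) : ℂ :=
  ((I.len ^ 2)⁻¹ : ℝ) * ∫ p : ℝ × ℝ, w p * Q p.2 * f (p.1 + (a : ℝ) * p.2) * g (p.1 + (b : ℝ) * p.2)

/-- **Interface with block [Weyl]** (helper197): Lemma 4.3 for `k = 1`, `ϑ = ζ`, in the form consumed by Lemma 4.6 and by Sec. 5.
(Apply it to the rescaled chart `u ↦ Q(r u)`, i.e. `th = r θ`, `lam = r² λ`, `bet = r β`.) -/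
def s4a_Weyl1 : Prop :=
  ∃ C : ℕ, ∀ (Q : Chart) (H δ : ℝ), Q.Cplx H → 0 < δ → δ < 1 / 2 → (∃ ξ : ℝ, δ ≤ ‖s4a_AInt Q.eval 1 ξ‖) →
    ∃ Pf : Matrix (Fin Q.d) (Fin Q.d) ℚ, s4a_IsProj Pf ∧ s4a_Iso Q.C Pf ∧
      s4a_HtLe Pf (s4b_qp C (Real.log H + Real.log (1 / δ))) ∧
      (∀ i, |s4a_mv (1 - Pf) Q.th i| ≤ s4b_qp C (Real.log H + Real.log (1 / δ))) ∧
      |Q.lam + s4a_quad Q.C Pf Q.th| ≤ s4b_qp C (Real.log H + Real.log (1 / δ))

end Claimed.Agent.R258
end

/- ===== packed: Claimed.Agent.R258.S4b.Qp ===== -/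
section
/-
Row 258, block [S4b] (architect helper99).  FILE Qp: calculus of the quasipolynomial budgets `s4b_qp C x = exp (C (1+x)^C)`.
-/
set_option autoImplicit false

namespace Claimed.Agent.R258

theorem s4b_qp_pos (C : ℕ) (x : ℝ) : 0 < s4b_qp C x := Real.exp_pos _

theorem s4b_log_qp (C : ℕ) (x : ℝ) : Real.log (s4b_qp C x) = (C : ℝ) * (1 + x) ^ C := Real.log_exp _

theorem s4b_one_le_qp (C : ℕ) {x : ℝ} (hx : 0 ≤ x) : 1 ≤ s4b_qp C x := by
  unfold s4b_qp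
  exact Real.one_le_exp (by positivity)

theorem s4b_qp_mono {C C' : ℕ} {x x' : ℝ} (hC : C ≤ C') (hx : 0 ≤ x) (hxx : x ≤ x') : s4b_qp C x ≤ s4b_qp C' x' := by
  unfold s4b_qp
  apply Real.exp_le_exp.mpr
  have h1 : (1 : ℝ) ≤ 1 + x := by linarith
  have h2 : (1 + x) ^ C ≤ (1 + x') ^ C' :=
    calc (1 + x) ^ C ≤ (1 + x) ^ C' := pow_le_pow_right₀ h1 hC
      _ ≤ (1 + x') ^ C' := by gcongr
  have h3 : (C : ℝ) ≤ C' := by exact_mod_cast hC
  have h4 : (0 : ℝ) ≤ (1 + x) ^ C := by positivity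
  calc (C : ℝ) * (1 + x) ^ C ≤ (C' : ℝ) * (1 + x) ^ C := by gcongr
    _ ≤ (C' : ℝ) * (1 + x') ^ C' := by gcongr

/-- `exp 2 ≤ qp C x` as soon as `2 ≤ C` -/
theorem s4b_exp_two_le_qp {C : ℕ} (hC : 2 ≤ C) {x : ℝ} (hx : 0 ≤ x) : Real.exp 2 ≤ s4b_qp C x := by
  unfold s4b_qp
  apply Real.exp_le_exp.mpr
  have h1 : (1 : ℝ) ≤ (1 + x) ^ C := one_le_pow₀ (by linarith)
  have h3 : (2 : ℝ) ≤ C := by exact_mod_cast hC
  nlinarith

/-- `H ≤ qp C (log H)` -/
theorem s4b_le_qp_log {C : ℕ} (hC : 1 ≤ C) {H : ℝ} (hH : 1 ≤ H) : H ≤ s4b_qp C (Real.log H) := by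
  have h0 : 0 ≤ Real.log H := Real.log_nonneg hH
  have hpos : 0 < H := by linarith
  unfold s4b_qp
  calc H = Real.exp (Real.log H) := (Real.exp_log hpos).symm
    _ ≤ _ := by
      apply Real.exp_le_exp.mpr
      have h1 : 1 + Real.log H ≤ (1 + Real.log H) ^ C := by
        calc 1 + Real.log H = (1 + Real.log H) ^ 1 := (pow_one _).symm
          _ ≤ _ := pow_le_pow_right₀ (by linarith) hC
      have h3 : (1 : ℝ) ≤ C := by exact_mod_cast hC
      have h4 : 0 ≤ (1 + Real.log H) ^ C := by positivity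
      nlinarith

/-- **composition**: a quasipolynomial budget of a quantity which is polynomially bounded in `1 + x` -/
theorem s4b_qp_poly (C₁ : ℕ) (c : ℝ) (k : ℕ) : ∃ C : ℕ, ∀ x y : ℝ, 0 ≤ x → 0 ≤ y → y ≤ c * (1 + x) ^ k →
    s4b_qp C₁ y ≤ s4b_qp C x := by
  obtain ⟨n, hn⟩ := exists_nat_ge ((C₁ : ℝ) * (1 + |c|) ^ C₁)
  refine ⟨max n (k * C₁), fun x y hx hy hyx => ?_⟩
  unfold s4b_qp
  apply Real.exp_le_exp.mpr
  have h1 : (1 : ℝ) ≤ 1 + x := by linarith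
  have hk : (1 : ℝ) ≤ (1 + x) ^ k := one_le_pow₀ h1
  have h2 : 1 + y ≤ (1 + |c|) * (1 + x) ^ k := by
    have : c * (1 + x) ^ k ≤ |c| * (1 + x) ^ k := by gcongr; exact le_abs_self c
    nlinarith
  have h3 : (1 + y) ^ C₁ ≤ (1 + |c|) ^ C₁ * (1 + x) ^ (k * C₁) := by
    calc (1 + y) ^ C₁ ≤ ((1 + |c|) * (1 + x) ^ k) ^ C₁ := by gcongr
      _ = (1 + |c|) ^ C₁ * (1 + x) ^ (k * C₁) := by rw [mul_pow, ← pow_mul]
  have h4 : (1 + x) ^ (k * C₁) ≤ (1 + x) ^ (max n (k * C₁)) := pow_le_pow_right₀ h1 (le_max_right _ _)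
  have h5 : ((C₁ : ℝ) * (1 + |c|) ^ C₁) ≤ ((max n (k * C₁) : ℕ) : ℝ) := by
    refine hn.trans ?_
    exact_mod_cast le_max_left _ _
  calc (C₁ : ℝ) * (1 + y) ^ C₁ ≤ (C₁ : ℝ) * ((1 + |c|) ^ C₁ * (1 + x) ^ (k * C₁)) := by gcongr
    _ = ((C₁ : ℝ) * (1 + |c|) ^ C₁) * (1 + x) ^ (k * C₁) := by ring
    _ ≤ ((max n (k * C₁) : ℕ) : ℝ) * (1 + x) ^ (max n (k * C₁)) := by gcongr

end Claimed.Agent.R258
end

/- ===== packed: Claimed.Agent.R258.S5.EDefs ===== -/
section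
/-
Row 258 (S0498), Sec. 5.5, block [S5e] = Lemma 5.7 "few active scales for a fixed triple" (base.tex l.745-830).   Architect: helper22.
DEFINITIONS of the block (prefix `s5e_`) and the two imported theorems as `Prop`s.

ROUTE (the paper's proof made exact; `r = |I| = 2^{-depth}`, `y₀` = left end point of the smallest cell of the chain, so `y₀ ∈ I` for all `I` of the chain).
 (i)   ETrans   transposition and squaring:  `δ < 𝒜_I  ⟹  δ² ≤ |∫_{ℝ³} ϑ_I(z) Q₆(r z) dz|`,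
                  `ϑ_I(z) = w(y₀ + r(z₀ - l z₁), r z₁) conj w(y₀ + r(z₀ - l z₂), r z₂)`                       (`s5e_th`),
                  `Q₆(z') = ∏_{m ≠ l} φ_m(y₀ + z'₀ + (m-l) z'₁) conj φ_m(y₀ + z'₀ + (m-l) z'₂)`                 (`s5e_Q6`).
 (ii)  EChart   `Q₆ = unit * wy_Q C V₀ Λ₀ b₀ χ` : ONE multivariable chart, all data FIXED along the chain (recentring at `y₀`, conjugates, direct sum over `Fin 4 × Bool`);
                  `wy_Q C V₀ Λ₀ b₀ χ (r z) = wy_Q C (r V₀) (r² Λ₀) (r b₀) χ z`.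
 (iii) EKer     `ϑ_I` has support in `[-2,2]³`, size and Lipschitz constant `≤ K(C0)`, and `∫ ϑ_I dz₁ = 0` (exact marginal).
 (iv)  EOne     ONE SCALE (`s5e_one_scale`): if `|∫ ϑ wy_Q(r)| ≥ 1/X` then `r²` or `r` is an INTERMEDIATE factor (`s5e_Mid`) for one of ten fixed real vectors
                  (`s5e_Th2 a b` = `(Λ₀ a b, V₀ i a V₀ j b)`, `s5e_Th1` = `(b₀ 1, V₀ i 1)`) at the level `Z = wy_qp c X`.
                  [Weyl at frequency `0` gives `Pf`; L4.4 gives `wy_Q = e(zᵀΛ_* z + b z) ∑ a_ℓ e(ℓ·Vz/R)`; entries of `Λ_*` are `r² (q·Θ₂)`, `q` rational of bounded height, and `≤ H'`: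
                   not intermediate ⟹ tiny; the `z₁`-frequencies are `r (q·Θ₁)`: not intermediate ⟹ tiny (marginal) or large (translation trick).]
 (v)   EBins    an intermediate factor occurs for few scales (`s5e_scale_count`, from helper61's `s8c_packets` = Lemma 3.5).
 (vi)  ECore, ActiveCount: assembly, numerics, dyadic bands for the second assertion.
-/
set_option autoImplicit false
open MeasureTheory Matrix
open scoped ComplexConjugate

namespace Claimed.Agent.R258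

/-! ## The two imported theorems -/

/-- **Lemma 4.3** at frequency `0` (helper197's `wy_weyl`, msg 10959). -/
def s5e_WeylHyp : Prop :=
  ∃ c : ℕ, ∀ (ι κ : Type) [Fintype ι] [Fintype κ] [DecidableEq ι] (X : ℝ) (C : Matrix ι ι ℚ) (V : Matrix ι κ ℝ)
    (Lam : Matrix κ κ ℝ) (b : κ → ℝ) (χ : (ι → ℝ) → ℂ) (ϑ : (κ → ℝ) → ℂ),
    wy_Std X C κ → Lamᵀ = Lam → wy_Amp X χ → wy_Amp X ϑ →
    1 / X ≤ ‖∫ z, ϑ z * wy_Q C V Lam b χ z‖ → wy_SplitsEx (wy_qp c X) C V Lam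

/-- **Lemma 4.4** (helper78's chart expansion, msg 10706 (2)), in ONE master parameter `X`. -/
def s5e_ExpHyp : Prop :=
  ∃ c : ℕ, ∀ (ι : Type) [Fintype ι] [DecidableEq ι] (X : ℝ) (C Pf : Matrix ι ι ℚ) (χ : (ι → ℝ) → ℂ),
    1 ≤ X → (Fintype.card ι : ℝ) ≤ 1 + Real.log X → s4a_HtLe C X → s4a_HtLe Pf X → s4a_IsProj Pf → s4a_Iso C Pf →
    s4a_Amp X X X χ →
    ∃ (R : ℕ) (a : (ι → ℤ) → ℂ), 1 ≤ R ∧ (R : ℝ) ≤ wy_qp c X ∧
      (∀ ℓ, ‖a ℓ‖ * (1 + ‖ℓ‖) ^ (1 + 2 * Fintype.card ι) ≤ wy_qp c X) ∧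
      ∀ u : ι → ℝ, (∀ i, |s4a_mv (1 - Pf) u i| ≤ X) →
        HasSum (fun ℓ : ι → ℤ => a ℓ * ee ((∑ i, (ℓ i : ℝ) * u i) / R)) (ee (-(s4a_quad C Pf u)) * s4a_br C χ u)

/-! ## Rational coefficient vectors and fixed real parameter vectors -/

section
variable {ι κ : Type} [Fintype ι] [Fintype κ]

/-- the fixed real parameters of the entry `(a,b)` of `Λ_*` -/
def s5e_Th2 (V₀ : Matrix ι κ ℝ) (Lam₀ : Matrix κ κ ℝ) (a b : κ) : Option (ι × ι) → ℝ
  | none => Lam₀ a b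
  | some p => V₀ p.1 a * V₀ p.2 b

/-- the fixed real parameters of the `a`-th coordinate of the linear frequencies -/
def s5e_Th1 (V₀ : Matrix ι κ ℝ) (b₀ : κ → ℝ) (a : κ) : Option ι → ℝ
  | none => b₀ a
  | some i => V₀ i a

/-- the rational matrix `M` with `Λ_* = Λ + Vᵀ M V` -/
def s5e_M [DecidableEq ι] (C Pf : Matrix ι ι ℚ) : Matrix ι ι ℚ :=
  (1 / 4 : ℚ) • (C + Cᵀ) + (1 / 4 : ℚ) • (Pfᵀ * (C - Cᵀ) * (1 - Pf) + (Pfᵀ * (C - Cᵀ) * (1 - Pf))ᵀ)

/-- coefficient vector of an entry of `Λ_*` -/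
def s5e_co2 [DecidableEq ι] (C Pf : Matrix ι ι ℚ) : Option (ι × ι) → ℚ
  | none => 1
  | some p => s5e_M C Pf p.1 p.2

/-- coefficient vector of the linear frequency `b + Vᵀ ℓ / R` -/
def s5e_co1 (ℓ : ι → ℤ) (R : ℕ) : Option ι → ℚ
  | none => 1
  | some i => (ℓ i : ℚ) / (R : ℚ)

end

/-- `ρ` is an INTERMEDIATE factor for the real vector `Θ` at the level `Z`: some rational vector `q` of height `≤ Z` has `1/Z ≤ ρ |q·Θ| ≤ Z`. -/
def s5e_Mid {ι' : Type} [Fintype ι'] (Θ : ι' → ℝ) (Z ρ : ℝ) : Prop :=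
  ∃ q : ι' → ℚ, s8cHtLe ⌈Z⌉₊ q ∧ 1 / Z ≤ ρ * |s8cEv q Θ| ∧ ρ * |s8cEv q Θ| ≤ Z

/-! ## The squared transpose in normalised variables -/

/-- `ϑ_I(z) = w(y₀ + r(z₀ - l z₁), r z₁) conj w(y₀ + r(z₀ - l z₂), r z₂)` -/
noncomputable def s5e_th (I : Cell) (w : ℝ × ℝ → ℂ) (l : Fin 4) (y₀ : ℝ) (z : Fin 3 → ℝ) : ℂ :=
  w (y₀ + I.len * (z 0 - (l : ℝ) * z 1), I.len * z 1) * conj (w (y₀ + I.len * (z 0 - (l : ℝ) * z 2), I.len * z 2))

/-- `Q₆(z') = ∏_{m ≠ l} φ_m(y₀ + z'₀ + (m-l) z'₁) conj φ_m(y₀ + z'₀ + (m-l) z'₂)` -/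
noncomputable def s5e_Q6 (l : Fin 4) (φ : Fin 4 → ℝ → ℂ) (y₀ : ℝ) (z : Fin 3 → ℝ) : ℂ :=
  ∏ m : Fin 4, if m = l then 1 else
    φ m (y₀ + (z 0 + ((m : ℝ) - (l : ℝ)) * z 1)) * conj (φ m (y₀ + (z 0 + ((m : ℝ) - (l : ℝ)) * z 2)))

/-! ## Direct sums of charts along linear forms -/

section
variable {P κ : Type} [Fintype P] [Fintype κ]

/-- index type of the direct sum -/
abbrev s5e_pI (a : P → Chart) : Type := Σ p : P, Fin (a p).d

/-- block diagonal matrix -/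
def s5e_pC [DecidableEq P] (a : P → Chart) : Matrix (s5e_pI a) (s5e_pI a) ℚ := Matrix.blockDiagonal' fun p => (a p).C

/-- `V₀ (p,i) k = θ_{p,i} L_p k` -/
def s5e_pV (a : P → Chart) (L : P → κ → ℝ) : Matrix (s5e_pI a) κ ℝ := fun x k => (a x.1).th x.2 * L x.1 k

/-- `Λ₀ = ∑_p λ_p L_p L_pᵀ` -/
def s5e_pLam (a : P → Chart) (L : P → κ → ℝ) : Matrix κ κ ℝ := fun k k' => ∑ p, (a p).lam * L p k * L p k'

/-- `b₀ = ∑_p β_p L_p` -/
def s5e_pb (a : P → Chart) (L : P → κ → ℝ) : κ → ℝ := fun k => ∑ p, (a p).bet * L p k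

/-- product amplitude -/
def s5e_pchi (a : P → Chart) : (s5e_pI a → ℝ) → ℂ := fun x => ∏ p, (a p).chi fun i => x ⟨p, i⟩

end

/-- the six linear forms: `(m,false) ↦ z₀ + (m-l) z₁`, `(m,true) ↦ z₀ + (m-l) z₂` -/
noncomputable def s5e_L6 (l : Fin 4) (p : Fin 4 × Bool) : Fin 3 → ℝ :=
  if p.2 then ![1, 0, (p.1 : ℝ) - (l : ℝ)] else ![1, (p.1 : ℝ) - (l : ℝ), 0]

end Claimed.Agent.R258
end

/- ===== packed: Claimed.Agent.R258.CellApi.Extra ===== -/
section
/-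
Row 258, block [CELL] (architect helper132).  API OF THE DYADIC CELLS, file 5: FURTHER FORMS REQUESTED BY THE SECTION ARCHITECTS
(proved from the statements of Basic / Fin / Pack).      Requests: msg helper132.
-/
set_option autoImplicit false

open MeasureTheory Finset

namespace Claimed.Agent.R258

theorem cell_set_subset_Icc (I : Cell) : I.set ⊆ Set.Icc I.left I.right := Set.Ico_subset_Icc_self

theorem cell_right_sub_left (I : Cell) : I.right - I.left = I.len := by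
  rw [cell_right_eq]
  ring

/-- the ancestor of a given depth -/
theorem cell_existsUnique_anc {I : Cell} {s : ℤ} (hs : s ≤ I.depth) : ∃! J : Cell, J.depth = s ∧ I ≤ J := by
  refine ⟨I.anc (I.depth - s).toNat, ⟨?_, cell_le_anc _ _⟩, ?_⟩
  · rw [cell_depth_anc, Int.toNat_of_nonneg (by omega)]
    omega
  · rintro J ⟨hJ, hIJ⟩
    have := (cell_le_iff_toNat.1 hIJ).2
    rw [hJ] at this
    exact this.symm

theorem cell_antichain_iff_disjoint {A : Finset Cell} :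
    IsAntichain (· ≤ ·) (A : Set Cell) ↔ (A : Set Cell).PairwiseDisjoint Cell.set := by
  refine ⟨cell_antichain_pairwiseDisjoint, fun h I hI J hJ hne hle => ?_⟩
  have hd : Disjoint I.set J.set := h hI hJ hne
  exact (cell_disjoint_iff.1 hd).1 hle

/-- **STOPPING TREE** (request of Sec. 2).  `Bad` any predicate, the root is good, `n` = number of generations.  `stops` = the first bad cells,
`T` = the cells of relative depth `≤ n` which are not below a stop. -/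
theorem cell_stopping_tree (Bad : Cell → Prop) {J : Cell} (hJ : ¬ Bad J) (n : ℕ) :
    ∃ T stops : Finset Cell, RootedTree J T ∧ (∀ I ∈ T, ¬ Bad I) ∧ (∀ I ∈ T, I.depth ≤ J.depth + n) ∧
      (∀ K ∈ stops, Bad K ∧ K < J ∧ K.depth ≤ J.depth + n ∧ K.anc 1 ∈ T) ∧
      IsAntichain (· ≤ ·) (stops : Set Cell) ∧
      (∀ I, I ≤ J → I.depth ≤ J.depth + n → I ∈ T ∨ ∃ K ∈ stops, I ≤ K) ∧
      ∀ I ∈ T, cellRetained stops I := by
  classical
  set U := cellsUpTo J n with hU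
  set stops := cellFirst U Bad with hstops
  have hanti : IsAntichain (· ≤ ·) (stops : Set Cell) := cell_first_antichain U Bad
  have hsU : ∀ K ∈ stops, K ∈ U := fun K hK => cell_first_subset U Bad hK
  have hlt : ∀ K ∈ stops, K < J := by
    intro K hK
    have h1 := (cell_mem_cellsUpTo.1 (hsU K hK)).1
    refine lt_of_le_of_ne h1 ?_
    rintro rfl
    exact hJ (cell_first_bad hK)
  refine ⟨U.filter (cellRetained stops), stops, ⟨?_, ?_, ?_⟩, ?_, ?_, ?_, hanti, ?_, ?_⟩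
  · refine Finset.mem_filter.2 ⟨(cell_rootedTree_cellsUpTo J n).root_mem, fun K hK hle => ?_⟩
    exact absurd hle (not_le_of_gt (hlt K hK))
  · intro I hI
    exact (cell_mem_cellsUpTo.1 (Finset.mem_filter.1 hI).1).1
  · intro I hI K hIK hKJ
    obtain ⟨h1, h2⟩ := Finset.mem_filter.1 hI
    exact Finset.mem_filter.2 ⟨(cell_rootedTree_cellsUpTo J n).conv I h1 K hIK hKJ, h2.of_le hIK⟩
  · intro I hI
    obtain ⟨h1, h2⟩ := Finset.mem_filter.1 hI
    exact cell_first_retained h1 h2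
  · intro I hI
    exact (cell_mem_cellsUpTo.1 (Finset.mem_filter.1 hI).1).2
  · intro K hK
    have hKU := cell_mem_cellsUpTo.1 (hsU K hK)
    refine ⟨cell_first_bad hK, hlt K hK, hKU.2, Finset.mem_filter.2 ⟨?_, ?_⟩⟩
    · refine cell_mem_cellsUpTo.2 ⟨cell_lt_iff_parent_le.1 (hlt K hK), ?_⟩
      rw [cell_depth_anc]
      have := hKU.2
      push_cast
      omega
    · exact cell_retained_of_stop_lt hanti hK (cell_lt_anc K one_pos)
  · intro I hIJ hd
    by_cases hr : cellRetained stops I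
    · exact Or.inl (Finset.mem_filter.2 ⟨cell_mem_cellsUpTo.2 ⟨hIJ, hd⟩, hr⟩)
    · right
      unfold cellRetained at hr
      push Not at hr
      exact hr
  · intro I hI
    exact (Finset.mem_filter.1 hI).2

end Claimed.Agent.R258
end

/- ===== packed: Claimed.Agent.R258.Weyl.W1 ===== -/
section
/-
Row 258, [Weyl].  (W1) the return calculation for `F = ϑ Q` (assembly).   helper197 (proved from W1a, W1b).
-/
set_option autoImplicit false
open Matrix

namespace Claimed.Agent.R258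

/-- **(W1)**  `F(z + h) = u e(Ω(h,m)·z) F(z) + O(qp · s)` for every return `(h,m)` of size `s ≤ 1`. -/
theorem wy_W1 : ∃ c : ℕ, ∀ {ι κ : Type*} [Fintype ι] [Fintype κ] (X : ℝ) (P : ℕ) (C : Matrix ι ι ℚ) (V : Matrix ι κ ℝ)
    (Lam : Matrix κ κ ℝ) (b : κ → ℝ) (χ : (ι → ℝ) → ℂ) (ϑ : (κ → ℝ) → ℂ),
    wy_Std X C κ → Lamᵀ = Lam → wy_Amp X χ → wy_Amp X ϑ → wy_Clears P C →
    ∀ (s : ℝ) (h : κ → ℝ) (m : ι → ℤ), 0 ≤ s → s ≤ 1 → wy_IsRet P V s h m →
    ∃ u : ℂ, ‖u‖ = 1 ∧ ∀ z, ‖ϑ (z + h) * wy_Q C V Lam b χ (z + h)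
      - u * ee (wy_Omega C V Lam h m ⬝ᵥ z) * (ϑ z * wy_Q C V Lam b χ z)‖ ≤ wy_qp c X * s := by
  obtain ⟨c1, h1⟩ := wy_Q_bdd
  obtain ⟨c2, h2⟩ := wy_W1b
  refine ⟨1 + c2 + (1 + c1) + 2, ?_⟩
  intro ι κ _ _ X P C V Lam b χ ϑ hstd hLam hχ hϑ hP s h m hs0 hs1 hret
  obtain ⟨hm, hh, hd⟩ := hret
  have hX := hstd.one_le
  refine ⟨_, wy_ee_norm (h ⬝ᵥ (Lam *ᵥ h) + b ⬝ᵥ h + (V *ᵥ h) ⬝ᵥ (wy_R C *ᵥ (V *ᵥ h - wy_Z m))), fun z => ?_⟩
  rw [wy_W1a P C V Lam b χ hP hLam h m hm z]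
  set u := ee (h ⬝ᵥ (Lam *ᵥ h) + b ⬝ᵥ h + (V *ᵥ h) ⬝ᵥ (wy_R C *ᵥ (V *ᵥ h - wy_Z m))) with hu
  set e := ee (wy_Omega C V Lam h m ⬝ᵥ z) with he
  set Q' := wy_Q C V Lam b (wy_shiftAmp C χ (V *ᵥ h - wy_Z m)) z with hQ'
  set Q := wy_Q C V Lam b χ z with hQ
  have e1 : ϑ (z + h) * (u * e * Q') - u * e * (ϑ z * Q) = u * e * (ϑ (z + h) * (Q' - Q) + (ϑ (z + h) - ϑ z) * Q) := by
    ring
  rw [e1, norm_mul, norm_mul, hu, he, wy_ee_norm, wy_ee_norm, one_mul, one_mul]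
  have b1 : ‖Q' - Q‖ ≤ wy_qp c2 X * s := h2 X C V Lam b χ hstd hχ _ s hs0 hs1 (fun i => hd i) z
  have b2 : ‖Q‖ ≤ wy_qp c1 X := h1 X C V Lam b χ hstd hχ z
  have b3 : ‖ϑ (z + h)‖ ≤ X := hϑ.bdd _
  have b4 : ‖ϑ (z + h) - ϑ z‖ ≤ X * s := by
    refine (hϑ.lip _ _).trans ?_
    apply mul_le_mul_of_nonneg_left _ (by linarith)
    rw [add_sub_cancel_left, pi_norm_le_iff_of_nonneg hs0]
    intro j
    rw [Real.norm_eq_abs]
    exact hh j
  have hX1 : X ≤ wy_qp 1 X := wy_le_qp le_rfl hX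
  have k1 : X * wy_qp c2 X ≤ wy_qp (1 + c2) X := wy_mul_le_qp hX (by linarith) hX1 le_rfl
  have k2 : X * wy_qp c1 X ≤ wy_qp (1 + c1) X := wy_mul_le_qp hX (by linarith) hX1 le_rfl
  have k3 := wy_add_le_qp hX k1 k2
  calc ‖ϑ (z + h) * (Q' - Q) + (ϑ (z + h) - ϑ z) * Q‖
      ≤ ‖ϑ (z + h)‖ * ‖Q' - Q‖ + ‖ϑ (z + h) - ϑ z‖ * ‖Q‖ := by
        refine (norm_add_le _ _).trans ?_
        rw [norm_mul, norm_mul]
    _ ≤ X * (wy_qp c2 X * s) + X * s * wy_qp c1 X := by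
        apply add_le_add
        · exact mul_le_mul b3 b1 (norm_nonneg _) (by linarith)
        · exact mul_le_mul b4 b2 (norm_nonneg _) (by positivity)
    _ = (X * wy_qp c2 X + X * wy_qp c1 X) * s := by ring
    _ ≤ _ := mul_le_mul_of_nonneg_right k3 hs0

end Claimed.Agent.R258
end

/- ===== packed: Claimed.Agent.R258.Weyl.W12 ===== -/
section
/-
Row 258, [Weyl].  (W1) + (W2) ⟹ the return bound (assembly).   helper197.
-/
set_option autoImplicit false
open MeasureTheory Matrix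

namespace Claimed.Agent.R258

theorem wy_Omega_smul {ι κ : Type*} [Fintype ι] [Fintype κ] (C : Matrix ι ι ℚ) (V : Matrix ι κ ℝ) (Lam : Matrix κ κ ℝ)
    (h : κ → ℝ) (m : ι → ℤ) (l : ℕ) :
    wy_Omega C V Lam ((l : ℝ) • h) ((l : ℤ) • m) = (l : ℝ) • wy_Omega C V Lam h m := by
  unfold wy_Omega
  have : wy_Z ((l : ℤ) • m) = (l : ℝ) • wy_Z m := by
    funext i; simp [wy_Z]
  rw [this, Matrix.mulVec_smul, Matrix.mulVec_smul, smul_sub]

theorem wy_IsRet_smul {ι κ : Type*} [Fintype ι] [Fintype κ] (P : ℕ) (V : Matrix ι κ ℝ) (s : ℝ) (h : κ → ℝ) (m : ι → ℤ)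
    (hr : wy_IsRet P V s h m) (l : ℕ) : wy_IsRet P V ((l : ℝ) * s) ((l : ℝ) • h) ((l : ℤ) • m) := by
  obtain ⟨h1, h2, h3⟩ := hr
  have hl : (0 : ℝ) ≤ l := by positivity
  refine ⟨fun i => ?_, fun j => ?_, fun i => ?_⟩
  · simpa using Dvd.dvd.mul_left (h1 i) _
  · simp only [Pi.smul_apply, smul_eq_mul, abs_mul, abs_of_nonneg hl]
    exact mul_le_mul_of_nonneg_left (h2 j) hl
  · rw [Matrix.mulVec_smul]
    have : ((l : ℝ) • V *ᵥ h) i - ((((l : ℤ) • m) i : ℤ) : ℝ) = (l : ℝ) * ((V *ᵥ h) i - (m i : ℝ)) := by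
      simp; ring
    rw [this, abs_mul, abs_of_nonneg hl]
    exact mul_le_mul_of_nonneg_left (h3 i) hl

theorem wy_RetBound_mono {ι κ : Type*} [Fintype ι] [Fintype κ] (P : ℕ) (C : Matrix ι ι ℚ) (V : Matrix ι κ ℝ)
    (Lam : Matrix κ κ ℝ) (a a' B : ℝ) (h : a' ≤ a) (hr : wy_RetBound P C V Lam a B) : wy_RetBound P C V Lam a' B := by
  intro x m hx
  exact hr x m ⟨hx.1, fun j => (hx.2.1 j).trans h, fun i => (hx.2.2 i).trans h⟩

/-- **(W1)+(W2)**: a Fourier coefficient `≥ 1/X` of `ϑ Q` forces `|Ω(h,m)| ≤ 1` on all returns of size `≤ 1/qp c X`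
(for ANY period `P` clearing the denominators of `C`). -/
theorem wy_W12 : ∃ c : ℕ, ∀ {ι κ : Type*} [Fintype ι] [Fintype κ] (X : ℝ) (P : ℕ) (C : Matrix ι ι ℚ) (V : Matrix ι κ ℝ)
    (Lam : Matrix κ κ ℝ) (b : κ → ℝ) (χ : (ι → ℝ) → ℂ) (ϑ : (κ → ℝ) → ℂ) (ξ : κ → ℝ),
    wy_Std X C κ → Lamᵀ = Lam → wy_Amp X χ → wy_Amp X ϑ → wy_Clears P C →
    1 / X ≤ ‖∫ z, ϑ z * wy_Q C V Lam b χ z * ee (-(ξ ⬝ᵥ z))‖ →
    wy_RetBound P C V Lam (1 / wy_qp c X) 1 := by
  obtain ⟨c1, h1⟩ := wy_W1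
  obtain ⟨cQ, hQ⟩ := wy_Q_bdd
  obtain ⟨c2, h2⟩ := wy_W2
  refine ⟨(c2 * (1 + cQ + 1) ^ c2 + (1 + cQ) * c2 + 0 + 2) + c1 + (c2 * (1 + cQ + 1) ^ c2 + (1 + cQ) * c2), ?_⟩
  intro ι κ _ _ X P C V Lam b χ ϑ ξ hstd hLam hχ hϑ hP hbig
  have hX := hstd.one_le
  have hXpos : 0 < X := by linarith
  set X2 := wy_qp (1 + cQ) X with hX2
  have hXX2 : X ≤ X2 := wy_le_qp (by omega) hX
  have hX21 : 1 ≤ X2 := hX.trans hXX2
  set A := wy_qp c2 X2 with hA
  set A1 := wy_qp c1 X with hA1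
  have hApos : 0 < A := wy_qp_pos _ _
  have hA1pos : 0 < A1 := wy_qp_pos _ _
  have hA_one : 1 ≤ A := wy_one_le_qp _ hX21
  have hA1_one : 1 ≤ A1 := wy_one_le_qp _ hX
  -- the threshold
  set a0 := 1 / ((A + 1) * A1 * A) with ha0
  have ha0pos : 0 < a0 := by positivity
  have hbudget : (A + 1) * A1 * A ≤
      wy_qp ((c2 * (1 + cQ + 1) ^ c2 + (1 + cQ) * c2 + 0 + 2) + c1 + (c2 * (1 + cQ + 1) ^ c2 + (1 + cQ) * c2)) X := by
    have e1 : A ≤ wy_qp (c2 * (1 + cQ + 1) ^ c2 + (1 + cQ) * c2) X := wy_qp_comp _ _ hX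
    have e2 : A + 1 ≤ wy_qp (c2 * (1 + cQ + 1) ^ c2 + (1 + cQ) * c2 + 0 + 2) X :=
      wy_add_le_qp (c' := 0) hX e1 (wy_one_le_qp 0 hX)
    have e3 : (A + 1) * A1 ≤ wy_qp ((c2 * (1 + cQ + 1) ^ c2 + (1 + cQ) * c2 + 0 + 2) + c1) X :=
      wy_mul_le_qp hX (by positivity) e2 le_rfl
    exact wy_mul_le_qp hX (by positivity) e3 e1
  apply wy_RetBound_mono P C V Lam a0 _ 1 (one_div_le_one_div_of_le (by positivity) hbudget)
  intro h m hret a
  set M := ⌈A⌉₊ with hM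
  have hM1 : A ≤ (M : ℝ) := Nat.le_ceil A
  have hM2 : (M : ℝ) ≤ A + 1 := (Nat.ceil_lt_add_one hApos.le).le
  refine (h2 X2 (fun z => ϑ z * wy_Q C V Lam b χ z) ξ h (wy_Omega C V Lam h m) M hX21
    (wy_dim_mono hX hXX2 hstd.dim') (wy_F_cont X C V Lam b χ ϑ hχ hϑ).aestronglyMeasurable ?_ ?_ ?_ hM1 ?_ a).le
  · intro z hz a'
    have : ϑ z ≠ 0 := fun h0 => hz (by simp [h0])
    exact (hϑ.supp z this a').trans hXX2
  · intro z
    rw [norm_mul]
    calc ‖ϑ z‖ * ‖wy_Q C V Lam b χ z‖ ≤ X * wy_qp cQ X :=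
          mul_le_mul (hϑ.bdd z) (hQ X C V Lam b χ hstd hχ z) (norm_nonneg _) hXpos.le
      _ ≤ X2 := wy_mul_le_qp hX hXpos.le (wy_le_qp le_rfl hX) le_rfl
  · exact (one_div_le_one_div_of_le hXpos hXX2).trans hbig
  · intro l hl1 hlM
    have hl0 : (0 : ℝ) ≤ l := by positivity
    have hlM' : (l : ℝ) ≤ A + 1 := le_trans (by exact_mod_cast hlM) hM2
    have hs : (l : ℝ) * a0 ≤ 1 / (A1 * A) := by
      rw [ha0, mul_one_div, div_le_div_iff₀ (by positivity) (by positivity)]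
      nlinarith [mul_pos hA1pos hApos]
    have hs1 : (l : ℝ) * a0 ≤ 1 := by
      refine hs.trans ?_
      rw [div_le_one (by positivity)]
      nlinarith
    have hret' := wy_IsRet_smul P V a0 h m hret l
    refine ⟨fun a' => ?_, ?_⟩
    · have := hret'.2.1 a'
      simp only [Pi.smul_apply, smul_eq_mul] at this
      exact this.trans hs1
    · obtain ⟨u, hu, hE⟩ := h1 X P C V Lam b χ ϑ hstd hLam hχ hϑ hP ((l : ℝ) * a0) ((l : ℝ) • h) ((l : ℤ) • m)
        (by positivity) hs1 hret'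
      refine ⟨u, hu, fun z => ?_⟩
      have := hE z
      rw [wy_Omega_smul] at this
      refine this.trans ?_
      calc A1 * ((l : ℝ) * a0) ≤ A1 * (1 / (A1 * A)) := mul_le_mul_of_nonneg_left hs hA1pos.le
        _ = 1 / A := by field_simp

end Claimed.Agent.R258
end

/- ===== packed: Claimed.Agent.R258.Weyl.W3 ===== -/
section
/-
Row 258, [Weyl].  **(W3)**: the algebraic part of Lemma 4.3 (assembly of W3a, W3b, W3c).   helper197 (proved from the three leaves).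
-/
set_option autoImplicit false
open Matrix

namespace Claimed.Agent.R258

/-- **(W3)**  A bound `B` for `Ω(h,m)` on all returns of size `≤ a` (period `P`) gives the splitting (2) at quasipolynomial height.
`X ≥ 1` is a common bound for the heights of `C`, `P`, `1/a`, `B`; the dimensions are `≤ 1 + log X`. -/
theorem wy_W3 : ∃ c : ℕ, ∀ {ι κ : Type*} [Fintype ι] [DecidableEq ι] [Fintype κ] (X : ℝ) (P : ℕ) (C : Matrix ι ι ℚ)
    (V : Matrix ι κ ℝ) (Lam : Matrix κ κ ℝ) (a B : ℝ),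
    wy_Std X C κ → Lamᵀ = Lam → wy_Clears P C → (P : ℝ) ≤ X → 1 / X ≤ a → B ≤ X → wy_RetBound P C V Lam a B →
    wy_SplitsEx (wy_qp c X) C V Lam := by
  obtain ⟨ca, ha⟩ := wy_W3a
  obtain ⟨cb, hb⟩ := wy_W3b
  obtain ⟨cc, hc⟩ := wy_W3c
  -- `X ≤ Y = qp (ca+1) X ≤ X' = qp (cb+1) Y`, final height `qp (cc+1) X'`
  refine ⟨(cc + 1) * ((cb + 1) * (ca + 1 + 1) ^ (cb + 1) + (ca + 1) * (cb + 1) + 1) ^ (cc + 1)
    + ((cb + 1) * (ca + 1 + 1) ^ (cb + 1) + (ca + 1) * (cb + 1)) * (cc + 1), ?_⟩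
  intro ι κ _ _ _ X P C V Lam a B hstd hLam hP hPX haX hBX hret
  classical
  have hX := hstd.one_le
  set Y := wy_qp (ca + 1) X with hY
  have hXY : X ≤ Y := wy_le_qp (by omega) hX
  have hY1 : 1 ≤ Y := hX.trans hXY
  set X' := wy_qp (cb + 1) Y with hX'
  have hYX' : Y ≤ X' := wy_le_qp (by omega) hY1
  have hX'1 : 1 ≤ X' := hY1.trans hYX'
  have hXX' : X ≤ X' := hXY.trans hYX'
  obtain ⟨g, h, S, β, hfr0⟩ := ha X P C V Lam a B hstd hLam hP hPX haX hBX hret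
  have hmono : wy_qp ca X ≤ Y := wy_qp_mono (by omega) hX
  have hfr : wy_Frame Y P C V g h S β :=
    ⟨hfr0.gh, hfr0.hg, (one_div_le_one_div_of_le (wy_qp_pos _ _) hmono).trans hfr0.beta,
      fun i hi l => (hfr0.short i hi l).trans hmono, fun i hi a' => (hfr0.shortV i hi a').trans hmono, hfr0.iso, hfr0.small⟩
  obtain ⟨Pf, p1, p2, p3, p4, p5, p6, p7⟩ := hb Y P C V g h S β hY1 (wy_dim_mono hX hXY hstd.dim) hfr
  have hmono' : wy_qp cb Y ≤ X' := wy_qp_mono (by omega) hY1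
  have hXpos : 0 < X := by linarith
  have q := hc X' P C V Lam a B β Pf (hstd.mono hXX') hP.1 (hPX.trans hXX')
    ((one_div_le_one_div_of_le hXpos hXX').trans haX) (hBX.trans hXX') hret
    (fun i j => (wy_abs_le_qHeight _).trans ((p3 i j).trans hmono')) p5 (fun i a' => (p6 i a').trans hmono')
    ((one_div_le_one_div_of_le (by linarith) hYX').trans hfr.beta)
    (fun t n ht hn => p7 n (hfr.small t n ht hn))
  -- the final budget
  have f1 : X' ≤ wy_qp ((cb + 1) * (ca + 1 + 1) ^ (cb + 1) + (ca + 1) * (cb + 1)) X := wy_qp_comp (ca + 1) (cb + 1) hX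
  have f2 : wy_qp (cc + 1) X' ≤ wy_qp (cc + 1) (wy_qp ((cb + 1) * (ca + 1 + 1) ^ (cb + 1) + (ca + 1) * (cb + 1)) X) :=
    wy_qp_monoX _ hX'1 f1
  have f3 := f2.trans (wy_qp_comp ((cb + 1) * (ca + 1 + 1) ^ (cb + 1) + (ca + 1) * (cb + 1)) (cc + 1) hX)
  have f4 : X' ≤ wy_qp (cc + 1) X' := wy_le_qp (by omega) hX'1
  have f5 : wy_qp cc X' ≤ wy_qp (cc + 1) X' := wy_qp_mono (by omega) hX'1
  exact ⟨Pf, p1, p2, fun i j => ((p3 i j).trans hmono').trans (f4.trans f3),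
    fun i j => ((p4 i j).trans hmono').trans (f4.trans f3), p5,
    fun i a' => ((p6 i a').trans hmono').trans (f4.trans f3), fun a' b' => (q a' b').trans (f5.trans f3)⟩

end Claimed.Agent.R258
end

/- ===== packed: Claimed.Agent.R258.Weyl.Main ===== -/
section
/-
Row 258, [Weyl].  **Lemma 4.3 (Scale-wise Weyl alternative)**, assembly.   helper197.
-/
set_option autoImplicit false
open MeasureTheory Matrix

namespace Claimed.Agent.R258

theorem wy_Splits.mono {ι κ : Type*} [Fintype ι] [DecidableEq ι] [Fintype κ] {H H' : ℝ} {C : Matrix ι ι ℚ} {V : Matrix ι κ ℝ}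
    {Lam : Matrix κ κ ℝ} {Pf : Matrix ι ι ℚ} (h : wy_Splits H C V Lam Pf) (hH : H ≤ H') : wy_Splits H' C V Lam Pf :=
  ⟨h.idem, h.symm, fun i j => (h.height i j).trans hH, fun i j => (h.height' i j).trans hH, h.iso,
    fun i a => (h.slow i a).trans hH, fun a b => (h.quad a b).trans hH⟩

theorem wy_SplitsEx.mono {ι κ : Type*} [Fintype ι] [DecidableEq ι] [Fintype κ] {H H' : ℝ} {C : Matrix ι ι ℚ} {V : Matrix ι κ ℝ}
    {Lam : Matrix κ κ ℝ} (h : wy_SplitsEx H C V Lam) (hH : H ≤ H') : wy_SplitsEx H' C V Lam := by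
  obtain ⟨Pf, hPf⟩ := h
  exact ⟨Pf, hPf.mono hH⟩

/-- **Lemma 4.3.**  `X ≥ 1` bounds the heights of `C`, the amplitude data of `χ` and `ϑ` and `1/δ`; the dimensions are `≤ 1 + log X`.
If some Fourier coefficient of `ϑ Q` is `≥ 1/X`, the data `(C, V, Λ)` split (display (2)) at height `qp c X`. -/
theorem wy_weyl : ∃ c : ℕ, ∀ {ι κ : Type*} [Fintype ι] [DecidableEq ι] [Fintype κ] (X : ℝ) (C : Matrix ι ι ℚ) (V : Matrix ι κ ℝ)
    (Lam : Matrix κ κ ℝ) (b : κ → ℝ) (χ : (ι → ℝ) → ℂ) (ϑ : (κ → ℝ) → ℂ) (ξ : κ → ℝ),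
    wy_Std X C κ → Lamᵀ = Lam → wy_Amp X χ → wy_Amp X ϑ →
    1 / X ≤ ‖∫ z, ϑ z * wy_Q C V Lam b χ z * ee (-(ξ ⬝ᵥ z))‖ →
    wy_SplitsEx (wy_qp c X) C V Lam := by
  obtain ⟨c1, h1⟩ := wy_W12
  obtain ⟨c2, h2⟩ := wy_clears_exists
  obtain ⟨c3, h3⟩ := wy_W3
  refine ⟨c3 * (c1 + c2 + 1 + 1) ^ c3 + (c1 + c2 + 1) * c3, ?_⟩
  intro ι κ _ _ _ X C V Lam b χ ϑ ξ hstd hLam hχ hϑ hbig
  have hX := hstd.one_le
  obtain ⟨P, hP, hPX⟩ := h2 (κ := κ) X C hstd
  have hret := h1 X P C V Lam b χ ϑ ξ hstd hLam hχ hϑ hP hbig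
  set X' := wy_qp (c1 + c2 + 1) X with hX'
  have hXX' : X ≤ X' := wy_le_qp (by omega) hX
  have k1 : wy_qp c1 X ≤ X' := wy_qp_mono (by omega) hX
  have k2 : wy_qp c2 X ≤ X' := wy_qp_mono (by omega) hX
  have := h3 X' P C V Lam (1 / wy_qp c1 X) 1 (hstd.mono hXX') hLam hP (hPX.trans k2)
    (one_div_le_one_div_of_le (wy_qp_pos _ _) k1) (hX.trans hXX') hret
  exact this.mono (wy_qp_comp _ _ hX)

end Claimed.Agent.R258
end

/- ===== packed: Claimed.Agent.R258.S9.Basic ===== -/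
section
/-
Row 258 (S0498), Sec. 9 (counting.tex).  HOME ARCHITECT: helper41.      BASIC DEFINITIONS OF SEC. 9 (definitions only).

FINITE TRIGONOMETRIC FAMILIES.  A trigonometric polynomial on a torus is given by a finite FAMILY `(ι, n : ι → ℤ^d, c : ι → ℂ)`, meaning
`u ↦ ∑_i c i e(n i · u)` (equal frequencies are NOT merged; no `AddMonoidAlgebra`, no Haar measure in any statement).
* `s9dot n ζ = n · ζ`, `S9Box B n : |n|_∞ ≤ B`, `s9ev n c u` = value of the family;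
* `s9nsq n c = ∑_k |∑_{n i = k} c i|²` = the `L²` norm squared on the torus; the norm on the subtorus `ℍ = (ker κ)^⊥` of the paper is
  `s9nsq (κ ∘ n) c` for the additive map `κ : ℤ^d → ℤ^d'` with kernel `K_B ∩ ℤ^d`;
* four roles: `ι : Fin 4 → Type`, a multiplier family `(ιR, nR, mR, cR)` in the two variables `(u, v)`; a TUPLE is `x : ιR × (∀ j, ι j)`;
  `s9N`, `s9M l'` = total frequencies of the tuple in the progression coordinates `u = ξ (y_{l'} - x_*)`, `v = ξ t` (`y_j = y_{l'} + (j - l') t`).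
* `s9K I w xs l' a b` = normalized Fourier transform of the kernel in the coordinates anchored at the role `l'` (`a, b` dimensionless).
-/
set_option autoImplicit false
open MeasureTheory

namespace Claimed.Agent.R258

open scoped BigOperators
open Classical

noncomputable section

/-- `n · ζ` for an integer vector `n` -/
def s9dot {d : ℕ} (n : Fin d → ℤ) (ζ : Fin d → ℝ) : ℝ := ∑ i, (n i : ℝ) * ζ i

/-- `|n|_∞ ≤ B` -/
def S9Box {d : ℕ} (B : ℕ) (n : Fin d → ℤ) : Prop := ∀ i, |n i| ≤ (B : ℤ)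

/-- the value at `u` of the family `(n, c)` -/
def s9ev {d : ℕ} {ι : Type} [Fintype ι] (n : ι → Fin d → ℤ) (c : ι → ℂ) (u : Fin d → ℝ) : ℂ :=
  ∑ i, c i * ee (s9dot (n i) u)

/-- the value at `(u, v)` of a two-variable family -/
def s9ev2 {d : ℕ} {ι : Type} [Fintype ι] (n m : ι → Fin d → ℤ) (c : ι → ℂ) (u v : Fin d → ℝ) : ℂ :=
  ∑ i, c i * ee (s9dot (n i) u + s9dot (m i) v)

/-- absolute coefficient sum -/
def s9l1 {ι : Type} [Fintype ι] (c : ι → ℂ) : ℝ := ∑ i, ‖c i‖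

/-- `L²` norm squared on the torus: merge equal frequencies, sum the squares -/
def s9nsq {d : ℕ} {ι : Type} [Fintype ι] (n : ι → Fin d → ℤ) (c : ι → ℂ) : ℝ :=
  ∑ k ∈ Finset.univ.image n, ‖∑ i with n i = k, c i‖ ^ 2

/-- `j - l'` as an integer -/
def s9al (l' j : Fin 4) : ℤ := ((j : ℕ) : ℤ) - ((l' : ℕ) : ℤ)

section tuples
variable {d : ℕ} {ιR : Type} {ι : Fin 4 → Type}

/-- total `u`-frequency of a tuple -/
def s9N (nR : ιR → Fin d → ℤ) (n : ∀ j, ι j → Fin d → ℤ) (x : ιR × (∀ j, ι j)) : Fin d → ℤ :=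
  nR x.1 + ∑ j, n j (x.2 j)

/-- total `v`-frequency of a tuple, anchor `l'` -/
def s9M (l' : Fin 4) (mR : ιR → Fin d → ℤ) (n : ∀ j, ι j → Fin d → ℤ) (x : ιR × (∀ j, ι j)) : Fin d → ℤ :=
  mR x.1 + ∑ j, s9al l' j • n j (x.2 j)

/-- coefficient of a tuple -/
def s9co (cR : ιR → ℂ) (c : ∀ j, ι j → ℂ) (x : ιR × (∀ j, ι j)) : ℂ := cR x.1 * ∏ j, c j (x.2 j)

end tuples

/-- normalized Fourier transform of the kernel, anchored at the role `l'` and centred at `xs`: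
`|I|⁻² ∫∫ w(x,t) e((a (x + l' t - xs) + b t)/|I|) dx dt` -/
def s9K (I : Cell) (w : ℝ × ℝ → ℂ) (xs : ℝ) (l' : Fin 4) (a b : ℝ) : ℂ :=
  ((I.len ^ 2)⁻¹ : ℝ) * ∫ p : ℝ × ℝ, w p * ee ((a * (p.1 + ((l' : ℕ) : ℝ) * p.2 - xs) + b * p.2) / I.len)

/-- the same with a factor `S(y_{l'})` -/
def s9KS (I : Cell) (w : ℝ × ℝ → ℂ) (xs : ℝ) (l' : Fin 4) (S : ℝ → ℂ) (a b : ℝ) : ℂ :=
  ((I.len ^ 2)⁻¹ : ℝ) * ∫ p : ℝ × ℝ, w p * S (p.1 + ((l' : ℕ) : ℝ) * p.2) *
    ee ((a * (p.1 + ((l' : ℕ) : ℝ) * p.2 - xs) + b * p.2) / I.len)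

/-- normalized Fourier coefficient on the cell: `|I|⁻¹ ∫_I S(y) e(-k (y - xs)/|I|) dy` -/
def s9fc (I : Cell) (xs : ℝ) (S : ℝ → ℂ) (k : ℤ) : ℂ :=
  ((I.len)⁻¹ : ℝ) * ∫ y in I.set, S y * ee (-((k : ℝ) * (y - xs) / I.len))

end

end Claimed.Agent.R258
end

/- ===== packed: Claimed.Agent.R258.S9a.BookUnc ===== -/
section
/-
R258 / block [S9a] (Lemma 9.1 = counting.tex `lem:finite-sparse-count`), file BookUnc: the uncovered occurrences.  Blueprint + proofs: helper261.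
-/
set_option autoImplicit false

namespace Claimed.Agent.R258

open Finset
open scoped Pointwise

variable {p : ScPar} {O : Finset ScOcc} {α κ : ℝ}

open Classical in
theorem sc_book_unc (h : p.Ok O) (Fr : ScFrame p O α κ) (hκ : 0 ≤ κ) :
    ((O.filter fun o => ¬ Fr.own o).card : ℝ) ≤ 4 * Fr.J0 * κ * p.M ^ 2 := by
  have hsub : (O.filter fun o => ¬ Fr.own o) ⊆ (range Fr.J0 ×ˢ p.J).biUnion fun z =>
      O.filter fun o => Fr.blk o.1 = z.1 ∧ ∀ Bs ∈ Fr.Cov z.1 z.2, o.2 z.2 ∉ Bs := by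
    intro o ho
    obtain ⟨ho, hn⟩ := Finset.mem_filter.1 ho
    unfold ScFrame.own at hn
    push Not at hn
    obtain ⟨i, hi, hn⟩ := hn
    refine Finset.mem_biUnion.2 ⟨(Fr.blk o.1, i), Finset.mem_product.2
      ⟨Finset.mem_range.2 (Fr.blk_lt o ho), hi⟩, Finset.mem_filter.2 ⟨ho, rfl, hn⟩⟩
  have h1 := (Finset.card_le_card hsub).trans Finset.card_biUnion_le
  have h2 : ((O.filter fun o => ¬ Fr.own o).card : ℝ) ≤ ∑ z ∈ range Fr.J0 ×ˢ p.J,
      ((O.filter fun o => Fr.blk o.1 = z.1 ∧ ∀ Bs ∈ Fr.Cov z.1 z.2, o.2 z.2 ∉ Bs).card : ℝ) := by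
    exact_mod_cast h1
  have h3 : ∑ z ∈ range Fr.J0 ×ˢ p.J,
      ((O.filter fun o => Fr.blk o.1 = z.1 ∧ ∀ Bs ∈ Fr.Cov z.1 z.2, o.2 z.2 ∉ Bs).card : ℝ) ≤
      ∑ _z ∈ range Fr.J0 ×ˢ p.J, κ * p.M ^ 2 := by
    refine Finset.sum_le_sum fun z hz => ?_
    exact Fr.unc z.1 z.2 (Finset.mem_product.1 hz).2
  rw [Finset.sum_const, Finset.card_product, Finset.card_range, nsmul_eq_mul] at h3
  have hJ : (p.J.card : ℝ) ≤ 4 := by
    have : p.J.card ≤ 4 := by
      have := Finset.card_le_univ p.J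
      simpa using this
    exact_mod_cast this
  have h4 : (0 : ℝ) ≤ κ * p.M ^ 2 := by positivity
  have h5 : (0 : ℝ) ≤ Fr.J0 := Nat.cast_nonneg _
  push_cast at h3
  calc ((O.filter fun o => ¬ Fr.own o).card : ℝ) ≤ (Fr.J0 : ℝ) * p.J.card * (κ * p.M ^ 2) := h2.trans h3
    _ ≤ (Fr.J0 : ℝ) * 4 * (κ * p.M ^ 2) := by gcongr
    _ = 4 * Fr.J0 * κ * p.M ^ 2 := by ring

end Claimed.Agent.R258
end

/- ===== packed: Claimed.Agent.R258.S9a.IntMain ===== -/
section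
/-
R258 / block [S9a] (Lemma 9.1 = counting.tex `lem:finite-sparse-count`), file IntMain: THE GRID FORM OF LEMMA 9.1 (assembly, PROVED from the leaves).  Architect: helper261.
-/
set_option autoImplicit false

namespace Claimed.Agent.R258

open Finset
open scoped Pointwise

variable {p : ScPar} {O : Finset ScOcc}

open Classical in
/-- the three parts of the bookkeeping -/
theorem sc_book {α κ δ : ℝ} (h : p.Ok O) (hbin : p.Bin O δ) (hδ0 : 0 < δ) (hδ1 : δ ≤ 1) (hα : 0 ≤ α)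
    (hκ0 : 0 < κ) (hκ1 : κ < 1) (Fr : ScFrame p O α κ) :
    (O.card : ℝ) ≤ 4 * Fr.J0 * κ * p.M ^ 2 + 6 * Real.sqrt (p.L * α) * p.M ^ 2 +
      4 * Fr.J0 * (Fr.J0 * p.K1 κ) ^ 3 * (16 * p.g * p.K1 κ * p.L * δ ^ (1 / 10 : ℝ) * p.M ^ 2) := by
  have h1 := sc_book_unc h Fr hκ0.le
  have h2 := sc_book_nf h Fr hα
  have hK1 : 0 ≤ p.K1 κ := by
    unfold ScPar.K1
    have := h.hL
    positivity
  have hKb0 : 0 ≤ 16 * p.g * p.K1 κ * p.L * δ ^ (1 / 10 : ℝ) * p.M ^ 2 := by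
    have := h.hL
    have := Real.rpow_nonneg hδ0.le (1 / 10 : ℝ)
    positivity
  have h3 := sc_book_fut h hbin hδ0 hδ1 hκ0 hκ1 Fr _ hKb0
    (fun O' l' Bs sp hC => sc_comb_bound hC)
  have hsub : O ⊆ (O.filter fun o => ¬ Fr.own o) ∪ (O.filter fun o => Fr.own o ∧ ¬ Fr.fut3 o) ∪
      (O.filter fun o => Fr.fut3 o) := by
    intro o ho
    by_cases hf : Fr.fut3 o
    · exact Finset.mem_union_right _ (Finset.mem_filter.2 ⟨ho, hf⟩)
    · by_cases hw : Fr.own o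
      · exact Finset.mem_union_left _ (Finset.mem_union_right _ (Finset.mem_filter.2 ⟨ho, hw, hf⟩))
      · exact Finset.mem_union_left _ (Finset.mem_union_left _ (Finset.mem_filter.2 ⟨ho, hw⟩))
  have h4 : O.card ≤ (O.filter fun o => ¬ Fr.own o).card +
      (O.filter fun o => Fr.own o ∧ ¬ Fr.fut3 o).card + (O.filter fun o => Fr.fut3 o).card :=
    (Finset.card_le_card hsub).trans ((Finset.card_union_le _ _).trans
      (Nat.add_le_add_right (Finset.card_union_le _ _) _))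
  have h5 : (O.card : ℝ) ≤ ((O.filter fun o => ¬ Fr.own o).card : ℝ) +
      ((O.filter fun o => Fr.own o ∧ ¬ Fr.fut3 o).card : ℝ) + ((O.filter fun o => Fr.fut3 o).card : ℝ) := by
    exact_mod_cast h4
  linarith

/-- **Lemma 9.1, grid form.** -/
theorem sc_int_main {δ : ℝ} (h : p.Ok O) (hδ0 : 0 < δ) (hδ1 : δ ≤ 1) (hbin : p.Bin O δ) :
    (O.card : ℝ) ≤ 10 ^ 25 * p.g * p.L ^ 29 * δ ^ (1 / 2080 : ℝ) * p.M ^ 2 := by
  have hg1 : (1 : ℝ) ≤ p.g := by exact_mod_cast p.g_ge_one h.hμ0 h.hμ1 h.hν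
  have hL := h.hL
  have hM2 : (0 : ℝ) ≤ p.M ^ 2 := by positivity
  by_cases hδ : δ ≤ 1 / 4
  · obtain ⟨ha1, ha2, hk0, hk1, hnum⟩ := sc_num hδ0 hδ hL hg1
    obtain ⟨Fr⟩ := ScPar.sc_frame_exists h hbin hδ0 ha1 ha2 hk0 hk1
    have ha0 : 0 ≤ δ ^ (1 / 1040 : ℝ) := Real.rpow_nonneg hδ0.le _
    have hb := sc_book h hbin hδ0 hδ1 ha0 hk0 hk1 Fr
    have hn := hnum Fr.J0 (Nat.cast_nonneg _) Fr.J0_le
    have hn' := mul_le_mul_of_nonneg_right hn hM2
    refine hb.trans (le_trans (le_of_eq ?_) hn')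
    unfold ScPar.K1
    ring
  · -- large `δ`: the total mass
    have h1 := ScPar.sc_total h
    have h2 : (1 / 4 : ℝ) ≤ δ ^ (1 / 2080 : ℝ) := by
      have h3 := Real.rpow_le_rpow_of_exponent_ge hδ0 hδ1 (show (1 / 2080 : ℝ) ≤ 1 by norm_num)
      rw [Real.rpow_one] at h3
      linarith [not_le.1 hδ]
    have h4 : p.L ≤ p.L ^ 29 := by
      calc p.L = p.L ^ 1 := (pow_one _).symm
        _ ≤ p.L ^ 29 := pow_le_pow_right₀ hL (by norm_num)
    have h5 : p.L ≤ 10 ^ 25 * p.g * p.L ^ 29 * δ ^ (1 / 2080 : ℝ) := by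
      have h6 : (0 : ℝ) ≤ p.L ^ 29 := by positivity
      have h7 : (4 : ℝ) ≤ 10 ^ 25 * p.g := by nlinarith
      calc p.L ≤ p.L ^ 29 := h4
        _ = 4 * p.L ^ 29 * (1 / 4) := by ring
        _ ≤ (10 ^ 25 * p.g) * p.L ^ 29 * δ ^ (1 / 2080 : ℝ) := by gcongr
    exact h1.trans (mul_le_mul_of_nonneg_right h5 hM2)

end Claimed.Agent.R258
end

/- ===== packed: Claimed.Agent.R258.S9a.Grid ===== -/
section
/-
R258 / block [S9a] (Lemma 9.1 = counting.tex `lem:finite-sparse-count`), file Grid: assembly of the grid reduction and the REAL OCCURRENCE FORM.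
Architect: helper261 (glue, proved here from GridA/GridB/GridC and `sc_int_main`).
-/
set_option autoImplicit false

namespace Claimed.Agent.R258

open Finset

variable {P : ScParR} {O : Finset ScOccR} {h : ℝ}

/-- the rounded occurrences satisfy the hypotheses of the grid form -/
theorem sc_grid_ok (hO : P.Ok O) (hf : P.Fine O h) : (P.grid h).Ok (O.image (scRdOcc h)) where
  hJ := hO.hJ
  hM := hO.hM
  hL := hO.hL
  hB := hO.hB
  hμ0 := by
    have := hO.hμ0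
    show 0 < P.μ / 2
    linarith
  hμ1 := by
    have := hO.hμ1
    show P.μ / 2 ≤ 1
    linarith
  hν := by
    have := hO.hν
    show 1 ≤ 2 * P.ν
    linarith
  hR0 := div_pos hO.hR0 hf.1
  hQ := by
    rw [sc_grid_D]
    show 10 ^ 6 * ((P.d : ℝ) + 1) ^ 2 * P.B ≤ P.Q
    have h1 := hO.hQ
    have h2 : 0 ≤ ((P.d : ℝ) + 1) ^ 2 * P.B := mul_nonneg (by positivity) (by linarith [hO.hB])
    nlinarith
  hSg := by
    rw [sc_grid_D]
    show 10 ^ 6 * ((P.d : ℝ) + 1) ^ 2 * (2 * P.ν) ≤ P.Sg / 2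
    have h1 := hO.hSg
    linarith
  fine := sc_gridC_fine hO hf
  six := by
    intro o ho i
    obtain ⟨o0, -, rfl⟩ := Finset.mem_image.1 ho
    exact sc_rd_six _ _
  zero := by
    intro o ho i hi
    obtain ⟨o0, ho0, rfl⟩ := Finset.mem_image.1 ho
    show scRd h (o0.2 i) = 0
    rw [hO.zero o0 ho0 i hi, sc_rd_zero]
  card := sc_gridB_card hO hf
  pair := sc_gridB_pair hO hf
  mult := sc_gridB_mult hO hf
  w_nonneg := hO.w_nonneg
  w_sum := sc_gridB_w_sum hO hf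
  side := sc_gridB_side hO hf
  sep := sc_gridC_sep hO hf
  ann := sc_gridC_ann hO hf
  gap := sc_gridC_gap hO hf

/-- `ℓ = 1 + log₂ (2 + (d+1)² ν/μ)` -/
noncomputable def ScParR.ell (P : ScParR) : ℝ := 1 + Real.logb 2 (2 + ((P.d : ℝ) + 1) ^ 2 * P.ν / P.μ)

/-- the gap exponent of the grid parameters is `≤ 22 ℓ` -/
theorem sc_grid_g_le (hμ0 : 0 < P.μ) (hμ1 : P.μ ≤ 1) (hν : 1 ≤ P.ν) (h : ℝ) :
    ((P.grid h).g : ℝ) ≤ 22 * P.ell := by
  set x : ℝ := ((P.d : ℝ) + 1) ^ 2 * P.ν / P.μ with hx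
  have hx1 : 1 ≤ x := by
    rw [hx, le_div_iff₀ hμ0]
    have h1 : (1 : ℝ) ≤ ((P.d : ℝ) + 1) ^ 2 := by
      have : (0 : ℝ) ≤ P.d := Nat.cast_nonneg _
      nlinarith
    nlinarith
  have harg : 2 ^ 19 * (P.grid h).D * (P.grid h).ν / (P.grid h).μ = 2 ^ 21 * x := by
    rw [sc_grid_D]
    show 2 ^ 19 * ((P.d : ℝ) + 1) ^ 2 * (2 * P.ν) / (P.μ / 2) = 2 ^ 21 * x
    rw [hx]
    field_simp
  have hlog : Real.logb 2 (2 ^ 21 * x) = 21 + Real.logb 2 x := by
    rw [Real.logb_mul (by positivity) (by positivity)]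
    congr 1
    rw [Real.logb_pow]
    simp
  have hmono : Real.logb 2 x ≤ Real.logb 2 (2 + x) :=
    Real.logb_le_logb_of_le (by norm_num) (by linarith) (by linarith)
  have hnn : 0 ≤ Real.logb 2 x := Real.logb_nonneg (by norm_num) hx1
  have hceil : ((P.grid h).g : ℝ) < Real.logb 2 (2 ^ 21 * x) + 1 := by
    unfold ScPar.g
    rw [harg]
    exact Nat.ceil_lt_add_one (by rw [hlog]; linarith)
  unfold ScParR.ell
  rw [hlog] at hceil
  rw [← hx]
  linarith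

/-- **Lemma 9.1, real occurrence form.** -/
theorem sc_real_main {δ : ℝ} (hO : P.Ok O) (hδ0 : 0 < δ) (hδ1 : δ ≤ 1) (hbin : P.Bin O δ) :
    (O.card : ℝ) ≤ 22 * 10 ^ 25 * P.ell * P.L ^ 29 * δ ^ (1 / 2080 : ℝ) * P.M ^ 2 := by
  obtain ⟨h, hf⟩ := sc_fine_exists hO
  have h1 := sc_int_main (sc_grid_ok hO hf) hδ0 hδ1 (sc_gridB_bin hO hf hbin)
  rw [sc_gridB_card_eq hO hf] at h1
  have h2 := sc_grid_g_le (P := P) hO.hμ0 hO.hμ1 hO.hν h
  have h3 : (0 : ℝ) ≤ P.L ^ 29 * δ ^ (1 / 2080 : ℝ) * P.M ^ 2 := by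
    have := hO.hL
    have := Real.rpow_nonneg hδ0.le (1 / 2080 : ℝ)
    positivity
  calc (O.card : ℝ) ≤ 10 ^ 25 * (P.grid h).g * P.L ^ 29 * δ ^ (1 / 2080 : ℝ) * P.M ^ 2 := h1
    _ = 10 ^ 25 * ((P.grid h).g * (P.L ^ 29 * δ ^ (1 / 2080 : ℝ) * P.M ^ 2)) := by ring
    _ ≤ 10 ^ 25 * ((22 * P.ell) * (P.L ^ 29 * δ ^ (1 / 2080 : ℝ) * P.M ^ 2)) := by gcongr
    _ = _ := by ring

end Claimed.Agent.R258
end

/- ===== packed: Claimed.Agent.R258.S9a.Main ===== -/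
section
/-
R258 / block [S9a]: **Lemma 9.1** (counting.tex `lem:finite-sparse-count`, "Sparse mass of separated progression tests"), PAPER FORM.
Architect: helper261 (glue, proved here from `sc_real_main`).

EXPORT FOR SECTION 9:  `sc_sparse_count`.
  data: `P : ScParR` (d, ζ, J, M, L, B, μ, ν, Q, Sg = Σ, R0, w), a finite set `S` of scale indices, tuple sets `E s : Finset (Fin 4 → ℝ)`
  (tuples are functions on ALL four roles; the coordinate of a side role is `0`), hypotheses `P.Ok (scOccOf S E)` (`GridDefs.lean`: items 1-5 of the lemma,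
  `C_res = 4·10^6`), conclusion with `C = 22·10^25`, `ℓ = P.ell = 1 + log₂ (2 + (d+1)² ν/μ)`.
  `ScParR.Ok` is hereditary (`ScParR.Ok.mono`), `sc_real_main` is the same statement for an arbitrary finite set of occurrences all of whose bins are `≤ δ M²`.
-/
set_option autoImplicit false

namespace Claimed.Agent.R258

open Finset

/-- the hypotheses of Lemma 9.1 are hereditary -/
theorem ScParR.Ok.mono {P : ScParR} {O O' : Finset ScOccR} (h : P.Ok O) (hs : O' ⊆ O) : P.Ok O' where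
  hJ := h.hJ
  hM := h.hM
  hL := h.hL
  hB := h.hB
  hμ0 := h.hμ0
  hμ1 := h.hμ1
  hν := h.hν
  hR0 := h.hR0
  hQ := h.hQ
  hSg := h.hSg
  zero := fun o ho => h.zero o (hs ho)
  card := fun i hi => le_trans (by exact_mod_cast Finset.card_le_card (Finset.image_subset_image hs)) (h.card i hi)
  pair := fun o ho o' ho' => h.pair o (hs ho) o' (hs ho')
  mult := fun a => le_trans (by exact_mod_cast Finset.card_le_card (Finset.filter_subset_filter _ hs)) (h.mult a)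
  w_nonneg := h.w_nonneg
  w_sum := fun hJ => le_trans
    (Finset.sum_le_sum_of_subset_of_nonneg (Finset.image_subset_image hs) fun s _ _ => h.w_nonneg s) (h.w_sum hJ)
  side := fun hJ s i hi x =>
    le_trans (by exact_mod_cast Finset.card_le_card (Finset.filter_subset_filter _ hs)) (h.side hJ s i hi x)
  sep := fun o ho o' ho' => h.sep o (hs ho) o' (hs ho')
  ann := fun l' hl o ho => h.ann l' hl o (hs ho)
  gap := fun o ho => h.gap o (hs ho)

/-- the occurrences of a family of tuple sets -/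
noncomputable def scOccOf (S : Finset ℤ) (E : ℤ → Finset (Fin 4 → ℝ)) : Finset ScOccR :=
  S.biUnion fun s => (E s).image fun a => (s, a)

theorem sc_mem_occOf {S : Finset ℤ} {E : ℤ → Finset (Fin 4 → ℝ)} {o : ScOccR} :
    o ∈ scOccOf S E ↔ o.1 ∈ S ∧ o.2 ∈ E o.1 := by
  unfold scOccOf
  simp only [Finset.mem_biUnion, Finset.mem_image]
  constructor
  · rintro ⟨s, hs, a, ha, rfl⟩
    exact ⟨hs, ha⟩
  · rintro ⟨h1, h2⟩
    exact ⟨o.1, h1, o.2, h2, rfl⟩

theorem sc_occOf_mono {S S' : Finset ℤ} (E : ℤ → Finset (Fin 4 → ℝ)) (h : S' ⊆ S) :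
    scOccOf S' E ⊆ scOccOf S E := by
  intro o ho
  rw [sc_mem_occOf] at ho ⊢
  exact ⟨h ho.1, ho.2⟩

theorem sc_occOf_fiber (S : Finset ℤ) (E : ℤ → Finset (Fin 4 → ℝ)) {s : ℤ} (hs : s ∈ S) :
    ((scOccOf S E).filter fun o => o.1 = s).card = (E s).card := by
  have : ((scOccOf S E).filter fun o => o.1 = s) = (E s).image fun a => (s, a) := by
    ext o
    simp only [Finset.mem_filter, sc_mem_occOf, Finset.mem_image]
    constructor
    · rintro ⟨⟨_, h2⟩, rfl⟩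
      exact ⟨o.2, h2, rfl⟩
    · rintro ⟨a, ha, rfl⟩
      exact ⟨⟨hs, ha⟩, rfl⟩
  rw [this, Finset.card_image_of_injective]
  intro a b hab
  exact (Prod.mk.inj hab).2

theorem sc_occOf_fiber_empty (S : Finset ℤ) (E : ℤ → Finset (Fin 4 → ℝ)) {s : ℤ} (hs : s ∉ S) :
    ((scOccOf S E).filter fun o => o.1 = s).card = 0 := by
  rw [Finset.card_eq_zero, Finset.filter_eq_empty_iff]
  intro o ho he
  rw [sc_mem_occOf] at ho
  exact hs (he ▸ ho.1)

theorem sc_occOf_card (S : Finset ℤ) (E : ℤ → Finset (Fin 4 → ℝ)) :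
    (scOccOf S E).card = ∑ s ∈ S, (E s).card := by
  rw [Finset.card_eq_sum_card_fiberwise (f := Prod.fst) (t := S)]
  · exact Finset.sum_congr rfl fun s hs => sc_occOf_fiber S E hs
  · intro o ho
    exact (sc_mem_occOf.1 ho).1

/-- **Lemma 9.1** (`lem:finite-sparse-count`), paper form, `C = 22·10^25`, `C_res = 4·10^6`. -/
theorem sc_sparse_count (P : ScParR) (S : Finset ℤ) (E : ℤ → Finset (Fin 4 → ℝ)) {δ : ℝ}
    (hO : P.Ok (scOccOf S E)) (hδ0 : 0 < δ) (hδ1 : δ ≤ 1) :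
    ∑ s ∈ S.filter (fun s => ((E s).card : ℝ) ≤ δ * P.M ^ 2), ((E s).card : ℝ) ≤
      22 * 10 ^ 25 * P.ell * P.L ^ 29 * δ ^ (1 / 2080 : ℝ) * P.M ^ 2 := by
  set S' := S.filter (fun s => ((E s).card : ℝ) ≤ δ * P.M ^ 2) with hS'
  have hO' : P.Ok (scOccOf S' E) := hO.mono (sc_occOf_mono E (Finset.filter_subset _ _))
  have hbin : P.Bin (scOccOf S' E) δ := by
    intro s
    by_cases hs : s ∈ S'
    · rw [sc_occOf_fiber S' E hs]
      exact (Finset.mem_filter.1 hs).2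
    · rw [sc_occOf_fiber_empty S' E hs]
      have := hO.hM
      simp only [Nat.cast_zero]
      positivity
  have h := sc_real_main hO' hδ0 hδ1 hbin
  rw [sc_occOf_card] at h
  exact_mod_cast h

end Claimed.Agent.R258
end
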