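/- Packed by merge_tool.py (helper293): 11 modules of Claimed.Agent.R258 in one file, same declarations.
   Old modules, in this order: XV.Proj, XV.L1, S5.GDefs, S5.GEn, S5.GCell, S5.GSeg, S5.GRun, S5.GFin, S5.Greedy, S5.Seg, S3.Inst -/
import Claimed.Agent.R258.S3.CompAbs
import Claimed.Agent.R258.Pack011
import Claimed.Agent.R258.Pack006

/- ===== packed: Claimed.Agent.R258.XV.Proj ===== -/
section
/-
Row 258 (S0498), block [XV] (architect helper132).  `colSpan`, `cproj`, PARTITION PROJECTIONS `xvPProj` (in particular `dproj`).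
* `colSpan A I` : generators, monotonicity, `≤ xvSub I.set`, orthogonality on disjoint cells, private coordinates, refinement to the children;
* `cproj A I`   : `= (colSpan A I).starProjection` (rfl); idempotent, self-adjoint, contraction, commutes with `restr`, coefficients;
* `xvPProj m π = ∑_{Q ∈ π} cproj (m Q) Q` for an antichain `π` is the orthogonal projection onto `xvPSpan m π = ⨆_Q colSpan (m Q) Q`;
  `dproj m I n = xvPProj m (cellsAt I n)` (rfl).
-/
set_option autoImplicit false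
open MeasureTheory
open scoped InnerProductSpace ComplexConjugate

namespace Claimed.Agent.R258

/-! ### `colSpan` -/

theorem xv_vec_mem_colSpan {A : Finset Col} {Φ : Col} (h : Φ ∈ A) (I : Cell) : Φ.vec I ∈ colSpan A I := by
  classical
  unfold colSpan
  apply Submodule.subset_span
  simp only [Finset.coe_image, Set.mem_image, Finset.mem_coe]
  exact ⟨Φ, h, rfl⟩

theorem xv_colSpan_le {A : Finset Col} {I : Cell} {W : Submodule ℂ XV} (h : ∀ Φ ∈ A, Φ.vec I ∈ W) : colSpan A I ≤ W := by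
  classical
  unfold colSpan
  rw [Submodule.span_le]
  intro z hz
  simp only [Finset.coe_image, Set.mem_image, Finset.mem_coe] at hz
  obtain ⟨Φ, hΦ, rfl⟩ := hz
  exact h Φ hΦ

theorem xv_colSpan_mono {A B : Finset Col} (h : A ⊆ B) (I : Cell) : colSpan A I ≤ colSpan B I :=
  xv_colSpan_le fun _ hΦ => xv_vec_mem_colSpan (h hΦ) I

theorem xv_colSpan_empty (I : Cell) : colSpan ∅ I = ⊥ := by
  rw [eq_bot_iff]; exact xv_colSpan_le (by simp)

theorem xv_colSpan_le_sub (A : Finset Col) (I : Cell) : colSpan A I ≤ xvSub I.set :=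
  xv_colSpan_le fun Φ _ => xv_vec_mem_sub Φ I

theorem xv_colSpan_ortho (A B : Finset Col) {I J : Cell} (h1 : ¬ I ≤ J) (h2 : ¬ J ≤ I) : colSpan A I ⟂ colSpan B J :=
  (xv_sub_cell_ortho h1 h2).mono (xv_colSpan_le_sub A I) (xv_colSpan_le_sub B J)

theorem xv_colSpan_le_privZero {A : Finset Col} (I : Cell) {v : ℕ} (h : ∀ Φ ∈ A, Φ.lab ≠ v) :
    colSpan A I ≤ xvPrivZero v :=
  xv_colSpan_le fun Φ hΦ => xv_vec_mem_privZero Φ I (h Φ hΦ)

theorem xv_colSpan_child {A A0 A1 : Finset Col} {I : Cell} (hreg : ∀ Φ ∈ A, Φ.Reg I) (h0 : A ⊆ A0) (h1 : A ⊆ A1) :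
    colSpan A I ≤ colSpan A0 (I.child 0) ⊔ colSpan A1 (I.child 1) := by
  apply xv_colSpan_le
  intro Φ hΦ
  rw [xv_vec_child (hreg Φ hΦ)]
  exact Submodule.add_mem_sup (xv_vec_mem_colSpan (h0 hΦ) _) (xv_vec_mem_colSpan (h1 hΦ) _)

theorem xv_mem_colSpan_iff {A : Finset Col} {I : Cell} {z : XV} :
    z ∈ colSpan A I ↔ ∃ c : Col → ℂ, z = ∑ Φ ∈ A, c Φ • Φ.vec I := by
  classical
  constructor
  · intro hz
    unfold colSpan at hz
    rw [Finset.coe_image, Submodule.mem_span_image_finset_iff_exists_fun'] at hz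
    obtain ⟨c, hc⟩ := hz
    exact ⟨c, hc.symm⟩
  · rintro ⟨c, rfl⟩
    exact Submodule.sum_mem _ fun Φ hΦ => Submodule.smul_mem _ _ (xv_vec_mem_colSpan hΦ I)

/-! ### `cproj` -/

theorem xv_cproj_eq (A : Finset Col) (I : Cell) : cproj A I = (colSpan A I).starProjection := rfl

theorem xv_cproj_mem (A : Finset Col) (I : Cell) (F : XV) : cproj A I F ∈ colSpan A I :=
  Submodule.starProjection_apply_mem _ _

theorem xv_cproj_of_mem {A : Finset Col} {I : Cell} {F : XV} (h : F ∈ colSpan A I) : cproj A I F = F :=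
  Submodule.starProjection_eq_self_iff.2 h

theorem xv_cproj_idem (A : Finset Col) (I : Cell) (F : XV) : cproj A I (cproj A I F) = cproj A I F :=
  xv_cproj_of_mem (xv_cproj_mem A I F)

theorem xv_cproj_inner (A : Finset Col) (I : Cell) (F G : XV) : ⟪cproj A I F, G⟫_ℂ = ⟪F, cproj A I G⟫_ℂ :=
  Submodule.inner_starProjection_left_eq_right _ _ _

theorem xv_norm_cproj_le (A : Finset Col) (I : Cell) (F : XV) : ‖cproj A I F‖ ≤ ‖F‖ :=
  Submodule.norm_starProjection_apply_le _ _

theorem xv_cproj_vec {A : Finset Col} {Φ : Col} (h : Φ ∈ A) (I : Cell) : cproj A I (Φ.vec I) = Φ.vec I :=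
  xv_cproj_of_mem (xv_vec_mem_colSpan h I)

theorem xv_cproj_empty (I : Cell) (F : XV) : cproj ∅ I F = 0 := by
  have := xv_cproj_mem ∅ I F
  rwa [xv_colSpan_empty, Submodule.mem_bot] at this

theorem xv_restr_cproj (A : Finset Col) (I : Cell) (F : XV) : restr I.set (cproj A I F) = cproj A I F :=
  xv_mem_sub_iff.1 (xv_colSpan_le_sub A I (xv_cproj_mem A I F))

theorem xv_cproj_restr (A : Finset Col) (I : Cell) (F : XV) : cproj A I (restr I.set F) = cproj A I F :=
  xv_proj_of_le (xv_colSpan_le_sub A I) F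

theorem xv_restr_cproj_le (A : Finset Col) {I J : Cell} (h : I ≤ J) (F : XV) :
    restr J.set (cproj A I F) = cproj A I F := by
  rw [← xv_restr_cproj, xv_restr_cell_le' h]

theorem xv_cproj_restr_le (A : Finset Col) {I J : Cell} (h : I ≤ J) (F : XV) :
    cproj A I (restr J.set F) = cproj A I F := by
  rw [← xv_cproj_restr, xv_restr_cell_le h, xv_cproj_restr]

theorem xv_restr_cproj_disjoint (A : Finset Col) {I J : Cell} (h1 : ¬ J ≤ I) (h2 : ¬ I ≤ J) (F : XV) :
    restr J.set (cproj A I F) = 0 := by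
  rw [← xv_restr_cproj, xv_restr_cell_disjoint h1 h2]

theorem xv_norm_cproj_le_restr (A : Finset Col) (I : Cell) (F : XV) : ‖cproj A I F‖ ≤ ‖restr I.set F‖ :=
  xv_norm_proj_mono (xv_colSpan_le_sub A I) F

theorem xv_norm_cproj_mono {A B : Finset Col} (h : A ⊆ B) (I : Cell) (F : XV) : ‖cproj A I F‖ ≤ ‖cproj B I F‖ :=
  xv_norm_proj_mono (xv_colSpan_mono h I) F

theorem xv_cproj_cproj_of_subset {A B : Finset Col} (h : A ⊆ B) (I : Cell) (F : XV) :
    cproj A I (cproj B I F) = cproj A I F := xv_proj_of_le (xv_colSpan_mono h I) F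

theorem xv_cproj_cproj_of_subset' {A B : Finset Col} (h : A ⊆ B) (I : Cell) (F : XV) :
    cproj B I (cproj A I F) = cproj A I F := xv_proj_of_le' (xv_colSpan_mono h I) F

theorem xv_cproj_cproj_disjoint (A B : Finset Col) {I J : Cell} (h1 : ¬ I ≤ J) (h2 : ¬ J ≤ I) (F : XV) :
    cproj A I (cproj B J F) = 0 := by
  have := (xv_colSpan_ortho A B h1 h2).starProjection_comp_starProjection
  exact congrArg (fun f => f F) this

theorem xv_cproj_exists_coef (A : Finset Col) (I : Cell) (F : XV) :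
    ∃ c : Col → ℂ, cproj A I F = ∑ Φ ∈ A, c Φ • Φ.vec I := xv_mem_colSpan_iff.1 (xv_cproj_mem A I F)

theorem xv_cproj_mem_privZero {A : Finset Col} (I : Cell) {v : ℕ} (h : ∀ Φ ∈ A, Φ.lab ≠ v) (F : XV) :
    cproj A I F ∈ xvPrivZero v := xv_colSpan_le_privZero I h (xv_cproj_mem A I F)

/-- `‖F - P F‖² = ‖F‖² - ‖P F‖²` -/
theorem xv_normsq_sub_cproj (A : Finset Col) (I : Cell) (F : XV) :
    ‖F - cproj A I F‖ ^ 2 = ‖F‖ ^ 2 - ‖cproj A I F‖ ^ 2 := xv_normsq_sub_proj _ F

/-! ### partition projections -/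

/-- the direct sum of the local column spans over a finite family of cells -/
noncomputable def xvPSpan (m : Cell → Finset Col) (π : Finset Cell) : Submodule ℂ XV := π.sup fun Q => colSpan (m Q) Q

instance xvPSpanFin (m : Cell → Finset Col) (π : Finset Cell) : FiniteDimensional ℂ (xvPSpan m π) := by
  unfold xvPSpan; exact Submodule.finiteDimensional_finset_sup _ _

/-- `P_π = ∑_{Q ∈ π} P_{Q, m Q}` -/
noncomputable def xvPProj (m : Cell → Finset Col) (π : Finset Cell) : XV →L[ℂ] XV := ∑ Q ∈ π, cproj (m Q) Q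

theorem xv_pproj_apply (m : Cell → Finset Col) (π : Finset Cell) (F : XV) : xvPProj m π F = ∑ Q ∈ π, cproj (m Q) Q F := by
  unfold xvPProj; rw [FunLike.coe_sum, Finset.sum_apply]

theorem xv_dproj_eq (m : Cell → Finset Col) (I : Cell) (n : ℕ) : dproj m I n = xvPProj m (cellsAt I n) := rfl

theorem xv_dproj_apply (m : Cell → Finset Col) (I : Cell) (n : ℕ) (F : XV) :
    dproj m I n F = ∑ Q ∈ cellsAt I n, cproj (m Q) Q F := xv_pproj_apply m _ F

theorem xv_pproj_congr {m m' : Cell → Finset Col} {π : Finset Cell} (h : ∀ Q ∈ π, m Q = m' Q) : xvPProj m π = xvPProj m' π := by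
  unfold xvPProj; exact Finset.sum_congr rfl fun Q hQ => by rw [h Q hQ]

theorem xv_dproj_congr {m m' : Cell → Finset Col} {I : Cell} {n : ℕ} (h : ∀ Q ∈ cellsAt I n, m Q = m' Q) :
    dproj m I n = dproj m' I n := xv_pproj_congr h

theorem xv_pspan_ortho (m : Cell → Finset Col) {π : Finset Cell} (hπ : IsAntichain (· ≤ ·) (π : Set Cell)) :
    ∀ Q ∈ π, ∀ Q' ∈ π, Q ≠ Q' → colSpan (m Q) Q ⟂ colSpan (m Q') Q' :=
  fun _ hQ _ hQ' hne => xv_colSpan_ortho _ _ (hπ hQ hQ' hne) (hπ hQ' hQ hne.symm)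

theorem xv_pproj_eq (m : Cell → Finset Col) {π : Finset Cell} (hπ : IsAntichain (· ≤ ·) (π : Set Cell)) :
    xvPProj m π = (xvPSpan m π).starProjection :=
  (xv_sup_proj π (fun Q => colSpan (m Q) Q) (xv_pspan_ortho m hπ)).symm

theorem xv_normsq_pproj (m : Cell → Finset Col) {π : Finset Cell} (hπ : IsAntichain (· ≤ ·) (π : Set Cell)) (F : XV) :
    ‖xvPProj m π F‖ ^ 2 = ∑ Q ∈ π, ‖cproj (m Q) Q F‖ ^ 2 := by
  rw [xv_pproj_apply]
  exact xv_normsq_sum_proj π (fun Q => colSpan (m Q) Q) (xv_pspan_ortho m hπ) F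

theorem xv_colSpan_le_pspan (m : Cell → Finset Col) {π : Finset Cell} {Q : Cell} (hQ : Q ∈ π) :
    colSpan (m Q) Q ≤ xvPSpan m π := Finset.le_sup (f := fun Q => colSpan (m Q) Q) hQ

theorem xv_pspan_le {m : Cell → Finset Col} {π : Finset Cell} {W : Submodule ℂ XV} (h : ∀ Q ∈ π, colSpan (m Q) Q ≤ W) :
    xvPSpan m π ≤ W := Finset.sup_le h

theorem xv_pspan_mono {m m' : Cell → Finset Col} {π : Finset Cell} (h : ∀ Q ∈ π, m Q ⊆ m' Q) : xvPSpan m π ≤ xvPSpan m' π :=
  xv_pspan_le fun Q hQ => (xv_colSpan_mono (h Q hQ) Q).trans (xv_colSpan_le_pspan m' hQ)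

theorem xv_pspan_le_sub {m : Cell → Finset Col} {π : Finset Cell} {R : Cell} (h : ∀ Q ∈ π, Q ≤ R) : xvPSpan m π ≤ xvSub R.set :=
  xv_pspan_le fun Q hQ => (xv_colSpan_le_sub _ Q).trans (xv_sub_cell_mono (h Q hQ))

theorem xv_pspan_le_privZero {m : Cell → Finset Col} {π : Finset Cell} {v : ℕ} (h : ∀ Q ∈ π, ∀ Φ ∈ m Q, Φ.lab ≠ v) :
    xvPSpan m π ≤ xvPrivZero v := xv_pspan_le fun Q hQ => xv_colSpan_le_privZero Q (h Q hQ)

/-- a column which is available on all cells of a partition of `R` -/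
theorem xv_vec_mem_pspan {m : Cell → Finset Col} {π : Finset Cell} {R : Cell} (hπ : CellPart R π) {Φ : Col} (hreg : Φ.Reg R)
    (h : ∀ Q ∈ π, Φ ∈ m Q) : Φ.vec R ∈ xvPSpan m π := by
  rw [← xv_vec_part hreg hπ]
  exact Submodule.sum_mem _ fun Q hQ => xv_colSpan_le_pspan m hQ (xv_vec_mem_colSpan (h Q hQ) Q)

theorem xv_antichain_cellsAt (I : Cell) (n : ℕ) : IsAntichain (· ≤ ·) ((cellsAt I n : Finset Cell) : Set Cell) :=
  (cell_part_cellsAt I n).anti

/-! ### `dproj` -/

theorem xv_dproj_eq_proj (m : Cell → Finset Col) (I : Cell) (n : ℕ) :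
    dproj m I n = (xvPSpan m (cellsAt I n)).starProjection := xv_pproj_eq m (xv_antichain_cellsAt I n)

theorem xv_normsq_dproj (m : Cell → Finset Col) (I : Cell) (n : ℕ) (F : XV) :
    ‖dproj m I n F‖ ^ 2 = ∑ Q ∈ cellsAt I n, ‖cproj (m Q) Q F‖ ^ 2 := xv_normsq_pproj m (xv_antichain_cellsAt I n) F

theorem xv_dproj_zero (m : Cell → Finset Col) (I : Cell) : dproj m I 0 = cproj (m I) I := by
  rw [xv_dproj_eq, cell_cellsAt_zero]; simp [xvPProj]

theorem xv_dspan_le_sub (m : Cell → Finset Col) (I : Cell) (n : ℕ) : xvPSpan m (cellsAt I n) ≤ xvSub I.set :=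
  xv_pspan_le_sub fun _ hQ => (cell_part_cellsAt I n).le _ hQ

theorem xv_restr_dproj (m : Cell → Finset Col) (I : Cell) (n : ℕ) (F : XV) : restr I.set (dproj m I n F) = dproj m I n F := by
  rw [xv_dproj_eq_proj]
  exact xv_mem_sub_iff.1 (xv_dspan_le_sub m I n (Submodule.starProjection_apply_mem _ _))

theorem xv_dproj_restr (m : Cell → Finset Col) (I : Cell) (n : ℕ) (F : XV) : dproj m I n (restr I.set F) = dproj m I n F := by
  rw [xv_dproj_eq_proj]
  exact xv_proj_of_le (xv_dspan_le_sub m I n) F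

theorem xv_norm_dproj_le_restr (m : Cell → Finset Col) (I : Cell) (n : ℕ) (F : XV) : ‖dproj m I n F‖ ≤ ‖restr I.set F‖ := by
  rw [xv_dproj_eq_proj]
  exact xv_norm_proj_mono (xv_dspan_le_sub m I n) F

/-- the delayed residual `1_I F - P_{s+n} F` is not larger than `1_I F` -/
theorem xv_norm_resid_le (m : Cell → Finset Col) (I : Cell) (n : ℕ) (F : XV) :
    ‖restr I.set F - dproj m I n F‖ ≤ ‖restr I.set F‖ := by
  rw [← xv_dproj_restr, xv_dproj_eq_proj]
  exact xv_norm_sub_proj_le _ _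

theorem xv_restr_resid (m : Cell → Finset Col) (I : Cell) (n : ℕ) (F : XV) :
    restr I.set (restr I.set F - dproj m I n F) = restr I.set F - dproj m I n F := by
  rw [map_sub, xv_restr_idem, xv_restr_dproj]

theorem xv_n2_resid_le (m : Cell → Finset Col) (I : Cell) (n : ℕ) (F : XV) :
    n2 I (restr I.set F - dproj m I n F) ≤ n2 I F := by
  apply xv_n2_le_of_norm_le
  rw [xv_restr_resid]
  exact xv_norm_resid_le m I n F

end Claimed.Agent.R258
end

/- ===== packed: Claimed.Agent.R258.XV.L1 ===== -/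
section
/-
Row 258 (S0498), block [XV] (architect helper132).  `L¹` AVERAGES, HÖLDER `L¹-L^∞` AGAINST A COLUMN, PRIVATE-COORDINATE LOWER BOUND
(the analytic facts behind Lemma 3.2 / the fields of `s3_Sys`).
-/
set_option autoImplicit false
open MeasureTheory
open scoped InnerProductSpace ComplexConjugate

namespace Claimed.Agent.R258

theorem xv_cell_finite (I : Cell) : IsFiniteMeasure ((volume : Measure ℝ).restrict I.set) :=
  ⟨by rw [Measure.restrict_apply_univ]; exact lt_top_iff_ne_top.2 (cell_volume_ne_top I)⟩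

theorem xv_integrableOn_norm (z : XV) (I : Cell) : IntegrableOn (fun y => ‖(z : ℝ → HV) y‖) I.set := by
  have := xv_cell_finite I
  exact (((Lp.memLp z).restrict I.set).integrable (by norm_num)).norm

theorem xv_L1_child (z : XV) (I : Cell) :
    ∫ y in I.set, ‖(z : ℝ → HV) y‖ =
      (∫ y in (I.child 0).set, ‖(z : ℝ → HV) y‖) + ∫ y in (I.child 1).set, ‖(z : ℝ → HV) y‖ := by
  rw [← cell_set_child_union I]
  exact setIntegral_union (cell_set_child_disjoint I) (cell_measurableSet _) (xv_integrableOn_norm z _)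
    (xv_integrableOn_norm z _)

/-- Cauchy-Schwarz on a cell -/
theorem xv_L1_sq_le (z : XV) (I : Cell) : (∫ y in I.set, ‖(z : ℝ → HV) y‖) ^ 2 ≤ I.len * ‖restr I.set z‖ ^ 2 := by
  rw [xv_normsq_restr (cell_measurableSet I)]
  set a := ∫ y in I.set, ‖(z : ℝ → HV) y‖ with ha
  set b := ∫ y in I.set, ‖(z : ℝ → HV) y‖ ^ 2 with hb
  have hL := cell_len_pos I
  have h1 := xv_integrableOn_norm z I
  have h2 : IntegrableOn (fun y => ‖(z : ℝ → HV) y‖ ^ 2) I.set := (xv_integrable_normsq z).integrableOn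
  have hfin := xv_cell_finite I
  -- `0 ≤ ∫_I (|I| ‖z‖ - a)²`
  have h3 : 0 ≤ ∫ y in I.set, (I.len * ‖(z : ℝ → HV) y‖ - a) ^ 2 := integral_nonneg fun y => sq_nonneg _
  have h4 : ∫ y in I.set, (I.len * ‖(z : ℝ → HV) y‖ - a) ^ 2 = I.len ^ 2 * b - 2 * I.len * a * a + I.len * a ^ 2 := by
    have e : (fun y => (I.len * ‖(z : ℝ → HV) y‖ - a) ^ 2) =
        fun y => I.len ^ 2 * ‖(z : ℝ → HV) y‖ ^ 2 - 2 * I.len * a * ‖(z : ℝ → HV) y‖ + a ^ 2 := by
      funext y; ring
    have i2 : Integrable (fun y => I.len ^ 2 * ‖(z : ℝ → HV) y‖ ^ 2) (volume.restrict I.set) := h2.const_mul _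
    have i1 : Integrable (fun y => 2 * I.len * a * ‖(z : ℝ → HV) y‖) (volume.restrict I.set) := h1.const_mul _
    have i3 : Integrable (fun y => I.len ^ 2 * ‖(z : ℝ → HV) y‖ ^ 2 - 2 * I.len * a * ‖(z : ℝ → HV) y‖)
        (volume.restrict I.set) := i2.sub i1
    rw [e, integral_add i3 (integrable_const _), integral_sub i2 i1, integral_const_mul, integral_const_mul,
      cell_integral_const]
  rw [h4] at h3
  have h5 : I.len * a ^ 2 ≤ I.len * (I.len * b) := by nlinarith
  exact le_of_mul_le_mul_left h5 hL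

theorem xv_normsq_vec_eq {Φ : Col} {I : Cell} (h : Φ.Reg I) : ‖Φ.vec I‖ ^ 2 = ∫ y in I.set, ‖Φ.fn y‖ ^ 2 := by
  rw [xv_normsq_eq_integral, ← integral_indicator (cell_measurableSet I)]
  apply integral_congr_ae
  filter_upwards [xv_vec_ae h] with y hy
  rw [hy]
  by_cases hyE : y ∈ I.set
  · rw [Set.indicator_of_mem hyE, Set.indicator_of_mem hyE]
  · simp [Set.indicator_of_notMem hyE]

theorem xv_normsq_vec_le' {Φ : Col} {I : Cell} {D : ℝ} (hb : ∀ y ∈ I.set, ‖Φ.fn y‖ ≤ D) : ‖Φ.vec I‖ ^ 2 ≤ D ^ 2 * I.len := by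
  have hD : 0 ≤ D := (norm_nonneg _).trans (hb _ (cell_left_mem I))
  have hL := cell_len_pos I
  by_cases h : Φ.Reg I
  · rw [xv_normsq_vec_eq h]
    have h1 : ∫ y in I.set, ‖Φ.fn y‖ ^ 2 ≤ ∫ _ in I.set, D ^ 2 := by
      by_cases hi : IntegrableOn (fun y => ‖Φ.fn y‖ ^ 2) I.set
      · apply setIntegral_mono_on hi (integrableOn_const (cell_volume_ne_top I)) (cell_measurableSet I)
        intro y hy
        exact pow_le_pow_left₀ (norm_nonneg _) (hb y hy) 2
      · rw [integral_undef hi, cell_integral_const]; positivity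
    rw [cell_integral_const] at h1
    linarith
  · unfold Col.vec; rw [xv_toXV_of_not h, norm_zero]
    have h2 : 0 ≤ D ^ 2 * I.len := by positivity
    simpa using h2

/-- Hölder `L^∞`-`L¹` -/
theorem xv_norm_inner_vec_le {Φ : Col} {I : Cell} {D : ℝ} (hb : ∀ y ∈ I.set, ‖Φ.fn y‖ ≤ D) (z : XV) :
    ‖⟪Φ.vec I, z⟫_ℂ‖ ≤ D * ∫ y in I.set, ‖(z : ℝ → HV) y‖ := by
  have hD : 0 ≤ D := (norm_nonneg _).trans (hb _ (cell_left_mem I))
  by_cases h : Φ.Reg I
  · rw [L2.inner_def, ← integral_const_mul, ← integral_indicator (cell_measurableSet I)]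
    apply norm_integral_le_of_norm_le
    · rw [integrable_indicator_iff (cell_measurableSet I)]
      exact (xv_integrableOn_norm z I).const_mul D
    · filter_upwards [xv_vec_ae h] with y hy
      rw [hy]
      by_cases hyE : y ∈ I.set
      · rw [Set.indicator_of_mem hyE, Set.indicator_of_mem hyE]
        exact (norm_inner_le_norm _ _).trans (mul_le_mul_of_nonneg_right (hb y hyE) (norm_nonneg _))
      · simp [Set.indicator_of_notMem hyE]
  · unfold Col.vec; rw [xv_toXV_of_not h, inner_zero_left, norm_zero]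
    exact mul_nonneg hD (integral_nonneg fun _ => norm_nonneg _)

/-- finitely many coordinates of a vector of `ℓ²` -/
theorem xv_sum_coord_sq_le (x : HV) (K : Finset ℕ) : ∑ k ∈ K, ‖x k‖ ^ 2 ≤ ‖x‖ ^ 2 := by
  have h := lp.sum_rpow_le_norm_rpow (p := 2) (by norm_num) x K
  simpa using h

/-- a.e. formula for a combination of columns -/
theorem xv_sum_vec_ae {A : Finset Col} {I : Cell} (hreg : ∀ Φ ∈ A, Φ.Reg I) (c : Col → ℂ) :
    ((∑ Φ ∈ A, c Φ • Φ.vec I : XV) : ℝ → HV) =ᵐ[volume] I.set.indicator fun y => ∑ Φ ∈ A, c Φ • Φ.fn y := by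
  classical
  induction A using Finset.induction_on with
  | empty =>
    filter_upwards [Lp.coeFn_zero HV 2 (volume : Measure ℝ)] with y hy
    simp
  | insert a s ha ih =>
    rw [Finset.sum_insert ha]
    filter_upwards [Lp.coeFn_add (c a • a.vec I) (∑ Φ ∈ s, c Φ • Φ.vec I), Lp.coeFn_smul (c a) (a.vec I),
      xv_vec_ae (hreg a (Finset.mem_insert_self a s)), ih fun Φ hΦ => hreg Φ (Finset.mem_insert_of_mem hΦ)]
      with y h1 h2 h3 h4
    rw [h1, Pi.add_apply, h2, Pi.smul_apply, h3, h4]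
    by_cases hyE : y ∈ I.set
    · simp only [Set.indicator_of_mem hyE, Finset.sum_insert ha]
    · simp only [Set.indicator_of_notMem hyE, smul_zero, add_zero]

/-- **private coordinates**: lower bound for a combination of columns with distinct labels -/
theorem xv_lower {A : Finset Col} {I : Cell} (hreg : ∀ Φ ∈ A, Φ.Reg I)
    (hlab : ∀ Φ ∈ A, ∀ Φ' ∈ A, Φ.lab = Φ'.lab → Φ = Φ') (heps : ∀ Φ ∈ A, 0 ≤ Φ.eps) (c : Col → ℂ) :
    I.len * ∑ Φ ∈ A, Φ.eps * ‖c Φ‖ ^ 2 ≤ ‖∑ Φ ∈ A, c Φ • Φ.vec I‖ ^ 2 := by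
  classical
  -- pointwise bound
  have hpt : ∀ y, ∑ Φ ∈ A, Φ.eps * ‖c Φ‖ ^ 2 ≤ ‖∑ Φ ∈ A, c Φ • Φ.fn y‖ ^ 2 := by
    intro y
    set x : HV := ∑ Φ ∈ A, c Φ • Φ.fn y with hx
    have hcoord : ∀ Φ ∈ A, x (Φ.lab + 1) = c Φ * (Real.sqrt Φ.eps : ℂ) := by
      intro Φ hΦ
      rw [hx, lp.coeFn_sum, Finset.sum_apply, Finset.sum_eq_single Φ]
      · rw [lp.coeFn_smul, Pi.smul_apply, xv_fn_lab, smul_eq_mul]
      · intro Φ' hΦ' hne
        rw [lp.coeFn_smul, Pi.smul_apply, xv_fn_ne Φ' y (Nat.succ_ne_zero _), smul_zero]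
        intro h
        exact hne (hlab Φ' hΦ' Φ hΦ (by omega))
      · intro h; exact absurd hΦ h
    have h1 : ∑ Φ ∈ A, Φ.eps * ‖c Φ‖ ^ 2 = ∑ Φ ∈ A, ‖x (Φ.lab + 1)‖ ^ 2 := by
      apply Finset.sum_congr rfl
      intro Φ hΦ
      rw [hcoord Φ hΦ, norm_mul, mul_pow, Complex.norm_real, Real.norm_of_nonneg (Real.sqrt_nonneg _),
        Real.sq_sqrt (heps Φ hΦ), mul_comm]
    have h2 : ∑ Φ ∈ A, ‖x (Φ.lab + 1)‖ ^ 2 = ∑ k ∈ A.image (fun Φ => Φ.lab + 1), ‖x k‖ ^ 2 := by
      rw [Finset.sum_image]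
      intro Φ hΦ Φ' hΦ' h
      exact hlab Φ hΦ Φ' hΦ' (by simpa using h)
    rw [h1, h2]
    exact xv_sum_coord_sq_le x _
  set z : XV := ∑ Φ ∈ A, c Φ • Φ.vec I with hz
  have h1 : ∫ y in I.set, ‖(z : ℝ → HV) y‖ ^ 2 ≤ ‖z‖ ^ 2 := by
    rw [← xv_normsq_restr (cell_measurableSet I)]
    exact pow_le_pow_left₀ (norm_nonneg _) (xv_norm_restr_le _ _) 2
  refine le_trans ?_ h1
  rw [← cell_integral_const]
  apply setIntegral_mono_on_ae (integrableOn_const (cell_volume_ne_top I)) (xv_integrable_normsq z).integrableOn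
    (cell_measurableSet I)
  filter_upwards [xv_sum_vec_ae hreg c] with y hy hyI
  rw [hy, Set.indicator_of_mem hyI]
  exact hpt y

end Claimed.Agent.R258
end

/- ===== packed: Claimed.Agent.R258.S5.GDefs ===== -/
section
/-
Row 258, Sec. 5.3-5.4, BLOCK [S5g] (greedy delayed fit; statement helper182, architect + prover helper132).  DEFINITIONS.

`Segm`, `Detect` : the two definitions of the statement `s5g_greedy` (S5/Greedy.lean).
Internal objects of the proof (prefix `s5g`):
* `S5gCtx`, `S5gCtx.Ok`  : the data and the hypotheses of `s5g_greedy`, bundled;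
* `X.lab R I k`, `X.col R I k a` : label and column number `k` inserted at the coarse cell `I` in the RUN started at the root `R`
  (labels encode `(R, I, k)`: no collisions between different runs);
* `X.New R I n c`        : the columns `col R I k (c k)`, `k < n`;
* `X.mask E`, `X.En I E`, `X.resid I E` : mask family `pre ∪ E`, potential `‖P_{s+K0} F‖²` and delayed residual at the coarse cell `I` with extras `E`;
* `X.Spec R I E0 n c`    : what one greedy step at the cell `I` achieves.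

STRUCTURE OF THE PROOF (differs slightly from the plan in S5/Greedy.lean: restarts are decoupled from the greedy run).
 (1) GEn   : potential: `En ≤ ‖1_I F‖²`, monotone in `E`, refinement `En I E ≤ En I₀ E + En I₁ E`, gain `ρ²|I|/2` for a fresh detected column.
 (2) GCell : one cell: `∃ n c, Spec R I E0 n c`.
 (3) GRun  : for EVERY `R ∈ T` the greedy run down the whole subtree below `R` without restarts (`inp`, `out`, `num`, `chs`);
             tree energy inequality `∑_{I ≤ R} num I · ρ²|I|/2 ≤ ‖1_R F‖² ≤ |R|`; first-crossing stops of total length `≤ |R|/4`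
             (`cell_crossing_stops`), path count `≤ 8/ρ²` at retained cells.
 (4) GSeg  : pure cells: stops at every cell of `T` ⟹ segmentation (`roots` = closure of `root` under `stops`, `seg` = smallest root above);
             every cell is retained for the stops of its segment root.
 (5) Greedy: `ext R Q` = union of the columns inserted in the run of `R` at retained cells `b ≥ Q.anc K0`.
-/
set_option autoImplicit false
open MeasureTheory

namespace Claimed.Agent.R258

/-- a segmentation of the tree `T`: `seg I` is the smallest segment root containing `I`; total root length `≤ κ |root|` -/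
structure Segm (root : Cell) (T roots : Finset Cell) (seg : Cell → Cell) (κ : ℝ) : Prop where
  root_mem : root ∈ roots
  sub : roots ⊆ T
  seg_mem : ∀ I ∈ T, seg I ∈ roots
  le_seg : ∀ I ∈ T, I ≤ seg I
  seg_min : ∀ I ∈ T, ∀ R ∈ roots, I ≤ R → seg I ≤ R
  pack : ∑ R ∈ roots, R.len ≤ κ * root.len

/-- the conclusion of local detection (Lemma 4.11) at threshold `δ`: moment `≥ ρ` against a bounded atom of complexity `≤ H` -/
def Detect (c0 C0 q δ ρ H : ℝ) : Prop :=
  ∀ (I : Cell) (w : ℝ × ℝ → ℂ), Admissible c0 C0 I w → ∀ (j : Fin 4) (r : XV), n2 I r ≤ 1 → ¬ DSmall q I w j r δ →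
    ∃ φ : Chart, φ.Cplx H ∧ φ.Bdd ∧ ρ ≤ ‖mom I r φ.eval‖

/-- the data of `s5g_greedy` -/
structure S5gCtx where
  c0 : ℝ
  C0 : ℝ
  q : ℝ
  δ : ℝ
  ρ : ℝ
  H : ℝ
  root : Cell
  T : Finset Cell
  S : Finset Cell
  w : Cell → ℝ × ℝ → ℂ
  e : Fin 4
  f : ℝ → ℂ
  pre : Cell → Finset Col
  K0 : ℕ
  ι : ℕ → ℕ

namespace S5gCtx

/-- the hypotheses of `s5g_greedy` -/
structure Ok (X : S5gCtx) : Prop where
  hdet : Detect X.c0 X.C0 X.q X.δ X.ρ X.H
  hρ0 : 0 < X.ρ
  hρ1 : X.ρ ≤ 1
  htree : RootedTree X.root X.T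
  hS : X.S ⊆ X.T
  hw : ∀ I ∈ X.S, Admissible X.c0 X.C0 I (X.w I)
  hf : BddCS X.f
  hnorm : ∀ I ∈ X.T, n2 I (ofScalar X.f) ≤ 1
  hpre : Inh X.root X.pre
  hmeas : ∀ I, ∀ Φ ∈ X.pre I, Measurable Φ.phi ∧ ∀ y, ‖Φ.phi y‖ ≤ 1
  hι : Function.Injective X.ι
  hfresh : ∀ I, ∀ Φ ∈ X.pre I, Φ.lab ∉ Set.range X.ι

variable (X : S5gCtx)

/-- `F = (f, 0)` -/
noncomputable def F : XV := ofScalar X.f

/-- the label number `k` of the cell `I` in the run of the root `R` -/
def lab (R I : Cell) (k : ℕ) : ℕ :=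
  X.ι (Nat.pair (Nat.pair (Encodable.encode R.depth) (Encodable.encode R.idx))
    (Nat.pair (Nat.pair (Encodable.encode I.depth) (Encodable.encode I.idx)) k))

/-- the column with chart `a` inserted at the cell `I` in the run of the root `R` -/
noncomputable def col (R I : Cell) (k : ℕ) (a : Chart) : Col := ⟨X.lab R I k, I, a.eval, 1⟩

open Classical in
/-- the first `n` columns of the sequence `c` -/
noncomputable def New (R I : Cell) (n : ℕ) (c : ℕ → Chart) : Finset Col :=
  (Finset.range n).image fun k => X.col R I k (c k)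

open Classical in
/-- the mask family `pre ∪ E` -/
noncomputable def mask (E : Finset Col) : Cell → Finset Col := fun Q => X.pre Q ∪ E

/-- the potential of the coarse cell `I` with extras `E` -/
noncomputable def En (I : Cell) (E : Finset Col) : ℝ := ‖dproj (X.mask E) I X.K0 X.F‖ ^ 2

/-- the delayed residual -/
noncomputable def resid (I : Cell) (E : Finset Col) : XV := restr I.set X.F - dproj (X.mask E) I X.K0 X.F

/-- admissible extras at the input of the cell `I` in the run of `R`: columns inserted at strict ancestors of `I` -/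
def Good (R I : Cell) (E : Finset Col) : Prop :=
  ∀ Φ ∈ E, ∃ (b : Cell) (k : ℕ) (a : Chart), I < b ∧ b ≤ R ∧ Φ = X.col R b k a ∧ a.Cplx X.H ∧ a.Bdd

open Classical in
/-- the result of the greedy step at the cell `I` -/
def Spec (R I : Cell) (E0 : Finset Col) (n : ℕ) (c : ℕ → Chart) : Prop :=
  (∀ k < n, (c k).Cplx X.H ∧ (c k).Bdd) ∧
  X.En I E0 + n * (X.ρ ^ 2 * I.len / 2) ≤ X.En I (E0 ∪ X.New R I n c) ∧
  (I ∈ X.S → DSmall X.q I (X.w I) X.e (X.resid I (E0 ∪ X.New R I n c)) X.δ)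

end S5gCtx

/-- a trivial chart (junk value) -/
def s5gChart0 : Chart := ⟨0, fun _ => 0, 0, 0, 0, fun _ => 0, 0⟩

end Claimed.Agent.R258
end

/- ===== packed: Claimed.Agent.R258.S5.GEn ===== -/
section
/-
Row 258, BLOCK [S5g] (helper132).  THE POTENTIAL `X.En I E = ‖dproj (pre ∪ E) I K0 F‖²`.
(a) `En_le`, (b) `En_child`, (c) `En_mono`, (d) `En_gain`.
-/
set_option autoImplicit false
open MeasureTheory
open scoped InnerProductSpace

namespace Claimed.Agent.R258

/-- refinement of partition spans for inherited regular families -/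
theorem xv_pspan_refine {m : Cell → Finset Col} {π π' : Finset Cell}
    (h : ∀ Q ∈ π, ∃ σ : Finset Cell, σ ⊆ π' ∧ CellPart Q σ ∧ ∀ Q' ∈ σ, m Q ⊆ m Q')
    (hreg : ∀ Q ∈ π, ∀ Φ ∈ m Q, Φ.Reg Q) : xvPSpan m π ≤ xvPSpan m π' := by
  apply xv_pspan_le
  intro Q hQ
  obtain ⟨σ, hσ, hpart, hm⟩ := h Q hQ
  apply xv_colSpan_le
  intro Φ hΦ
  rw [← xv_vec_part (hreg Q hQ Φ hΦ) hpart]
  exact Submodule.sum_mem _ fun Q' hQ' => xv_colSpan_le_pspan m (hσ hQ') (xv_vec_mem_colSpan (hm Q' hQ' hΦ) Q')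

theorem xv_cellsAt_one_subset {I Q : Cell} {n : ℕ} (hQ : Q ∈ cellsAt I n) : cellsAt Q 1 ⊆ cellsAt I (n + 1) := by
  intro Q' hQ'
  rw [cell_mem_cellsAt] at hQ hQ' ⊢
  rw [add_comm, ← cell_anc_anc, hQ', hQ]

/-- nestedness of the delayed projections in the delay (one step) -/
theorem xv_norm_dproj_succ_le {m : Cell → Finset Col} {I : Cell} {n : ℕ}
    (hmono : ∀ Q ∈ cellsAt I n, ∀ c : Fin 2, m Q ⊆ m (Q.child c)) (hreg : ∀ Q ∈ cellsAt I n, ∀ Φ ∈ m Q, Φ.Reg Q) (F : XV) :
    ‖dproj m I n F‖ ≤ ‖dproj m I (n + 1) F‖ := by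
  rw [xv_dproj_eq_proj, xv_dproj_eq_proj]
  apply xv_norm_proj_mono
  apply xv_pspan_refine _ hreg
  intro Q hQ
  refine ⟨cellsAt Q 1, xv_cellsAt_one_subset hQ, cell_part_cellsAt Q 1, ?_⟩
  intro Q' hQ'
  rw [cell_cellsAt_one] at hQ'
  simp only [Finset.mem_insert, Finset.mem_singleton] at hQ'
  rcases hQ' with rfl | rfl
  · exact hmono Q hQ 0
  · exact hmono Q hQ 1

/-- `‖P_{s+n+1} F‖²` on `I` is the sum over the two children of `‖P_{s+1+n} F‖²` -/
theorem xv_normsq_dproj_succ (m : Cell → Finset Col) (I : Cell) (n : ℕ) (F : XV) :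
    ‖dproj m I (n + 1) F‖ ^ 2 = ‖dproj m (I.child 0) n F‖ ^ 2 + ‖dproj m (I.child 1) n F‖ ^ 2 := by
  rw [xv_normsq_dproj, xv_normsq_dproj, xv_normsq_dproj, add_comm n 1, cell_sum_cellsAt_add, cell_cellsAt_one,
    Finset.sum_pair (cell_child_ne I)]

namespace S5gCtx

variable {X : S5gCtx}

theorem En_nonneg (I : Cell) (E : Finset Col) : 0 ≤ X.En I E := by
  unfold En; positivity

theorem En_le (I : Cell) (E : Finset Col) : X.En I E ≤ ‖restr I.set X.F‖ ^ 2 := by
  unfold En
  exact pow_le_pow_left₀ (norm_nonneg _) (xv_norm_dproj_le_restr _ _ _ _) 2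

theorem Ok.normsq_le (hX : X.Ok) {I : Cell} (hI : I ∈ X.T) : ‖restr I.set X.F‖ ^ 2 ≤ I.len := by
  have := (xv_n2_le_iff I X.F (B := 1) zero_le_one).1 (hX.hnorm I hI)
  simpa using this

theorem mask_mono {E E' : Finset Col} (h : E ⊆ E') (Q : Cell) : X.mask E Q ⊆ X.mask E' Q := by
  classical
  unfold mask
  exact Finset.union_subset_union_right h

theorem En_mono {E E' : Finset Col} (h : E ⊆ E') (I : Cell) : X.En I E ≤ X.En I E' := by
  unfold En
  rw [xv_dproj_eq_proj, xv_dproj_eq_proj]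
  exact pow_le_pow_left₀ (norm_nonneg _) (xv_norm_proj_mono (xv_pspan_mono fun Q _ => mask_mono h Q) _) 2

/-- regularity of a set of extras -/
def RegSet (E : Finset Col) : Prop := ∀ Φ ∈ E, ∀ I : Cell, Φ.Reg I

theorem Ok.mask_reg (hX : X.Ok) {E : Finset Col} (hE : RegSet E) (Q : Cell) : ∀ Φ ∈ X.mask E Q, ∀ I : Cell, Φ.Reg I := by
  classical
  intro Φ hΦ I
  unfold mask at hΦ
  rcases Finset.mem_union.1 hΦ with h | h
  · exact xv_reg_of_measurable (hX.hmeas Q Φ h) I
  · exact hE Φ h I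

theorem Ok.En_child (hX : X.Ok) {E : Finset Col} (hE : RegSet E) {I : Cell} (hI : I ≤ X.root) :
    X.En I E ≤ X.En (I.child 0) E + X.En (I.child 1) E := by
  classical
  unfold En
  rw [← xv_normsq_dproj_succ]
  apply pow_le_pow_left₀ (norm_nonneg _)
  apply xv_norm_dproj_succ_le
  · intro Q hQ c
    unfold mask
    exact Finset.union_subset_union_left
      (hX.hpre.mono Q (Q.child c) (((cell_part_cellsAt I X.K0).le Q hQ).trans hI) (cell_child_le Q c))
  · intro Q _ Φ hΦ
    exact hX.mask_reg hE Q Φ hΦ Q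

theorem resid_eq (I : Cell) (E : Finset Col) :
    X.resid I E = restr I.set (X.F - (xvPSpan (X.mask E) (cellsAt I X.K0)).starProjection X.F) := by
  unfold resid
  rw [map_sub, ← xv_dproj_eq_proj, xv_restr_dproj]

theorem n2_resid_le (I : Cell) (E : Finset Col) : n2 I (X.resid I E) ≤ n2 I X.F := xv_n2_resid_le _ _ _ _

/-- the residual has no component in a private coordinate which is not used by the masks -/
theorem resid_mem_privZero (I : Cell) (E : Finset Col) {v : ℕ} (h : ∀ Q, ∀ Φ ∈ X.mask E Q, Φ.lab ≠ v) :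
    X.resid I E ∈ xvPrivZero v := by
  unfold resid
  apply Submodule.sub_mem
  · exact xv_restr_mem_privZero (cell_measurableSet I) (xv_ofScalar_mem_privZero _ _)
  · rw [xv_dproj_eq_proj]
    exact xv_pspan_le_privZero (fun Q _ => h Q) (Submodule.starProjection_apply_mem _ _)

open Classical in
/-- **GAIN.** -/
theorem En_gain (I : Cell) (E : Finset Col) (Φ : Col) (hreg : Φ.Reg I) (heps : Φ.eps = 1) (hbd : ∀ y, ‖Φ.phi y‖ ≤ 1)
    (hfresh : ∀ Q, ∀ Φ' ∈ X.mask E Q, Φ'.lab ≠ Φ.lab) {ρ : ℝ} (hρ : 0 ≤ ρ) (hmom : ρ ≤ ‖mom I (X.resid I E) Φ.phi‖) :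
    X.En I E + ρ ^ 2 * I.len / 2 ≤ X.En I (insert Φ E) := by
  have hle : xvPSpan (X.mask E) (cellsAt I X.K0) ≤ xvPSpan (X.mask (insert Φ E)) (cellsAt I X.K0) :=
    xv_pspan_mono fun Q _ => mask_mono (Finset.subset_insert Φ E) Q
  have hx : Φ.vec I ∈ xvPSpan (X.mask (insert Φ E)) (cellsAt I X.K0) := by
    apply xv_vec_mem_pspan (cell_part_cellsAt I X.K0) hreg
    intro Q _
    unfold mask
    exact Finset.mem_union_right _ (Finset.mem_insert_self Φ E)
  have hgain := xv_proj_gain hle hx X.F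
  have hinner : ⟪Φ.vec I, X.F - (xvPSpan (X.mask E) (cellsAt I X.K0)).starProjection X.F⟫_ℂ
      = (I.len : ℂ) * mom I (X.resid I E) Φ.phi := by
    rw [← xv_inner_vec_of_privZero hreg (resid_mem_privZero I E hfresh), resid_eq, ← xv_restr_inner, xv_restr_vec_self]
  have hnorm : ‖Φ.vec I‖ ^ 2 ≤ 2 * I.len := by
    have := xv_normsq_vec_le (Φ := Φ) (I := I) (by rw [heps]; norm_num) (B := 1) fun y _ => hbd y
    rw [heps] at this
    linarith
  rw [hinner, norm_mul, Complex.norm_real, Real.norm_of_nonneg (cell_len_nonneg I)] at hgain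
  unfold En
  rw [xv_dproj_eq_proj, xv_dproj_eq_proj]
  set g := ‖(xvPSpan (X.mask (insert Φ E)) (cellsAt I X.K0)).starProjection X.F‖ ^ 2 -
    ‖(xvPSpan (X.mask E) (cellsAt I X.K0)).starProjection X.F‖ ^ 2 with hg
  have hg0 : 0 ≤ g := by
    rw [hg, sub_nonneg]
    exact pow_le_pow_left₀ (norm_nonneg _) (xv_norm_proj_mono hle _) 2
  have hL := cell_len_pos I
  have h1 : (I.len * ρ) ^ 2 ≤ 2 * I.len * g := by
    calc (I.len * ρ) ^ 2 ≤ (I.len * ‖mom I (X.resid I E) Φ.phi‖) ^ 2 :=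
          pow_le_pow_left₀ (by positivity) (mul_le_mul_of_nonneg_left hmom hL.le) 2
      _ ≤ ‖Φ.vec I‖ ^ 2 * g := hgain
      _ ≤ 2 * I.len * g := mul_le_mul_of_nonneg_right hnorm hg0
  have h2 : ρ ^ 2 * I.len / 2 ≤ g := by
    have h3 : I.len * (ρ ^ 2 * I.len) ≤ I.len * (2 * g) := by nlinarith
    have := le_of_mul_le_mul_left h3 hL
    linarith
  linarith

end S5gCtx

end Claimed.Agent.R258
end

/- ===== packed: Claimed.Agent.R258.S5.GCell ===== -/
section
/-
Row 258, BLOCK [S5g] (helper132).  LABELS, NEW COLUMNS, AND THE GREEDY STEP AT ONE CELL (`Ok.exists_spec`).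
-/
set_option autoImplicit false
open MeasureTheory

namespace Claimed.Agent.R258

namespace S5gCtx

variable {X : S5gCtx}

theorem Ok.lab_inj (hX : X.Ok) {R R' I I' : Cell} {k k' : ℕ} (h : X.lab R I k = X.lab R' I' k') :
    R = R' ∧ I = I' ∧ k = k' := by
  unfold lab at h
  have h1 := hX.hι h
  rw [Nat.pair_eq_pair, Nat.pair_eq_pair, Nat.pair_eq_pair, Nat.pair_eq_pair] at h1
  obtain ⟨⟨a1, a2⟩, ⟨b1, b2⟩, hk⟩ := h1
  exact ⟨Cell.ext (Encodable.encode_injective a1) (Encodable.encode_injective a2),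
    Cell.ext (Encodable.encode_injective b1) (Encodable.encode_injective b2), hk⟩

theorem lab_mem_range (R I : Cell) (k : ℕ) : X.lab R I k ∈ Set.range X.ι := ⟨_, rfl⟩

theorem col_lab (R I : Cell) (k : ℕ) (a : Chart) : (X.col R I k a).lab = X.lab R I k := rfl
theorem col_birth (R I : Cell) (k : ℕ) (a : Chart) : (X.col R I k a).birth = I := rfl
theorem col_phi (R I : Cell) (k : ℕ) (a : Chart) : (X.col R I k a).phi = a.eval := rfl
theorem col_eps (R I : Cell) (k : ℕ) (a : Chart) : (X.col R I k a).eps = 1 := rfl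

theorem col_reg (R I : Cell) (k : ℕ) {a : Chart} {H : ℝ} (h : a.Cplx H) (hb : a.Bdd) (J : Cell) : (X.col R I k a).Reg J :=
  xv_reg_of_chart rfl h hb J

theorem mem_New {R I : Cell} {n : ℕ} {c : ℕ → Chart} {Φ : Col} :
    Φ ∈ X.New R I n c ↔ ∃ k < n, Φ = X.col R I k (c k) := by
  classical
  unfold New
  simp only [Finset.mem_image, Finset.mem_range]
  exact ⟨fun ⟨k, hk, h⟩ => ⟨k, hk, h.symm⟩, fun ⟨k, hk, h⟩ => ⟨k, hk, h.symm⟩⟩

theorem New_zero (R I : Cell) (c : ℕ → Chart) : X.New R I 0 c = ∅ := by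
  classical
  unfold New; simp

theorem card_New_le (R I : Cell) (n : ℕ) (c : ℕ → Chart) : (X.New R I n c).card ≤ n := by
  classical
  unfold New
  exact Finset.card_image_le.trans (by simp)

open Classical in
theorem New_succ_update (R I : Cell) (k : ℕ) (c : ℕ → Chart) (φ : Chart) :
    X.New R I (k + 1) (Function.update c k φ) = insert (X.col R I k φ) (X.New R I k c) := by
  ext Φ
  rw [Finset.mem_insert, mem_New, mem_New]
  constructor
  · rintro ⟨j, hj, rfl⟩
    rcases Nat.lt_succ_iff_lt_or_eq.1 hj with h | rfl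
    · right; exact ⟨j, h, by rw [Function.update_of_ne h.ne]⟩
    · left; rw [Function.update_self]
  · rintro (rfl | ⟨j, hj, rfl⟩)
    · exact ⟨k, Nat.lt_succ_self k, by rw [Function.update_self]⟩
    · exact ⟨j, Nat.lt_succ_of_lt hj, by rw [Function.update_of_ne hj.ne]⟩

theorem Good.regSet {R I : Cell} {E : Finset Col} (h : X.Good R I E) : RegSet E := by
  intro Φ hΦ J
  obtain ⟨b, k, a, _, _, rfl, ha, hb⟩ := h Φ hΦ
  exact col_reg R b k ha hb J

theorem New_regSet {R I : Cell} {n : ℕ} {c : ℕ → Chart} (h : ∀ k < n, (c k).Cplx X.H ∧ (c k).Bdd) :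
    RegSet (X.New R I n c) := by
  intro Φ hΦ J
  obtain ⟨k, hk, rfl⟩ := mem_New.1 hΦ
  exact col_reg R I k (h k hk).1 (h k hk).2 J

open Classical in
theorem regSet_union {E E' : Finset Col} (h : RegSet E) (h' : RegSet E') : RegSet (E ∪ E') := by
  intro Φ hΦ J
  rcases Finset.mem_union.1 hΦ with h1 | h1
  · exact h Φ h1 J
  · exact h' Φ h1 J

open Classical in
/-- the label `lab R I k` is fresh for `pre ∪ E0 ∪ New R I k c` -/
theorem Ok.fresh (hX : X.Ok) {R I : Cell} {E0 : Finset Col} (hE0 : X.Good R I E0) (k : ℕ) (c : ℕ → Chart) :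
    ∀ Q, ∀ Φ' ∈ X.mask (E0 ∪ X.New R I k c) Q, Φ'.lab ≠ X.lab R I k := by
  intro Q Φ' hΦ' heq
  unfold mask at hΦ'
  rcases Finset.mem_union.1 hΦ' with h | h
  · exact hX.hfresh Q Φ' h (heq ▸ lab_mem_range R I k)
  · rcases Finset.mem_union.1 h with h | h
    · obtain ⟨b, k', a, hlt, _, rfl, _, _⟩ := hE0 Φ' h
      have := (hX.lab_inj heq).2.1
      exact absurd (this ▸ hlt) (lt_irrefl _)
    · obtain ⟨j, hj, rfl⟩ := mem_New.1 h
      have := (hX.lab_inj heq).2.2
      omega

open Classical in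
theorem Ok.exists_spec_aux (hX : X.Ok) {R I : Cell} (hI : I ∈ X.S) {E0 : Finset Col} (hE0 : X.Good R I E0) (k : ℕ) :
    (∃ n c, X.Spec R I E0 n c) ∨
      ∃ c : ℕ → Chart, (∀ j < k, (c j).Cplx X.H ∧ (c j).Bdd) ∧
        X.En I E0 + k * (X.ρ ^ 2 * I.len / 2) ≤ X.En I (E0 ∪ X.New R I k c) := by
  induction k with
  | zero =>
    right
    refine ⟨fun _ => s5gChart0, fun j hj => absurd hj (Nat.not_lt_zero j), ?_⟩
    rw [New_zero, Finset.union_empty]; simp
  | succ k ih =>
    rcases ih with h | ⟨c, hc, hen⟩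
    · exact Or.inl h
    · by_cases hD : DSmall X.q I (X.w I) X.e (X.resid I (E0 ∪ X.New R I k c)) X.δ
      · exact Or.inl ⟨k, c, hc, hen, fun _ => hD⟩
      · right
        obtain ⟨φ, hφ1, hφ2, hφ3⟩ := hX.hdet I (X.w I) (hX.hw I hI) X.e (X.resid I (E0 ∪ X.New R I k c))
          ((n2_resid_le I _).trans (hX.hnorm I (hX.hS hI))) hD
        refine ⟨Function.update c k φ, ?_, ?_⟩
        · intro j hj
          rcases Nat.lt_succ_iff_lt_or_eq.1 hj with h | rfl
          · rw [Function.update_of_ne h.ne]; exact hc j h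
          · rw [Function.update_self]; exact ⟨hφ1, hφ2⟩
        · rw [New_succ_update, Finset.union_insert]
          have hg := En_gain (X := X) I (E0 ∪ X.New R I k c) (X.col R I k φ) (col_reg R I k hφ1 hφ2 I) rfl hφ2
            (hX.fresh hE0 k c) hX.hρ0.le hφ3
          push_cast
          linarith

theorem Ok.exists_spec (hX : X.Ok) {R I : Cell} (hI : I ∈ X.T) {E0 : Finset Col} (hE0 : X.Good R I E0) :
    ∃ n c, X.Spec R I E0 n c := by
  classical
  by_cases hS : I ∈ X.S
  · obtain ⟨k, hk⟩ := exists_nat_gt (2 / X.ρ ^ 2)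
    rcases hX.exists_spec_aux hS hE0 k with h | ⟨c, _, hen⟩
    · exact h
    · exfalso
      have h1 := (En_le (X := X) I (E0 ∪ X.New R I k c)).trans (hX.normsq_le hI)
      have h2 := En_nonneg (X := X) I E0
      have hL := cell_len_pos I
      have hρ : 0 < X.ρ ^ 2 := pow_pos hX.hρ0 2
      rw [div_lt_iff₀ hρ] at hk
      have h3 : (k : ℝ) * (X.ρ ^ 2 * I.len / 2) ≤ I.len := by linarith
      have h4 : I.len * ((k : ℝ) * X.ρ ^ 2) ≤ I.len * 2 := by nlinarith
      have := le_of_mul_le_mul_left h4 hL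
      linarith
  · refine ⟨0, fun _ => s5gChart0, fun j hj => absurd hj (Nat.not_lt_zero j), ?_, fun h => absurd h hS⟩
    rw [New_zero, Finset.union_empty]; simp

end S5gCtx

end Claimed.Agent.R258
end

/- ===== packed: Claimed.Agent.R258.S5.GSeg ===== -/
section
/-
Row 258, BLOCK [S5g] (helper132).  PURE CELL COMBINATORICS.
* `s5g_tree_energy`  : superadditive potentials on a finite rooted tree: the sum of all gains is at most the capacity of the root;
* `s5g_segmentation` : stops at every cell of a tree ⟹ segmentation into segments of retained cells.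
-/
set_option autoImplicit false
open MeasureTheory

namespace Claimed.Agent.R258

theorem s5g_subtree {root R : Cell} {T : Finset Cell} [DecidablePred fun I : Cell => I ≤ R] (hT : RootedTree root T) (hR : R ∈ T) :
    RootedTree R (T.filter fun I => I ≤ R) where
  root_mem := Finset.mem_filter.2 ⟨hR, le_rfl⟩
  le_root := fun _ hI => (Finset.mem_filter.1 hI).2
  conv := fun I hI J hIJ hJR =>
    Finset.mem_filter.2 ⟨hT.conv I (Finset.mem_filter.1 hI).1 J hIJ (hJR.trans (hT.le_root R hR)), hJR⟩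

open Classical in
/-- **Tree energy.**  `b I` = potential at `I` before the step at `I`, `a I` = after the step, `g I` = gain, `Ψ` = additive capacity. -/
theorem s5g_tree_energy {R : Cell} {T : Finset Cell} (hT : RootedTree R T) (Ψ a b g : Cell → ℝ)
    (hΨ : ∀ I, Ψ I = Ψ (I.child 0) + Ψ (I.child 1))
    (h1 : ∀ I ∈ T, b I + g I ≤ a I)
    (h2 : ∀ I ∈ T, a I ≤ b (I.child 0) + b (I.child 1))
    (h3 : ∀ I, I ≤ R → I ∉ T → b I ≤ Ψ I)
    (h0 : 0 ≤ b R) : ∑ I ∈ T, g I ≤ Ψ R := by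
  -- a depth below which there is no cell of `T`
  obtain ⟨s1, hs1⟩ : ∃ s1 : ℤ, ∀ I ∈ T, I.depth < s1 := by
    refine ⟨(T.sup' ⟨R, hT.root_mem⟩ fun I => I.depth) + 1, fun I hI => ?_⟩
    have := Finset.le_sup' (fun I : Cell => I.depth) hI
    omega
  have hempty : ∀ I, I ≤ R → I ∉ T → T.filter (fun J => J ≤ I) = ∅ := by
    intro I hIR hI
    rw [Finset.filter_eq_empty_iff]
    intro J hJ hJI
    exact hI (hT.conv J hJ I hJI hIR)
  have key : ∀ I, I ≤ R → b I + ∑ J ∈ T.filter (fun J => J ≤ I), g J ≤ Ψ I := by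
    apply cell_induction_up s1 (P := fun I => I ≤ R → b I + ∑ J ∈ T.filter (fun J => J ≤ I), g J ≤ Ψ I)
    · intro I hI hIR
      have hIT : I ∉ T := fun h => by have := hs1 I h; omega
      rw [hempty I hIR hIT, Finset.sum_empty, add_zero]
      exact h3 I hIR hIT
    · intro I ih hIR
      by_cases hIT : I ∈ T
      · have hsplit : T.filter (fun J => J ≤ I) =
            insert I (T.filter (fun J => J ≤ I.child 0) ∪ T.filter (fun J => J ≤ I.child 1)) := by
          ext J
          simp only [Finset.mem_filter, Finset.mem_insert, Finset.mem_union]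
          constructor
          · rintro ⟨hJ, hJI⟩
            rcases cell_le_iff_eq_or_child.1 hJI with rfl | ⟨c, hc⟩
            · exact Or.inl rfl
            · right
              fin_cases c
              · exact Or.inl ⟨hJ, hc⟩
              · exact Or.inr ⟨hJ, hc⟩
          · rintro (rfl | ⟨hJ, hc⟩ | ⟨hJ, hc⟩)
            · exact ⟨hIT, le_rfl⟩
            · exact ⟨hJ, hc.trans (cell_child_le I 0)⟩
            · exact ⟨hJ, hc.trans (cell_child_le I 1)⟩
        have hdisj : Disjoint (T.filter (fun J => J ≤ I.child 0)) (T.filter (fun J => J ≤ I.child 1)) := by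
          rw [Finset.disjoint_left]
          intro J hJ0 hJ1
          have h0' := cell_set_subset (Finset.mem_filter.1 hJ0).2 (cell_left_mem J)
          have h1' := cell_set_subset (Finset.mem_filter.1 hJ1).2 (cell_left_mem J)
          exact Set.disjoint_left.1 (cell_set_child_disjoint I) h0' h1'
        have hnot : I ∉ T.filter (fun J => J ≤ I.child 0) ∪ T.filter (fun J => J ≤ I.child 1) := by
          simp only [Finset.mem_union, Finset.mem_filter, not_or, not_and]
          exact ⟨fun _ h => absurd (lt_of_le_of_lt h (cell_child_lt I 0)) (lt_irrefl _),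
            fun _ h => absurd (lt_of_le_of_lt h (cell_child_lt I 1)) (lt_irrefl _)⟩
        rw [hsplit, Finset.sum_insert hnot, Finset.sum_union hdisj]
        have i0 := ih (I.child 0) (cell_child_lt I 0) ((cell_child_le I 0).trans hIR)
        have i1 := ih (I.child 1) (cell_child_lt I 1) ((cell_child_le I 1).trans hIR)
        have := h1 I hIT
        have := h2 I hIT
        have := hΨ I
        linarith
      · rw [hempty I hIR hIT, Finset.sum_empty, add_zero]
        exact h3 I hIR hIT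
  have hR := key R le_rfl
  have hfil : T.filter (fun J => J ≤ R) = T := Finset.filter_true_of_mem hT.le_root
  rw [hfil] at hR
  linarith

/-- the closure of `root` under `stops` -/
inductive s5gIsRoot (root : Cell) (stops : Cell → Finset Cell) : Cell → Prop
  | base : s5gIsRoot root stops root
  | step {R K : Cell} : s5gIsRoot root stops R → K ∈ stops R → s5gIsRoot root stops K

theorem Segm.mono {root : Cell} {T roots : Finset Cell} {seg : Cell → Cell} {κ κ' : ℝ} (h : Segm root T roots seg κ)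
    (hκ : κ ≤ κ') : Segm root T roots seg κ' :=
  { h with pack := h.pack.trans (mul_le_mul_of_nonneg_right hκ (cell_len_nonneg root)) }

/-- **Segmentation from stops.** -/
theorem s5g_segmentation {root : Cell} {T : Finset Cell} (hT : RootedTree root T) (stops : Cell → Finset Cell) {ε : ℝ}
    (hε : ε < 1) (hst : ∀ R ∈ T, CellStops R ε (stops R) ∧ stops R ⊆ T) :
    ∃ (roots : Finset Cell) (seg : Cell → Cell), Segm root T roots seg (1 / (1 - ε)) ∧
      ∀ I ∈ T, cellRetained (stops (seg I)) I := by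
  classical
  have hmemT : ∀ R, s5gIsRoot root stops R → R ∈ T := by
    intro R hR
    induction hR with
    | base => exact hT.root_mem
    | step _ hK ih => exact (hst _ ih).2 hK
  set roots : Finset Cell := T.filter (s5gIsRoot root stops) with hroots
  have hmem : ∀ R, R ∈ roots ↔ s5gIsRoot root stops R := fun R => by
    rw [hroots, Finset.mem_filter]; exact ⟨fun h => h.2, fun h => ⟨hmemT R h, h⟩⟩
  have hex : ∀ I ∈ T, ∃ R ∈ roots, I ≤ R ∧ ∀ R' ∈ roots, I ≤ R' → R ≤ R' := by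
    intro I hI
    have hne : (roots.filter fun R => I ≤ R).Nonempty :=
      ⟨root, Finset.mem_filter.2 ⟨(hmem root).2 .base, hT.le_root I hI⟩⟩
    obtain ⟨R, hR, hmax⟩ := Finset.exists_max_image _ (fun R : Cell => R.depth) hne
    rw [Finset.mem_filter] at hR
    refine ⟨R, hR.1, hR.2, fun R' hR' hIR' => ?_⟩
    exact cell_chain_of_depth hR.2 hIR' (hmax R' (Finset.mem_filter.2 ⟨hR', hIR'⟩))
  set seg : Cell → Cell := fun I => if h : I ∈ T then (hex I h).choose else root with hseg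
  have hsegspec : ∀ I (h : I ∈ T), seg I ∈ roots ∧ I ≤ seg I ∧ ∀ R' ∈ roots, I ≤ R' → seg I ≤ R' := by
    intro I h
    have := (hex I h).choose_spec
    simp only [hseg, dif_pos h]
    exact this
  refine ⟨roots, seg, ⟨(hmem root).2 .base, Finset.filter_subset _ _, fun I hI => (hsegspec I hI).1,
    fun I hI => (hsegspec I hI).2.1, fun I hI => (hsegspec I hI).2.2, ?_⟩, ?_⟩
  · have := cell_roots_len hε root roots stops ?_ ?_
    · rw [one_div, inv_mul_eq_div]; exact this
    · intro R' hR'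
      rcases (hmem R').1 hR' with _ | ⟨hR, hK⟩
      · exact Or.inl rfl
      · exact Or.inr ⟨_, (hmem _).2 hR, hK⟩
    · intro R hR
      exact (hst R (hmemT R ((hmem R).1 hR))).1.len
  · intro I hI K hK hIK
    have hR := (hsegspec I hI).1
    have hKroot : K ∈ roots := (hmem K).2 (.step ((hmem _).1 hR) hK)
    have h1 := (hsegspec I hI).2.2 K hKroot hIK
    have h2 := (hst _ (hmemT _ ((hmem _).1 hR))).1.lt K hK
    exact absurd (lt_of_lt_of_le h2 h1) (lt_irrefl _)

end Claimed.Agent.R258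
end

/- ===== packed: Claimed.Agent.R258.S5.GRun ===== -/
section
/-
Row 258, BLOCK [S5g] (helper132).  THE GREEDY RUN FROM A ROOT `R` (no restarts), ITS ENERGY INEQUALITY AND ITS STOPS.
* `X.fit R I E0`  : the data `(n, c)` chosen by the greedy step at `I` with input extras `E0`;
* `X.inp R I`     : extras at the input of `I` (`∅` at `R`, output of the parent below);  `X.num`, `X.chs`, `X.NewAt`, `X.out`;
* `Ok.good_inp`, `Ok.spec_at`, `mem_out_iff`;
* `Ok.energy`     : `∑_{I ∈ T, I ≤ R} num R I · ρ²|I|/2 ≤ |R|`;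
* `Ok.exists_stops`.
-/
set_option autoImplicit false
open MeasureTheory

namespace Claimed.Agent.R258

namespace S5gCtx

variable (X : S5gCtx)

open Classical in
/-- the data chosen by the greedy step -/
noncomputable def fit (R I : Cell) (E0 : Finset Col) : ℕ × (ℕ → Chart) :=
  if h : ∃ n c, X.Spec R I E0 n c then (h.choose, h.choose_spec.choose) else (0, fun _ => s5gChart0)

open Classical in
/-- extras at the input of a cell of relative depth `n` -/
noncomputable def inpN (R : Cell) : ℕ → Cell → Finset Col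
  | 0, _ => ∅
  | n + 1, I => inpN R n (I.anc 1) ∪
      X.New R (I.anc 1) (X.fit R (I.anc 1) (inpN R n (I.anc 1))).1 (X.fit R (I.anc 1) (inpN R n (I.anc 1))).2

/-- extras at the input of `I` in the run of `R` -/
noncomputable def inp (R I : Cell) : Finset Col := X.inpN R (I.depth - R.depth).toNat I

/-- number of columns inserted at `I` -/
noncomputable def num (R I : Cell) : ℕ := (X.fit R I (X.inp R I)).1

/-- the charts inserted at `I` -/
noncomputable def chs (R I : Cell) : ℕ → Chart := (X.fit R I (X.inp R I)).2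

/-- the columns inserted at `I` -/
noncomputable def NewAt (R I : Cell) : Finset Col := X.New R I (X.num R I) (X.chs R I)

open Classical in
/-- extras at the output of `I` -/
noncomputable def out (R I : Cell) : Finset Col := X.inp R I ∪ X.NewAt R I

variable {X}

theorem fit_spec {R I : Cell} {E0 : Finset Col} (h : ∃ n c, X.Spec R I E0 n c) :
    X.Spec R I E0 (X.fit R I E0).1 (X.fit R I E0).2 := by
  unfold fit
  rw [dif_pos h]
  exact h.choose_spec.choose_spec

theorem fit_good (R I : Cell) (E0 : Finset Col) :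
    ∀ k < (X.fit R I E0).1, ((X.fit R I E0).2 k).Cplx X.H ∧ ((X.fit R I E0).2 k).Bdd := by
  by_cases h : ∃ n c, X.Spec R I E0 n c
  · exact (fit_spec h).1
  · unfold fit
    rw [dif_neg h]
    intro k hk
    exact absurd hk (Nat.not_lt_zero k)

theorem chs_good (R I : Cell) : ∀ k < X.num R I, (X.chs R I k).Cplx X.H ∧ (X.chs R I k).Bdd := fit_good R I _

theorem mem_NewAt {R I : Cell} {Φ : Col} : Φ ∈ X.NewAt R I ↔ ∃ k < X.num R I, Φ = X.col R I k (X.chs R I k) := mem_New

theorem card_NewAt_le (R I : Cell) : (X.NewAt R I).card ≤ X.num R I := card_New_le _ _ _ _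

theorem inp_root (R : Cell) : X.inp R R = ∅ := by
  unfold inp; rw [sub_self]; rfl

theorem inp_child {R I : Cell} (h : I ≤ R) (b : Fin 2) : X.inp R (I.child b) = X.out R I := by
  have hd := cell_depth_le_of_le h
  have h1 : ((I.child b).depth - R.depth).toNat = (I.depth - R.depth).toNat + 1 := by
    have : (I.child b).depth = I.depth + 1 := rfl
    rw [this]; omega
  unfold out NewAt num chs inp
  rw [h1]
  show X.inpN R ((I.depth - R.depth).toNat + 1) (I.child b) = _
  rw [inpN, cell_child_anc]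

theorem good_inp {R I : Cell} (h : I ≤ R) : X.Good R I (X.inp R I) := by
  classical
  refine cell_induction_down R (P := fun I => X.Good R I (X.inp R I)) ?_ ?_ I h
  · rw [inp_root]; intro Φ hΦ; simp at hΦ
  · intro I hI ih b
    rw [inp_child hI]
    intro Φ hΦ
    unfold out at hΦ
    rcases Finset.mem_union.1 hΦ with h | h
    · obtain ⟨b', k, a, hlt, hle, rfl, ha, hb⟩ := ih Φ h
      exact ⟨b', k, a, (cell_child_lt I b).trans hlt, hle, rfl, ha, hb⟩
    · obtain ⟨k, hk, rfl⟩ := mem_NewAt.1 h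
      exact ⟨I, k, _, cell_child_lt I b, hI, rfl, (chs_good R I k hk).1, (chs_good R I k hk).2⟩

theorem Ok.spec_at (hX : X.Ok) {R I : Cell} (hI : I ∈ X.T) (h : I ≤ R) :
    X.Spec R I (X.inp R I) (X.num R I) (X.chs R I) := fit_spec (hX.exists_spec hI (good_inp h))

theorem out_regSet {R I : Cell} (h : I ≤ R) : RegSet (X.out R I) :=
  regSet_union (good_inp h).regSet (New_regSet (chs_good R I))

theorem mem_out_iff {R I : Cell} (h : I ≤ R) {Φ : Col} : Φ ∈ X.out R I ↔ ∃ b, I ≤ b ∧ b ≤ R ∧ Φ ∈ X.NewAt R b := by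
  classical
  refine cell_induction_down R (P := fun I => Φ ∈ X.out R I ↔ ∃ b, I ≤ b ∧ b ≤ R ∧ Φ ∈ X.NewAt R b) ?_ ?_ I h
  · unfold out
    rw [inp_root, Finset.empty_union]
    exact ⟨fun h => ⟨R, le_rfl, le_rfl, h⟩, fun ⟨b, h1, h2, h3⟩ => (le_antisymm h2 h1) ▸ h3⟩
  · intro I hI ih c
    have hout : X.out R (I.child c) = X.out R I ∪ X.NewAt R (I.child c) := by
      conv_lhs => unfold out
      rw [inp_child hI]
    rw [hout, Finset.mem_union, ih]
    constructor
    · rintro (⟨b, h1, h2, h3⟩ | h)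
      · exact ⟨b, (cell_child_le I c).trans h1, h2, h3⟩
      · exact ⟨I.child c, le_rfl, (cell_child_le I c).trans hI, h⟩
    · rintro ⟨b, h1, h2, h3⟩
      rcases eq_or_lt_of_le h1 with rfl | hlt
      · exact Or.inr h3
      · left
        rw [cell_lt_iff_parent_le, cell_child_anc] at hlt
        exact ⟨b, hlt, h2, h3⟩

open Classical in
/-- **the energy inequality of a run** -/
theorem Ok.energy (hX : X.Ok) {R : Cell} (hR : R ∈ X.T) :
    ∑ I ∈ X.T.filter (fun I => I ≤ R), (X.num R I : ℝ) * (X.ρ ^ 2 * I.len / 2) ≤ R.len := by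
  have hRroot : R ≤ X.root := hX.htree.le_root R hR
  have := s5g_tree_energy (s5g_subtree hX.htree hR) (fun I => ‖restr I.set X.F‖ ^ 2)
    (fun I => X.En I (X.out R I)) (fun I => X.En I (X.inp R I)) (fun I => (X.num R I : ℝ) * (X.ρ ^ 2 * I.len / 2))
    (fun I => xv_normsq_restr_child I X.F) ?_ ?_ (fun I _ _ => En_le I _) (En_nonneg _ _)
  · exact this.trans (hX.normsq_le hR)
  · intro I hI
    rw [Finset.mem_filter] at hI
    exact (hX.spec_at hI.1 hI.2).2.1
  · intro I hI
    rw [Finset.mem_filter] at hI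
    show X.En I (X.out R I) ≤ X.En (I.child 0) (X.inp R (I.child 0)) + X.En (I.child 1) (X.inp R (I.child 1))
    rw [inp_child hI.2, inp_child hI.2]
    exact hX.En_child (out_regSet hI.2) (hI.2.trans hRroot)

open Classical in
/-- **the stops of a run** -/
theorem Ok.exists_stops (hX : X.Ok) {R : Cell} (hR : R ∈ X.T) :
    ∃ stops : Finset Cell, stops ⊆ X.T ∧ CellStops R (1 / 4) stops ∧
      ∀ I, cellRetained stops I →
        ∑ J ∈ (X.T.filter (fun J => J ≤ R)).filter (fun J => I ≤ J), (X.num R J : ℝ) ≤ 8 / X.ρ ^ 2 := by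
  have hρ : 0 < X.ρ ^ 2 := pow_pos hX.hρ0 2
  have hsum : ∑ I ∈ X.T.filter (fun I => I ≤ R), I.len * (X.num R I : ℝ) ≤ 2 / X.ρ ^ 2 * R.len := by
    have h := hX.energy hR
    have h2 : ∑ I ∈ X.T.filter (fun I => I ≤ R), (X.num R I : ℝ) * (X.ρ ^ 2 * I.len / 2) =
        (X.ρ ^ 2 / 2) * ∑ I ∈ X.T.filter (fun I => I ≤ R), I.len * (X.num R I : ℝ) := by
      rw [Finset.mul_sum]
      exact Finset.sum_congr rfl fun I _ => by ring
    rw [h2] at h
    rw [div_mul_eq_mul_div, le_div_iff₀ hρ]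
    linarith
  obtain ⟨stops, h1, h2, h3⟩ := cell_crossing_stops (R := R) (S := X.T.filter (fun I => I ≤ R))
    (fun I hI => (Finset.mem_filter.1 hI).2) (a := fun I => (X.num R I : ℝ)) (fun I _ => Nat.cast_nonneg _)
    (E := 2 / X.ρ ^ 2) (ε := 1 / 4) (by positivity) (by norm_num) (by norm_num) hsum
  refine ⟨stops, h1.trans (Finset.filter_subset _ _), h2, fun I hI => ?_⟩
  have := h3 I hI
  have h4 : 2 / X.ρ ^ 2 / (1 / 4) = 8 / X.ρ ^ 2 := by field_simp; norm_num
  rwa [h4] at this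

end S5gCtx

end Claimed.Agent.R258
end

/- ===== packed: Claimed.Agent.R258.S5.GFin ===== -/
section
/-
Row 258, BLOCK [S5g] (helper132).  STOPS OF ALL RUNS, THE EXTRA COLUMNS `X.ext R Q`, THE GLOBAL CHART TABLE `X.ch`, AND THEIR PROPERTIES.
-/
set_option autoImplicit false
open MeasureTheory

namespace Claimed.Agent.R258

namespace S5gCtx

variable (X : S5gCtx)

open Classical in
/-- what the stops of the run of `R` satisfy -/
def StopSpec (R : Cell) (st : Finset Cell) : Prop :=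
  st ⊆ X.T ∧ CellStops R (1 / 4) st ∧
    ∀ I, cellRetained st I →
      ∑ J ∈ (X.T.filter (fun J => J ≤ R)).filter (fun J => I ≤ J), (X.num R J : ℝ) ≤ 8 / X.ρ ^ 2

open Classical in
/-- the stops of the run of `R` -/
noncomputable def stops (R : Cell) : Finset Cell := if h : ∃ st, X.StopSpec R st then h.choose else ∅

open Classical in
/-- the extra columns of the segment root `R` available at the (fine) cell `Q` -/
noncomputable def ext (R Q : Cell) : Finset Col :=
  (X.T.filter fun b => b ≤ R ∧ cellRetained (X.stops R) b ∧ Q.anc X.K0 ≤ b).biUnion (X.NewAt R)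

open Classical in
/-- the global chart table -/
noncomputable def ch (v : ℕ) : Chart :=
  if h : ∃ R b k, v = X.lab R b k then X.chs h.choose h.choose_spec.choose h.choose_spec.choose_spec.choose else s5gChart0

variable {X}

theorem Ok.stops_spec (hX : X.Ok) {R : Cell} (hR : R ∈ X.T) : X.StopSpec R (X.stops R) := by
  have h : ∃ st, X.StopSpec R st := hX.exists_stops hR
  unfold stops
  rw [dif_pos h]
  exact h.choose_spec

theorem Ok.ch_lab (hX : X.Ok) (R b : Cell) (k : ℕ) : X.ch (X.lab R b k) = X.chs R b k := by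
  have h : ∃ R' b' k', X.lab R b k = X.lab R' b' k' := ⟨R, b, k, rfl⟩
  unfold ch
  rw [dif_pos h]
  obtain ⟨h1, h2, h3⟩ := hX.lab_inj h.choose_spec.choose_spec.choose_spec
  exact (congr (congr (congrArg X.chs h1) h2) h3).symm

theorem mem_ext {R Q : Cell} {Φ : Col} :
    Φ ∈ X.ext R Q ↔ ∃ b ∈ X.T, b ≤ R ∧ cellRetained (X.stops R) b ∧ Q.anc X.K0 ≤ b ∧
      ∃ k < X.num R b, Φ = X.col R b k (X.chs R b k) := by
  classical
  unfold ext
  simp only [Finset.mem_biUnion, Finset.mem_filter, mem_NewAt]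
  constructor
  · rintro ⟨b, ⟨h1, h2, h3, h4⟩, h5⟩; exact ⟨b, h1, h2, h3, h4, h5⟩
  · rintro ⟨b, h1, h2, h3, h4, h5⟩; exact ⟨b, ⟨h1, h2, h3, h4⟩, h5⟩

theorem Ok.ext_props (hX : X.Ok) {R Q : Cell} {Φ : Col} (h : Φ ∈ X.ext R Q) :
    Φ.lab ∈ Set.range X.ι ∧ Φ.eps = 1 ∧ Φ.phi = (X.ch Φ.lab).eval ∧ (X.ch Φ.lab).Cplx X.H ∧ (X.ch Φ.lab).Bdd ∧
      Φ.birth ≤ R := by
  obtain ⟨b, _, hbR, _, _, k, hk, rfl⟩ := mem_ext.1 h
  rw [col_lab, hX.ch_lab]
  exact ⟨lab_mem_range R b k, rfl, rfl, (chs_good R b k hk).1, (chs_good R b k hk).2, hbR⟩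

theorem ext_avail {R Q : Cell} {Φ : Col} (h : Φ ∈ X.ext R Q) {Q' : Cell} (hQ' : Q'.anc X.K0 ≤ Φ.birth) : Φ ∈ X.ext R Q' := by
  obtain ⟨b, h1, h2, h3, _, k, hk, rfl⟩ := mem_ext.1 h
  exact mem_ext.2 ⟨b, h1, h2, h3, hQ', k, hk, rfl⟩

open Classical in
theorem Ok.ext_inh (hX : X.Ok) {R : Cell} (hR : R ∈ X.T) : Inh R (fun I => X.pre I ∪ X.ext R I) where
  birth := by
    intro I Φ hΦ
    rcases Finset.mem_union.1 hΦ with h | h
    · exact hX.hpre.birth I Φ h
    · obtain ⟨b, _, _, _, h4, k, _, rfl⟩ := mem_ext.1 h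
      exact (cell_le_anc I X.K0).trans h4
  mono := by
    intro I I' hI hI' Φ hΦ
    rcases Finset.mem_union.1 hΦ with h | h
    · exact Finset.mem_union_left _ (hX.hpre.mono I I' (hI.trans (hX.htree.le_root R hR)) hI' h)
    · obtain ⟨b, h1, h2, h3, h4, k, hk, rfl⟩ := mem_ext.1 h
      exact Finset.mem_union_right _ (mem_ext.2 ⟨b, h1, h2, h3, (cell_anc_mono hI' X.K0).trans h4, k, hk, rfl⟩)
  lab := by
    intro I I' Φ hΦ Φ' hΦ' hlab
    rcases Finset.mem_union.1 hΦ with h | h <;> rcases Finset.mem_union.1 hΦ' with h' | h'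
    · exact hX.hpre.lab I I' Φ h Φ' h' hlab
    · exact absurd (hlab ▸ (hX.ext_props h').1) (hX.hfresh I Φ h)
    · exact absurd (hlab ▸ (hX.ext_props h).1) (hX.hfresh I' Φ' h')
    · obtain ⟨b, _, _, _, _, k, _, rfl⟩ := mem_ext.1 h
      obtain ⟨b', _, _, _, _, k', _, rfl⟩ := mem_ext.1 h'
      obtain ⟨_, h2, h3⟩ := hX.lab_inj hlab
      subst h2; subst h3; rfl

theorem Ok.ext_count (hX : X.Ok) {R : Cell} (hR : R ∈ X.T) {I : Cell} (A : Finset Col)
    (hA : ∀ Φ ∈ A, (∃ I', I' ≤ R ∧ Φ ∈ X.ext R I') ∧ I ≤ Φ.birth) : (A.card : ℝ) ≤ 9 / X.ρ ^ 2 := by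
  classical
  have hρ : 0 < X.ρ ^ 2 := pow_pos hX.hρ0 2
  set B : Finset Cell := X.T.filter fun b => b ≤ R ∧ cellRetained (X.stops R) b ∧ I ≤ b with hB
  have hsub : A ⊆ B.biUnion (X.NewAt R) := by
    intro Φ hΦ
    obtain ⟨⟨I', _, hI'⟩, hbirth⟩ := hA Φ hΦ
    obtain ⟨b, h1, h2, h3, _, k, hk, rfl⟩ := mem_ext.1 hI'
    exact Finset.mem_biUnion.2 ⟨b, Finset.mem_filter.2 ⟨h1, h2, h3, hbirth⟩, mem_NewAt.2 ⟨k, hk, rfl⟩⟩
  have hcard : (A.card : ℝ) ≤ ∑ b ∈ B, (X.num R b : ℝ) := by
    have h1 : A.card ≤ ∑ b ∈ B, X.num R b :=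
      (Finset.card_le_card hsub).trans (Finset.card_biUnion_le.trans (Finset.sum_le_sum fun b _ => card_NewAt_le R b))
    exact_mod_cast h1
  rcases B.eq_empty_or_nonempty with hemp | hne
  · rw [hemp, Finset.sum_empty] at hcard
    exact hcard.trans (by positivity)
  · obtain ⟨bs, hbs, hmax⟩ := Finset.exists_max_image B (fun b : Cell => b.depth) hne
    have hbs' := Finset.mem_filter.1 hbs
    have hBsub : B ⊆ (X.T.filter (fun J => J ≤ R)).filter (fun J => bs ≤ J) := by
      intro b hb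
      have hb' := Finset.mem_filter.1 hb
      exact Finset.mem_filter.2 ⟨Finset.mem_filter.2 ⟨hb'.1, hb'.2.1⟩,
        cell_chain_of_depth hbs'.2.2.2 hb'.2.2.2 (hmax b hb)⟩
    have h2 := (hX.stops_spec hR).2.2 bs hbs'.2.2.1
    have h3 : ∑ b ∈ B, (X.num R b : ℝ) ≤ ∑ J ∈ (X.T.filter (fun J => J ≤ R)).filter (fun J => bs ≤ J), (X.num R J : ℝ) :=
      Finset.sum_le_sum_of_subset_of_nonneg hBsub fun _ _ _ => Nat.cast_nonneg _
    have h4 : 8 / X.ρ ^ 2 ≤ 9 / X.ρ ^ 2 := div_le_div_of_nonneg_right (by norm_num) hρ.le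
    linarith

theorem Ok.ext_eq_out (hX : X.Ok) {R I Q : Cell} (hR : R ∈ X.T) (hI : I ∈ X.T) (hIR : I ≤ R)
    (hret : cellRetained (X.stops R) I) (hQ : Q ∈ cellsAt I X.K0) : X.ext R Q = X.out R I := by
  ext Φ
  rw [mem_ext, mem_out_iff hIR, cell_mem_cellsAt.1 hQ]
  constructor
  · rintro ⟨b, _, h2, _, h4, h5⟩
    exact ⟨b, h4, h2, mem_NewAt.2 h5⟩
  · rintro ⟨b, h1, h2, h3⟩
    exact ⟨b, hX.htree.conv I hI b h1 (h2.trans (hX.htree.le_root R hR)), h2, hret.of_le h1, h1, mem_NewAt.1 h3⟩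

open Classical in
theorem Ok.small (hX : X.Ok) {R I : Cell} (hR : R ∈ X.T) (hI : I ∈ X.S) (hIR : I ≤ R)
    (hret : cellRetained (X.stops R) I) :
    DSmall X.q I (X.w I) X.e (restr I.set (ofScalar X.f) - dproj (fun Q => X.pre Q ∪ X.ext R Q) I X.K0 (ofScalar X.f)) X.δ := by
  have h := (hX.spec_at (hX.hS hI) hIR).2.2 hI
  have hcongr : dproj (fun Q => X.pre Q ∪ X.ext R Q) I X.K0 = dproj (X.mask (X.out R I)) I X.K0 := by
    apply xv_dproj_congr
    intro Q hQ
    show X.pre Q ∪ X.ext R Q = X.pre Q ∪ X.out R I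
    rw [hX.ext_eq_out hR (hX.hS hI) hIR hret hQ]
  rw [hcongr]
  exact h

end S5gCtx

end Claimed.Agent.R258
end

/- ===== packed: Claimed.Agent.R258.S5.Greedy ===== -/
section
/-
Row 258, Sec. 5.3-5.4, BLOCK [S5g]: THE GREEDY (DELAYED) FIT.     Architect of the statement: helper182.

ONE abstract theorem covers Lemma 5.4 (`lem:adaptive-approximation`: `K0 = 0`, `pre = ∅`) and the "tuple-specific accurate fits" in the proof of
Prop. 5.6 (`prop:high-truncation`: delay `K0`, predetermined predictor family `pre`).  Detection (Lemma 4.11) enters only through the hypothesis `Detect`.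

STATEMENT.  Tree `T` with root `root`, test cells `S ⊆ T` with admissible kernels, slot `e`, `F = (f,0)` with `‖F‖_{2,I} ≤ 1` on `T`, a predetermined
inherited family `pre`, a delay `K0`, a supply of fresh labels `ι`.  Then there are a segmentation (`roots`, `seg`; total root length `≤ 2 |root|`) and, for
every segment root `R`, extra columns `ext R I` (private weight one, fresh labels, bounded atoms of complexity `≤ H`, at most `9/ρ²` born on a path) such that
`pre ∪ ext R` is inherited on ALL cells below `R`, an extra column is available at EVERY cell whose `K0`-th ancestor lies below its birth cell, and the delayed residual is `δ`-small on every test cell of the segment: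
      `𝔡_{e,I}( F - P_{s+K0} F ) ≤ δ`,        `P_{s+K0} = dproj (pre ∪ ext (seg I)) I K0`.

PROOF PLAN (base.tex l.330-370 and l.560-640).
(0) potential of a coarse cell `I` with extra set `E`:  `En I E = ∑_{Q ∈ cellsAt I K0} ‖cproj (pre Q ∪ E) Q F‖²`.
    (a) `En I E ≤ ‖restr I F‖² ≤ |I|`;  (b) refinement: `En I E ≤ ∑_{c child of I} En c E` (range inclusion: a constant-coefficient combination on `Q`
    restricts to one on each child of `Q`, and `pre Q ⊆ pre Q'`);  (c) monotone in `E`;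
    (d) GAIN: if `Φ = (φ, e_v)`, `v` fresh, `‖φ‖_∞ ≤ 1`, `r = restr I F - ∑_Q cproj (pre Q ∪ E) Q F` and `ρ ≤ |mom I r φ|` then
        `En I (E ∪ {Φ}) ≥ En I E + ρ² |I| / 2`
        [on `Q`: gain `≥ |⟨r,Φ⟩_Q|² / ‖Φ‖²_Q ≥ |Q| |m_Q|² / 2`, since `r ⊥` old span and the `v`-coordinate of `r` vanishes; Cauchy-Schwarz over `Q ⊆ I`].
(1) ONE CELL: for every finite `E0` there is `E1 ⊇ E0` with `#(E1 \ E0) ≤ 2/ρ²`, `En I E1 ≥ En I E0 + #(E1 \ E0) ρ²|I|/2` and the residual of `E1` is `δ`-small at `I`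
    (iterate (d) with `Detect`; termination by (a)).  New columns get `birth := I` and labels `ι (pair (code I) n)`.
(2) RECURSION down the tree (on `depth I - depth root`): state at `I` = (current segment root `R`, extras `E`).  At `I ∈ T`: take the state `(R,E0)` of the parent, let `E1` be
    given by (1) if `I ∈ S`, `E1 = E0` otherwise.  If `#E1 ≤ 8/ρ²`: state `(R,E1)`.  Otherwise `I` becomes a new root: state `(I, E1')`, `E1'` from (1) with `E0 = ∅`.
    `ext R Q` for an arbitrary cell `Q ≤ R`: the extras of the state of the last cell of the segment of `R` on the path from `R` to `Q.anc K0` (`∅` if `Q.anc K0` is not `≤ R`):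
    extras inserted at the coarse cell `I` become available at relative depth `K0` below `I` and are retained on all descendants, also past the segment.
(3) PACKING: tree induction with (b), (1): for a segment root `R`:  `∑_{I in the segment or first excess cell} (#insertions at I) ρ²|I|/2 ≤ ‖restr R F‖² ≤ |R|`;
    a first excess cell has more than `8/ρ²` insertions on its path, hence `∑_{excess} |I| ≤ |R|/4`; geometric series (`lem:attempt-packing`).
Files S5/G*.lean, prefix `s5g_`.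
The definitions `Segm`, `Detect` are in S5/GDefs.lean (helper132, owner of the block; the actual proof structure is described there).
-/
set_option autoImplicit false
open MeasureTheory

namespace Claimed.Agent.R258

open Classical in
theorem s5g_greedy (c0 C0 q δ ρ H : ℝ) (hdet : Detect c0 C0 q δ ρ H) (hρ0 : 0 < ρ) (hρ1 : ρ ≤ 1)
    (root : Cell) (T S : Finset Cell) (w : Cell → ℝ × ℝ → ℂ) (htree : RootedTree root T) (hS : S ⊆ T)
    (hw : ∀ I ∈ S, Admissible c0 C0 I (w I)) (e : Fin 4) (f : ℝ → ℂ) (hf : BddCS f)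
    (hnorm : ∀ I ∈ T, n2 I (ofScalar f) ≤ 1)
    (pre : Cell → Finset Col) (hpre : Inh root pre) (hmeas : ∀ I, ∀ Φ ∈ pre I, Measurable Φ.phi ∧ ∀ y, ‖Φ.phi y‖ ≤ 1)
    (hpeps : ∀ I, ∀ Φ ∈ pre I, 0 < Φ.eps) (K0 : ℕ)
    (ι : ℕ → ℕ) (hι : Function.Injective ι) (hfresh : ∀ I, ∀ Φ ∈ pre I, Φ.lab ∉ Set.range ι) :
    ∃ (roots : Finset Cell) (seg : Cell → Cell) (ext : Cell → Cell → Finset Col) (ch : ℕ → Chart),
      Segm root T roots seg 2 ∧
      (∀ R ∈ roots, Inh R (fun I => pre I ∪ ext R I)) ∧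
      (∀ R ∈ roots, ∀ I, ∀ Φ ∈ ext R I, Φ.lab ∈ Set.range ι ∧ Φ.eps = 1 ∧ Φ.phi = (ch Φ.lab).eval ∧
        (ch Φ.lab).Cplx H ∧ (ch Φ.lab).Bdd ∧ Φ.birth ≤ R) ∧
      (∀ R ∈ roots, ∀ I, ∀ Φ ∈ ext R I, ∀ I' : Cell, I'.anc K0 ≤ Φ.birth → Φ ∈ ext R I') ∧
      (∀ R ∈ roots, ∀ I, I ≤ R → ∀ A : Finset Col,
        (∀ Φ ∈ A, (∃ I', I' ≤ R ∧ Φ ∈ ext R I') ∧ I ≤ Φ.birth) → (A.card : ℝ) ≤ 9 / ρ ^ 2) ∧
      ∀ I ∈ S, DSmall q I (w I) e
        (restr I.set (ofScalar f) - dproj (fun Q => pre Q ∪ ext (seg I) Q) I K0 (ofScalar f)) δ := by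
  set X : S5gCtx := ⟨c0, C0, q, δ, ρ, H, root, T, S, w, e, f, pre, K0, ι⟩ with hXdef
  have hX : X.Ok := ⟨hdet, hρ0, hρ1, htree, hS, hw, hf, hnorm, hpre, hmeas, hι, hfresh⟩
  obtain ⟨roots, seg, hseg, hret⟩ := s5g_segmentation htree X.stops (ε := 1 / 4) (by norm_num)
    (fun R hR => ⟨(hX.stops_spec hR).2.1, (hX.stops_spec hR).1⟩)
  refine ⟨roots, seg, X.ext, X.ch, hseg.mono (by norm_num), fun R hR => hX.ext_inh (hseg.sub hR),
    fun R _ I Φ hΦ => hX.ext_props hΦ, fun R _ I Φ hΦ I' hI' => S5gCtx.ext_avail hΦ hI',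
    fun R hR I _ A hA => hX.ext_count (hseg.sub hR) A hA, fun I hI => ?_⟩
  exact hX.small (hseg.sub (hseg.seg_mem I (hS hI))) hI (hseg.le_seg I (hS hI)) (hret I (hS hI))

end Claimed.Agent.R258
end

/- ===== packed: Claimed.Agent.R258.S5.Seg ===== -/
section
/-
Row 258, Sec. 5.3 (base.tex l.440-452), architect helper182.   CALCULUS OF SEGMENTATIONS (`Segm`, S5/Greedy.lean).
* `segPiece T seg R`      : the cells of `T` whose segment root is `R`; it is a rooted tree with root `R` (`s5s_piece_tree`);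
* `s5s_sum_le`            : an estimate `≤ X |R|` on every piece sums to `≤ κ X |root|`;
* `s5s_trivial`           : the trivial segmentation;
* `s5s_union`             : common refinement of finitely many segmentations ("every new common root is a root of one of the constituent
                            families"): the constants add, and every constituent `seg x` is constant on the pieces of the refinement.
-/
set_option autoImplicit false
open MeasureTheory

namespace Claimed.Agent.R258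

/-- the piece of the segment root `R` -/
def segPiece (T : Finset Cell) (seg : Cell → Cell) (R : Cell) : Finset Cell := T.filter fun I => seg I = R

theorem s5s_mem_piece {T : Finset Cell} {seg : Cell → Cell} {R I : Cell} :
    I ∈ segPiece T seg R ↔ I ∈ T ∧ seg I = R := by
  simp [segPiece]

theorem s5s_piece_sub (T : Finset Cell) (seg : Cell → Cell) (R : Cell) : segPiece T seg R ⊆ T :=
  Finset.filter_subset _ _

theorem s5s_piece_mono {S T : Finset Cell} (h : S ⊆ T) (seg : Cell → Cell) (R : Cell) :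
    segPiece S seg R ⊆ segPiece T seg R :=
  Finset.filter_subset_filter _ h

theorem s5s_seg_root {root : Cell} {T roots : Finset Cell} {seg : Cell → Cell} {κ : ℝ}
    (h : Segm root T roots seg κ) {R : Cell} (hR : R ∈ roots) : seg R = R :=
  le_antisymm (h.seg_min R (h.sub hR) R hR le_rfl) (h.le_seg R (h.sub hR))

theorem s5s_piece_tree {root : Cell} {T roots : Finset Cell} {seg : Cell → Cell} {κ : ℝ}
    (ht : RootedTree root T) (h : Segm root T roots seg κ) {R : Cell} (hR : R ∈ roots) :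
    RootedTree R (segPiece T seg R) where
  root_mem := s5s_mem_piece.2 ⟨h.sub hR, s5s_seg_root h hR⟩
  le_root := fun I hI => by
    obtain ⟨hIT, hs⟩ := s5s_mem_piece.1 hI
    exact hs ▸ h.le_seg I hIT
  conv := fun I hI J hIJ hJR => by
    obtain ⟨hIT, hs⟩ := s5s_mem_piece.1 hI
    have hJT : J ∈ T := ht.conv I hIT J hIJ (hJR.trans (ht.le_root R (h.sub hR)))
    refine s5s_mem_piece.2 ⟨hJT, le_antisymm (h.seg_min J hJT R hR hJR) ?_⟩
    rw [← hs]
    exact h.seg_min I hIT _ (h.seg_mem J hJT) (hIJ.trans (h.le_seg J hJT))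

/-- an estimate on every piece sums up -/
theorem s5s_sum_le {root : Cell} {T roots : Finset Cell} {seg : Cell → Cell} {κ : ℝ}
    (h : Segm root T roots seg κ) {S : Finset Cell} (hS : S ⊆ T) (F : Cell → ℝ) (X : ℝ) (hX : 0 ≤ X)
    (hp : ∀ R ∈ roots, ∑ I ∈ segPiece S seg R, F I ≤ X * R.len) :
    ∑ I ∈ S, F I ≤ κ * X * root.len := by
  have h1 : ∑ I ∈ S, F I = ∑ R ∈ roots, ∑ I ∈ segPiece S seg R, F I :=
    (Finset.sum_fiberwise_of_maps_to (fun I hI => h.seg_mem I (hS hI)) F).symm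
  rw [h1]
  calc ∑ R ∈ roots, ∑ I ∈ segPiece S seg R, F I ≤ ∑ R ∈ roots, X * R.len := Finset.sum_le_sum hp
    _ = X * ∑ R ∈ roots, R.len := by rw [Finset.mul_sum]
    _ ≤ X * (κ * root.len) := mul_le_mul_of_nonneg_left h.pack hX
    _ = κ * X * root.len := by ring

theorem s5s_trivial {root : Cell} {T : Finset Cell} (ht : RootedTree root T) :
    Segm root T {root} (fun _ => root) 1 where
  root_mem := Finset.mem_singleton_self _
  sub := by simpa using ht.root_mem
  seg_mem := fun _ _ => Finset.mem_singleton_self _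
  le_seg := fun I hI => ht.le_root I hI
  seg_min := fun I _ R hR _ => by rw [Finset.mem_singleton.1 hR]
  pack := by simp

theorem s5s_mono {root : Cell} {T roots : Finset Cell} {seg : Cell → Cell} {κ κ' : ℝ}
    (h : Segm root T roots seg κ) (hκ : κ ≤ κ') : Segm root T roots seg κ' :=
  { h with pack := h.pack.trans (mul_le_mul_of_nonneg_right hκ (cell_len_nonneg root)) }

/-- a segmentation from its set of roots -/
theorem s5s_of_roots {root : Cell} {T roots : Finset Cell} {κ : ℝ} (ht : RootedTree root T) (hroot : root ∈ roots)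
    (hsub : roots ⊆ T) (hpack : ∑ R ∈ roots, R.len ≤ κ * root.len) :
    ∃ seg : Cell → Cell, Segm root T roots seg κ := by
  classical
  have key : ∀ I ∈ T, ∃ R ∈ roots, I ≤ R ∧ ∀ R' ∈ roots, I ≤ R' → R ≤ R' := by
    intro I hI
    have hne : (roots.filter fun R => I ≤ R).Nonempty := ⟨root, by simp [hroot, ht.le_root I hI]⟩
    obtain ⟨R, hR, hmax⟩ := Finset.exists_max_image _ (fun R : Cell => R.depth) hne
    rw [Finset.mem_filter] at hR
    refine ⟨R, hR.1, hR.2, fun R' hR' hIR' => ?_⟩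
    exact cell_chain_of_depth hR.2 hIR' (hmax R' (by simp [hR', hIR']))
  refine ⟨fun I => if h : I ∈ T then (key I h).choose else I, ?_⟩
  refine ⟨hroot, hsub, ?_, ?_, ?_, hpack⟩
  · intro I hI
    simp only [hI, dif_pos]
    exact (key I hI).choose_spec.1
  · intro I hI
    simp only [hI, dif_pos]
    exact (key I hI).choose_spec.2.1
  · intro I hI R hR hIR
    simp only [hI, dif_pos]
    exact (key I hI).choose_spec.2.2 R hR hIR

/-- coarser roots: the coarse segment root of `I` is the coarse segment root of its fine segment root -/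
theorem s5s_seg_seg {root : Cell} {T roots roots' : Finset Cell} {seg seg' : Cell → Cell} {κ κ' : ℝ}
    (h : Segm root T roots seg κ) (h' : Segm root T roots' seg' κ') (hsub : roots ⊆ roots') {I : Cell} (hI : I ∈ T) :
    seg I = seg (seg' I) := by
  have hR : seg' I ∈ T := h'.sub (h'.seg_mem I hI)
  apply le_antisymm
  · exact h.seg_min I hI _ (h.seg_mem _ hR) ((h'.le_seg I hI).trans (h.le_seg _ hR))
  · exact h.seg_min _ hR _ (h.seg_mem I hI) (h'.seg_min I hI _ (hsub (h.seg_mem I hI)) (h.le_seg I hI))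

theorem s5s_sum_biUnion_le {ι : Type*} [DecidableEq Cell] (s : Finset ι) (roots : ι → Finset Cell) :
    ∑ R ∈ s.biUnion roots, R.len ≤ ∑ x ∈ s, ∑ R ∈ roots x, R.len := by
  classical
  induction s using Finset.induction_on with
  | empty => simp
  | insert a s ha ih =>
    rw [Finset.biUnion_insert, Finset.sum_insert ha]
    have h1 := Finset.sum_union_inter (s₁ := roots a) (s₂ := s.biUnion roots) (f := fun R : Cell => R.len)
    have h2 : 0 ≤ ∑ R ∈ roots a ∩ s.biUnion roots, R.len := Finset.sum_nonneg fun R _ => cell_len_nonneg R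
    linarith

/-- **common refinement** of finitely many segmentations -/
theorem s5s_union {ι : Type*} {root : Cell} {T : Finset Cell} (ht : RootedTree root T) (s : Finset ι) (hs : s.Nonempty)
    (roots : ι → Finset Cell) (seg : ι → Cell → Cell) (κ : ι → ℝ) (h : ∀ x ∈ s, Segm root T (roots x) (seg x) (κ x)) :
    ∃ (roots0 : Finset Cell) (seg0 : Cell → Cell), Segm root T roots0 seg0 (∑ x ∈ s, κ x) ∧
      ∀ x ∈ s, ∀ I ∈ T, seg x I = seg x (seg0 I) := by
  classical
  obtain ⟨x0, hx0⟩ := hs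
  have hpack : ∑ R ∈ s.biUnion roots, R.len ≤ (∑ x ∈ s, κ x) * root.len := by
    calc ∑ R ∈ s.biUnion roots, R.len ≤ ∑ x ∈ s, ∑ R ∈ roots x, R.len := s5s_sum_biUnion_le s roots
      _ ≤ ∑ x ∈ s, κ x * root.len := Finset.sum_le_sum fun x hx => (h x hx).pack
      _ = (∑ x ∈ s, κ x) * root.len := by rw [Finset.sum_mul]
  obtain ⟨seg0, h0⟩ := s5s_of_roots (roots := s.biUnion roots) ht
    (Finset.mem_biUnion.2 ⟨x0, hx0, (h x0 hx0).root_mem⟩)
    (fun R hR => by obtain ⟨x, hx, hRx⟩ := Finset.mem_biUnion.1 hR; exact (h x hx).sub hRx) hpack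
  exact ⟨_, seg0, h0, fun x hx I hI => s5s_seg_seg (h x hx) h0 (Finset.subset_biUnion_of_mem roots hx) hI⟩

end Claimed.Agent.R258
end

/- ===== packed: Claimed.Agent.R258.S3.Inst ===== -/
section
/-
Row 258 (S0498), block [S3] = Sec. 3 compression.tex (architect helper93).
INSTANTIATION of the abstract column system `s3_Sys` on the concrete model of R258/Defs.lean (`Cell`, `XV`, `Col`, `cproj`, `restr`).

* `s3_cell J w`  : the cell below `J` with address `w` (head of the word = last choice; `false ↦ child 0`, `true ↦ child 1`);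
* `ColBudget R 𝒱 D` : the budget of Sec. 3.2 for a set `𝒱` of columns (all columns available somewhere below `R`);
* `s3_mkSys`     : the abstract system with `X = XV`, `V = ↥𝒱`, `E w = restr (s3_cell R w).set`, `col Φ = Φ.vec (Φ.birth ⊓ R)`;
* `s3_mask`      : a concrete mask family `Cell → Finset Col` as an abstract one;  `P (s3_mask ..) w = cproj (m I) I`, `I = s3_cell R w`.
The analytic facts `s3x_*` are (or follow at once from) the API of block [XV] (helper132, R258/XV/).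
-/
set_option autoImplicit false
set_option linter.unusedSectionVars false
open MeasureTheory
open scoped InnerProductSpace

namespace Claimed.Agent.R258

/-! ## Words and cells -/

/-- the cell below `J` with address `w` -/
def s3_cell (J : Cell) : List Bool → Cell
  | [] => J
  | b :: w => (s3_cell J w).child (if b then 1 else 0)

/-- the address of length `n` of `I` relative to its `n`-th ancestor -/
def s3_addr : ℕ → Cell → List Bool
  | 0, _ => []
  | n + 1, I => decide (I.idx % 2 = 1) :: s3_addr n (I.anc 1)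

/-- the address of `I` relative to `J` (junk if `¬ I ≤ J`) -/
def s3_word (J I : Cell) : List Bool := s3_addr (I.depth - J.depth).toNat I

theorem s3_cell_parity (I : Cell) : (I.anc 1).child (if decide (I.idx % 2 = 1) then 1 else 0) = I := by
  have h2 := Int.emod_two_eq_zero_or_one I.idx
  have h3 := Int.mul_ediv_add_emod I.idx 2
  apply Cell.ext
  · simp only [Cell.child, Cell.anc]; push_cast; ring
  · simp only [Cell.child, Cell.anc, pow_one]
    rcases h2 with h | h
    · simp [h]; omega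
    · simp [h]; omega

theorem s3_cell_addr (I : Cell) (n : ℕ) : s3_cell (I.anc n) (s3_addr n I) = I := by
  induction n generalizing I with
  | zero => simp [s3_addr, s3_cell, cell_anc_zero]
  | succ n ih =>
    have h1 : I.anc (n + 1) = (I.anc 1).anc n := by rw [cell_anc_anc, add_comm]
    rw [s3_addr, s3_cell, h1, ih (I.anc 1)]
    exact s3_cell_parity I

theorem s3_cell_word {J I : Cell} (h : I ≤ J) : s3_cell J (s3_word J I) = I := by
  obtain ⟨n, rfl⟩ := h
  have : (I.depth - (I.anc n).depth).toNat = n := by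
    simp only [Cell.anc]; omega
  rw [s3_word, this]
  exact s3_cell_addr I n

theorem s3_cell_depth (J : Cell) (w : List Bool) : (s3_cell J w).depth = J.depth + w.length := by
  induction w with
  | nil => simp [s3_cell]
  | cons b w ih =>
    rw [s3_cell]
    show (s3_cell J w).depth + 1 = _
    rw [ih, List.length_cons]; push_cast; ring

theorem s3_cell_inj (J : Cell) {u w : List Bool} (h : s3_cell J u = s3_cell J w) : u = w := by
  induction u generalizing w with
  | nil =>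
    cases w with
    | nil => rfl
    | cons b w =>
      have := congrArg Cell.depth h
      rw [s3_cell_depth, s3_cell_depth] at this
      simp at this
      omega
  | cons a u ih =>
    cases w with
    | nil =>
      have := congrArg Cell.depth h
      rw [s3_cell_depth, s3_cell_depth] at this
      simp at this
      omega
    | cons b w =>
      rw [s3_cell, s3_cell] at h
      obtain ⟨h1, h2⟩ := cell_child_inj h
      rw [ih h1]
      cases a <;> cases b <;> simp_all

theorem s3_cell_le_of_suffix (J : Cell) {w w' : List Bool} (h : w <:+ w') : s3_cell J w' ≤ s3_cell J w := by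
  obtain ⟨t, rfl⟩ := h
  induction t with
  | nil => exact le_rfl
  | cons b t ih =>
    rw [List.cons_append, s3_cell]
    exact (cell_child_le _ _).trans ih

theorem s3_cell_le_iff (J : Cell) (w w' : List Bool) : s3_cell J w' ≤ s3_cell J w ↔ w <:+ w' := by
  refine ⟨fun h => ?_, s3_cell_le_of_suffix J⟩
  have hd := cell_depth_le_of_le h
  rw [s3_cell_depth, s3_cell_depth] at hd
  have hlen : w.length ≤ w'.length := by omega
  set u := w'.drop (w'.length - w.length) with hu
  have hsuf : u <:+ w' := List.drop_suffix _ _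
  have hulen : u.length = w.length := by rw [hu, List.length_drop]; omega
  have h1 := s3_cell_le_of_suffix J hsuf
  have h2 : s3_cell J u ≤ s3_cell J w :=
    cell_chain_of_depth h1 h (by rw [s3_cell_depth, s3_cell_depth, hulen])
  have h3 : s3_cell J u = s3_cell J w :=
    cell_eq_of_le_of_depth h2 (by rw [s3_cell_depth, s3_cell_depth, hulen])
  rw [← s3_cell_inj J h3]
  exact hsuf

theorem s3_cell_le_root (J : Cell) (w : List Bool) : s3_cell J w ≤ J :=
  (s3_cell_le_iff J [] w).2 List.nil_suffix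

/-! ## The budget of Sec. 3.2 -/

/-- regularity and budget of one column -/
structure s3_ColOk (D : ℝ) (Φ : Col) : Prop where
  meas : Measurable Φ.phi
  bdd : ∀ y ∈ Φ.birth.set, ‖Φ.fn y‖ ≤ D
  eps : D⁻¹ ≤ Real.sqrt Φ.eps

/-- **the column budget of Sec. 3.2** for the set `𝒱` of all columns available somewhere below `R`:
`‖Φ‖_∞ ≤ D` on the birth cell, `√ε ≥ 1/D`, private labels, at most `D` births on a path. -/
structure ColBudget (R : Cell) (𝒱 : Set Col) (D : ℝ) : Prop where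
  two_le : 2 ≤ D
  ok : ∀ Φ ∈ 𝒱, s3_ColOk D Φ
  /-- the birth cell meets `R` -/
  meet : ∀ Φ ∈ 𝒱, ∃ I, I ≤ R ∧ I ≤ Φ.birth
  lab : ∀ Φ ∈ 𝒱, ∀ Φ' ∈ 𝒱, Φ.lab = Φ'.lab → Φ = Φ'
  count : ∀ I, I ≤ R → ∀ A : Finset Col, (∀ Φ ∈ A, Φ ∈ 𝒱 ∧ I ≤ Φ.birth) → (A.card : ℝ) ≤ D

/-- a mask family below `R` with columns in `𝒱` (`Inh R m` of S5/Defs.lean + membership) -/
structure s3_MaskIn (R : Cell) (𝒱 : Set Col) (m : Cell → Finset Col) : Prop where
  mem : ∀ I, I ≤ R → ∀ Φ ∈ m I, Φ ∈ 𝒱
  birth : ∀ I, I ≤ R → ∀ Φ ∈ m I, I ≤ Φ.birth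
  mono : ∀ I I' : Cell, I ≤ R → I' ≤ I → m I ⊆ m I'

theorem s3_MaskIn.of_inh {R : Cell} {𝒱 : Set Col} {m : Cell → Finset Col} (h : Inh R m)
    (hm : ∀ I, I ≤ R → ∀ Φ ∈ m I, Φ ∈ 𝒱) : s3_MaskIn R 𝒱 m :=
  ⟨hm, fun I _ => h.birth I, h.mono⟩

/-! ## Analytic facts (block [XV]) -/

/-- `∫_I ‖z‖` -/
noncomputable def s3_L1 (z : XV) (I : Cell) : ℝ := ∫ y in I.set, ‖(z : ℝ → HV) y‖

section analytic
variable {D : ℝ} {Φ : Col} {Q I : Cell}

theorem s3x_fn_le (h : s3_ColOk D Φ) (hI : I ≤ Φ.birth) : ∀ y ∈ I.set, ‖Φ.fn y‖ ≤ D :=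
  fun y hy => h.bdd y (cell_set_subset hI hy)

theorem s3x_reg (h : s3_ColOk D Φ) (hI : I ≤ Φ.birth) : Φ.Reg I :=
  xv_reg_of_bdd h.meas.aestronglyMeasurable I (B := D) fun y hy => by
    rw [← xv_fn_zero Φ y]
    exact (xv_norm_coord_le _ 0).trans (s3x_fn_le h hI y hy)

theorem s3x_restr_vec (h : s3_ColOk D Φ) (hQ : Q ≤ I) (hI : I ≤ Φ.birth) : restr Q.set (Φ.vec I) = Φ.vec Q :=
  xv_restr_vec (s3x_reg h hI) hQ

theorem s3x_vec_normsq_le (h : s3_ColOk D Φ) (hI : I ≤ Φ.birth) : ‖Φ.vec I‖ ^ 2 ≤ D ^ 2 * I.len :=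
  xv_normsq_vec_le' (s3x_fn_le h hI)

/-- private coordinates (Lemma 3.2, lower bound, integrated over `I`) -/
theorem s3x_lower (hD : 0 < D) (A : Finset Col) (hA : ∀ Φ ∈ A, s3_ColOk D Φ)
    (hlab : ∀ Φ ∈ A, ∀ Φ' ∈ A, Φ.lab = Φ'.lab → Φ = Φ') (hI : ∀ Φ ∈ A, I ≤ Φ.birth) (c : Col → ℂ) :
    I.len * ∑ Φ ∈ A, ‖c Φ‖ ^ 2 ≤ D ^ 2 * ‖∑ Φ ∈ A, c Φ • Φ.vec I‖ ^ 2 := by
  have heps : ∀ Φ ∈ A, (D ^ 2)⁻¹ ≤ Φ.eps := by
    intro Φ hΦ
    have h1 := (hA Φ hΦ).eps
    have h0 : 0 < D⁻¹ := inv_pos.2 hD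
    have h2 : 0 < Real.sqrt Φ.eps := lt_of_lt_of_le h0 h1
    have h3 : 0 ≤ Φ.eps := (Real.sqrt_pos.1 h2).le
    rw [← Real.sq_sqrt h3, ← inv_pow]
    exact pow_le_pow_left₀ h0.le h1 2
  have hD2 : 0 < D ^ 2 := pow_pos hD 2
  have h := xv_lower (A := A) (I := I) (fun Φ hΦ => s3x_reg (hA Φ hΦ) (hI Φ hΦ)) hlab
    (fun Φ hΦ => (inv_pos.2 hD2).le.trans (heps Φ hΦ)) c
  have h1 : (D ^ 2)⁻¹ * ∑ Φ ∈ A, ‖c Φ‖ ^ 2 ≤ ∑ Φ ∈ A, Φ.eps * ‖c Φ‖ ^ 2 := by
    rw [Finset.mul_sum]
    exact Finset.sum_le_sum fun Φ hΦ => mul_le_mul_of_nonneg_right (heps Φ hΦ) (by positivity)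
  have h2 : I.len * ((D ^ 2)⁻¹ * ∑ Φ ∈ A, ‖c Φ‖ ^ 2) ≤ ‖∑ Φ ∈ A, c Φ • Φ.vec I‖ ^ 2 :=
    (mul_le_mul_of_nonneg_left h1 (cell_len_nonneg I)).trans h
  calc I.len * ∑ Φ ∈ A, ‖c Φ‖ ^ 2 = D ^ 2 * (I.len * ((D ^ 2)⁻¹ * ∑ Φ ∈ A, ‖c Φ‖ ^ 2)) := by
        field_simp
    _ ≤ D ^ 2 * ‖∑ Φ ∈ A, c Φ • Φ.vec I‖ ^ 2 := mul_le_mul_of_nonneg_left h2 hD2.le

theorem s3x_L1_nonneg (z : XV) (I : Cell) : 0 ≤ s3_L1 z I :=
  integral_nonneg fun _ => norm_nonneg _

theorem s3x_L1_child (z : XV) (I : Cell) : s3_L1 z I = s3_L1 z (I.child 0) + s3_L1 z (I.child 1) :=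
  xv_L1_child z I

theorem s3x_L1_sq_le (z : XV) (I : Cell) : s3_L1 z I ^ 2 ≤ I.len * ‖restr I.set z‖ ^ 2 :=
  xv_L1_sq_le z I

theorem s3x_pair (h : s3_ColOk D Φ) (hI : I ≤ Φ.birth) (z : XV) : ‖⟪Φ.vec I, z⟫_ℂ‖ ≤ D * s3_L1 z I :=
  xv_norm_inner_vec_le (s3x_fn_le h hI) z

end analytic

/-! ## The system -/

open Classical in
/-- address of `Φ.birth ⊓ R` -/
noncomputable def s3_bw (R : Cell) (Φ : Col) : List Bool := if Φ.birth ≤ R then s3_word R Φ.birth else []

section sys
variable {R : Cell} {𝒱 : Set Col} {D : ℝ}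

/-- availability: `s3_bw R Φ <:+ w ↔ s3_cell R w ≤ Φ.birth` -/
theorem s3_bw_suffix_iff (h : ColBudget R 𝒱 D) {Φ : Col} (hΦ : Φ ∈ 𝒱) (w : List Bool) :
    s3_bw R Φ <:+ w ↔ s3_cell R w ≤ Φ.birth := by
  unfold s3_bw
  by_cases hb : Φ.birth ≤ R
  · rw [if_pos hb, ← s3_cell_le_iff R, s3_cell_word hb]
  · rw [if_neg hb]
    obtain ⟨I, hIR, hIb⟩ := h.meet Φ hΦ
    have hRb : R ≤ Φ.birth := (cell_chain hIR hIb).resolve_right hb
    exact ⟨fun _ => (s3_cell_le_root R w).trans hRb, fun _ => List.nil_suffix⟩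

theorem s3_cell_bw_le (h : ColBudget R 𝒱 D) {Φ : Col} (hΦ : Φ ∈ 𝒱) : s3_cell R (s3_bw R Φ) ≤ Φ.birth :=
  (s3_bw_suffix_iff h hΦ _).1 (List.suffix_refl _)

theorem s3_restr_col (h : ColBudget R 𝒱 D) {Φ : Col} (hΦ : Φ ∈ 𝒱) {w : List Bool} (hw : s3_bw R Φ <:+ w) :
    restr (s3_cell R w).set (Φ.vec (s3_cell R (s3_bw R Φ))) = Φ.vec (s3_cell R w) :=
  s3x_restr_vec (h.ok Φ hΦ) ((s3_cell_le_iff R _ w).2 hw) (s3_cell_bw_le h hΦ)

open Classical in
theorem s3_col_lower (h : ColBudget R 𝒱 D) (w : List Bool) (A : Finset 𝒱) (hA : ∀ v ∈ A, s3_bw R v <:+ w) (c : 𝒱 → ℂ) :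
    (s3_cell R w).len * ∑ v ∈ A, ‖c v‖ ^ 2 ≤
      D ^ 2 * ‖∑ v ∈ A, c v • restr (s3_cell R w).set ((v : Col).vec (s3_cell R (s3_bw R v)))‖ ^ 2 := by
  set c' : Col → ℂ := fun Φ => if hΦ : Φ ∈ 𝒱 then c ⟨Φ, hΦ⟩ else 0 with hc'
  have hc : ∀ v : 𝒱, c' v = c v := fun v => by simp only [hc', dif_pos v.2]
  have h1 := s3x_lower (D := D) (I := s3_cell R w) (by linarith [h.two_le]) (A.map (Function.Embedding.subtype _))
    (by
      intro Φ hΦ
      obtain ⟨v, _, rfl⟩ := Finset.mem_map.1 hΦ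
      exact h.ok v v.2)
    (by
      intro Φ hΦ Φ' hΦ' hl
      obtain ⟨v, _, rfl⟩ := Finset.mem_map.1 hΦ
      obtain ⟨v', _, rfl⟩ := Finset.mem_map.1 hΦ'
      exact h.lab v v.2 v' v'.2 hl)
    (by
      intro Φ hΦ
      obtain ⟨v, hv, rfl⟩ := Finset.mem_map.1 hΦ
      exact (s3_bw_suffix_iff h v.2 w).1 (hA v hv)) c'
  rw [Finset.sum_map, Finset.sum_map] at h1
  simp only [Function.Embedding.coe_subtype, hc] at h1
  have h2 : ∑ v ∈ A, c v • restr (s3_cell R w).set ((v : Col).vec (s3_cell R (s3_bw R v))) =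
      ∑ v ∈ A, c v • (v : Col).vec (s3_cell R w) :=
    Finset.sum_congr rfl fun v hv => by rw [s3_restr_col h v.2 (hA v hv)]
  rw [h2]
  exact h1

/-- the abstract column system of a budget -/
noncomputable def s3_mkSys (h : ColBudget R 𝒱 D) : s3_Sys ℂ XV 𝒱 where
  E w := (restr (s3_cell R w).set : XV →ₗ[ℂ] XV)
  E_symm w x y := xv_restr_inner _ x y
  E_idem w x := xv_restr_idem _ x
  E_split w x := xv_restr_child (s3_cell R w) x
  E_orth w x := xv_restr_disjoint (cell_measurableSet _) (cell_measurableSet _) (cell_set_child_disjoint (s3_cell R w)) x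
  len w := (s3_cell R w).len
  len_pos w := cell_len_pos _
  len_half b w := cell_len_child _ _
  birth Φ := s3_bw R Φ
  col Φ := (Φ : Col).vec (s3_cell R (s3_bw R Φ))
  col_supp Φ := xv_restr_vec_self _ _
  D := D
  two_le_D := h.two_le
  col_lower w A hA c := s3_col_lower h w A hA c
  col_upper w Φ hΦ := by
    show ‖restr (s3_cell R w).set ((Φ : Col).vec (s3_cell R (s3_bw R Φ)))‖ ^ 2 ≤ D ^ 2 * (s3_cell R w).len
    rw [s3_restr_col h Φ.2 hΦ]
    exact s3x_vec_normsq_le (h.ok Φ Φ.2) ((s3_bw_suffix_iff h Φ.2 w).1 hΦ)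
  card_le w A hA := by
    have := h.count (s3_cell R w) (s3_cell_le_root R w) (A.map (Function.Embedding.subtype _)) (by
      intro Φ hΦ
      obtain ⟨v, hv, rfl⟩ := Finset.mem_map.1 hΦ
      exact ⟨v.2, (s3_bw_suffix_iff h v.2 w).1 (hA v hv)⟩)
    rwa [Finset.card_map] at this
  L1 z w := s3_L1 z (s3_cell R w)
  L1_nonneg z w := s3x_L1_nonneg z _
  L1_split z w := s3x_L1_child z _
  L1_sq_le z w := s3x_L1_sq_le z _
  col_pair w Φ z hΦ := by
    show ‖⟪restr (s3_cell R w).set ((Φ : Col).vec (s3_cell R (s3_bw R Φ))), z⟫_ℂ‖ ≤ D * s3_L1 z (s3_cell R w)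
    rw [s3_restr_col h Φ.2 hΦ]
    exact s3x_pair (h.ok Φ Φ.2) ((s3_bw_suffix_iff h Φ.2 w).1 hΦ) z

open Classical in
/-- a concrete mask family as an abstract one -/
noncomputable def s3_mask (R : Cell) (𝒱 : Set Col) (m : Cell → Finset Col) (w : List Bool) : Finset 𝒱 :=
  (m (s3_cell R w)).subtype (· ∈ 𝒱)

theorem s3_mask_isMask (h : ColBudget R 𝒱 D) {m : Cell → Finset Col} (hm : s3_MaskIn R 𝒱 m) :
    (s3_mkSys h).IsMask (s3_mask R 𝒱 m) where
  avail := by
    classical
    intro w v hv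
    have hv' : (v : Col) ∈ m (s3_cell R w) := by
      unfold s3_mask at hv; exact Finset.mem_subtype.1 hv
    exact (s3_bw_suffix_iff h v.2 w).2 (hm.birth _ (s3_cell_le_root R w) v hv')
  inherit := by
    classical
    intro b w v hv
    unfold s3_mask at hv ⊢
    rw [Finset.mem_subtype] at hv ⊢
    exact hm.mono _ _ (s3_cell_le_root R w) (cell_child_le _ _) hv

/-- the restricted columns of the system are the concrete restricted columns -/
theorem s3_mkSys_E_col (h : ColBudget R 𝒱 D) (Φ : 𝒱) {w : List Bool} (hw : s3_cell R w ≤ (Φ : Col).birth) :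
    (s3_mkSys h).E w ((s3_mkSys h).col Φ) = (Φ : Col).vec (s3_cell R w) :=
  s3_restr_col h Φ.2 ((s3_bw_suffix_iff h Φ.2 w).2 hw)

theorem s3_mkSys_W (h : ColBudget R 𝒱 D) {m : Cell → Finset Col} (hm : s3_MaskIn R 𝒱 m) (w : List Bool) :
    (s3_mkSys h).W (s3_mask R 𝒱 m w) w = colSpan (m (s3_cell R w)) (s3_cell R w) := by
  classical
  apply le_antisymm
  · unfold s3_Sys.W
    rw [Submodule.span_le]
    rintro _ ⟨v, hv, rfl⟩
    have hv' : (v : Col) ∈ m (s3_cell R w) := by
      unfold s3_mask at hv; exact Finset.mem_subtype.1 hv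
    show (s3_mkSys h).E w ((s3_mkSys h).col v) ∈ _
    rw [s3_mkSys_E_col h v (hm.birth _ (s3_cell_le_root R w) v hv')]
    exact xv_vec_mem_colSpan hv' _
  · apply xv_colSpan_le
    intro Φ hΦ
    have hV : Φ ∈ 𝒱 := hm.mem _ (s3_cell_le_root R w) Φ hΦ
    unfold s3_Sys.W
    apply Submodule.subset_span
    refine ⟨⟨Φ, hV⟩, ?_, s3_mkSys_E_col h ⟨Φ, hV⟩ (hm.birth _ (s3_cell_le_root R w) Φ hΦ)⟩
    unfold s3_mask
    exact Finset.mem_coe.2 (Finset.mem_subtype.2 hΦ)

theorem s3_starProjection_congr {U U' : Submodule ℂ XV} [U.HasOrthogonalProjection] [U'.HasOrthogonalProjection]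
    (h : U = U') : U.starProjection = U'.starProjection := by
  subst h; rfl

/-- **the abstract local projection is `cproj`** -/
theorem s3_mkSys_P (h : ColBudget R 𝒱 D) {m : Cell → Finset Col} (hm : s3_MaskIn R 𝒱 m) (w : List Bool) :
    (s3_mkSys h).P (s3_mask R 𝒱 m w) w = cproj (m (s3_cell R w)) (s3_cell R w) :=
  s3_starProjection_congr (s3_mkSys_W h hm w)

end sys

end Claimed.Agent.R258
end
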