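/- Packed by merge_tool.py (helper293): 7 modules of Claimed.Agent.R258 in one file, same declarations.
   Old modules, in this order: Loc.Gen, U3.BR.Moment, U3.BR.CS, U3.BR.Chang, U3.BR.Main, U3.BR, U3.Sym -/
import Claimed.Agent.R258.Loc.Pair
import Mathlib
import Claimed.Agent.R258.Pack004
import Claimed.Agent.R258.Pack017
import Claimed.Agent.R258.Pack011
import Claimed.Agent.R258.Pack019
import Claimed.Agent.R258.Pack018

/- ===== packed: Claimed.Agent.R258.Loc.Gen ===== -/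
section
/-
Row 258 (S0498), Sec. 6.4 (architect helper68).  FILE Gen: the GENERIC filter calculus.

The main filters (`Qm, Qbar, evalH, evalP`; catalog `Y.cat`, rank of the filter `f` = `f.rank`) and the helper filters (`Qh, Qhbar, evalD`;
catalog `hc`, all ranks = `Y.hrank`) are two instances of ONE family `gQ c ρ`, `gQbar c ρ`, `gEval c ρ`, depending on a catalog `c` and a rank
assignment `ρ : LocFilt → ℕ`.  All API lemmas and the closure engine (Lemma 6.7) are stated for the generic family.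
* `CatOk c D Hc`  : the invariants of a catalog (private labels, bounded chart atoms of complexity `≤ Hc` with exactly the tag of the attached
                    vertex, inverse private weights `≤ D`, attached vertex present);
* `CatCnt c n`    : path counts by rank.
-/
set_option autoImplicit false
open MeasureTheory

namespace Claimed.Agent.R258

namespace LocSys

section defs
variable {Tag : Type} (Y : LocSys Tag) (c : LocCat) (ρ : LocFilt → ℕ)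

/-- label mask of the individual projection of the filter `f` at the pad `pad0 + pd`, ranks `≤ ρ f`, catalog `c` -/
noncomputable def glm (l : Fin 4) (f : LocFilt) (pd : ℕ) (I : Cell) : Finset Col :=
  c.lm l (ρ f) (Y.msk f (f.pad0 Y.p + pd) I) I

noncomputable def gQ (l : Fin 4) (f : LocFilt) (pd : ℕ) (I : Cell) : XV →L[ℂ] XV := cproj (Y.glm c ρ l f pd I) I

noncomputable def gQbar (l : Fin 4) (f : LocFilt) (I : Cell) : XV →L[ℂ] XV :=
  ((Y.p.P : ℂ)⁻¹) • ∑ pd ∈ Finset.Icc 1 Y.p.P, Y.gQ c ρ l f pd I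

noncomputable def gEval (l : Fin 4) (I : Cell) : LocHist → XV →L[ℂ] XV
  | [] => restr I.set
  | (f, false) :: t => (Y.gQbar c ρ l f I).comp (gEval l I t)
  | (f, true) :: t => (restr I.set - Y.gQbar c ρ l f I).comp (gEval l I t)

/-- the rank assignment of the main filters -/
def rkM : LocFilt → ℕ := fun f => f.rank Y.p
/-- the rank assignment of the helper filters -/
def rkH : LocFilt → ℕ := fun _ => Y.hrank

theorem lmM_eq (l : Fin 4) (f : LocFilt) (pd : ℕ) (I : Cell) : Y.lmM l f pd I = Y.glm Y.cat Y.rkM l f pd I := rfl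
theorem lmH_eq (hc : LocCat) (l : Fin 4) (f : LocFilt) (pd : ℕ) (I : Cell) : Y.lmH hc l f pd I = Y.glm hc Y.rkH l f pd I := rfl
theorem Qm_eq (l : Fin 4) (f : LocFilt) (pd : ℕ) (I : Cell) : Y.Qm l f pd I = Y.gQ Y.cat Y.rkM l f pd I := rfl
theorem Qh_eq (hc : LocCat) (l : Fin 4) (f : LocFilt) (pd : ℕ) (I : Cell) : Y.Qh hc l f pd I = Y.gQ hc Y.rkH l f pd I := rfl
theorem Qbar_eq (l : Fin 4) (f : LocFilt) (I : Cell) : Y.Qbar l f I = Y.gQbar Y.cat Y.rkM l f I := rfl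
theorem Qhbar_eq (hc : LocCat) (l : Fin 4) (f : LocFilt) (I : Cell) : Y.Qhbar hc l f I = Y.gQbar hc Y.rkH l f I := rfl

theorem evalH_eq (l : Fin 4) (I : Cell) (h : LocHist) : Y.evalH l I h = Y.gEval Y.cat Y.rkM l I h := by
  induction h with
  | nil => rfl
  | cons e t ih =>
    obtain ⟨f, b⟩ := e
    cases b <;> simp only [evalH, gEval, ih, Qbar_eq]

/-- a positive history as a history -/
def pos (h : List LocFilt) : LocHist := h.map fun f => (f, false)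

theorem evalP_eq (l : Fin 4) (I : Cell) (h : List LocFilt) : Y.evalP l I h = Y.gEval Y.cat Y.rkM l I (pos h) := by
  induction h with
  | nil => rfl
  | cons f t ih => simp only [evalP, pos, List.map_cons, gEval, Qbar_eq] at ih ⊢; rw [ih]

theorem evalP_eq_evalH (l : Fin 4) (I : Cell) (h : List LocFilt) : Y.evalP l I h = Y.evalH l I (pos h) := by
  rw [evalP_eq, evalH_eq]

theorem evalD_eq (hc : LocCat) (l : Fin 4) (I : Cell) (h : List LocFilt) :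
    Y.evalD hc l I h = Y.gEval hc Y.rkH l I (pos h) := by
  induction h with
  | nil => rfl
  | cons f t ih => simp only [evalD, pos, List.map_cons, gEval, Qhbar_eq] at ih ⊢; rw [ih]

theorem mem_glm {l : Fin 4} {f : LocFilt} {pd : ℕ} {I : Cell} {Φ : Col} :
    Φ ∈ Y.glm c ρ l f pd I ↔ Φ ∈ c.cols ∧ I ≤ Φ.birth ∧ c.slot Φ.lab = l ∧ c.rank Φ.lab ≤ ρ f ∧
      c.vtx Φ.lab ∈ Y.msk f (f.pad0 Y.p + pd) I := by
  classical
  simp only [glm, LocCat.lm, Finset.mem_filter]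

/-- vertex masks increase with the pad -/
theorem msk_mono_pad (f : LocFilt) {h h' : ℕ} (hh : h ≤ h') (I : Cell) : Y.msk f h I ⊆ Y.msk f h' I := by
  cases f with
  | cum m => exact Y.CS.cumMask_mono_pad m hh I
  | ball j G => exact Y.CS.mask_pad G h h' I hh

/-- vertex masks consist of present vertices -/
theorem msk_pres (f : LocFilt) (h : ℕ) (I : Cell) : Y.msk f h I ⊆ (Y.B.pres I : Set ℕ) := by
  cases f with
  | cum m => exact Y.CS.cumMask_pres m h I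
  | ball j G => exact Y.CS.mask_pres G h I

/-- vertex masks increase in depth -/
theorem msk_depth (f : LocFilt) (h : ℕ) {I J : Cell} (hJ : J ≤ I) : Y.msk f h I ⊆ Y.msk f h J := by
  cases f with
  | cum m => exact Y.CS.cumMask_depth m h hJ
  | ball j G => exact Y.CS.mask_depth G h I J hJ

theorem glm_mono_pad (l : Fin 4) (f : LocFilt) {pd pd' : ℕ} (h : pd ≤ pd') (I : Cell) :
    Y.glm c ρ l f pd I ⊆ Y.glm c ρ l f pd' I := by
  intro Φ hΦ
  rw [mem_glm] at hΦ ⊢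
  exact ⟨hΦ.1, hΦ.2.1, hΦ.2.2.1, hΦ.2.2.2.1, Y.msk_mono_pad f (by omega) I hΦ.2.2.2.2⟩

/-- path counts by rank -/
def CatCnt (n : ℕ → ℝ) : Prop :=
  ∀ I, I ≤ Y.X.root → ∀ r, (((c.avail I).filter fun Φ => c.rank Φ.lab ≤ r).card : ℝ) ≤ n r

theorem glm_card_le {n : ℕ → ℝ} (hn : Y.CatCnt c n) (l : Fin 4) (f : LocFilt) (pd : ℕ) {I : Cell} (hI : I ≤ Y.X.root) :
    ((Y.glm c ρ l f pd I).card : ℝ) ≤ n (ρ f) := by
  classical
  refine le_trans ?_ (hn I hI (ρ f))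
  have : Y.glm c ρ l f pd I ⊆ (c.avail I).filter fun Φ => c.rank Φ.lab ≤ ρ f := by
    intro Φ hΦ
    rw [mem_glm] at hΦ
    simp only [Finset.mem_filter, LocCat.avail]
    exact ⟨⟨hΦ.1, hΦ.2.1⟩, hΦ.2.2.2.1⟩
  exact_mod_cast Finset.card_le_card this

end defs

/-- the invariants of a catalog -/
structure CatOk (Y : LocSys LocTag) (c : LocCat) (D Hc : ℝ) : Prop where
  lab_inj : ∀ Φ ∈ c.cols, ∀ Φ' ∈ c.cols, Φ.lab = Φ'.lab → Φ = Φ'
  chart : ∀ Φ ∈ c.cols, Φ.phi = (c.chart Φ.lab).eval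
  cplx : ∀ Φ ∈ c.cols, (c.chart Φ.lab).Cplx Hc
  bdd : ∀ Φ ∈ c.cols, (c.chart Φ.lab).Bdd
  eps : ∀ Φ ∈ c.cols, D⁻¹ ≤ Real.sqrt Φ.eps ∧ Φ.eps ≤ 1
  tag_col : ∀ Φ ∈ c.cols, (c.chart Φ.lab).tag (c.slot Φ.lab) = Y.B.tag (c.vtx Φ.lab)
  vtx : ∀ Φ ∈ c.cols, ∀ I, I ≤ Y.X.root → I ≤ Φ.birth → c.vtx Φ.lab ∈ Y.B.pres I

theorem CatOk.reg {Y : LocSys LocTag} {c : LocCat} {D Hc : ℝ} (h : Y.CatOk c D Hc) {Φ : Col} (hΦ : Φ ∈ c.cols) (I : Cell) :
    Φ.Reg I := xv_reg_of_chart (h.chart Φ hΦ) (h.cplx Φ hΦ) (h.bdd Φ hΦ) I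

end LocSys

end Claimed.Agent.R258
end

/- ===== packed: Claimed.Agent.R258.U3.BR.Moment ===== -/
section
/-!
# Row 258, U3 / B1: moments of sums of independent bounded variables   (LEAF `P-U3B-MOMENT`, prefix `u3b_`)

Only Mathlib.  Elementary replacement of the Marcinkiewicz-Zygmund inequality (enough in the dense setting).
 * `u3b_exp_mul_le`  : convexity of `exp` on `[-t, t]`: `t y = ((1+y)/2) t + ((1-y)/2) (-t)`;
 * `u3b_sum_exp_le`  : sum the previous line, `∑ Y = 0`, `Real.cosh_le_exp_half_sq`;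
 * `u3b_sum_exp_pi`  : `Finset.prod_univ_sum`, `Real.exp_sum`;
 * `u3b_pow_le_cosh` : one term of the series `Real.hasSum_cosh`;
 * `u3b_moment`      : `S^{2m} = t^{-2m} (t S)^{2m} ≤ t^{-2m} (2m)! cosh (t S)`, `cosh u = (exp u + exp (-u)) / 2` (use `u3b_sum_exp_pi` for `t`, `-t`),
                       `t = √(2m/k)`: `(2m)! (k/(2m))^m e^m ≤ (2m)^{2m} (k/(2m))^m 3^m = (6 m k)^m`.
-/

set_option autoImplicit false

namespace Claimed.Agent.R258.U3

open Finset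

theorem u3b_exp_mul_le {t y : ℝ} (hy : |y| ≤ 1) :
    Real.exp (t * y) ≤ Real.cosh t + y * Real.sinh t := by
  have hy' := abs_le.1 hy
  have hc := (convexOn_exp).2 (Set.mem_univ t) (Set.mem_univ (-t))
    (show (0:ℝ) ≤ (1 + y) / 2 by linarith) (show (0:ℝ) ≤ (1 - y) / 2 by linarith) (by ring)
  simp only [smul_eq_mul] at hc
  have e1 : (1 + y) / 2 * t + (1 - y) / 2 * -t = t * y := by ring
  rw [e1] at hc
  refine hc.trans (le_of_eq ?_)
  rw [Real.cosh_eq, Real.sinh_eq]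
  ring

theorem u3b_sum_exp_le {ι : Type*} (A : Finset ι) (Y : ι → ℝ) (h0 : ∑ a ∈ A, Y a = 0)
    (h1 : ∀ a ∈ A, |Y a| ≤ 1) (t : ℝ) :
    ∑ a ∈ A, Real.exp (t * Y a) ≤ #A * Real.exp (t ^ 2 / 2) := by
  calc ∑ a ∈ A, Real.exp (t * Y a) ≤ ∑ a ∈ A, (Real.cosh t + Y a * Real.sinh t) :=
        Finset.sum_le_sum fun a ha => u3b_exp_mul_le (h1 a ha)
    _ = #A * Real.cosh t := by
        rw [Finset.sum_add_distrib, ← Finset.sum_mul, h0]
        simp
    _ ≤ #A * Real.exp (t ^ 2 / 2) :=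
        mul_le_mul_of_nonneg_left (Real.cosh_le_exp_half_sq t) (Nat.cast_nonneg _)

theorem u3b_sum_exp_pi {ι : Type*} (A : Finset ι) (Y : ι → ℝ) (h0 : ∑ a ∈ A, Y a = 0)
    (h1 : ∀ a ∈ A, |Y a| ≤ 1) (k : ℕ) (t : ℝ) :
    ∑ a ∈ Fintype.piFinset (fun _ : Fin k => A), Real.exp (t * ∑ i, Y (a i)) ≤
      (#A : ℝ) ^ k * Real.exp (k * t ^ 2 / 2) := by
  have e1 : ∑ a ∈ Fintype.piFinset (fun _ : Fin k => A), Real.exp (t * ∑ i, Y (a i))
      = ∏ _i : Fin k, ∑ a ∈ A, Real.exp (t * Y a) := by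
    rw [Finset.prod_univ_sum]
    refine Finset.sum_congr rfl fun a _ => ?_
    rw [Finset.mul_sum, Real.exp_sum]
  rw [e1, Finset.prod_const, Finset.card_univ, Fintype.card_fin]
  calc (∑ a ∈ A, Real.exp (t * Y a)) ^ k ≤ (#A * Real.exp (t ^ 2 / 2)) ^ k :=
        pow_le_pow_left₀ (Finset.sum_nonneg fun _ _ => (Real.exp_pos _).le)
          (u3b_sum_exp_le A Y h0 h1 t) k
    _ = (#A : ℝ) ^ k * Real.exp (k * t ^ 2 / 2) := by
        rw [mul_pow, ← Real.exp_nat_mul]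
        congr 2
        ring

theorem u3b_pow_le_cosh (m : ℕ) (u : ℝ) : u ^ (2 * m) ≤ (2 * m).factorial * Real.cosh u := by
  have hs := Real.hasSum_cosh u
  have h1 : u ^ (2 * m) / ((2 * m).factorial : ℝ) ≤ Real.cosh u := by
    refine le_hasSum hs m fun j _ => ?_
    have : 0 ≤ u ^ (2 * j) := by rw [pow_mul]; positivity
    positivity
  have hf : (0 : ℝ) < ((2 * m).factorial : ℝ) := by positivity
  rw [div_le_iff₀ hf] at h1
  linarith

/-- **moment bound** -/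
theorem u3b_moment {ι : Type*} (A : Finset ι) (Y : ι → ℝ) (h0 : ∑ a ∈ A, Y a = 0)
    (h1 : ∀ a ∈ A, |Y a| ≤ 1) (k m : ℕ) (hk : 0 < k) (hm : 0 < m) :
    ∑ a ∈ Fintype.piFinset (fun _ : Fin k => A), (∑ i, Y (a i)) ^ (2 * m) ≤
      (#A : ℝ) ^ k * (6 * m * k) ^ m := by
  have hk' : (0 : ℝ) < k := by exact_mod_cast hk
  have hm' : (0 : ℝ) < m := by exact_mod_cast hm
  set t : ℝ := Real.sqrt (2 * m / k) with ht
  have ht2 : t ^ 2 = 2 * m / k := Real.sq_sqrt (by positivity)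
  have htpos : 0 < t := Real.sqrt_pos.2 (by positivity)
  -- pointwise
  have hpt : ∀ S : ℝ, S ^ (2 * m) ≤ (k / (2 * m)) ^ m * ((2 * m).factorial *
      ((Real.exp (t * S) + Real.exp (-t * S)) / 2)) := by
    intro S
    have h := u3b_pow_le_cosh m (t * S)
    rw [mul_pow, Real.cosh_eq] at h
    have e : t ^ (2 * m) = (2 * m / k) ^ m := by rw [pow_mul, ht2]
    rw [e] at h
    have e2 : ((k : ℝ) / (2 * m)) ^ m * (2 * m / k) ^ m = 1 := by
      rw [← mul_pow]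
      have : (k : ℝ) / (2 * m) * (2 * m / k) = 1 := by field_simp
      rw [this, one_pow]
    calc S ^ (2 * m) = ((k : ℝ) / (2 * m)) ^ m * ((2 * m / k) ^ m * S ^ (2 * m)) := by
          rw [← mul_assoc, e2, one_mul]
      _ ≤ _ := by
          refine mul_le_mul_of_nonneg_left ?_ (by positivity)
          have : -(t * S) = -t * S := by ring
          rw [← this]
          exact h
  have hsum : ∑ a ∈ Fintype.piFinset (fun _ : Fin k => A),
      ((Real.exp (t * ∑ i, Y (a i)) + Real.exp (-t * ∑ i, Y (a i))) / 2) ≤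
      (#A : ℝ) ^ k * Real.exp m := by
    have a1 := u3b_sum_exp_pi A Y h0 h1 k t
    have a2 := u3b_sum_exp_pi A Y h0 h1 k (-t)
    have e3 : (k : ℝ) * t ^ 2 / 2 = m := by rw [ht2]; field_simp
    have e4 : (k : ℝ) * (-t) ^ 2 / 2 = m := by rw [neg_sq, e3]
    rw [e3] at a1
    rw [e4] at a2
    rw [← Finset.sum_div, Finset.sum_add_distrib]
    linarith
  have hfac : ((2 * m).factorial : ℝ) ≤ (2 * m : ℝ) ^ (2 * m) := by
    have := Nat.factorial_le_pow (2 * m)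
    exact_mod_cast this
  have hexp : Real.exp m ≤ 3 ^ m := by
    have : Real.exp m = Real.exp 1 ^ m := by rw [← Real.exp_nat_mul, mul_one]
    rw [this]
    exact pow_le_pow_left₀ (Real.exp_pos _).le (by have := Real.exp_one_lt_d9; linarith) m
  calc ∑ a ∈ Fintype.piFinset (fun _ : Fin k => A), (∑ i, Y (a i)) ^ (2 * m)
      ≤ ∑ a ∈ Fintype.piFinset (fun _ : Fin k => A), (k / (2 * m)) ^ m * ((2 * m).factorial *
      ((Real.exp (t * ∑ i, Y (a i)) + Real.exp (-t * ∑ i, Y (a i))) / 2)) :=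
        Finset.sum_le_sum fun a _ => hpt _
    _ = (k / (2 * m)) ^ m * ((2 * m).factorial * ∑ a ∈ Fintype.piFinset (fun _ : Fin k => A),
      ((Real.exp (t * ∑ i, Y (a i)) + Real.exp (-t * ∑ i, Y (a i))) / 2)) := by
        rw [Finset.mul_sum, Finset.mul_sum]
    _ ≤ (k / (2 * m)) ^ m * ((2 * m : ℝ) ^ (2 * m) * ((#A : ℝ) ^ k * 3 ^ m)) := by
        refine mul_le_mul_of_nonneg_left ?_ (by positivity)
        refine mul_le_mul hfac (hsum.trans ?_) ?_ (by positivity)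
        · exact mul_le_mul_of_nonneg_left hexp (by positivity)
        · exact Finset.sum_nonneg fun _ _ => by positivity
    _ = (#A : ℝ) ^ k * (6 * m * k) ^ m := by
        rw [pow_mul, ← mul_assoc, ← mul_pow]
        have : (k : ℝ) / (2 * m) * (2 * m) ^ 2 = 2 * m * k := by field_simp
        rw [this]
        rw [mul_comm ((#A : ℝ) ^ k), ← mul_assoc, ← mul_pow]
        rw [mul_comm]
        congr 2
        ring

end Claimed.Agent.R258.U3
end

/- ===== packed: Claimed.Agent.R258.U3.BR.CS ===== -/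
section
/-!
# Row 258, U3 / B1: Croot-Sisask almost periodicity, dense case   (LEAF `P-U3B-CS`, prefix `u3b_`)

`F = u3bF A B`, `N = card G`.
 * `u3b_emp_moment` : for fixed `x` apply `u3b_moment` to `Y a = 1_B (x + a) - F x` (mean zero on `A`, `|Y| ≤ 1`);
                      `u3bEmp B a x - F x = k⁻¹ ∑_i Y (a i)`, `k^{-2m} (6 m k)^m = (6 m / k)^m`;
 * `u3b_good_tuples`: sum over `x`, Markov: at most half of the tuples of `A^k` are bad;
 * `u3b_pigeon`     : `∑_{z ∈ G^k} #{t | z - t ∈ L} = ∑_t #{z | z - t ∈ L} = N #L`; some `z` is at least the average;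
 * `u3b_emp_shift`  : definition;
 * `u3b_croot_sisask`: `T = {t | z - t ∈ L}`; for `t ∈ T`: `∑_x (Emp z x - F (x + t))^{2m} ≤ 2 N (6m/k)^m` (shift `x`);
                      `(u - v)^{2m} ≤ 2^{2m-1} (u^{2m} + v^{2m})`; shift `x` again.
-/

set_option autoImplicit false

namespace Claimed.Agent.R258.U3

open Finset
open scoped Pointwise

variable {G : Type*} [AddCommGroup G] [Fintype G] [DecidableEq G]

theorem u3b_F_nonneg (A B : Finset G) (x : G) : 0 ≤ u3bF A B x := by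
  unfold u3bF
  positivity

theorem u3b_F_le_one (A B : Finset G) (x : G) : u3bF A B x ≤ 1 := by
  unfold u3bF
  rcases A.eq_empty_or_nonempty with rfl | hA
  · simp
  · have h0 : (0 : ℝ) < #A := by exact_mod_cast hA.card_pos
    rw [inv_mul_le_iff₀ h0, mul_one]
    exact_mod_cast card_filter_le _ _

theorem u3b_emp_moment (A B : Finset G) (hA : A.Nonempty) (k m : ℕ) (hk : 0 < k) (hm : 0 < m) (x : G) :
    ∑ a ∈ u3bTup A k, (u3bEmp B a x - u3bF A B x) ^ (2 * m) ≤ (#A : ℝ) ^ k * (6 * m / k) ^ m := by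
  have h0 : (0 : ℝ) < #A := by exact_mod_cast hA.card_pos
  have hk0 : (0 : ℝ) < k := by exact_mod_cast hk
  set Y : G → ℝ := fun a => (if x + a ∈ B then 1 else 0) - u3bF A B x with hY
  have hsum : ∑ a ∈ A, Y a = 0 := by
    simp only [hY, sum_sub_distrib, sum_const, nsmul_eq_mul, sum_boole]
    unfold u3bF
    field_simp
    ring
  have hbd : ∀ a ∈ A, |Y a| ≤ 1 := by
    intro a _
    have h1 := u3b_F_nonneg A B x
    have h2 := u3b_F_le_one A B x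
    simp only [hY]
    rw [abs_le]
    split_ifs <;> constructor <;> linarith
  have hmom := u3b_moment A Y hsum hbd k m hk hm
  have hemp : ∀ a : Fin k → G, u3bEmp B a x - u3bF A B x = (k : ℝ)⁻¹ * ∑ i, Y (a i) := by
    intro a
    simp only [hY, sum_sub_distrib, sum_const, nsmul_eq_mul, sum_boole, card_univ, Fintype.card_fin]
    unfold u3bEmp
    field_simp
  calc ∑ a ∈ u3bTup A k, (u3bEmp B a x - u3bF A B x) ^ (2 * m)
      = ((k : ℝ)⁻¹) ^ (2 * m) * ∑ a ∈ Fintype.piFinset (fun _ : Fin k => A), (∑ i, Y (a i)) ^ (2 * m) := by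
        rw [mul_sum]
        refine sum_congr rfl fun a _ => ?_
        rw [hemp, mul_pow]
    _ ≤ ((k : ℝ)⁻¹) ^ (2 * m) * ((#A : ℝ) ^ k * (6 * m * k) ^ m) := by
        exact mul_le_mul_of_nonneg_left hmom (by positivity)
    _ = (#A : ℝ) ^ k * (6 * m / k) ^ m := by
        rw [pow_mul, mul_left_comm, ← mul_pow]
        congr 2
        field_simp

open scoped Classical in
theorem u3b_good_tuples (A B : Finset G) (hA : A.Nonempty) (k m : ℕ) (hk : 0 < k) (hm : 0 < m) :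
    (#A : ℝ) ^ k ≤ 2 * #{a ∈ u3bTup A k | ∑ x, (u3bEmp B a x - u3bF A B x) ^ (2 * m) ≤
      2 * Fintype.card G * (6 * m / k) ^ m} := by
  have hk0 : (0 : ℝ) < k := by exact_mod_cast hk
  have hm0 : (0 : ℝ) < m := by exact_mod_cast hm
  have hN : (0 : ℝ) < Fintype.card G := by
    obtain ⟨a, _⟩ := hA
    exact_mod_cast Fintype.card_pos_iff.2 ⟨a⟩
  set c : ℝ := (6 * m / k) ^ m with hc
  have hc0 : 0 < c := by positivity
  set S : (Fin k → G) → ℝ := fun a => ∑ x, (u3bEmp B a x - u3bF A B x) ^ (2 * m) with hS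
  have hS0 : ∀ a, 0 ≤ S a := fun a => sum_nonneg fun x _ => (even_two_mul m).pow_nonneg _
  have htot : ∑ a ∈ u3bTup A k, S a ≤ Fintype.card G * ((#A : ℝ) ^ k * c) := by
    simp only [hS]
    rw [sum_comm]
    calc ∑ x : G, ∑ a ∈ u3bTup A k, (u3bEmp B a x - u3bF A B x) ^ (2 * m)
        ≤ ∑ _x : G, (#A : ℝ) ^ k * c := sum_le_sum fun x _ => u3b_emp_moment A B hA k m hk hm x
      _ = Fintype.card G * ((#A : ℝ) ^ k * c) := by simp
  have hcard : (#(u3bTup A k) : ℝ) = (#A : ℝ) ^ k := by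
    unfold u3bTup
    simp
  have hsplit : (#(u3bTup A k) : ℝ) = #{a ∈ u3bTup A k | S a ≤ 2 * Fintype.card G * c} +
      #{a ∈ u3bTup A k | ¬ S a ≤ 2 * Fintype.card G * c} := by
    exact_mod_cast (card_filter_add_card_filter_not (s := u3bTup A k) (fun a => S a ≤ 2 * Fintype.card G * c)).symm
  have hbad : (#{a ∈ u3bTup A k | ¬ S a ≤ 2 * Fintype.card G * c} : ℝ) * (2 * Fintype.card G * c) ≤
      Fintype.card G * ((#A : ℝ) ^ k * c) := by
    calc (#{a ∈ u3bTup A k | ¬ S a ≤ 2 * Fintype.card G * c} : ℝ) * (2 * Fintype.card G * c)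
        = ∑ _a ∈ {a ∈ u3bTup A k | ¬ S a ≤ 2 * Fintype.card G * c}, (2 * Fintype.card G * c) := by simp
      _ ≤ ∑ a ∈ {a ∈ u3bTup A k | ¬ S a ≤ 2 * Fintype.card G * c}, S a :=
          sum_le_sum fun a ha => (not_le.1 (mem_filter.1 ha).2).le
      _ ≤ ∑ a ∈ u3bTup A k, S a := sum_le_sum_of_subset_of_nonneg (filter_subset _ _) fun a _ _ => hS0 a
      _ ≤ _ := htot
  have hbad' : 2 * (#{a ∈ u3bTup A k | ¬ S a ≤ 2 * Fintype.card G * c} : ℝ) ≤ (#A : ℝ) ^ k := by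
    have hpos : 0 < Fintype.card G * c := by positivity
    refine le_of_mul_le_mul_right ?_ hpos
    nlinarith [hbad]
  rw [hcard] at hsplit
  linarith

theorem u3b_pigeon {k : ℕ} (L : Finset (Fin k → G)) :
    ∃ z : Fin k → G, (#L : ℝ) * Fintype.card G ≤
      (Fintype.card G : ℝ) ^ k * #{t : G | (fun i => z i - t) ∈ L} := by
  classical
  have hdc : ∑ z : Fin k → G, (#{t : G | (fun i => z i - t) ∈ L} : ℝ) = (#L : ℝ) * Fintype.card G := by
    have h1 : ∀ z : Fin k → G, (#{t : G | (fun i => z i - t) ∈ L} : ℝ) =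
        ∑ t : G, if (fun i => z i - t) ∈ L then (1 : ℝ) else 0 := by
      intro z; simp
    simp only [h1]
    rw [sum_comm]
    have h2 : ∀ t : G, ∑ z : Fin k → G, (if (fun i => z i - t) ∈ L then (1 : ℝ) else 0) = #L := by
      intro t
      have := Fintype.sum_equiv (Equiv.subRight (fun _ : Fin k => t))
        (fun z : Fin k → G => if (fun i => z i - t) ∈ L then (1 : ℝ) else 0)
        (fun z : Fin k → G => if z ∈ L then (1 : ℝ) else 0) (fun z => rfl)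
      rw [this]
      simp
    simp only [h2]
    simp [mul_comm]
  by_contra hcon
  push Not at hcon
  have hne : (univ : Finset (Fin k → G)).Nonempty := ⟨0, mem_univ _⟩
  have hlt := sum_lt_sum_of_nonempty hne fun z _ => hcon z
  rw [← mul_sum, hdc] at hlt
  simp only [sum_const, card_univ, Fintype.card_pi, prod_const, Fintype.card_fin, nsmul_eq_mul, Nat.cast_pow] at hlt
  exact lt_irrefl _ hlt

theorem u3b_emp_shift (B : Finset G) {k : ℕ} (z : Fin k → G) (t x : G) :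
    u3bEmp B (fun i => z i - t) x = u3bEmp B z (x - t) := by
  unfold u3bEmp
  congr 3
  ext i
  simp only [mem_filter, mem_univ, true_and]
  rw [show x + (z i - t) = x - t + z i by abel]

/-- **Croot-Sisask, dense case** -/
theorem u3b_croot_sisask (A B : Finset G) (hA : A.Nonempty) (k m : ℕ) (hk : 0 < k) (hm : 0 < m) :
    ∃ T : Finset G, (#A : ℝ) ^ k * Fintype.card G ≤ 2 * (Fintype.card G : ℝ) ^ k * #T ∧
      ∀ t ∈ T, ∀ t' ∈ T, ∑ x, (u3bF A B (x + t - t') - u3bF A B x) ^ (2 * m) ≤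
        2 * Fintype.card G * (24 * m / k) ^ m := by
  classical
  set c : ℝ := (6 * m / k) ^ m with hc
  set L : Finset (Fin k → G) := {a ∈ u3bTup A k | ∑ x, (u3bEmp B a x - u3bF A B x) ^ (2 * m) ≤
      2 * Fintype.card G * c} with hL
  have hgood : (#A : ℝ) ^ k ≤ 2 * #L := u3b_good_tuples A B hA k m hk hm
  obtain ⟨z, hz⟩ := u3b_pigeon L
  refine ⟨({t : G | (fun i => z i - t) ∈ L} : Finset G), ?_, ?_⟩
  · have hN : (0 : ℝ) ≤ Fintype.card G := by positivity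
    nlinarith [mul_le_mul_of_nonneg_right hgood hN]
  · have key : ∀ t ∈ ({t : G | (fun i => z i - t) ∈ L} : Finset G),
        ∑ x, (u3bEmp B z x - u3bF A B (x + t)) ^ (2 * m) ≤ 2 * Fintype.card G * c := by
      intro t ht
      have h1 := (mem_filter.1 (mem_filter.1 ht).2).2
      simp only [u3b_emp_shift] at h1
      rw [← Fintype.sum_equiv (Equiv.addRight t)
        (fun x => (u3bEmp B z x - u3bF A B (x + t)) ^ (2 * m))
        (fun x => (u3bEmp B z (x - t) - u3bF A B x) ^ (2 * m)) (fun x => by simp)] at h1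
      exact h1
    intro t ht t' ht'
    have h1 := key t ht
    have h2 := key t' ht'
    have hpt : ∀ u v w : ℝ, (u - v) ^ (2 * m) ≤ 2 ^ (2 * m - 1) * ((w - u) ^ (2 * m) + (w - v) ^ (2 * m)) := by
      intro u v w
      have h3 := (even_two_mul m).add_pow_le (a := u - w) (b := w - v)
      rw [sub_add_sub_cancel, ← neg_sub w u, (even_two_mul m).neg_pow] at h3
      exact h3
    have h4 : (2 : ℝ) ^ (2 * m - 1) * 2 = 4 ^ m := by
      rw [← pow_succ, Nat.sub_add_cancel (by omega), pow_mul]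
      norm_num
    calc ∑ x, (u3bF A B (x + t - t') - u3bF A B x) ^ (2 * m)
        = ∑ x, (u3bF A B (x + t) - u3bF A B (x + t')) ^ (2 * m) := by
          refine (Fintype.sum_equiv (Equiv.addRight t') _ _ fun x => ?_).symm
          simp only [Equiv.coe_addRight]
          rw [show x + t' + t - t' = x + t by abel]
      _ ≤ ∑ x, 2 ^ (2 * m - 1) * ((u3bEmp B z x - u3bF A B (x + t)) ^ (2 * m) +
            (u3bEmp B z x - u3bF A B (x + t')) ^ (2 * m)) := sum_le_sum fun x _ => hpt _ _ _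
      _ = 2 ^ (2 * m - 1) * (∑ x, (u3bEmp B z x - u3bF A B (x + t)) ^ (2 * m) +
            ∑ x, (u3bEmp B z x - u3bF A B (x + t')) ^ (2 * m)) := by
          rw [← mul_sum, sum_add_distrib]
      _ ≤ 2 ^ (2 * m - 1) * (2 * Fintype.card G * c + 2 * Fintype.card G * c) := by
          gcongr
      _ = 2 * Fintype.card G * (4 ^ m * c) := by
          rw [← h4]; ring
      _ = 2 * Fintype.card G * (24 * m / k) ^ m := by
          rw [hc, ← mul_pow]
          congr 2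
          ring

end Claimed.Agent.R258.U3
end

/- ===== packed: Claimed.Agent.R258.U3.BR.Chang ===== -/
section
/-!
# Row 258, U3 / B1: Chang's theorem   (LEAF `P-U3B-CHANG`, prefix `u3b_`)

 * `u3b_rudin_exp`    : exponential form of Rudin's inequality.  For `χ ∈ Λ` with `c χ ≠ 0`: `u3b_exp_mul_le` with `t = ‖c χ‖`,
                        `y = (c χ * χ x).re / ‖c χ‖` gives `exp ((c χ * χ x).re) ≤ cosh ‖c χ‖ + (d χ * χ x).re`, `d χ = (sinh ‖c χ‖ / ‖c χ‖) • c χ`.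
                        Multiply over `χ ∈ Λ` (all factors are `≥ 0`), extend by `c' = 1`, `d = 0` off `Λ`, apply `AddDissociated.randomisation`
                        (`{d ≠ 0} ⊆ Λ`, `AddDissociated.subset`), `Real.cosh_le_exp_half_sq`.
 * `u3b_chang_dissoc` : `c χ = conj (u3bMuHat T χ)`, `g x = ∑_{χ ∈ Λ} (c χ * χ x).re`: the average of `g` over `T` is `S = ∑_{χ ∈ Λ} ‖u3bMuHat T χ‖²`;
                        Jensen (`convexOn_exp.map_sum_le`): `exp S ≤ #T⁻¹ ∑_{x ∈ T} exp (g x) ≤ #T⁻¹ N exp (S / 2)`; take logarithms.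
 * `u3b_chang`        : `exists_subset_addSpan_card_le_of_forall_addDissociated` with `d = ⌊2 δ⁻² log (N / #T)⌋₊`.
 * `u3b_span_bohr`    : `χ = ∑_{λ ∈ Λ} ε λ • λ`, `ε λ ∈ {-1, 0, 1}`; `‖∏ z_i - 1‖ ≤ ∑ ‖z_i - 1‖` for `‖z_i‖ = 1` (`AddChar.norm_apply`), `‖z⁻¹ - 1‖ = ‖z - 1‖`.
-/

set_option autoImplicit false

namespace Claimed.Agent.R258.U3

open Finset
open scoped ComplexConjugate Pointwise

variable {G : Type*} [AddCommGroup G] [Fintype G] [DecidableEq G]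

/-- one factor of Rudin's inequality -/
theorem u3b_rudin_factor (z : ℂ) (w : ℂ) (hw : ‖w‖ = 1) :
    Real.exp ((z * w).re) ≤
      Real.cosh ‖z‖ + ((((Real.sinh ‖z‖ / ‖z‖ : ℝ) : ℂ) * z) * w).re := by
  by_cases h0 : z = 0
  · simp [h0]
  · have hn : 0 < ‖z‖ := norm_pos_iff.2 h0
    have hy : |(z * w).re / ‖z‖| ≤ 1 := by
      rw [abs_div, abs_of_pos hn, div_le_one hn]
      calc |(z * w).re| ≤ ‖z * w‖ := Complex.abs_re_le_norm _
        _ = ‖z‖ := by rw [norm_mul, hw, mul_one]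
    have h1 := u3b_exp_mul_le (t := ‖z‖) hy
    have e : ‖z‖ * ((z * w).re / ‖z‖) = (z * w).re := by field_simp
    rw [e] at h1
    refine h1.trans (le_of_eq ?_)
    congr 1
    rw [mul_assoc, Complex.re_ofReal_mul]
    ring

theorem u3b_rudin_exp (Λ : Finset (AddChar G ℂ)) (hΛ : AddDissociated (Λ : Set (AddChar G ℂ)))
    (c : AddChar G ℂ → ℂ) :
    ∑ x : G, Real.exp (∑ χ ∈ Λ, (c χ * χ x).re) ≤
      Fintype.card G * Real.exp (∑ χ ∈ Λ, ‖c χ‖ ^ 2 / 2) := by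
  classical
  obtain ⟨d, hd⟩ : ∃ d : AddChar G ℂ → ℂ,
      d = fun χ => ((Real.sinh ‖c χ‖ / ‖c χ‖ : ℝ) : ℂ) * c χ := ⟨_, rfl⟩
  have key : ∀ (χ : AddChar G ℂ) (x : G),
      Real.exp ((c χ * χ x).re) ≤ Real.cosh ‖c χ‖ + (d χ * χ x).re := by
    intro χ x
    rw [hd]
    exact u3b_rudin_factor (c χ) (χ x) (AddChar.norm_apply χ x)
  have hprod : ∀ x : G, Real.exp (∑ χ ∈ Λ, (c χ * χ x).re) ≤
      ∏ ψ : AddChar G ℂ, ((if ψ ∈ Λ then Real.cosh ‖c ψ‖ else 1)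
        + ((if ψ ∈ Λ then d ψ else 0) * ψ x).re) := by
    intro x
    have e : ∏ ψ : AddChar G ℂ, ((if ψ ∈ Λ then Real.cosh ‖c ψ‖ else 1)
        + ((if ψ ∈ Λ then d ψ else 0) * ψ x).re)
        = ∏ ψ ∈ Λ, (Real.cosh ‖c ψ‖ + (d ψ * ψ x).re) := by
      rw [← Fintype.prod_ite_mem Λ]
      refine Finset.prod_congr rfl (fun ψ _ => ?_)
      split_ifs <;> simp
    rw [e, Real.exp_sum]
    exact Finset.prod_le_prod (fun _ _ => (Real.exp_pos _).le) (fun χ _ => key χ x)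
  have hdis : AddDissociated {ψ : AddChar G ℂ | (if ψ ∈ Λ then d ψ else 0) ≠ 0} := by
    refine hΛ.subset ?_
    intro ψ hψ
    by_contra h
    have h' : ψ ∉ Λ := h
    simp [h'] at hψ
  have hrand := AddDissociated.randomisation
    (fun ψ : AddChar G ℂ => if ψ ∈ Λ then Real.cosh ‖c ψ‖ else 1)
    (fun ψ : AddChar G ℂ => if ψ ∈ Λ then d ψ else 0) hdis
  rw [Fintype.expect_eq_sum_div_card, Fintype.prod_ite_mem] at hrand
  have hN : (0 : ℝ) < Fintype.card G := by exact_mod_cast Fintype.card_pos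
  rw [div_eq_iff hN.ne'] at hrand
  calc ∑ x : G, Real.exp (∑ χ ∈ Λ, (c χ * χ x).re)
      ≤ ∑ x : G, ∏ ψ : AddChar G ℂ, ((if ψ ∈ Λ then Real.cosh ‖c ψ‖ else 1)
        + ((if ψ ∈ Λ then d ψ else 0) * ψ x).re) := Finset.sum_le_sum (fun x _ => hprod x)
    _ = (∏ ψ ∈ Λ, Real.cosh ‖c ψ‖) * Fintype.card G := hrand
    _ ≤ (∏ ψ ∈ Λ, Real.exp (‖c ψ‖ ^ 2 / 2)) * Fintype.card G := by
        refine mul_le_mul_of_nonneg_right ?_ hN.le
        exact Finset.prod_le_prod (fun _ _ => (Real.cosh_pos _).le)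
          (fun ψ _ => Real.cosh_le_exp_half_sq _)
    _ = Fintype.card G * Real.exp (∑ χ ∈ Λ, ‖c χ‖ ^ 2 / 2) := by
        rw [Real.exp_sum, mul_comm]

theorem u3b_chang_dissoc (T : Finset G) (hT : T.Nonempty) (Λ : Finset (AddChar G ℂ))
    (hΛ : AddDissociated (Λ : Set (AddChar G ℂ))) :
    ∑ χ ∈ Λ, ‖u3bMuHat T χ‖ ^ 2 ≤ 2 * Real.log (Fintype.card G / #T) := by
  obtain ⟨S, hS⟩ : ∃ S, S = ∑ χ ∈ Λ, ‖u3bMuHat T χ‖ ^ 2 := ⟨_, rfl⟩
  rw [← hS]
  have hTpos : (0 : ℝ) < #T := by exact_mod_cast hT.card_pos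
  have hN : (0 : ℝ) < Fintype.card G := by exact_mod_cast Fintype.card_pos
  obtain ⟨g, hg⟩ : ∃ g : G → ℝ,
      g = fun x => ∑ χ ∈ Λ, (conj (u3bMuHat T χ) * χ x).re := ⟨_, rfl⟩
  have hone : ∀ χ : AddChar G ℂ, ∑ x ∈ T, (#T : ℝ)⁻¹ * (conj (u3bMuHat T χ) * χ x).re
      = ‖u3bMuHat T χ‖ ^ 2 := by
    intro χ
    have e0 : ∀ w : ℂ, w * u3bMuHat T χ = ∑ x ∈ T, (((#T : ℝ)⁻¹ : ℝ) : ℂ) * (w * χ x) := by
      intro w
      unfold u3bMuHat
      rw [Finset.mul_sum, Finset.mul_sum]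
      refine Finset.sum_congr rfl (fun x _ => ?_)
      push_cast
      ring
    have e1 := e0 (conj (u3bMuHat T χ))
    have e2 := congrArg Complex.re e1
    rw [Complex.conj_mul', Complex.re_sum] at e2
    simp only [Complex.re_ofReal_mul] at e2
    rw [← e2, ← Complex.ofReal_pow, Complex.ofReal_re]
  have hav : ∑ x ∈ T, (#T : ℝ)⁻¹ • g x = S := by
    rw [hS, hg]
    simp only [smul_eq_mul, Finset.mul_sum]
    rw [Finset.sum_comm]
    exact Finset.sum_congr rfl (fun χ _ => hone χ)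
  have hJ : Real.exp S ≤ ∑ x ∈ T, (#T : ℝ)⁻¹ • Real.exp (g x) := by
    rw [← hav]
    refine convexOn_exp.map_sum_le (fun _ _ => by positivity) ?_ (fun _ _ => Set.mem_univ _)
    rw [Finset.sum_const, nsmul_eq_mul, mul_inv_cancel₀ hTpos.ne']
  have hR := u3b_rudin_exp Λ hΛ (fun χ => conj (u3bMuHat T χ))
  have hhalf : ∑ χ ∈ Λ, ‖conj (u3bMuHat T χ)‖ ^ 2 / 2 = S / 2 := by
    rw [hS, Finset.sum_div]
    refine Finset.sum_congr rfl (fun χ _ => ?_)
    rw [RCLike.norm_conj]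
  rw [hhalf] at hR
  have h1 : Real.exp S ≤ (Fintype.card G / #T) * Real.exp (S / 2) := by
    calc Real.exp S ≤ ∑ x ∈ T, (#T : ℝ)⁻¹ • Real.exp (g x) := hJ
      _ = (#T : ℝ)⁻¹ * ∑ x ∈ T, Real.exp (g x) := by
          simp only [smul_eq_mul, Finset.mul_sum]
      _ ≤ (#T : ℝ)⁻¹ * ∑ x : G, Real.exp (g x) := by
          refine mul_le_mul_of_nonneg_left ?_ (by positivity)
          exact Finset.sum_le_sum_of_subset_of_nonneg (Finset.subset_univ _)
            (fun _ _ _ => (Real.exp_pos _).le)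
      _ ≤ (#T : ℝ)⁻¹ * (Fintype.card G * Real.exp (S / 2)) := by
          refine mul_le_mul_of_nonneg_left ?_ (by positivity)
          rw [hg]
          exact hR
      _ = (Fintype.card G / #T) * Real.exp (S / 2) := by
          field_simp
  have h2 : Real.exp (S / 2) ≤ Fintype.card G / #T := by
    have e : Real.exp S = Real.exp (S / 2) * Real.exp (S / 2) := by
      rw [← Real.exp_add]
      congr 1
      ring
    rw [e] at h1
    exact le_of_mul_le_mul_right h1 (Real.exp_pos _)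
  have h3 : S / 2 ≤ Real.log (Fintype.card G / #T) := by
    rw [Real.le_log_iff_exp_le (by positivity)]
    exact h2
  linarith

open scoped Classical in
/-- **Chang's theorem** -/
theorem u3b_chang (T : Finset G) (hT : T.Nonempty) (δ : ℝ) (hδ : 0 < δ) :
    ∃ Λ : Finset (AddChar G ℂ), Λ ⊆ u3bSpec T δ ∧
      (#Λ : ℝ) ≤ 2 * (δ⁻¹) ^ 2 * Real.log (Fintype.card G / #T) ∧ u3bSpec T δ ⊆ addSpan Λ := by
  have hTpos : (0 : ℝ) < #T := by exact_mod_cast hT.card_pos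
  have hlog : 0 ≤ Real.log (Fintype.card G / #T) := by
    apply Real.log_nonneg
    rw [one_le_div hTpos]
    exact_mod_cast Finset.card_le_univ T
  have hB0 : 0 ≤ 2 * (δ⁻¹) ^ 2 * Real.log (Fintype.card G / #T) := by positivity
  have hall : ∀ s' ⊆ u3bSpec T δ, AddDissociated (s' : Set (AddChar G ℂ)) →
      #s' ≤ ⌊2 * (δ⁻¹) ^ 2 * Real.log (Fintype.card G / #T)⌋₊ := by
    intro s' hs' hdis
    apply Nat.le_floor
    have h1 := u3b_chang_dissoc T hT s' hdis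
    have h2 : (#s' : ℝ) * δ ^ 2 ≤ ∑ χ ∈ s', ‖u3bMuHat T χ‖ ^ 2 := by
      rw [← nsmul_eq_mul, ← Finset.sum_const]
      refine Finset.sum_le_sum (fun χ hχ => ?_)
      have h3 : δ ≤ ‖u3bMuHat T χ‖ := (Finset.mem_filter.1 (hs' hχ)).2
      exact pow_le_pow_left₀ hδ.le h3 2
    have h4 : (#s' : ℝ) * δ ^ 2 ≤ 2 * Real.log (Fintype.card G / #T) := h2.trans h1
    calc (#s' : ℝ) = (#s' : ℝ) * δ ^ 2 * (δ⁻¹) ^ 2 := by field_simp
      _ ≤ 2 * Real.log (Fintype.card G / #T) * (δ⁻¹) ^ 2 :=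
          mul_le_mul_of_nonneg_right h4 (by positivity)
      _ = 2 * (δ⁻¹) ^ 2 * Real.log (Fintype.card G / #T) := by ring
  obtain ⟨Λ, h1, h2, h3⟩ := exists_subset_addSpan_card_le_of_forall_addDissociated hall
  refine ⟨Λ, h1, ?_, h3⟩
  calc (#Λ : ℝ) ≤ (⌊2 * (δ⁻¹) ^ 2 * Real.log (Fintype.card G / #T)⌋₊ : ℝ) := by exact_mod_cast h2
    _ ≤ _ := Nat.floor_le hB0

/-- a product of unimodular numbers is close to `1` if the factors are -/
theorem u3b_norm_prod_sub_one_le {ι : Type*} (s : Finset ι) (z : ι → ℂ) (hz : ∀ i ∈ s, ‖z i‖ = 1) :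
    ‖∏ i ∈ s, z i - 1‖ ≤ ∑ i ∈ s, ‖z i - 1‖ := by
  classical
  induction s using Finset.induction_on with
  | empty => simp
  | insert a s ha ih =>
    rw [Finset.prod_insert ha, Finset.sum_insert ha]
    have h1 := ih (fun i hi => hz i (Finset.mem_insert_of_mem hi))
    have e : z a * ∏ i ∈ s, z i - 1 = z a * (∏ i ∈ s, z i - 1) + (z a - 1) := by ring
    rw [e]
    calc ‖z a * (∏ i ∈ s, z i - 1) + (z a - 1)‖
        ≤ ‖z a * (∏ i ∈ s, z i - 1)‖ + ‖z a - 1‖ := norm_add_le _ _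
      _ = ‖∏ i ∈ s, z i - 1‖ + ‖z a - 1‖ := by
          rw [norm_mul, hz a (Finset.mem_insert_self a s), one_mul]
      _ ≤ ‖z a - 1‖ + ∑ i ∈ s, ‖z i - 1‖ := by linarith

open scoped Classical in
theorem u3b_span_bohr (Λ : Finset (AddChar G ℂ)) (χ : AddChar G ℂ) (hχ : χ ∈ addSpan Λ) (x : G) (ρ : ℝ)
    (h : ∀ ψ ∈ Λ, ‖ψ x - 1‖ ≤ ρ) : ‖χ x - 1‖ ≤ #Λ * ρ := by
  obtain ⟨ε, hε, rfl⟩ := mem_addSpan.1 hχ
  rw [AddChar.sum_apply]
  have hnorm : ∀ ψ ∈ Λ, ‖(ε ψ • ψ) x‖ = 1 := fun ψ _ => AddChar.norm_apply _ x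
  refine (u3b_norm_prod_sub_one_le Λ (fun ψ => (ε ψ • ψ) x) hnorm).trans ?_
  rw [← nsmul_eq_mul, ← Finset.sum_const]
  refine Finset.sum_le_sum (fun ψ hψ => ?_)
  have hρ : 0 ≤ ρ := (norm_nonneg _).trans (h ψ hψ)
  rw [AddChar.zsmul_apply]
  rcases hε ψ with e | e | e
  · rw [e, zpow_neg_one]
    have h1 : ‖ψ x‖ = 1 := AddChar.norm_apply ψ x
    have h0 : ψ x ≠ 0 := by
      intro h0
      rw [h0, norm_zero] at h1
      exact zero_ne_one h1
    have e2 : (ψ x)⁻¹ - 1 = (ψ x)⁻¹ * (1 - ψ x) := by field_simp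
    rw [e2, norm_mul, norm_inv, h1, inv_one, one_mul, norm_sub_rev]
    exact h ψ hψ
  · rw [e, zpow_zero, sub_self, norm_zero]
    exact hρ
  · rw [e, zpow_one]
    exact h ψ hψ

end Claimed.Agent.R258.U3
end

/- ===== packed: Claimed.Agent.R258.U3.BR.Main ===== -/
section
/-!
# Row 258, U3 / B1: dense Bogolyubov-Ruzsa   (assembly, prefix `u3b_`; helper197)

`u3b_bogolyubov_ruzsa` : `α N ≤ #A` ⇒ `∃ Λ`, `#Λ ≤ 10^7 log(2/α)^4`, `Bohr (Λ, α / (10^8 log(2/α)^4)) ⊆ (A + A) - (A + A)`.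
`u3b_br_phi` : the robust form (`1/4 ≤ φ x`: at least `#A² / 4` pairs `(a, a') ∈ A²` with `a + x + a' ∈ A + A`).
-/

set_option autoImplicit false

namespace Claimed.Agent.R258.U3

open Finset
open scoped ComplexConjugate Pointwise

variable {G : Type*} [AddCommGroup G] [Fintype G] [DecidableEq G]

/-- the core: parameters `m = l = n`, `k ≥ 768 n³` -/
theorem u3b_br_core (A : Finset G) (hA : A.Nonempty) (n k : ℕ) (hn : 0 < n)
    (h2 : 16 * (Fintype.card G : ℝ) ≤ 2 ^ n * #A) (hk : 768 * n ^ 3 ≤ k) :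
    ∃ T : Finset G, T.Nonempty ∧ (#A : ℝ) ^ k * Fintype.card G ≤ 2 * (Fintype.card G : ℝ) ^ k * #T ∧
      ∀ ρ : ℝ, 0 ≤ ρ → (Fintype.card G : ℝ) * ρ ≤ #A / 8 → ∀ s : G,
        (∀ χ ∈ u3bSpec T (1 / 2), ‖χ s - 1‖ ≤ ρ) → 1 / 4 ≤ u3bPhi A (A + A) s := by
  have hk0 : 0 < k := lt_of_lt_of_le (by positivity) hk
  obtain ⟨T, hT1, hT2⟩ := u3b_croot_sisask A (A + A) hA k n hk0 hn
  have hN : (0 : ℝ) < Fintype.card G := by exact_mod_cast Fintype.card_pos
  have hAc : (0 : ℝ) < #A := by exact_mod_cast hA.card_pos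
  have hTne : T.Nonempty := by
    rw [Finset.nonempty_iff_ne_empty]
    rintro rfl
    have : (0 : ℝ) < (#A : ℝ) ^ k * Fintype.card G := by positivity
    simp at hT1
    linarith
  refine ⟨T, hTne, hT1, fun ρ hρ hρ2 s hs => ?_⟩
  -- the smallness condition
  have hK : (#A : ℝ)⁻¹ * ((n : ℝ) ^ (2 * n) * (2 * Fintype.card G * (24 * n / k) ^ n)) ≤
      (1 / 4) ^ (2 * n) := by
    have hkR : (768 : ℝ) * n ^ 3 ≤ k := by exact_mod_cast hk
    have hkpos : (0 : ℝ) < k := by exact_mod_cast hk0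
    have e1 : (n : ℝ) ^ (2 * n) * (24 * n / k) ^ n = (24 * n ^ 3 / k) ^ n := by
      rw [pow_mul, ← mul_pow]
      congr 1
      field_simp
    have e2 : (24 * (n : ℝ) ^ 3 / k) ≤ 1 / 32 := by
      rw [div_le_iff₀ hkpos]
      linarith
    have e3 : (24 * (n : ℝ) ^ 3 / k) ^ n ≤ (1 / 32) ^ n :=
      pow_le_pow_left₀ (by positivity) e2 n
    have e4 : (#A : ℝ)⁻¹ * (2 * Fintype.card G) ≤ 2 ^ n := by
      rw [inv_mul_le_iff₀ hAc]
      nlinarith
    calc (#A : ℝ)⁻¹ * ((n : ℝ) ^ (2 * n) * (2 * Fintype.card G * (24 * n / k) ^ n))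
        = ((#A : ℝ)⁻¹ * (2 * Fintype.card G)) * ((n : ℝ) ^ (2 * n) * (24 * n / k) ^ n) := by ring
      _ ≤ 2 ^ n * (1 / 32) ^ n := by
          rw [e1]
          exact mul_le_mul e4 e3 (by positivity) (by positivity)
      _ = (1 / 4) ^ (2 * n) := by
          rw [← mul_pow, pow_mul]
          norm_num
  have p1 := u3b_psi_phi A (A + A) T hA hTne n n hn _ hT2 hK s
  have p0 := u3b_psi_phi A (A + A) T hA hTne n n hn _ hT2 hK 0
  have p2 := u3b_psi_bohr A (A + A) T hA n ρ hρ s hs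
  have p3 := u3b_phi_zero A hA
  have p4 : ((Fintype.card G : ℝ) / #A) * (ρ + 2 / 4 ^ n) ≤ 1 / 4 := by
    have a1 : ((Fintype.card G : ℝ) / #A) * ρ ≤ 1 / 8 := by
      rw [div_mul_eq_mul_div, div_le_iff₀ hAc]
      linarith
    have a2 : ((Fintype.card G : ℝ) / #A) * (2 / 4 ^ n) ≤ 1 / 8 := by
      have h4 : (4 : ℝ) ^ n = 2 ^ n * 2 ^ n := by rw [← mul_pow]; norm_num
      have h2n : (1 : ℝ) ≤ 2 ^ n := one_le_pow₀ (by norm_num)
      rw [div_mul_div_comm, div_le_iff₀ (by positivity), h4]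
      nlinarith
    rw [mul_add]
    linarith
  rw [abs_le] at p0 p1 p2
  linarith [p0.1, p0.2, p1.1, p1.2, p2.1, p2.2]

/-- arithmetic of the parameters -/
theorem u3b_params (α : ℝ) (hα : 0 < α) (hα1 : α ≤ 1) :
    ∃ n : ℕ, 0 < n ∧ 16 / α ≤ 2 ^ n ∧
      8 * (Real.log 2 + (768 * n ^ 3 : ℕ) * Real.log (1 / α)) ≤ 10 ^ 7 * Real.log (2 / α) ^ 4 := by
  set L := Real.log (2 / α) with hL
  have hl2 : 0.6931471803 < Real.log 2 := Real.log_two_gt_d9
  have hL2 : Real.log 2 ≤ L :=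
    Real.log_le_log (by norm_num) (by rw [le_div_iff₀ hα]; linarith)
  have hL1 : Real.log (1 / α) ≤ L := Real.log_le_log (by positivity) (by gcongr; norm_num)
  have hL0 : 0 ≤ Real.log (1 / α) := Real.log_nonneg (by rw [le_div_iff₀ hα]; linarith)
  have hlog16 : Real.log (16 / α) = 3 * Real.log 2 + L := by
    have : (16 / α) = 2 ^ 3 * (2 / α) := by ring
    rw [this, Real.log_mul (by norm_num) (by positivity), Real.log_pow]
    norm_num [hL]
  have h16 : (1 : ℝ) < 16 / α := by rw [lt_div_iff₀ hα]; linarith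
  have hb : 0 < Real.logb 2 (16 / α) := Real.logb_pos (by norm_num) h16
  refine ⟨⌈Real.logb 2 (16 / α)⌉₊, Nat.ceil_pos.2 hb, ?_, ?_⟩
  · have h1 : (2 : ℝ) ^ (Real.logb 2 (16 / α)) = 16 / α :=
      Real.rpow_logb (by norm_num) (by norm_num) (by positivity)
    calc 16 / α = (2 : ℝ) ^ (Real.logb 2 (16 / α)) := h1.symm
      _ ≤ (2 : ℝ) ^ ((⌈Real.logb 2 (16 / α)⌉₊ : ℕ) : ℝ) :=
          Real.rpow_le_rpow_of_exponent_le (by norm_num) (Nat.le_ceil _)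
      _ = 2 ^ ⌈Real.logb 2 (16 / α)⌉₊ := Real.rpow_natCast _ _
  · set n := ⌈Real.logb 2 (16 / α)⌉₊ with hn
    have hn1 : (n : ℝ) < Real.logb 2 (16 / α) + 1 := Nat.ceil_lt_add_one hb.le
    have hn2 : (n : ℝ) ≤ 8 * L := by
      have e : Real.logb 2 (16 / α) = 3 + L / Real.log 2 := by
        unfold Real.logb
        rw [hlog16]
        field_simp
      rw [e] at hn1
      have e2 : L / Real.log 2 ≤ L / 0.6931471803 :=
        div_le_div_of_nonneg_left (by linarith) (by norm_num) hl2.le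
      have e3 : L / 0.6931471803 ≤ 1.45 * L := by
        rw [div_le_iff₀ (by norm_num)]
        nlinarith
      nlinarith
    have hLpos : 0 < L := by linarith
    have hn0 : (0 : ℝ) ≤ n := Nat.cast_nonneg n
    have hn3 : (n : ℝ) ^ 3 ≤ (8 * L) ^ 3 := pow_le_pow_left₀ hn0 hn2 3
    have c1 : ((768 * n ^ 3 : ℕ) : ℝ) = 768 * (n : ℝ) ^ 3 := by push_cast; ring
    rw [c1]
    have c2 : 768 * (n : ℝ) ^ 3 * Real.log (1 / α) ≤ 768 * (8 * L) ^ 3 * L := by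
      apply mul_le_mul _ hL1 hL0 (by positivity)
      linarith
    have c3 : Real.log 2 ≤ 4 * L ^ 4 := by
      have : (0.6931471803 : ℝ) ^ 3 ≤ L ^ 3 := pow_le_pow_left₀ (by norm_num) (by linarith) 3
      have h4 : L ^ 4 = L * L ^ 3 := by ring
      rw [h4]
      nlinarith
    have c4 : 768 * (8 * L) ^ 3 * L = 393216 * L ^ 4 := by ring
    have c5 : 0 < L ^ 4 := by positivity
    nlinarith

/-- **dense Bogolyubov-Ruzsa, robust form** -/
theorem u3b_br_phi (A : Finset G) (α : ℝ) (hα : 0 < α) (hα1 : α ≤ 1)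
    (hA : α * Fintype.card G ≤ #A) :
    ∃ Λ : Finset (AddChar G ℂ), (#Λ : ℝ) ≤ 10 ^ 7 * Real.log (2 / α) ^ 4 ∧
      ∀ x : G, (∀ χ ∈ Λ, ‖χ x - 1‖ ≤ α / (10 ^ 8 * Real.log (2 / α) ^ 4)) →
        1 / 4 ≤ u3bPhi A (A + A) x := by
  have hN : (0 : ℝ) < Fintype.card G := by exact_mod_cast Fintype.card_pos
  have hAc : (0 : ℝ) < #A := lt_of_lt_of_le (by positivity) hA
  have hAne : A.Nonempty := Finset.card_pos.1 (by exact_mod_cast hAc)
  obtain ⟨n, hn, h16, hpar⟩ := u3b_params α hα hα1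
  have h2 : 16 * (Fintype.card G : ℝ) ≤ 2 ^ n * #A := by
    calc 16 * (Fintype.card G : ℝ) = (16 / α) * (α * Fintype.card G) := by field_simp
      _ ≤ 2 ^ n * #A := mul_le_mul h16 hA (by positivity) (by positivity)
  obtain ⟨T, hTne, hT1, hT2⟩ := u3b_br_core A hAne n (768 * n ^ 3) hn h2 le_rfl
  obtain ⟨Λ, -, hΛ2, hΛ3⟩ := u3b_chang T hTne (1 / 2) (by norm_num)
  have hTc : (0 : ℝ) < #T := by exact_mod_cast hTne.card_pos
  set k := 768 * n ^ 3 with hk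
  have hL : 0 < Real.log (2 / α) :=
    Real.log_pos (by rw [lt_div_iff₀ hα]; linarith)
  -- the density of `T`
  have hdens : (Fintype.card G : ℝ) / #T ≤ 2 * (1 / α) ^ k := by
    rw [div_le_iff₀ hTc]
    have e1 : (α * Fintype.card G) ^ k ≤ (#A : ℝ) ^ k := pow_le_pow_left₀ (by positivity) hA k
    have e2 : (α * Fintype.card G) ^ k * Fintype.card G ≤ 2 * (Fintype.card G : ℝ) ^ k * #T :=
      le_trans (mul_le_mul_of_nonneg_right e1 hN.le) hT1
    rw [mul_pow] at e2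
    have e3 : α ^ k * Fintype.card G ≤ 2 * #T := by
      have hNk : (0 : ℝ) < (Fintype.card G : ℝ) ^ k := by positivity
      have : (Fintype.card G : ℝ) ^ k * (α ^ k * Fintype.card G) ≤ (Fintype.card G : ℝ) ^ k * (2 * #T) := by
        nlinarith
      exact le_of_mul_le_mul_left this hNk
    have hαk : (0 : ℝ) < α ^ k := by positivity
    rw [one_div, inv_pow]
    calc (Fintype.card G : ℝ) = (α ^ k)⁻¹ * (α ^ k * Fintype.card G) := by field_simp
      _ ≤ (α ^ k)⁻¹ * (2 * #T) := by gcongr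
      _ = 2 * (α ^ k)⁻¹ * #T := by ring
  have hlog : Real.log ((Fintype.card G : ℝ) / #T) ≤ Real.log 2 + (k : ℕ) * Real.log (1 / α) := by
    calc Real.log ((Fintype.card G : ℝ) / #T) ≤ Real.log (2 * (1 / α) ^ k) :=
          Real.log_le_log (by positivity) hdens
      _ = Real.log 2 + (k : ℕ) * Real.log (1 / α) := by
          rw [Real.log_mul (by norm_num) (by positivity), Real.log_pow]
  have hcard : (#Λ : ℝ) ≤ 10 ^ 7 * Real.log (2 / α) ^ 4 := by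
    refine le_trans hΛ2 (le_trans ?_ hpar)
    have : (2 : ℝ) * (1 / 2 : ℝ)⁻¹ ^ 2 = 8 := by norm_num
    rw [this]
    linarith
  refine ⟨Λ, hcard, fun x hx => hT2 (α / 10) (by positivity) ?_ x fun χ hχ => ?_⟩
  · nlinarith
  · have h1 := u3b_span_bohr Λ χ (hΛ3 hχ) x _ hx
    refine le_trans h1 ?_
    have hD : 0 < Real.log (2 / α) ^ 4 := by positivity
    calc (#Λ : ℝ) * (α / (10 ^ 8 * Real.log (2 / α) ^ 4))
        ≤ (10 ^ 7 * Real.log (2 / α) ^ 4) * (α / (10 ^ 8 * Real.log (2 / α) ^ 4)) := by gcongr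
      _ = α / 10 := by field_simp

/-- **dense Bogolyubov-Ruzsa** -/
theorem u3b_bogolyubov_ruzsa (A : Finset G) (α : ℝ) (hα : 0 < α) (hα1 : α ≤ 1)
    (hA : α * Fintype.card G ≤ #A) :
    ∃ Λ : Finset (AddChar G ℂ), (#Λ : ℝ) ≤ 10 ^ 7 * Real.log (2 / α) ^ 4 ∧
      ∀ x : G, (∀ χ ∈ Λ, ‖χ x - 1‖ ≤ α / (10 ^ 8 * Real.log (2 / α) ^ 4)) →
        x ∈ (A + A) - (A + A) := by
  obtain ⟨Λ, h1, h2⟩ := u3b_br_phi A α hα hα1 hA
  exact ⟨Λ, h1, fun x hx => u3b_mem_of_phi_pos A (A + A) x (by linarith [h2 x hx])⟩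

end Claimed.Agent.R258.U3
end

/- ===== packed: Claimed.Agent.R258.U3.BR ===== -/
section
/-
R258 / U3 / BR : interface to the DENSE Bogolyubov-Ruzsa lemma.  The lemma itself is block B1 of helper197 (`U3/BR/*.lean`, export
`u3b_bogolyubov_ruzsa`: `α #G ≤ #A ⟹ ∃ Λ, #Λ ≤ 10^7 log^4 (2/α), {x | ∀ χ ∈ Λ, ‖χ x - 1‖ ≤ α / (10^8 log^4 (2/α))} ⊆ (A + A) - (A + A)`).
This file only restates it in `ZMod N` with ARC-norm Bohr sets, in the form used by `Sym.lean`.     Owner: helper52.  ONE LEAF (P-U3-R7): `u3_br`, `u3_br_zmod`: PROVED (helper152), both with `C = 10^11`.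

Proof of `u3_br_zmod` (`C = 10^11`).  Take `Λ` from `u3b_bogolyubov_ruzsa`; for `χ ∈ Λ` choose `s_χ` with `χ x = eN (s_χ * x)` (`exists_eN_of_addChar`), `S = image`.  If `x ∈ zbohr S (α^2 / C)` then
`‖χ x - 1‖ ≤ 2 π nrm (s_χ x) ≤ 2 π α^2 / C ≤ α / (10^8 log^4 (2/α))`, because with `u = log (2/α) > 0`: `α u^4 = 2 u^4 e^(-u) ≤ 48` (`e^u ≥ u^4 / 24`, e.g. `Real.pow_div_factorial_le_exp`), and `2 π * 48 * 10^8 ≤ 10^11`.
`(A + A) - (A + A) = A + A - A - A` (`sub_sub`/`Finset.mem_sub`, `Finset.mem_add`).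
-/
set_option autoImplicit false

namespace Claimed.Agent.R258.U3

open Finset
open scoped ComplexConjugate Pointwise

theorem mem_cbohr {G : Type*} [AddCommGroup G] [Fintype G] {Λ : Finset (AddChar G ℂ)} {r : ℝ} {x : G} :
    x ∈ cbohr Λ r ↔ ∀ ψ ∈ Λ, ‖ψ x - 1‖ ≤ r := by
  classical
  simp [cbohr]

/-- `α log^4 (2/α) ≤ 48`. -/
theorem br_alpha_log (α : ℝ) (hα : 0 < α) (hα1 : α ≤ 1) :
    0 < Real.log (2 / α) ∧ α * Real.log (2 / α) ^ 4 ≤ 48 := by
  have h2 : (1 : ℝ) < 2 / α := by rw [lt_div_iff₀ hα]; linarith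
  have hu : 0 < Real.log (2 / α) := Real.log_pos h2
  refine ⟨hu, ?_⟩
  have h1 := Real.pow_div_factorial_le_exp (Real.log (2 / α)) hu.le 4
  rw [Real.exp_log (by positivity)] at h1
  have h3 : ((4 : ℕ).factorial : ℝ) = 24 := by norm_num [Nat.factorial]
  rw [h3, div_le_iff₀ (by norm_num), div_mul_eq_mul_div, le_div_iff₀ hα] at h1
  linarith

theorem br_radius (α c : ℝ) (hα : 0 < α) (hα1 : α ≤ 1) (hc : 0 ≤ c) (hc' : c * 48 ≤ 1000) :
    c * (α ^ 2 / 10 ^ 11) ≤ α / (10 ^ 8 * Real.log (2 / α) ^ 4) := by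
  obtain ⟨hu, h48⟩ := br_alpha_log α hα hα1
  rw [le_div_iff₀ (by positivity)]
  have h1 : c * (α * Real.log (2 / α) ^ 4) ≤ 1000 :=
    (mul_le_mul_of_nonneg_left h48 hc).trans hc'
  calc c * (α ^ 2 / 10 ^ 11) * (10 ^ 8 * Real.log (2 / α) ^ 4)
      = α * (c * (α * Real.log (2 / α) ^ 4)) / 1000 := by ring
    _ ≤ α * 1000 / 1000 := by gcongr
    _ = α := by ring

theorem br_sub_sub {G : Type*} [AddCommGroup G] [DecidableEq G] (A : Finset G) :
    (A + A) - (A + A) ⊆ A + A - A - A := by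
  intro x hx
  obtain ⟨u, hu, v, hv, rfl⟩ := mem_sub.1 hx
  obtain ⟨c, hc, d, hd, rfl⟩ := mem_add.1 hv
  have : u - (c + d) = u - c - d := by abel
  rw [this]
  exact sub_mem_sub (sub_mem_sub hu hc) hd

/-- **Bogolyubov-Ruzsa, dense case** in the normal form of this folder: a ~40 line corollary of `u3b_bogolyubov_ruzsa` (`α log^4 (2/α) ≤ 48`, so `α^2 / C ≤ α / (10^8 log^4 (2/α))` for `C = 10^10`). -/
theorem u3_br : ∃ C : ℕ, ∀ {G : Type} [AddCommGroup G] [Fintype G] [DecidableEq G] (A : Finset G) (α : ℝ), 0 < α → α ≤ 1 →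
    α * Fintype.card G ≤ A.card →
    ∃ Λ : Finset (AddChar G ℂ), (Λ.card : ℝ) ≤ C * Real.log (2 / α) ^ 4 ∧ cbohr Λ (α ^ 2 / C) ⊆ A + A - A - A := by
  refine ⟨10 ^ 11, ?_⟩
  intro G _ _ _ A α hα hα1 hA
  obtain ⟨Λ, h1, h2⟩ := u3b_bogolyubov_ruzsa A α hα hα1 hA
  obtain ⟨hu, -⟩ := br_alpha_log α hα hα1
  refine ⟨Λ, ?_, ?_⟩
  · refine h1.trans ?_
    push_cast
    gcongr
    norm_num
  · intro x hx
    rw [mem_cbohr] at hx
    apply br_sub_sub
    apply h2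
    intro χ hχ
    refine (hx χ hχ).trans ?_
    have := br_radius α 1 hα hα1 (by norm_num) (by norm_num)
    push_cast
    linarith

/-- Bogolyubov-Ruzsa in `ZMod N` with arc-norm Bohr sets. -/
theorem u3_br_zmod : ∃ C : ℕ, ∀ (N : ℕ) [NeZero N] (A : Finset (ZMod N)) (α : ℝ), 0 < α → α ≤ 1 →
    α * N ≤ A.card →
    ∃ S : Finset (ZMod N), (S.card : ℝ) ≤ C * Real.log (2 / α) ^ 4 ∧ zbohr S (α ^ 2 / C) ⊆ A + A - A - A := by
  classical
  refine ⟨10 ^ 11, ?_⟩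
  intro N _ A α hα hα1 hA
  obtain ⟨Λ, h1, h2⟩ := u3b_bogolyubov_ruzsa A α hα hα1 (by rwa [ZMod.card])
  obtain ⟨hu, -⟩ := br_alpha_log α hα hα1
  choose sf hsf using fun χ : AddChar (ZMod N) ℂ => exists_eN_of_addChar χ
  refine ⟨Λ.image sf, ?_, ?_⟩
  · calc ((Λ.image sf).card : ℝ) ≤ Λ.card := by exact_mod_cast card_image_le
      _ ≤ 10 ^ 7 * Real.log (2 / α) ^ 4 := h1
      _ ≤ ((10 ^ 11 : ℕ) : ℝ) * Real.log (2 / α) ^ 4 := by
          push_cast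
          gcongr
          norm_num
  · intro x hx
    have hx' : ∀ s ∈ Λ.image sf, nrm (s * x) ≤ α ^ 2 / ((10 ^ 11 : ℕ) : ℝ) := by
      simpa [zbohr] using hx
    apply br_sub_sub
    apply h2
    intro χ hχ
    rw [hsf χ x]
    have a1 := norm_eN_sub_one_le (sf χ * x)
    have a2 := hx' (sf χ) (mem_image_of_mem _ hχ)
    have a2 : nrm (sf χ * x) ≤ α ^ 2 / 10 ^ 11 := by
      refine a2.trans (le_of_eq ?_)
      norm_num
    have a3 := Real.pi_le_four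
    have a4 := Real.pi_pos
    have a5 := br_radius α 8 hα hα1 (by norm_num) (by norm_num)
    calc ‖eN (sf χ * x) - 1‖ ≤ 2 * Real.pi * nrm (sf χ * x) := a1
      _ ≤ 2 * Real.pi * (α ^ 2 / 10 ^ 11) := by gcongr
      _ ≤ 2 * 4 * (α ^ 2 / 10 ^ 11) := by gcongr
      _ = 8 * (α ^ 2 / 10 ^ 11) := by ring
      _ ≤ _ := a5

end Claimed.Agent.R258.U3
end

/- ===== packed: Claimed.Agent.R258.U3.Sym ===== -/
section
/-
R258 / U3 / Sym : THE LOCAL SYMMETRY ARGUMENT (Green-Tao), with quasipolynomial bounds (second use of Bogolyubov-Ruzsa), without regular Bohr sets.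
Blueprint owner: helper52.  Leaves: S1 `sym_bilin`, S2 `sym_W`, S3 `sym_small`, S4 `sym_spread`, S5 `sym_explicit` (assembly), S6 `u3_sym` (numerics).
Statements verbatim; helper lemmas prefix `sym_`.   Notation: `B(r) = zbohr S r`, `d = #S`, `{x, y} = asym M x y = M x * y - M y * x`.

HYPOTHESES: `LocLin S (2 r) M`, `f₁ f₂` 1-bounded, `η #B(r) N^2 ≤ ∑_{h ∈ B(r)} ‖dcoef f₁ f₂ h (M h)‖^2`.

S1.  `r₂ ≤ r / 2`, `B₂ = B(r₂)`.  `cover_trick` with `Φ h = ‖dcoef f₁ f₂ h (M h)‖^2`, index set `B₂ × B₂`, `τ (x', y') = - x' - y' ∈ B(r)`: there is `h₁ ∈ B(2r)` with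
     `(η / 4^d) N^2 #B₂^2 ≤ ∑_{x', y' ∈ B₂} ‖dcoef f₁ f₂ h (M h)‖^2`, `h = h₁ - x' - y'`, and `M h = M h₁ - M x' - M y'`.
     Expand `‖dcoef‖^2 = ∑_{x, y} f₁(x + h) conj f₂(x) conj f₁(y + h) f₂(y) e(- M h (x - y))` and substitute `x = x₁ + x'`, `y = y₁ + y'` (bijections of `ZMod N`, for fixed `x', y'`):
     `f₁(x + h) = f₁(x₁ + h₁ - y')`, `f₂(x) = f₂(x₁ + x')`, `f₁(y + h) = f₁(y₁ + h₁ - x')`, `f₂(y) = f₂(y₁ + y')`;   `- M h (x - y) = -(M h₁ - M x' - M y')((x₁ - y₁) + x' - y')`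
     `= [terms in x' only] + [terms in y' only] + const - (M x' y' - M y' x')`.   Pigeonhole over the `N^2` pairs `(x₁, y₁)`.   (The sign: `-{x', y'} = {y', x'}`; name the variables accordingly.)
S2.  Cauchy-Schwarz in `x`:  `c^2 #B₂^4 ≤ #B₂ ∑_x |∑_y b y e({x,y})|^2 = #B₂ ∑_{y, y''} b y conj (b y'') ∑_x e({x, y - y''})`  (`{x,y} - {x,y''} = {x, y - y''}` by `LocLin.map_sub`).
     So some `y''` has `c^2 #B₂^2 ≤ ∑_{y ∈ B₂} g y`, `g y = ‖∑_{x ∈ B₂} e({x, y - y''})‖ ≤ #B₂`; `W = {y - y'' : g y ≥ c^2 #B₂ / 2}`.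
S3.  `avg_small` with `lam x = {x, w}` (additive in `x`), constant `c' `, `ε = c' / 10`: `‖e({t,w}) - 1‖ ≤ 1/10`, then `four_nrm_le`.
S4.  `u3_br_zmod` for `W`: `zbohr S_W (α^2 / C) ⊆ 2W - 2W`.  For `w = w₁ + w₂ - w₃ - w₄`: `{t, w} = {t,w₁} + {t,w₂} - {t,w₃} - {t,w₄}` (local linearity, `w_i ∈ B(2 r₂)`, `4 r₂ ≤ 2 r`), so `nrm {t,w} ≤ 1/10` for `t ∈ B(r₃)`.
     Scaling: `t ∈ B(r₃ / k)`: `{j t, w} = j {t, w}` (`LocLin.map_nsmul`), `nrm_le_div_of_nsmul` gives `nrm {t,w} ≤ 1/(10 k)`.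
     Halving: `S₄ = S ∪ S_W`, `S' = S₄ ∪ 2⁻¹ S₄`, `ρ' = min (r₃ / k) (α^2 / C)`.  For `x, y ∈ zbohr S' ρ'`: `x'' = 2⁻¹ x ∈ zbohr S₄ ρ'` (`half_mem_zbohr`), `M x = M (x'' + x'') = 2 M x''`, so `2⁻¹ {x, y} = {x'', y}`.
S5.  Choice of radii: `c = η / 4^d`, `c' = c^2 / 2`, `ε₂ = c' / 10`; `exists_regular_radius S (r := r / 4) (ε := ε₂)` gives `r₂ ∈ [r/8, r/4]`, `r₃ = ε₂ (r/4) / (16 (d+1))` with `#B(r₂ + r₃) - #B(r₂ - r₃) ≤ ε₂ #B(r₂)`.
     `#W ≥ c' #B(r₂) ≥ c' (r/16)^d N` (`card_zbohr_ge`).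
-/
set_option autoImplicit false

namespace Claimed.Agent.R258.U3

open Finset
open scoped ComplexConjugate Pointwise

variable {N : ℕ} [NeZero N]

/-- expansion of `‖dcoef‖^2` with two free shifts. -/
theorem sym_normsq_dcoef (f₁ f₂ : ZMod N → ℂ) (h ξ u v : ZMod N) :
    ((‖dcoef f₁ f₂ h ξ‖ ^ 2 : ℝ) : ℂ) = ∑ p : ZMod N × ZMod N,
      (f₁ (p.1 + u + h) * conj (f₂ (p.1 + u)) * eN (-(ξ * (p.1 + u)))) *
        conj (f₁ (p.2 + v + h) * conj (f₂ (p.2 + v)) * eN (-(ξ * (p.2 + v)))) := by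
  have e1 : dcoef f₁ f₂ h ξ = ∑ x, f₁ (x + u + h) * conj (f₂ (x + u)) * eN (-(ξ * (x + u))) :=
    (Equiv.sum_comp (Equiv.addRight u) (fun x => f₁ (x + h) * conj (f₂ x) * eN (-(ξ * x)))).symm
  have e2 : dcoef f₁ f₂ h ξ = ∑ x, f₁ (x + v + h) * conj (f₂ (x + v)) * eN (-(ξ * (x + v))) :=
    (Equiv.sum_comp (Equiv.addRight v) (fun x => f₁ (x + h) * conj (f₂ x) * eN (-(ξ * x)))).symm
  push_cast
  rw [kit_norm_sq]
  conv_lhs => arg 2; rw [e2]
  rw [e1, map_sum, Finset.sum_mul_sum, ← Finset.univ_product_univ, Finset.sum_product]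

/-- S1: reduction to a bilinear form with the antisymmetric phase. -/
theorem sym_bilin (S : Finset (ZMod N)) {r r₂ η : ℝ} (hr₂ : 0 ≤ r₂) (hr : 2 * r₂ ≤ r) (M : ZMod N → ZMod N) (hM : LocLin S (2 * r) M)
    (f₁ f₂ : ZMod N → ℂ) (hf₁ : ∀ x, ‖f₁ x‖ ≤ 1) (hf₂ : ∀ x, ‖f₂ x‖ ≤ 1)
    (hc : η * (zbohr S r).card * (N : ℝ) ^ 2 ≤ ∑ h ∈ zbohr S r, ‖dcoef f₁ f₂ h (M h)‖ ^ 2) :
    ∃ a b : ZMod N → ℂ, (∀ x, ‖a x‖ ≤ 1) ∧ (∀ x, ‖b x‖ ≤ 1) ∧
      η / 4 ^ S.card * ((zbohr S r₂).card : ℝ) ^ 2 ≤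
        ‖∑ x ∈ zbohr S r₂, ∑ y ∈ zbohr S r₂, a x * b y * eN (asym M x y)‖ := by
  have hr0 : 0 ≤ r := by linarith
  set B₂ := zbohr S r₂ with hB₂
  have hsum : ∀ x ∈ B₂, ∀ y ∈ B₂, x + y ∈ zbohr S r := fun x hx y hy =>
    zbohr_mono S (by linarith) (add_mem_zbohr hx hy)
  obtain ⟨h₁, hh₁, hcov⟩ := cover_trick S (η := η * (N : ℝ) ^ 2) hr0
    (fun h => ‖dcoef f₁ f₂ h (M h)‖ ^ 2) (fun h => by positivity)
    (by simpa [mul_assoc, mul_comm, mul_left_comm] using hc) (B₂ ×ˢ B₂) (fun p => -p.1 - p.2)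
    (by
      intro p hp
      rw [Finset.mem_product] at hp
      have := neg_mem_zbohr (hsum _ hp.1 _ hp.2)
      rwa [neg_add'] at this)
  -- the value of `M`
  have hMh : ∀ x ∈ B₂, ∀ y ∈ B₂, M (h₁ + (-x - y)) = M h₁ - M x - M y := by
    intro x hx y hy
    have hx' : x ∈ zbohr S (2 * r) := zbohr_mono S (by linarith) hx
    have hy' : y ∈ zbohr S (2 * r) := zbohr_mono S (by linarith) hy
    have hxy : x + y ∈ zbohr S (2 * r) := zbohr_mono S (by linarith) (hsum x hx y hy)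
    have e : h₁ + (-x - y) = h₁ - (x + y) := by ring
    rw [e, hM.map_sub (by linarith) hh₁ hxy, hM x hx' y hy']
    ring
  -- the functions
  set T : ZMod N × ZMod N → ZMod N → ZMod N → ℂ := fun p x y =>
    (f₁ (p.1 + x + (h₁ + (-x - y))) * conj (f₂ (p.1 + x)) * eN (-(M (h₁ + (-x - y)) * (p.1 + x)))) *
      conj (f₁ (p.2 + y + (h₁ + (-x - y))) * conj (f₂ (p.2 + y)) * eN (-(M (h₁ + (-x - y)) * (p.2 + y))))
    with hT
  have hexp : ((∑ q ∈ B₂ ×ˢ B₂, ‖dcoef f₁ f₂ (h₁ + (-q.1 - q.2)) (M (h₁ + (-q.1 - q.2)))‖ ^ 2 : ℝ) : ℂ)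
      = ∑ p : ZMod N × ZMod N, ∑ x ∈ B₂, ∑ y ∈ B₂, T p x y := by
    rw [Finset.sum_product, Complex.ofReal_sum]
    simp_rw [Complex.ofReal_sum]
    rw [Finset.sum_comm (s := (univ : Finset (ZMod N × ZMod N)))]
    refine Finset.sum_congr rfl fun x _ => ?_
    rw [Finset.sum_comm (s := (univ : Finset (ZMod N × ZMod N)))]
    refine Finset.sum_congr rfl fun y _ => ?_
    exact sym_normsq_dcoef f₁ f₂ _ _ x y
  have hle : ∑ _p : ZMod N × ZMod N, η / 4 ^ S.card * ((#B₂ : ℝ)) ^ 2 ≤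
      ∑ p : ZMod N × ZMod N, ‖∑ x ∈ B₂, ∑ y ∈ B₂, T p x y‖ := by
    have h1 : ‖((∑ q ∈ B₂ ×ˢ B₂, ‖dcoef f₁ f₂ (h₁ + (-q.1 - q.2)) (M (h₁ + (-q.1 - q.2)))‖ ^ 2 : ℝ) : ℂ)‖
        ≤ ∑ p : ZMod N × ZMod N, ‖∑ x ∈ B₂, ∑ y ∈ B₂, T p x y‖ := by
      rw [hexp]; exact norm_sum_le _ _
    rw [Complex.norm_real, Real.norm_eq_abs, abs_of_nonneg (Finset.sum_nonneg fun _ _ => by positivity)] at h1
    refine le_trans (le_of_eq ?_) (hcov.trans h1)
    rw [Finset.sum_const, Finset.card_univ, Fintype.card_prod, ZMod.card, Finset.card_product, nsmul_eq_mul]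
    push_cast
    ring
  obtain ⟨p, -, hp⟩ := Finset.exists_le_of_sum_le (Finset.univ_nonempty) hle
  obtain ⟨x₁, y₁⟩ := p
  refine ⟨fun y => eN (-(M h₁ * (x₁ - y₁))) * (f₁ (x₁ + h₁ - y) * f₂ (y₁ + y) *
      eN (M h₁ * y + M y * (x₁ - y₁) - M y * y)),
    fun x => conj (f₂ (x₁ + x)) * conj (f₁ (y₁ + h₁ - x)) * eN (-(M h₁ * x) + M x * (x₁ - y₁) + M x * x),
    ?_, ?_, ?_⟩
  · intro y
    rw [norm_mul, norm_mul, norm_mul, norm_eN, norm_eN, one_mul, mul_one]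
    exact mul_le_one₀ (hf₁ _) (norm_nonneg _) (hf₂ _)
  · intro x
    rw [norm_mul, norm_mul, norm_eN, mul_one, RCLike.norm_conj, RCLike.norm_conj]
    exact mul_le_one₀ (hf₂ _) (norm_nonneg _) (hf₁ _)
  · refine hp.trans (le_of_eq ?_)
    congr 1
    rw [Finset.sum_comm]
    refine Finset.sum_congr rfl fun y hy => Finset.sum_congr rfl fun x hx => ?_
    simp only [hT]
    rw [hMh x hx y hy]
    have a1 : x₁ + x + (h₁ + (-x - y)) = x₁ + h₁ - y := by ring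
    have a2 : y₁ + y + (h₁ + (-x - y)) = y₁ + h₁ - x := by ring
    rw [a1, a2, map_mul, map_mul, Complex.conj_conj, ← eN_neg, neg_neg]
    have hE : eN (-((M h₁ - M x - M y) * (x₁ + x))) * eN ((M h₁ - M x - M y) * (y₁ + y))
        = eN (-(M h₁ * (x₁ - y₁))) * eN (M h₁ * y + M y * (x₁ - y₁) - M y * y) *
          eN (-(M h₁ * x) + M x * (x₁ - y₁) + M x * x) * eN (asym M y x) := by
      rw [← eN_add, ← eN_add, ← eN_add, ← eN_add]
      congr 1
      unfold asym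
      ring
    linear_combination (f₁ (x₁ + h₁ - y) * conj (f₂ (x₁ + x)) * conj (f₁ (y₁ + h₁ - x)) * f₂ (y₁ + y)) * hE

/-- `{x, y} - {x, y''} = {x, y - y''}`. -/
theorem sym_asym_sub {S : Finset (ZMod N)} {r : ℝ} (hr : 0 ≤ r) {M : ZMod N → ZMod N} (hM : LocLin S r M)
    (x : ZMod N) {y y' : ZMod N} (hy : y ∈ zbohr S r) (hy' : y' ∈ zbohr S r) :
    asym M x (y - y') = asym M x y - asym M x y' := by
  unfold asym
  rw [hM.map_sub hr hy hy']
  ring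

/-- S2: many `w` with a large average of `e({x, w})`. -/
theorem sym_W (S : Finset (ZMod N)) {r r₂ c : ℝ} (hr₂ : 0 ≤ r₂) (hr : r₂ ≤ 2 * r) (hc0 : 0 ≤ c) (M : ZMod N → ZMod N) (hM : LocLin S (2 * r) M)
    (a b : ZMod N → ℂ) (ha : ∀ x, ‖a x‖ ≤ 1) (hb : ∀ x, ‖b x‖ ≤ 1)
    (hc : c * ((zbohr S r₂).card : ℝ) ^ 2 ≤ ‖∑ x ∈ zbohr S r₂, ∑ y ∈ zbohr S r₂, a x * b y * eN (asym M x y)‖) :
    ∃ W ⊆ zbohr S (2 * r₂), c ^ 2 / 2 * (zbohr S r₂).card ≤ W.card ∧
      ∀ w ∈ W, c ^ 2 / 2 * (zbohr S r₂).card ≤ ‖∑ x ∈ zbohr S r₂, eN (asym M x w)‖ := by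
  classical
  set B := zbohr S r₂ with hB
  have hBne : B.Nonempty := Finset.card_pos.1 (card_zbohr_pos S hr₂)
  set n : ℝ := (#B : ℝ) with hn
  have hnpos : 0 < n := by rw [hn]; exact_mod_cast card_zbohr_pos S hr₂
  have hBsub : ∀ y ∈ B, y ∈ zbohr S (2 * r) := fun y hy => zbohr_mono S hr hy
  set G : ZMod N → ℂ := fun x => ∑ y ∈ B, b y * eN (asym M x y) with hG
  set g : ZMod N → ZMod N → ℝ := fun y y' => ‖∑ x ∈ B, eN (asym M x (y - y'))‖ with hg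
  -- step 1
  have s1 : ‖∑ x ∈ B, ∑ y ∈ B, a x * b y * eN (asym M x y)‖ ≤ ∑ x ∈ B, ‖G x‖ := by
    refine (norm_sum_le _ _).trans (Finset.sum_le_sum fun x _ => ?_)
    have : ∑ y ∈ B, a x * b y * eN (asym M x y) = a x * G x := by
      rw [hG, Finset.mul_sum]
      exact Finset.sum_congr rfl fun y _ => by ring
    rw [this, norm_mul]
    exact mul_le_of_le_one_left (norm_nonneg _) (ha x)
  -- step 2
  have s2 : (∑ x ∈ B, ‖G x‖) ^ 2 ≤ n * ∑ x ∈ B, ‖G x‖ ^ 2 := sq_sum_le_card_mul_sum_sq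
  -- step 3
  have s3 : ∑ x ∈ B, ‖G x‖ ^ 2 ≤ ∑ y' ∈ B, ∑ y ∈ B, g y y' := by
    have e : ((∑ x ∈ B, ‖G x‖ ^ 2 : ℝ) : ℂ)
        = ∑ y' ∈ B, ∑ y ∈ B, b y * conj (b y') * ∑ x ∈ B, eN (asym M x (y - y')) := by
      push_cast
      simp_rw [kit_norm_sq]
      have : ∀ x, G x * conj (G x) = ∑ y' ∈ B, ∑ y ∈ B, b y * conj (b y') * eN (asym M x (y - y')) := by
        intro x
        rw [hG]
        simp only
        rw [map_sum, Finset.sum_mul_sum, Finset.sum_comm]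
        refine Finset.sum_congr rfl fun y' hy' => Finset.sum_congr rfl fun y hy => ?_
        rw [sym_asym_sub (by linarith) hM x (hBsub y hy) (hBsub y' hy'), eN_sub, map_mul]
        ring
      simp_rw [this]
      rw [Finset.sum_comm]
      refine Finset.sum_congr rfl fun y' _ => ?_
      rw [Finset.sum_comm]
      refine Finset.sum_congr rfl fun y _ => ?_
      rw [Finset.mul_sum]
    have h1 : ‖((∑ x ∈ B, ‖G x‖ ^ 2 : ℝ) : ℂ)‖ ≤ ∑ y' ∈ B, ∑ y ∈ B, g y y' := by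
      rw [e]
      refine (norm_sum_le _ _).trans (Finset.sum_le_sum fun y' _ => ?_)
      refine (norm_sum_le _ _).trans (Finset.sum_le_sum fun y _ => ?_)
      rw [norm_mul, norm_mul, RCLike.norm_conj]
      exact mul_le_of_le_one_left (norm_nonneg _) (mul_le_one₀ (hb _) (norm_nonneg _) (hb _))
    rwa [Complex.norm_real, Real.norm_eq_abs,
      abs_of_nonneg (Finset.sum_nonneg fun _ _ => by positivity)] at h1
  -- step 4
  have s4 : c ^ 2 * n ^ 3 ≤ ∑ y' ∈ B, ∑ y ∈ B, g y y' := by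
    have h1 : (c * n ^ 2) ^ 2 ≤ n * ∑ y' ∈ B, ∑ y ∈ B, g y y' :=
      calc (c * n ^ 2) ^ 2 ≤ (∑ x ∈ B, ‖G x‖) ^ 2 :=
            pow_le_pow_left₀ (by positivity) (hc.trans s1) 2
        _ ≤ n * ∑ x ∈ B, ‖G x‖ ^ 2 := s2
        _ ≤ _ := mul_le_mul_of_nonneg_left s3 hnpos.le
    have h2 : n * (c ^ 2 * n ^ 3) ≤ n * ∑ y' ∈ B, ∑ y ∈ B, g y y' := by
      refine le_trans (le_of_eq ?_) h1
      ring
    exact le_of_mul_le_mul_left h2 hnpos
  obtain ⟨y', hy', hy'g⟩ : ∃ y' ∈ B, c ^ 2 * n ^ 2 ≤ ∑ y ∈ B, g y y' := by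
    refine Finset.exists_le_of_sum_le hBne ?_
    refine le_trans (le_of_eq ?_) s4
    rw [Finset.sum_const, nsmul_eq_mul]
    ring
  -- step 5
  have hgle : ∀ y, g y y' ≤ n := by
    intro y
    refine (norm_sum_le _ _).trans ?_
    simp only [norm_eN, Finset.sum_const, nsmul_eq_mul, mul_one]
    exact le_rfl
  set Y := B.filter (fun y => c ^ 2 / 2 * n ≤ g y y') with hY
  have s5 : ∑ y ∈ B, g y y' ≤ #Y * n + n * (c ^ 2 / 2 * n) := by
    rw [← Finset.sum_filter_add_sum_filter_not B (fun y => c ^ 2 / 2 * n ≤ g y y')]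
    refine add_le_add ?_ ?_
    · refine (Finset.sum_le_sum fun y _ => hgle y).trans ?_
      rw [Finset.sum_const, nsmul_eq_mul]
    · refine (Finset.sum_le_sum (g := fun _ => c ^ 2 / 2 * n) fun y hy => ?_).trans ?_
      · exact (not_le.1 (Finset.mem_filter.1 hy).2).le
      · rw [Finset.sum_const, nsmul_eq_mul]
        refine mul_le_mul_of_nonneg_right ?_ (by positivity)
        rw [hn]
        exact_mod_cast Finset.card_filter_le _ _
  have s6 : c ^ 2 / 2 * n ≤ #Y := by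
    have : n * (c ^ 2 / 2 * n) ≤ n * #Y := by nlinarith
    exact le_of_mul_le_mul_left this hnpos
  refine ⟨Y.image (fun y => y - y'), ?_, ?_, ?_⟩
  · intro w hw
    obtain ⟨y, hy, rfl⟩ := Finset.mem_image.1 hw
    have := sub_mem_zbohr (Finset.mem_filter.1 hy).1 hy'
    rwa [← two_mul] at this
  · rw [Finset.card_image_of_injective _ (sub_left_injective)]
    exact s6
  · intro w hw
    obtain ⟨y, hy, rfl⟩ := Finset.mem_image.1 hw
    exact (Finset.mem_filter.1 hy).2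

/-- S3: smallness of `{t, w}` for `t` in a smaller Bohr set. -/
theorem sym_small (S : Finset (ZMod N)) {r r₂ r₃ c' : ℝ} (hr₂ : 0 ≤ r₂) (hr₃ : 0 ≤ r₃) (hr : r₂ ≤ 2 * r) (hr' : r₃ ≤ 2 * r) (hc' : 0 < c')
    (M : ZMod N → ZMod N) (hM : LocLin S (2 * r) M)
    (hreg : ((zbohr S (r₂ + r₃)).card : ℝ) - (zbohr S (r₂ - r₃)).card ≤ c' / 10 * (zbohr S r₂).card)
    (w : ZMod N) (hw : c' * (zbohr S r₂).card ≤ ‖∑ x ∈ zbohr S r₂, eN (asym M x w)‖) :
    ∀ t ∈ zbohr S r₃, nrm (asym M t w) ≤ 1 / 40 := by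
  intro t ht
  have h := avg_small S hr₂ (fun x => asym M x w) (r₃ := r₃) (c := c') (ε := c' / 10)
    (by
      intro x hx t ht
      simp only [asym]
      rw [hM x (zbohr_mono S hr hx) t (zbohr_mono S hr' ht)]
      ring) hw hreg t ht
  have h1 : ‖eN (asym M t w) - 1‖ ≤ 1 / 10 := by
    have : c' * ‖eN (asym M t w) - 1‖ ≤ c' * (1 / 10) := by
      refine h.trans (le_of_eq ?_); ring
    exact le_of_mul_le_mul_left this hc'
  have h2 := four_nrm_le (asym M t w)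
  linarith

theorem sym_two_ne_zero (N : ℕ) [Fact N.Prime] (hN : N ≠ 2) : (2 : ZMod N) ≠ 0 := by
  intro h
  have h2 : ((2 : ℕ) : ZMod N) = 0 := by exact_mod_cast h
  rw [ZMod.natCast_eq_zero_iff] at h2
  exact hN ((Nat.prime_dvd_prime_iff_eq (Fact.out) Nat.prime_two).1 h2)

/-- Bogolyubov-Ruzsa with a positive constant. -/
theorem sym_br_pos : ∃ C : ℕ, 1 ≤ C ∧ ∀ (N : ℕ) [NeZero N] (A : Finset (ZMod N)) (α : ℝ), 0 < α → α ≤ 1 →
    α * N ≤ A.card →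
    ∃ S : Finset (ZMod N), (S.card : ℝ) ≤ C * Real.log (2 / α) ^ 4 ∧ zbohr S (α ^ 2 / C) ⊆ A + A - A - A := by
  obtain ⟨C, hC⟩ := u3_br_zmod
  refine ⟨C + 1, by omega, ?_⟩
  intro N _ A α hα hα1 hA
  obtain ⟨S, h1, h2⟩ := hC N A α hα hα1 hA
  refine ⟨S, ?_, ?_⟩
  · refine h1.trans (mul_le_mul_of_nonneg_right (by push_cast; linarith) (by positivity))
  · rcases Nat.eq_zero_or_pos C with rfl | hCpos
    · have hS : S = ∅ := by
        have : (S.card : ℝ) ≤ 0 := by simpa using h1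
        have h0 : S.card = 0 := by
          have : S.card ≤ 0 := by exact_mod_cast this
          omega
        exact Finset.card_eq_zero.1 h0
      subst hS
      intro x _
      apply h2
      rw [mem_zbohr]
      intro s hs
      simp at hs
    · refine (zbohr_mono S ?_).trans h2
      have : (0 : ℝ) < C := by exact_mod_cast hCpos
      push_cast
      exact div_le_div_of_nonneg_left (by positivity) this (by linarith)

/-- S4 with a positive constant. -/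
theorem sym_spread_pos : ∃ C : ℕ, 1 ≤ C ∧ ∀ (N : ℕ) [Fact N.Prime], N ≠ 2 → ∀ (S : Finset (ZMod N)) (r r₂ r₃ α : ℝ) (M : ZMod N → ZMod N) (W : Finset (ZMod N)) (k : ℕ),
    0 ≤ r₂ → 2 * r₂ ≤ r → 0 ≤ r₃ → r₃ ≤ r → 0 < α → α ≤ 1 → 1 ≤ k → LocLin S (2 * r) M → W ⊆ zbohr S (2 * r₂) → α * N ≤ W.card →
    (∀ w ∈ W, ∀ t ∈ zbohr S r₃, nrm (asym M t w) ≤ 1 / 40) →
    ∃ S' : Finset (ZMod N), S ⊆ S' ∧ (S'.card : ℝ) ≤ 2 * (S.card + C * Real.log (2 / α) ^ 4) ∧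
      ∀ x ∈ zbohr S' (min (r₃ / k) (α ^ 2 / C)), ∀ y ∈ zbohr S' (min (r₃ / k) (α ^ 2 / C)),
        nrm ((2 : ZMod N)⁻¹ * asym M x y) ≤ 1 / (10 * k) := by
  obtain ⟨C, hC1, hC⟩ := sym_br_pos
  refine ⟨C, hC1, ?_⟩
  intro N _ hN2 S r r₂ r₃ α M W k hr₂ hr hr₃ hr₃r hα hα1 hk hM hW hWc hsmall
  obtain ⟨SW, hSWc, hSW⟩ := hC N W α hα hα1 hWc
  have h2 := sym_two_ne_zero N hN2
  have hr0 : 0 ≤ r := by linarith
  have hkpos : (0 : ℝ) < k := by exact_mod_cast hk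
  set S₄ := S ∪ SW with hS₄
  set S' := S₄ ∪ S₄.image (fun s => (2 : ZMod N)⁻¹ * s) with hS'
  set ρ := min (r₃ / k) (α ^ 2 / C) with hρ
  refine ⟨S', ?_, ?_, ?_⟩
  · exact Finset.subset_union_left.trans Finset.subset_union_left
  · have h1 : #S' ≤ #S₄ + #S₄ :=
      (Finset.card_union_le _ _).trans (Nat.add_le_add_left Finset.card_image_le _)
    have h3 : #S₄ ≤ #S + #SW := Finset.card_union_le _ _
    have h4 : (#S' : ℝ) ≤ 2 * ((#S : ℝ) + #SW) := by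
      have : #S' ≤ 2 * (#S + #SW) := by omega
      exact_mod_cast this
    linarith
  · intro x hx y hy
    set t := (2 : ZMod N)⁻¹ * x with ht
    have ht4 : t ∈ zbohr S₄ ρ := half_mem_zbohr hx
    have htk : t ∈ zbohr S (r₃ / k) := zbohr_subset Finset.subset_union_left (min_le_left _ _) ht4
    have htk2 : t ∈ zbohr S (2 * r / k) :=
      zbohr_mono S (div_le_div_of_nonneg_right (by linarith) hkpos.le) htk
    have ht3 : ∀ j : ℕ, j ≤ k → j • t ∈ zbohr S r₃ := fun j hj => nsmul_mem_zbohr hk htk hj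
    have ht2r : t ∈ zbohr S (2 * r) := by
      have := ht3 1 hk
      rw [one_smul] at this
      exact zbohr_mono S (by linarith) this
    have hxt : x = t + t := by
      rw [ht, ← two_mul, ← mul_assoc, mul_inv_cancel₀ h2, one_mul]
    have hMx : M x = M t + M t := by rw [hxt]; exact hM t ht2r t ht2r
    have e1 : (2 : ZMod N)⁻¹ * asym M x y = asym M t y := by
      unfold asym
      rw [hMx]
      have : M y * x = M y * (t + t) := by rw [← hxt]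
      rw [this]
      have e : (M t + M t) * y - M y * (t + t) = 2 * (M t * y - M y * t) := by ring
      rw [e, ← mul_assoc, inv_mul_cancel₀ h2, one_mul]
    rw [e1]
    -- `y ∈ 2 W - 2 W`
    have hyW : y ∈ W + W - W - W := hSW (zbohr_subset
      (Finset.subset_union_right.trans Finset.subset_union_left) (min_le_right _ _) hy)
    obtain ⟨u, hu, w₄, hw₄, rfl⟩ := Finset.mem_sub.1 hyW
    obtain ⟨u', hu', w₃, hw₃, rfl⟩ := Finset.mem_sub.1 hu
    obtain ⟨w₁, hw₁, w₂, hw₂, rfl⟩ := Finset.mem_add.1 hu'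
    have hWr : ∀ w ∈ W, w ∈ zbohr S (2 * r) := fun w hw => zbohr_mono S (by linarith) (hW hw)
    have hWW : ∀ w ∈ W, ∀ w' ∈ W, w + w' ∈ zbohr S (2 * r) := fun w hw w' hw' =>
      zbohr_mono S (by linarith) (add_mem_zbohr (hW hw) (hW hw'))
    have hMy : M (w₁ + w₂ - w₃ - w₄) = M w₁ + M w₂ - M w₃ - M w₄ := by
      have : w₁ + w₂ - w₃ - w₄ = (w₁ + w₂) - (w₃ + w₄) := by ring
      rw [this, hM.map_sub (by linarith) (hWW _ hw₁ _ hw₂) (hWW _ hw₃ _ hw₄),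
        hM _ (hWr _ hw₁) _ (hWr _ hw₂), hM _ (hWr _ hw₃) _ (hWr _ hw₄)]
      ring
    have hsplit : ∀ s : ZMod N, asym M s (w₁ + w₂ - w₃ - w₄)
        = asym M s w₁ + asym M s w₂ - asym M s w₃ - asym M s w₄ := by
      intro s
      unfold asym
      rw [hMy]
      ring
    have hj : ∀ j : ℕ, 1 ≤ j → j ≤ k → nrm (j • asym M t (w₁ + w₂ - w₃ - w₄)) ≤ 1 / 10 := by
      intro j _ hjk
      have e2 : j • asym M t (w₁ + w₂ - w₃ - w₄) = asym M (j • t) (w₁ + w₂ - w₃ - w₄) := by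
        unfold asym
        rw [hM.map_nsmul (by linarith) hk htk2 hjk]
        simp only [nsmul_eq_mul]
        ring
      rw [e2, hsplit]
      have b1 := hsmall _ hw₁ _ (ht3 j hjk)
      have b2 := hsmall _ hw₂ _ (ht3 j hjk)
      have b3 := hsmall _ hw₃ _ (ht3 j hjk)
      have b4 := hsmall _ hw₄ _ (ht3 j hjk)
      have c1 := nrm_sub_le (asym M (j • t) w₁ + asym M (j • t) w₂ - asym M (j • t) w₃) (asym M (j • t) w₄)
      have c2 := nrm_sub_le (asym M (j • t) w₁ + asym M (j • t) w₂) (asym M (j • t) w₃)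
      have c3 := nrm_add_le (asym M (j • t) w₁) (asym M (j • t) w₂)
      linarith
    have := nrm_le_div_of_nsmul hk (by norm_num) hj
    refine this.trans (le_of_eq ?_)
    rw [div_div]

/-- S4: Bogolyubov-Ruzsa, scaling, halving. -/
theorem sym_spread : ∃ C : ℕ, ∀ (N : ℕ) [Fact N.Prime], N ≠ 2 → ∀ (S : Finset (ZMod N)) (r r₂ r₃ α : ℝ) (M : ZMod N → ZMod N) (W : Finset (ZMod N)) (k : ℕ),
    0 ≤ r₂ → 2 * r₂ ≤ r → 0 ≤ r₃ → r₃ ≤ r → 0 < α → α ≤ 1 → 1 ≤ k → LocLin S (2 * r) M → W ⊆ zbohr S (2 * r₂) → α * N ≤ W.card →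
    (∀ w ∈ W, ∀ t ∈ zbohr S r₃, nrm (asym M t w) ≤ 1 / 40) →
    ∃ S' : Finset (ZMod N), S ⊆ S' ∧ (S'.card : ℝ) ≤ 2 * (S.card + C * Real.log (2 / α) ^ 4) ∧
      ∀ x ∈ zbohr S' (min (r₃ / k) (α ^ 2 / C)), ∀ y ∈ zbohr S' (min (r₃ / k) (α ^ 2 / C)),
        nrm ((2 : ZMod N)⁻¹ * asym M x y) ≤ 1 / (10 * k) := by
  obtain ⟨C, -, hC⟩ := sym_spread_pos
  exact ⟨C, hC⟩

/-- the constant `c' = (η / 4^d)^2 / 2`. -/
noncomputable def symC (η : ℝ) (d : ℕ) : ℝ := (η / 4 ^ d) ^ 2 / 2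
/-- the radius `r₃`. -/
noncomputable def symR (η : ℝ) (d : ℕ) (r : ℝ) : ℝ := symC η d / 10 * (r / 4) / (16 * (d + 1))
/-- the density of `W`. -/
noncomputable def symA (η : ℝ) (d : ℕ) (r : ℝ) : ℝ := symC η d * (r / 16) ^ d

theorem sym_symC_pos {η : ℝ} (hη : 0 < η) (d : ℕ) : 0 < symC η d := by
  unfold symC; positivity

theorem sym_symC_le {η : ℝ} (hη : 0 < η) (hη1 : η ≤ 1) (d : ℕ) : symC η d ≤ 1 / 2 := by
  unfold symC
  have h4 : (1 : ℝ) ≤ 4 ^ d := one_le_pow₀ (by norm_num)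
  have h1 : η / 4 ^ d ≤ 1 := by
    rw [div_le_one (by positivity)]; linarith
  have h2 : (η / 4 ^ d) ^ 2 ≤ 1 := pow_le_one₀ (by positivity) h1
  linarith

theorem sym_symR_pos {η r : ℝ} (hη : 0 < η) (hr : 0 < r) (d : ℕ) : 0 < symR η d r := by
  have := sym_symC_pos hη d
  unfold symR; positivity

theorem sym_symR_le {η r : ℝ} (hη : 0 < η) (hη1 : η ≤ 1) (hr : 0 < r) (d : ℕ) : symR η d r ≤ r := by
  have h0 := sym_symC_pos hη d
  have h1 := sym_symC_le hη hη1 d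
  unfold symR
  rw [div_le_iff₀ (by positivity)]
  have hd : (0 : ℝ) ≤ d := Nat.cast_nonneg d
  have e1 : symC η d / 10 * (r / 4) ≤ r := by nlinarith
  have e2 : r ≤ r * (16 * (d + 1)) := by nlinarith
  linarith

theorem sym_symA_pos {η r : ℝ} (hη : 0 < η) (hr : 0 < r) (d : ℕ) : 0 < symA η d r := by
  have := sym_symC_pos hη d
  unfold symA; positivity

theorem sym_symA_le {η r : ℝ} (hη : 0 < η) (hη1 : η ≤ 1) (hr : 0 < r) (hr1 : r ≤ 1) (d : ℕ) : symA η d r ≤ 1 := by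
  have h0 := sym_symC_pos hη d
  have h1 := sym_symC_le hη hη1 d
  unfold symA
  have h2 : (r / 16) ^ d ≤ 1 := pow_le_one₀ (by positivity) (by linarith)
  have h3 : (0 : ℝ) ≤ (r / 16) ^ d := by positivity
  nlinarith

theorem sym_explicit_pos : ∃ C : ℕ, 1 ≤ C ∧ ∀ (N : ℕ) [Fact N.Prime], N ≠ 2 → ∀ (S : Finset (ZMod N)) (r η : ℝ) (M : ZMod N → ZMod N) (f₁ f₂ : ZMod N → ℂ) (k : ℕ),
    0 < r → r ≤ 1 → 0 < η → η ≤ 1 → 1 ≤ k → LocLin S (2 * r) M → (∀ x, ‖f₁ x‖ ≤ 1) → (∀ x, ‖f₂ x‖ ≤ 1) →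
    η * (zbohr S r).card * (N : ℝ) ^ 2 ≤ ∑ h ∈ zbohr S r, ‖dcoef f₁ f₂ h (M h)‖ ^ 2 →
    ∃ S' : Finset (ZMod N), S ⊆ S' ∧ (S'.card : ℝ) ≤ 2 * (S.card + C * Real.log (2 / symA η S.card r) ^ 4) ∧
      ∀ x ∈ zbohr S' (min (symR η S.card r / k) (symA η S.card r ^ 2 / C)),
        ∀ y ∈ zbohr S' (min (symR η S.card r / k) (symA η S.card r ^ 2 / C)),
        nrm ((2 : ZMod N)⁻¹ * asym M x y) ≤ 1 / (10 * k) := by
  obtain ⟨C, hC1, hC⟩ := sym_spread_pos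
  refine ⟨C, hC1, ?_⟩
  intro N _ hN2 S r η M f₁ f₂ k hr hr1 hη hη1 hk hM hf₁ hf₂ hc
  have hc0 := sym_symC_pos hη S.card
  have hc1 := sym_symC_le hη hη1 S.card
  obtain ⟨r₂, hlo, hhi, hreg⟩ := exists_regular_radius S (r := r / 4) (ε := symC η S.card / 10)
    (by positivity) (by positivity) (by linarith)
  have hr₃e : symC η S.card / 10 * (r / 4) / (16 * ((S.card : ℝ) + 1)) = symR η S.card r := rfl
  rw [hr₃e] at hlo hhi hreg
  set r₃ := symR η S.card r with hr₃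
  have hr₃pos : 0 < r₃ := sym_symR_pos hη hr _
  have hr₃le : r₃ ≤ r := sym_symR_le hη hη1 hr _
  have hr₂0 : 0 ≤ r₂ := by linarith
  obtain ⟨a, b, ha, hb, hab⟩ := sym_bilin S hr₂0 (by linarith) M hM f₁ f₂ hf₁ hf₂ hc
  obtain ⟨W, hWsub, hWc, hW⟩ := sym_W S hr₂0 (by linarith) (by positivity) M hM a b ha hb hab
  have hce : (η / 4 ^ S.card) ^ 2 / 2 = symC η S.card := rfl
  rw [hce] at hWc hW
  have hreg' : ((zbohr S (r₂ + r₃)).card : ℝ) - (zbohr S (r₂ - r₃)).card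
      ≤ symC η S.card / 10 * (zbohr S r₂).card := by
    have hm : ((zbohr S (r₂ - r₃)).card : ℝ) ≤ (zbohr S r₂).card := by
      exact_mod_cast Finset.card_le_card (zbohr_mono S (by linarith))
    have : symC η S.card / 10 * ((zbohr S (r₂ - r₃)).card : ℝ) ≤ symC η S.card / 10 * (zbohr S r₂).card :=
      mul_le_mul_of_nonneg_left hm (by positivity)
    linarith
  have hsm : ∀ w ∈ W, ∀ t ∈ zbohr S r₃, nrm (asym M t w) ≤ 1 / 40 := fun w hw =>
    sym_small S hr₂0 hr₃pos.le (by linarith) (by linarith) hc0 M hM hreg' w (hW w hw)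
  have hdens : symA η S.card r * N ≤ W.card := by
    refine le_trans ?_ hWc
    have h1 := card_zbohr_ge S (r := r / 8) (by positivity) (by linarith)
    have h2 : ((zbohr S (r / 8)).card : ℝ) ≤ (zbohr S r₂).card := by
      exact_mod_cast Finset.card_le_card (zbohr_mono S (by linarith))
    have e : r / 8 / 2 = r / 16 := by ring
    rw [e] at h1
    unfold symA
    rw [mul_assoc]
    exact mul_le_mul_of_nonneg_left (h1.trans h2) hc0.le
  exact hC N hN2 S r r₂ r₃ (symA η S.card r) M W k hr₂0 (by linarith) hr₃pos.le hr₃le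
    (sym_symA_pos hη hr _) (sym_symA_le hη hη1 hr hr1 _) hk hM hWsub hdens hsm

/-- S5: **the symmetry argument, explicit form.** -/
theorem sym_explicit : ∃ C : ℕ, ∀ (N : ℕ) [Fact N.Prime], N ≠ 2 → ∀ (S : Finset (ZMod N)) (r η : ℝ) (M : ZMod N → ZMod N) (f₁ f₂ : ZMod N → ℂ) (k : ℕ),
    0 < r → r ≤ 1 → 0 < η → η ≤ 1 → 1 ≤ k → LocLin S (2 * r) M → (∀ x, ‖f₁ x‖ ≤ 1) → (∀ x, ‖f₂ x‖ ≤ 1) →
    η * (zbohr S r).card * (N : ℝ) ^ 2 ≤ ∑ h ∈ zbohr S r, ‖dcoef f₁ f₂ h (M h)‖ ^ 2 →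
    ∃ S' : Finset (ZMod N), S ⊆ S' ∧ (S'.card : ℝ) ≤ 2 * (S.card + C * Real.log (2 / symA η S.card r) ^ 4) ∧
      ∀ x ∈ zbohr S' (min (symR η S.card r / k) (symA η S.card r ^ 2 / C)),
        ∀ y ∈ zbohr S' (min (symR η S.card r / k) (symA η S.card r ^ 2 / C)),
        nrm ((2 : ZMod N)⁻¹ * asym M x y) ≤ 1 / (10 * k) := by
  obtain ⟨C, -, hC⟩ := sym_explicit_pos
  exact ⟨C, hC⟩

theorem sym_exp_mul {a b A B : ℝ} (ha : Real.exp (-A) ≤ a) (hb : Real.exp (-B) ≤ b) :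
    Real.exp (-(A + B)) ≤ a * b := by
  rw [neg_add, Real.exp_add]
  exact mul_le_mul ha hb (Real.exp_pos _).le ((Real.exp_pos _).le.trans ha)

theorem sym_exp_pow {a A : ℝ} (ha : Real.exp (-A) ≤ a) (n : ℕ) : Real.exp (-(n * A)) ≤ a ^ n := by
  have : Real.exp (-(n * A)) = Real.exp (-A) ^ n := by
    rw [← Real.exp_nat_mul]; congr 1; ring
  rw [this]
  exact pow_le_pow_left₀ (Real.exp_pos _).le ha n

theorem sym_exp_inv {t T : ℝ} (ht : 0 < t) (h : t ≤ Real.exp T) : Real.exp (-T) ≤ t⁻¹ := by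
  rw [Real.exp_neg]
  exact inv_anti₀ ht h

theorem sym_exp_nat (n : ℕ) : (2.7 : ℝ) ^ n ≤ Real.exp n := by
  rw [← Real.exp_one_pow]
  exact pow_le_pow_left₀ (by norm_num) (by linarith [Real.exp_one_gt_d9]) n

theorem sym_num {P : ℝ} (hP : 0 ≤ P) {d : ℕ} (hd : (d : ℝ) ≤ P) {r η : ℝ} (hr : Real.exp (-P) ≤ r)
    (hη : Real.exp (-P) ≤ η) :
    Real.exp (-(6 * P + 1)) ≤ symC η d ∧ Real.exp (-(8 * P + 8)) ≤ symR η d r ∧
      Real.exp (-(P ^ 2 + 9 * P + 1)) ≤ symA η d r := by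
  have n1 : (2 : ℝ) ≤ Real.exp 1 := by have := sym_exp_nat 1; norm_num at this; linarith
  have n2 : (4 : ℝ) ≤ Real.exp 2 := by have := sym_exp_nat 2; norm_num at this; linarith
  have n3 : (16 : ℝ) ≤ Real.exp 3 := by have := sym_exp_nat 3; norm_num at this; linarith
  have n7 : (640 : ℝ) ≤ Real.exp 7 := by have := sym_exp_nat 7; norm_num at this; linarith
  have h4 : (4 : ℝ) ^ d ≤ Real.exp (2 * P) := by
    calc (4 : ℝ) ^ d ≤ Real.exp 2 ^ d := pow_le_pow_left₀ (by norm_num) n2 d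
      _ = Real.exp (d * 2) := by rw [Real.exp_nat_mul]
      _ ≤ Real.exp (2 * P) := Real.exp_le_exp.2 (by linarith)
  have hC : Real.exp (-(6 * P + 1)) ≤ symC η d := by
    have a1 := sym_exp_mul hη (sym_exp_inv (by positivity) h4)
    have a2 := sym_exp_pow a1 2
    have a3 := sym_exp_mul a2 (sym_exp_inv (by norm_num) n1)
    unfold symC
    refine le_trans (le_of_eq ?_) (a3.trans (le_of_eq ?_))
    · congr 1; push_cast; ring
    · rw [div_eq_mul_inv, div_eq_mul_inv]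
  have hd1 : (d : ℝ) + 1 ≤ Real.exp P := (Real.add_one_le_exp _).trans (Real.exp_le_exp.2 hd)
  have hd0 : (0 : ℝ) ≤ d := Nat.cast_nonneg d
  refine ⟨hC, ?_, ?_⟩
  · have a1 := sym_exp_mul (sym_exp_mul (sym_exp_mul hC hr) (sym_exp_inv (by norm_num) n7))
      (sym_exp_inv (by positivity) hd1)
    unfold symR
    refine le_trans (le_of_eq ?_) (a1.trans (le_of_eq ?_))
    · congr 1; ring
    · field_simp; ring
  · have a1 := sym_exp_pow (sym_exp_mul hr (sym_exp_inv (by norm_num) n3)) d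
    have a2 := sym_exp_mul hC a1
    unfold symA
    refine le_trans (Real.exp_le_exp.2 ?_) (a2.trans (le_of_eq ?_))
    · have : (d : ℝ) * (P + 3) ≤ P * (P + 3) := mul_le_mul_of_nonneg_right hd (by linarith)
      nlinarith
    · rw [div_eq_mul_inv]

/-- S6: **the symmetry argument, quasipolynomial form.** -/
theorem u3_sym : ∀ C₁ : ℕ, ∃ C₂ : ℕ, ∀ (X : ℝ), 1 ≤ X → ∀ (N : ℕ) [Fact N.Prime], N ≠ 2 →
    ∀ (S : Finset (ZMod N)) (r η ε : ℝ) (M : ZMod N → ZMod N) (f₁ f₂ : ZMod N → ℂ),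
    (S.card : ℝ) ≤ pl C₁ X → qs C₁ X ≤ r → r ≤ 1 → qs C₁ X ≤ η → qs C₁ X ≤ ε →
    LocLin S (2 * r) M → (∀ x, ‖f₁ x‖ ≤ 1) → (∀ x, ‖f₂ x‖ ≤ 1) →
    η * (zbohr S r).card * (N : ℝ) ^ 2 ≤ ∑ h ∈ zbohr S r, ‖dcoef f₁ f₂ h (M h)‖ ^ 2 →
    ∃ (S' : Finset (ZMod N)) (r' : ℝ), S ⊆ S' ∧ (S'.card : ℝ) ≤ pl C₂ X ∧ qs C₂ X ≤ r' ∧ r' ≤ r ∧
      ∀ x ∈ zbohr S' r', ∀ y ∈ zbohr S' r', nrm ((2 : ZMod N)⁻¹ * asym M x y) ≤ ε := by
  intro C₁
  obtain ⟨C, hC1, hC⟩ := sym_explicit_pos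
  obtain ⟨K, hK⟩ : ∃ K : ℕ, K = 41472 * C + 24 := ⟨_, rfl⟩
  refine ⟨K * (C₁ + 1) ^ K + K * (C₁ + 1), ?_⟩
  intro X hX N _ hN2 S r η ε M f₁ f₂ hS hr hr1 hη hε hM hf₁ hf₂ hc
  have hCr : (1 : ℝ) ≤ C := by exact_mod_cast hC1
  have hKr : (K : ℝ) = 41472 * C + 24 := by rw [hK]; push_cast; ring
  obtain ⟨P, hPdef⟩ : ∃ P : ℝ, P = pl C₁ X := ⟨_, rfl⟩
  obtain ⟨P₁, hP₁def⟩ : ∃ P₁ : ℝ, P₁ = pl (C₁ + 1) X := ⟨_, rfl⟩
  have hP0 : 0 ≤ P := by rw [hPdef]; exact pl_nonneg C₁ hX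
  have hPP : P ≤ P₁ := by rw [hPdef, hP₁def]; exact pl_mono (by omega) hX
  have hP1 : 1 ≤ P₁ := by
    rw [hP₁def]
    refine le_trans ?_ (natCast_le_pl (C₁ + 1) hX)
    push_cast
    linarith [(Nat.cast_nonneg C₁ : (0 : ℝ) ≤ C₁)]
  have hq : qs C₁ X = Real.exp (-P) := by rw [hPdef]; rfl
  rw [hq] at hr hη hε
  rw [← hPdef] at hS
  have hfin : ∀ c : ℝ, c ≤ K * P₁ ^ 8 → c ≤ pl (K * (C₁ + 1) ^ K + K * (C₁ + 1)) X := by
    intro c hc
    refine hc.trans ((kit_le_pl hP1 (by omega) le_rfl).trans ?_)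
    rw [hP₁def]
    exact pl_comp_le K (C₁ + 1) hX
  have p1 : P₁ ≤ P₁ ^ 8 := by
    have := pow_le_pow_right₀ hP1 (show 1 ≤ 8 by norm_num); simpa using this
  have p2 : P₁ ^ 2 ≤ P₁ ^ 8 := pow_le_pow_right₀ hP1 (by norm_num)
  have p0 : 1 ≤ P₁ ^ 8 := one_le_pow₀ hP1
  have pP2 : P ^ 2 ≤ P₁ ^ 2 := pow_le_pow_left₀ hP0 hPP 2
  have p12 : P₁ ≤ P₁ ^ 2 := by nlinarith
  have hCu1 : (C : ℝ) ≤ C * P₁ ^ 8 := le_mul_of_one_le_right (by positivity) p0
  have hKu : (K : ℝ) * P₁ ^ 8 = 41472 * (C * P₁ ^ 8) + 24 * P₁ ^ 8 := by rw [hKr]; ring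
  -- `η' = min η 1`
  obtain ⟨η', hη'def⟩ : ∃ η' : ℝ, η' = min η 1 := ⟨_, rfl⟩
  have hη'1 : η' ≤ 1 := by rw [hη'def]; exact min_le_right _ _
  have hη'η : η' ≤ η := by rw [hη'def]; exact min_le_left _ _
  have hη'lo : Real.exp (-P) ≤ η' := by
    rw [hη'def]
    exact le_min hη (Real.exp_le_one_iff.2 (by linarith))
  have hη'0 : 0 < η' := (Real.exp_pos _).trans_le hη'lo
  have hr0 : 0 < r := (Real.exp_pos _).trans_le hr
  have hε0 : 0 < ε := (Real.exp_pos _).trans_le hε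
  have hc' : η' * (zbohr S r).card * (N : ℝ) ^ 2 ≤ ∑ h ∈ zbohr S r, ‖dcoef f₁ f₂ h (M h)‖ ^ 2 := by
    refine le_trans ?_ hc
    rw [mul_assoc, mul_assoc]
    exact mul_le_mul_of_nonneg_right hη'η (by positivity)
  -- `k`
  obtain ⟨k, hkdef⟩ : ∃ k : ℕ, k = ⌈1 / ε⌉₊ := ⟨_, rfl⟩
  have hk1 : 1 ≤ k := by rw [hkdef]; exact Nat.ceil_pos.2 (by positivity)
  have hkpos : (0 : ℝ) < k := by exact_mod_cast hk1
  have hkge : 1 / ε ≤ k := by rw [hkdef]; exact Nat.le_ceil _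
  have hkle : (k : ℝ) ≤ Real.exp (P + 1) := by
    have h1 : (k : ℝ) < 1 / ε + 1 := by rw [hkdef]; exact Nat.ceil_lt_add_one (by positivity)
    have h2 : 1 / ε ≤ Real.exp P := by
      rw [div_le_iff₀ hε0]
      have : Real.exp P * Real.exp (-P) ≤ Real.exp P * ε :=
        mul_le_mul_of_nonneg_left hε (Real.exp_pos _).le
      rwa [← Real.exp_add, add_neg_cancel, Real.exp_zero] at this
    have h3 : (1 : ℝ) ≤ Real.exp P := Real.one_le_exp hP0
    have h4 : (2 : ℝ) ≤ Real.exp 1 := by have := sym_exp_nat 1; norm_num at this; linarith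
    rw [Real.exp_add]
    nlinarith [Real.exp_pos P]
  have hkε : 1 / (10 * (k : ℝ)) ≤ ε := by
    rw [div_le_iff₀ (by positivity)]
    rw [div_le_iff₀ hε0] at hkge
    nlinarith
  obtain ⟨S', hSS', hcard, hmain⟩ := hC N hN2 S r η' M f₁ f₂ k hr0 hr1 hη'0 hη'1 hk1 hM hf₁ hf₂ hc'
  obtain ⟨-, nR, nA⟩ := sym_num hP0 hS hr hη'lo
  have hApos := sym_symA_pos hη'0 hr0 S.card
  have hA1 := sym_symA_le hη'0 hη'1 hr0 hr1 S.card
  refine ⟨S', min (symR η' S.card r / k) (symA η' S.card r ^ 2 / C), hSS', ?_, ?_, ?_, ?_⟩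
  · -- cardinality
    refine hfin _ (hcard.trans ?_)
    have hL0 : 0 ≤ Real.log (2 / symA η' S.card r) := by
      apply Real.log_nonneg
      rw [le_div_iff₀ hApos]; linarith
    have hL : Real.log (2 / symA η' S.card r) ≤ 12 * P₁ ^ 2 := by
      rw [Real.log_div (by norm_num) hApos.ne']
      have h1 : -(P ^ 2 + 9 * P + 1) ≤ Real.log (symA η' S.card r) :=
        (Real.le_log_iff_exp_le hApos).2 nA
      have h2 := Real.log_two_lt_d9
      linarith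
    have hL4 : Real.log (2 / symA η' S.card r) ^ 4 ≤ 20736 * P₁ ^ 8 := by
      calc Real.log (2 / symA η' S.card r) ^ 4 ≤ (12 * P₁ ^ 2) ^ 4 := pow_le_pow_left₀ hL0 hL 4
        _ = 20736 * P₁ ^ 8 := by ring
    have h5 : (C : ℝ) * Real.log (2 / symA η' S.card r) ^ 4 ≤ C * (20736 * P₁ ^ 8) :=
      mul_le_mul_of_nonneg_left hL4 (by linarith)
    have h6 : (C : ℝ) * (20736 * P₁ ^ 8) = 20736 * (C * P₁ ^ 8) := by ring
    rw [hKu]
    linarith
  · -- radius from below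
    apply le_min
    · have a1 := sym_exp_mul nR (sym_exp_inv hkpos hkle)
      rw [← div_eq_mul_inv] at a1
      refine le_trans ?_ a1
      unfold qs
      apply Real.exp_le_exp.2
      apply neg_le_neg
      apply hfin
      rw [hKu]
      linarith
    · have hCe : (C : ℝ) ≤ Real.exp C := by linarith [Real.add_one_le_exp (C : ℝ)]
      have a1 := sym_exp_mul (sym_exp_pow nA 2) (sym_exp_inv (by linarith) hCe)
      rw [← div_eq_mul_inv] at a1
      refine le_trans ?_ a1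
      unfold qs
      apply Real.exp_le_exp.2
      apply neg_le_neg
      apply hfin
      rw [hKu]
      push_cast
      linarith
  · refine (min_le_left _ _).trans ?_
    refine le_trans ?_ (sym_symR_le hη'0 hη'1 hr0 S.card)
    exact div_le_self (sym_symR_pos hη'0 hr0 _).le (by exact_mod_cast hk1)
  · intro x hx y hy
    exact (hmain x hx y hy).trans hkε

end Claimed.Agent.R258.U3
end
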