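/- Packed by merge_tool.py (helper293): 7 modules of Claimed.Agent.R258 in one file, same declarations.
   Old modules, in this order: S6a.Chain, S6a.Path, S7nb.CapsA, S7nb.Caps, S7nb.Sparse, S7nb.Sum, S7nb.Main -/
import Claimed.Agent.R258.S6a.ChainEst
import Claimed.Agent.R258.S6a.ChainEmb
import Claimed.Agent.R258.S6a.PathArith
import Claimed.Agent.R258.Pack014

/- ===== packed: Claimed.Agent.R258.S6a.Chain ===== -/
section
/-
Row 258 (S0498), block [S6a] (architect helper70).  L6.2: THE ABSTRACT CHAIN LEMMA, proved from the leaves of ChainAlg / ChainEst.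
-/
set_option autoImplicit false
open scoped Matrix

namespace Claimed.Agent.R258

variable {N : Type*} [Fintype N] [DecidableEq N]

theorem s6a_kerD_nonneg (N : ℕ) (B : ℤ) (hB : 0 ≤ B) : 0 ≤ kerD N B := by
  unfold kerD; positivity

theorem s6a_kerR_nonneg (N : ℕ) (B : ℤ) (hB : 0 ≤ B) : 0 ≤ kerR N B := by
  unfold kerR; positivity

theorem s6a_cB1_nonneg (N L H : ℕ) : 0 ≤ cB1 N L H := by
  unfold cB1 cD0; positivity

theorem s6a_cH1_nonneg (N L H : ℕ) : 0 ≤ cH1 N L H := by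
  unfold cH1
  have := s6a_kerR_nonneg N (cB1 N L H) (s6a_cB1_nonneg N L H)
  have h2 : 0 ≤ cD0 N L H := by unfold cD0; positivity
  positivity

theorem s6a_cB2_nonneg (N L H : ℕ) : 0 ≤ cB2 N L H :=
  s6a_kerD_nonneg _ _ (s6a_cB1_nonneg N L H)

/-- **the abstract chain lemma** (Lemma 6.2 in the joint space) -/
theorem s6a_chain (blk : N → ℕ) (K : Matrix N N ℚ) (V : N → ℝ) (q : ℕ → ℝ) (hKs : Kᵀ = -K)
    (hKb : ∀ a b, blk a ≠ blk b → K a b = 0) (L H Hb : ℕ) (hL : 1 ≤ L) (hH : 1 ≤ H)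
    (hK : ∀ a b, |K a b| ≤ (Hb : ℚ)) (hE : ∀ e < L, JSplit blk K V q e (e + 1) H) :
    JSplit blk K V q 0 L ((chainH (Fintype.card N) L H Hb : ℤ) : ℝ) := by
  classical
  have hex : ∀ e : ℕ, ∃ Pf : Matrix N N ℚ, e < L → JSplitW blk K V q e (e + 1) H Pf := by
    intro e
    by_cases he : e < L
    · obtain ⟨Pf, h⟩ := hE e he
      exact ⟨Pf, fun _ => h⟩
    · exact ⟨0, fun h => absurd h he⟩
  choose Pf hPf using hex
  obtain ⟨Q, D, hQ2, hQ1, hQ, hD1, hDB, hint, hV⟩ := s6a_chain_Q blk K V q L H hL hH Pf hPf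
  have hiso := s6a_chain_iso blk K V q hKb L hL H Pf hPf Q hQ
  obtain ⟨P, W, hP1, hP2, hP3, hP4, hPW, hPh⟩ :=
    s6a_chain_P blk 0 L Q hQ1 hQ2 D (cB2 (Fintype.card N) L H) hD1 hDB hint
  -- isotropy of `P`
  have hP5 : P * blkK blk K 0 L * P = 0 := by
    have e1 : P = Wᵀ * (Qᵀ * blkE blk 0 L) := by
      conv_lhs => rw [← hP2, hPW]
      rw [Matrix.transpose_mul, Matrix.transpose_mul, s6a_blkE_symm]
    calc P * blkK blk K 0 L * P
        = (Wᵀ * (Qᵀ * blkE blk 0 L)) * blkK blk K 0 L * (blkE blk 0 L * Q * W) := by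
          rw [← e1, ← hPW]
      _ = Wᵀ * (Qᵀ * (blkE blk 0 L * blkK blk K 0 L * blkE blk 0 L) * Q) * W := by
          simp only [Matrix.mul_assoc]
      _ = Wᵀ * (Qᵀ * blkK blk K 0 L * Q) * W := by
          rw [s6a_blkE_mul_blkK, s6a_blkK_mul_blkE blk K hKb]
      _ = 0 := by rw [hiso]; simp
  have hKR : ∀ a b, |((K a b : ℚ) : ℝ)| ≤ (Hb : ℝ) := by
    intro a b
    have := hK a b
    exact_mod_cast this
  have hH1 : (0 : ℝ) ≤ ((cH1 (Fintype.card N) L H : ℤ) : ℝ) := by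
    exact_mod_cast s6a_cH1_nonneg _ _ _
  have hslow := s6a_chain_slow blk V L _ Q hV P hP1 hP2 hP3 hP4
  have hcurv := s6a_chain_curv blk K V q hKs hKb Hb hKR L hL H _ (by positivity) hH1 Pf hPf Q hQ hV
    P hP1 hP2 hP3 hP4 hP5
  have hk : (0 : ℝ) ≤ ((kerD (Fintype.card N) (cB2 (Fintype.card N) L H) : ℤ) : ℝ) := by
    exact_mod_cast s6a_kerD_nonneg _ _ (s6a_cB2_nonneg _ _ _)
  have hexp : ((chainH (Fintype.card N) L H Hb : ℤ) : ℝ) =
      ((kerD (Fintype.card N) (cB2 (Fintype.card N) L H) : ℤ) : ℝ)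
        + (Fintype.card N : ℝ) * ((cH1 (Fintype.card N) L H : ℤ) : ℝ)
        + (L * (H : ℝ) + L * ((Fintype.card N : ℝ) ^ 2 * Hb *
            ((Fintype.card N : ℝ) * ((cH1 (Fintype.card N) L H : ℤ) : ℝ)) * H)
          + (Fintype.card N : ℝ) ^ 2 * Hb * ((Fintype.card N : ℝ) * ((cH1 (Fintype.card N) L H : ℤ) : ℝ))
            * ((Fintype.card N : ℝ) * ((cH1 (Fintype.card N) L H : ℤ) : ℝ))) := by
    unfold chainH
    push_cast
    ring
  have t2 : (0 : ℝ) ≤ (Fintype.card N : ℝ) * ((cH1 (Fintype.card N) L H : ℤ) : ℝ) := by positivity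
  have t3 : (0 : ℝ) ≤ (L * (H : ℝ) + L * ((Fintype.card N : ℝ) ^ 2 * Hb *
            ((Fintype.card N : ℝ) * ((cH1 (Fintype.card N) L H : ℤ) : ℝ)) * H)
          + (Fintype.card N : ℝ) ^ 2 * Hb * ((Fintype.card N : ℝ) * ((cH1 (Fintype.card N) L H : ℤ) : ℝ))
            * ((Fintype.card N : ℝ) * ((cH1 (Fintype.card N) L H : ℤ) : ℝ))) := by positivity
  refine ⟨P, hP1, hP2, hP3, ?_, hP5, ?_, ?_⟩
  · intro a b
    have h1 : ((qHeight (P a b) : ℤ) : ℝ) ≤ ((kerD (Fintype.card N) (cB2 (Fintype.card N) L H) : ℤ) : ℝ) := by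
      exact_mod_cast hPh a b
    have h2 : ((qHeight (P a b) : ℤ) : ℝ) = (qHeight (P a b) : ℝ) := by push_cast; rfl
    rw [hexp]
    linarith
  · intro a
    rw [hexp]
    linarith [hslow a]
  · rw [hexp]
    linarith

end Claimed.Agent.R258
end

/- ===== packed: Claimed.Agent.R258.S6a.Path ===== -/
section
/-
Row 258 (S0498), block [S6a] (architect helper70).  **Lemma 6.2** (`lem:curvature-path`), proved from the leaves.

`s6a_path` : if consecutive tags of `t 0, …, t L` are joined by (unoriented) edges of budget `H` at depth `s`, then the endpoints satisfy (2) in their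
own endpoint coordinates with the explicit budget `pathH L dmax H Hb`;  `s6a_pathH_log` (PathArith.lean): `log pathH ≤ 100 ((L+1)(dmax+1))^6 (1 + log H + log Hb)`.
-/
set_option autoImplicit false
open scoped Matrix

namespace Claimed.Agent.R258

/-- **Lemma 6.2** (endpoint bounds along a short path) -/
theorem s6a_path (t : ℕ → LocTag) (L : ℕ) (s : ℤ) (dmax H Hb : ℕ) (hH : 1 ≤ H)
    (hd : ∀ i ≤ L, (t i).dim ≤ dmax) (hC : ∀ i ≤ L, ∀ a b, qHeight ((t i).C a b) ≤ Hb)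
    (hE : ∀ e < L, locEdge H s (t e) (t (e + 1)) ∨ locEdge H s (t (e + 1)) (t e)) :
    locEdge (pathH L dmax H Hb) s (t 0) (t L) := by
  rcases Nat.eq_zero_or_pos L with rfl | hL
  · exact s6a_locEdge_mono (le_max_left _ _) (s6a_locEdge_self s (t 0))
  have hH' : (1 : ℝ) ≤ (H : ℝ) := by exact_mod_cast hH
  have hE' : ∀ e < L, JSplit (jBlk t L) (jK t L) (jV t L s) (jq t s) e (e + 1) H := by
    intro e he
    rw [s6a_jsplit_iff t L s e (e + 1) he.le he (Nat.ne_of_lt (Nat.lt_succ_self e)) H hH']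
    rcases hE e he with h | h
    · exact h
    · exact s6a_locEdge_symm h
  have h1 := s6a_chain (jBlk t L) (jK t L) (jV t L s) (jq t s) (s6a_jK_skew t L) (s6a_jK_block t L) L H Hb hL hH
    (s6a_jK_entry_le t L Hb hC) hE'
  have hmono : ((chainH (Fintype.card (JIdx t L)) L H Hb : ℤ) : ℝ) ≤ pathH L dmax H Hb := by
    refine le_trans ?_ (le_max_right _ _)
    exact_mod_cast s6a_chainH_mono (s6a_card_JIdx_le t L dmax hd) L H Hb hL hH
  have h2 : JSplit (jBlk t L) (jK t L) (jV t L s) (jq t s) 0 L (pathH L dmax H Hb) := by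
    obtain ⟨Pf, h⟩ := h1
    exact ⟨Pf, h.idem, h.symm, h.supp, fun a b => (h.height a b).trans hmono, h.iso,
      fun a => (h.slow a).trans hmono, h.curv.trans hmono⟩
  have h3 : (1 : ℝ) ≤ pathH L dmax H Hb := le_trans (by norm_num) (le_max_left _ _)
  exact (s6a_jsplit_iff t L s 0 L (Nat.zero_le _) le_rfl (Nat.ne_of_lt hL) _ h3).1 h2

end Claimed.Agent.R258
end

/- ===== packed: Claimed.Agent.R258.S7nb.CapsA ===== -/
section
/-
Row 258, block [S7-NB], package P-NB-CAPS-A (architect helper192).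

Partial ancestor suprema `nbMu H e I = max { e J / |J| : J ∈ H, I ≤ J }` (value `0` if there is no such `J`) and the discrete form of
`∫ min(m_ν, Λ) ≤ τ |Ω_ν| + n e_ν` (`Λ ≤ τ 2^n`), sides.tex "Hull maxima and common cuts" (we replace the integral `∫_0^Λ min(M0, E/T) dT` by a dyadic sum).

PROOF NOTES.
* `nbMu` is a `Finset.sup` in `ℝ≥0` (`Finset.le_sup`, `Finset.sup_le`, `Finset.exists_mem_eq_sup` for nonempty index sets / `Finset.sup_eq_bot...` for the empty one, `Finset.lt_sup_iff`).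
* `nb_level_len`: every `I ∈ A` with `t < nbMu H e I` lies below some `J ∈ H` with `t |J| < e J`, hence below a member of `Kt = cellMaxs {J ∈ H : t |J| < e J}`;
  `cell_sum_len_le_of_below`; `t ∑_{K ∈ Kt} |K| ≤ ∑ e K ≤ e R` (`NbEnergy.anti`).
* `nb_support_len`: `0 < nbMu` gives `I ≤ J ∈ H`, so `I` lies below a member of the antichain `cellMaxs H ⊆ H`.
* `nb_min_le_levels`: pointwise inequality for a real `u ≥ 0`:  `min u Λ ≤ τ 1_{u>0} + ∑_{k<n} τ 2^k 1_{u > τ 2^k}` if `Λ ≤ τ 2^n`.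
  (If `u ≤ τ`: first term.  Otherwise let `j` be the number of `k < n` with `τ 2^k < u` (these are `k = 0..j-1`, `j ≥ 1`): right side `= τ + τ (2^j - 1) = τ 2^j`, and either `j = n` (`≥ Λ`) or `u ≤ τ 2^j`.
   Induction on `n` is easier: step `n → n+1`: if `u ≤ τ 2^n` use `min u Λ ≤ min u (τ 2^n)` and the case `n` with `Λ' = τ 2^n`; if `u > τ 2^n` all indicators are `1` and the sum is `τ 2^(n+1) ≥ Λ`.)
* `nb_trunc_sum`: multiply by `|I|`, sum over `I ∈ A`, exchange sums: `τ ω + ∑_{k<n} τ 2^k * (e R / (τ 2^k)) = τ ω + n e R`.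
-/
set_option autoImplicit false

open MeasureTheory Finset
open scoped NNReal

namespace Claimed.Agent.R258

open Classical in
/-- partial ancestor supremum of the averages of `e` over the cells of `H` above `I` -/
noncomputable def nbMu (H : Finset Cell) (e : Cell → ℝ) (I : Cell) : ℝ≥0 :=
  (H.filter fun J => I ≤ J).sup fun J => Real.toNNReal (e J / J.len)

theorem nb_avg_le_mu {H : Finset Cell} {e : Cell → ℝ} {I J : Cell} (hJ : J ∈ H) (hIJ : I ≤ J) :
    e J / J.len ≤ nbMu H e I := by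
  classical
  have h1 : Real.toNNReal (e J / J.len) ≤ nbMu H e I := by
    unfold nbMu
    exact Finset.le_sup (f := fun J => Real.toNNReal (e J / J.len))
      (Finset.mem_filter.2 ⟨hJ, hIJ⟩)
  exact (Real.le_coe_toNNReal _).trans (by exact_mod_cast h1)

theorem nb_lt_mu_iff {H : Finset Cell} {e : Cell → ℝ} {I : Cell} {t : ℝ} (ht : 0 ≤ t) :
    t < nbMu H e I ↔ ∃ J ∈ H, I ≤ J ∧ t * J.len < e J := by
  classical
  rw [← Real.toNNReal_lt_iff_lt_coe ht]
  unfold nbMu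
  rw [Finset.lt_sup_iff]
  constructor
  · rintro ⟨J, hJ, h⟩
    rw [Finset.mem_filter] at hJ
    rw [Real.toNNReal_lt_toNNReal_iff_of_nonneg ht, lt_div_iff₀ (cell_len_pos J)] at h
    exact ⟨J, hJ.1, hJ.2, h⟩
  · rintro ⟨J, hJ, hIJ, h⟩
    refine ⟨J, Finset.mem_filter.2 ⟨hJ, hIJ⟩, ?_⟩
    rw [Real.toNNReal_lt_toNNReal_iff_of_nonneg ht, lt_div_iff₀ (cell_len_pos J)]
    exact h

theorem nb_mu_mono {H : Finset Cell} {e : Cell → ℝ} {I I' : Cell} (h : I ≤ I') :
    nbMu H e I' ≤ nbMu H e I := by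
  classical
  unfold nbMu
  refine Finset.sup_mono fun J hJ => ?_
  rw [Finset.mem_filter] at hJ ⊢
  exact ⟨hJ.1, h.trans hJ.2⟩

open Classical in
theorem nb_level_len {R : Cell} {H : Finset Cell} (hH : ∀ J ∈ H, J ≤ R) {e : Cell → ℝ} (he : NbEnergy e)
    {A : Finset Cell} (hA : IsAntichain (· ≤ ·) (A : Set Cell)) {t : ℝ} (ht : 0 < t) :
    t * ∑ I ∈ A.filter (fun I => t < nbMu H e I), I.len ≤ e R := by
  set S := H.filter (fun J => t * J.len < e J) with hS
  have h1 : ∑ I ∈ A.filter (fun I => t < nbMu H e I), I.len ≤ ∑ K ∈ cellMaxs S, K.len := by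
    refine cell_sum_len_le_of_below (hA.subset (by exact_mod_cast Finset.filter_subset _ _)) ?_
    intro I hI
    rw [Finset.mem_filter] at hI
    obtain ⟨J, hJ, hIJ, hlt⟩ := (nb_lt_mu_iff ht.le).1 hI.2
    obtain ⟨K, hK, hJK⟩ := cell_exists_le_maxs (S := S) (Finset.mem_filter.2 ⟨hJ, hlt⟩)
    exact ⟨K, hK, hIJ.trans hJK⟩
  have h2 : t * ∑ K ∈ cellMaxs S, K.len ≤ ∑ K ∈ cellMaxs S, e K := by
    rw [Finset.mul_sum]
    refine Finset.sum_le_sum fun K hK => ?_
    exact (Finset.mem_filter.1 (cell_maxs_subset S hK)).2.le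
  have h3 : ∑ K ∈ cellMaxs S, e K ≤ e R :=
    he.anti R _ (cell_maxs_antichain S) fun K hK =>
      hH K (Finset.mem_filter.1 (cell_maxs_subset S hK)).1
  exact (mul_le_mul_of_nonneg_left h1 ht.le).trans (h2.trans h3)

open Classical in
theorem nb_support_len {H : Finset Cell} {e : Cell → ℝ} {ω : ℝ}
    (hω : ∀ B : Finset Cell, B ⊆ H → IsAntichain (· ≤ ·) (B : Set Cell) → ∑ J ∈ B, J.len ≤ ω)
    {A : Finset Cell} (hA : IsAntichain (· ≤ ·) (A : Set Cell)) :
    ∑ I ∈ A.filter (fun I => 0 < nbMu H e I), I.len ≤ ω := by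
  have h1 : ∑ I ∈ A.filter (fun I => 0 < nbMu H e I), I.len ≤ ∑ K ∈ cellMaxs H, K.len := by
    refine cell_sum_len_le_of_below (hA.subset (by exact_mod_cast Finset.filter_subset _ _)) ?_
    intro I hI
    rw [Finset.mem_filter] at hI
    have h0 : (0 : ℝ) < nbMu H e I := by exact_mod_cast hI.2
    obtain ⟨J, hJ, hIJ, -⟩ := (nb_lt_mu_iff le_rfl).1 h0
    obtain ⟨K, hK, hJK⟩ := cell_exists_le_maxs hJ
    exact ⟨K, hK, hIJ.trans hJK⟩
  exact h1.trans (hω _ (cell_maxs_subset H) (cell_maxs_antichain H))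

theorem nb_capsA_geom (τ : ℝ) (n : ℕ) : τ + ∑ k ∈ Finset.range n, τ * 2 ^ k = τ * 2 ^ n := by
  induction n with
  | zero => simp
  | succ n ih => rw [Finset.sum_range_succ, ← add_assoc, ih]; ring

theorem nb_min_le_levels {u Λ τ : ℝ} (hu : 0 ≤ u) (hτ : 0 < τ) (n : ℕ) (hΛ : Λ ≤ τ * 2 ^ n) :
    min u Λ ≤ (if 0 < u then τ else 0) + ∑ k ∈ Finset.range n, if τ * 2 ^ k < u then τ * 2 ^ k else 0 := by
  induction n generalizing Λ with
  | zero =>
    simp only [pow_zero, mul_one] at hΛ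
    simp only [Finset.range_zero, Finset.sum_empty, add_zero]
    split_ifs with h
    · exact (min_le_right _ _).trans hΛ
    · exact (min_le_left _ _).trans (not_lt.1 h)
  | succ n ih =>
    rw [Finset.sum_range_succ]
    by_cases hc : τ * 2 ^ n < u
    · have hall : ∀ k ∈ Finset.range n, (if τ * 2 ^ k < u then τ * 2 ^ k else 0) = τ * 2 ^ k := by
        intro k hk
        rw [if_pos]
        refine lt_of_le_of_lt ?_ hc
        have : (2 : ℝ) ^ k ≤ 2 ^ n :=
          pow_le_pow_right₀ (by norm_num) (Finset.mem_range.1 hk).le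
        exact mul_le_mul_of_nonneg_left this hτ.le
      have hu0 : 0 < u := lt_of_le_of_lt (by positivity) hc
      rw [Finset.sum_congr rfl hall, if_pos hc, if_pos hu0, ← add_assoc, nb_capsA_geom]
      refine (min_le_right _ _).trans (hΛ.trans (le_of_eq ?_))
      ring
    · rw [if_neg hc, add_zero]
      have h := ih (Λ := τ * 2 ^ n) le_rfl
      rw [min_eq_left (not_lt.1 hc)] at h
      exact (min_le_left _ _).trans h

/-- discrete form of `∫ min(m, Λ) ≤ τ |Ω| + n e(R)` -/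
theorem nb_trunc_sum {R : Cell} {H : Finset Cell} (hH : ∀ J ∈ H, J ≤ R) {e : Cell → ℝ} (he : NbEnergy e)
    {ω : ℝ}
    (hω : ∀ B : Finset Cell, B ⊆ H → IsAntichain (· ≤ ·) (B : Set Cell) → ∑ J ∈ B, J.len ≤ ω)
    {A : Finset Cell} (hA : IsAntichain (· ≤ ·) (A : Set Cell)) {Λ τ : ℝ} (hτ : 0 < τ) (n : ℕ)
    (hΛ : Λ ≤ τ * 2 ^ n) :
    ∑ I ∈ A, I.len * min (nbMu H e I : ℝ) Λ ≤ τ * ω + n * e R := by
  classical
  have h1 : ∀ I ∈ A, I.len * min (nbMu H e I : ℝ) Λ
      ≤ (if (0 : ℝ) < nbMu H e I then τ * I.len else 0)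
        + ∑ k ∈ Finset.range n, if τ * 2 ^ k < (nbMu H e I : ℝ) then τ * 2 ^ k * I.len else 0 := by
    intro I _
    have h := nb_min_le_levels (u := (nbMu H e I : ℝ)) (NNReal.coe_nonneg _) hτ n hΛ
    have h' := mul_le_mul_of_nonneg_left h (cell_len_nonneg I)
    refine h'.trans (le_of_eq ?_)
    rw [mul_add, Finset.mul_sum]
    congr 1
    · split_ifs <;> ring
    · refine Finset.sum_congr rfl fun k _ => ?_
      split_ifs <;> ring
  refine (Finset.sum_le_sum h1).trans ?_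
  rw [Finset.sum_add_distrib, Finset.sum_comm]
  have h2 : ∑ I ∈ A, (if (0 : ℝ) < nbMu H e I then τ * I.len else 0) ≤ τ * ω := by
    rw [← Finset.sum_filter, ← Finset.mul_sum]
    refine mul_le_mul_of_nonneg_left ?_ hτ.le
    have := nb_support_len (e := e) hω hA
    refine le_trans (le_of_eq ?_) this
    refine Finset.sum_congr ?_ fun _ _ => rfl
    ext I
    simp only [Finset.mem_filter, NNReal.coe_pos]
  have h3 : ∀ k ∈ Finset.range n,
      ∑ I ∈ A, (if τ * 2 ^ k < (nbMu H e I : ℝ) then τ * 2 ^ k * I.len else 0) ≤ e R := by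
    intro k _
    rw [← Finset.sum_filter, ← Finset.mul_sum]
    exact nb_level_len hH he hA (by positivity)
  have h4 := Finset.sum_le_sum h3
  rw [Finset.sum_const, Finset.card_range, nsmul_eq_mul] at h4
  exact add_le_add h2 h4

end Claimed.Agent.R258
end

/- ===== packed: Claimed.Agent.R258.S7nb.Caps ===== -/
section
/-
Row 258, block [S7-NB], package P-NB-CAPS (architect helper192).

**Hull maxima and common cuts** (sides.tex l.765-830), abstract form.  `ι` = indices `ν`; `H ν` = hull cells; `e ν` = energy of the stack `ν`; `ω ν ≥ |Ω_ν|`.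
After stops of total length `≤ ε |R|`, the JOINT CAP `∑_ν (average of e ν over a retained hull cell sel ν)  ≤  8 E (1 + log(2 + M0/ε)) / ε` holds for every choice of retained hull cells
`sel ν ∈ H ν` along one spatial path (= having a common lower bound `I`, which need not be retained: "even inside a stopped region only the earlier retained ancestors contribute").

PROOF.  If `E = 0`: all `e ν J = 0` for `J ≤ R` (`NbEnergy.mono`, `∑ e ν R ≤ 0`, nonnegativity), take `stops = ∅`.  Let `E > 0`.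
  `Λ = 2E/ε`, `τ = E/M0`, `n` = a natural number with `2M0/ε ≤ 2^n ≤ 4M0/ε` (e.g. `n = ⌈logb 2 (2M0/ε)⌉₊`; only `Λ ≤ τ 2^n` and `1 + n ≤ 4 (1 + log(2 + M0/ε))` are used),
  `cap' = 2E(1+n)/ε`, `HH = ⋃_ν H ν` (`Finset.univ.biUnion H`).
  `bad1 I := ∃ ν, Λ < nbMu (H ν) (e ν) I`,  `bad2 I := cap' < ∑_ν min (nbMu (H ν) (e ν) I) Λ`;  `S1 = cellFirst HH bad1`, `S2 = cellFirst HH bad2`, `stops = S1 ∪ S2`.
  COST 1: `S1` is an antichain; `∑_{I ∈ S1} |I| ≤ ∑_ν ∑_{I ∈ S1, Λ < nbMu_ν I} |I| ≤ ∑_ν e ν R / Λ ≤ E|R|/Λ = ε|R|/2` (`nb_level_len`).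
  COST 2: `cap' ∑_{I ∈ S2} |I| ≤ ∑_{I ∈ S2} |I| ∑_ν min(..) = ∑_ν ∑_{I ∈ S2} |I| min(..) ≤ ∑_ν (τ ω ν + n e ν R) ≤ τ M0 |R| + n E |R| = (1+n) E |R|` (`nb_trunc_sum`), so `∑ |I| ≤ ε|R|/2`.
  CAP: let `s`, `sel`, `I` be given, `s` nonempty (otherwise the sum is `0`).  The cells `sel ν`, `ν ∈ s`, are pairwise comparable (`cell_chain`); let `J* = sel ν₀` be the smallest one
  (`Finset.exists_min_image` w.r.t. `-depth`, or induction).  `J* ∈ HH` is retained, so `¬ bad1 J*`, `¬ bad2 J*` (`cell_first_retained`, `cell_retained_union`).  For `ν ∈ s`: `e ν (sel ν)/|sel ν| ≤ nbMu_ν J*`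
  (`nb_avg_le_mu`, `J* ≤ sel ν`) `= min (nbMu_ν J*) Λ`.  Sum over `ν ∈ s ⊆ univ` (terms nonnegative): `≤ cap' ≤ 8E(1 + log(2 + M0/ε))/ε`.
  NUMERICS (`nb_caps_num`): `n ≤ 1 + logb 2 (2M0/ε) = 2 + log(M0/ε)/log 2`, `1/log 2 ≤ 3/2` (`Real.log_two_gt_d9`), `log(M0/ε) ≤ log(2 + M0/ε)`, `M0/ε ≥ 1`.
-/
set_option autoImplicit false

open MeasureTheory Finset
open scoped NNReal

namespace Claimed.Agent.R258

/-- the number of dyadic levels -/
theorem nb_caps_num {M0 ε : ℝ} (hM0 : 1 ≤ M0) (hε : 0 < ε) (hε1 : ε < 1) :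
    ∃ n : ℕ, 2 * M0 / ε ≤ 2 ^ n ∧ (1 + (n : ℝ)) ≤ 4 * (1 + Real.log (2 + M0 / ε)) := by
  set y := M0 / ε with hy
  have hy1 : 1 ≤ y := (one_le_div hε).2 (hε1.le.trans hM0)
  have hy0 : 0 < y := lt_of_lt_of_le one_pos hy1
  have hx : 2 * M0 / ε = 2 * y := by rw [hy]; ring
  have hl2 : 0.6931471803 < Real.log 2 := Real.log_two_gt_d9
  have hl2' : 0 < Real.log 2 := by linarith
  have hly : 0 ≤ Real.log y := Real.log_nonneg hy1
  have hL : Real.logb 2 (2 * y) = 1 + Real.log y / Real.log 2 := by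
    rw [Real.logb_mul (by norm_num) hy0.ne', Real.logb_self_eq_one (by norm_num)]
    rfl
  have hL0 : 0 ≤ Real.logb 2 (2 * y) := by rw [hL]; positivity
  refine ⟨⌈Real.logb 2 (2 * y)⌉₊, ?_, ?_⟩
  · rw [hx]
    calc 2 * y = (2 : ℝ) ^ Real.logb 2 (2 * y) :=
          (Real.rpow_logb (by norm_num) (by norm_num) (by positivity)).symm
      _ ≤ (2 : ℝ) ^ ((⌈Real.logb 2 (2 * y)⌉₊ : ℕ) : ℝ) :=
          Real.rpow_le_rpow_of_exponent_le (by norm_num) (Nat.le_ceil _)
      _ = 2 ^ ⌈Real.logb 2 (2 * y)⌉₊ := Real.rpow_natCast _ _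
  · have h1 : (⌈Real.logb 2 (2 * y)⌉₊ : ℝ) < Real.logb 2 (2 * y) + 1 := Nat.ceil_lt_add_one hL0
    have h2 : Real.log y / Real.log 2 ≤ 3 / 2 * Real.log y := by
      rw [div_le_iff₀ hl2']
      nlinarith
    have h3 : Real.log y ≤ Real.log (2 + y) := Real.log_le_log hy0 (by linarith)
    have h4 : Real.logb 2 (2 * y) + 1 = 2 + Real.log y / Real.log 2 := by rw [hL]; ring
    rw [h4] at h1
    linarith

theorem nb_caps {ι : Type*} [Fintype ι] (R : Cell) (H : ι → Finset Cell) (hH : ∀ ν, ∀ J ∈ H ν, J ≤ R)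
    (e : ι → Cell → ℝ) (he : ∀ ν, NbEnergy (e ν)) {E M0 : ℝ} (hE : 0 ≤ E) (hM0 : 1 ≤ M0)
    (hEsum : ∑ ν, e ν R ≤ E * R.len) (ω : ι → ℝ)
    (hω : ∀ ν, ∀ B : Finset Cell, B ⊆ H ν → IsAntichain (· ≤ ·) (B : Set Cell) → ∑ J ∈ B, J.len ≤ ω ν)
    (hωsum : ∑ ν, ω ν ≤ M0 * R.len) {ε : ℝ} (hε : 0 < ε) (hε1 : ε < 1) :
    ∃ stops : Finset Cell, (∀ S ∈ stops, S ≤ R) ∧ ∑ S ∈ stops, S.len ≤ ε * R.len ∧
      ∀ (I : Cell) (s : Finset ι) (sel : ι → Cell),
        (∀ ν ∈ s, sel ν ∈ H ν ∧ I ≤ sel ν ∧ cellRetained stops (sel ν)) →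
        ∑ ν ∈ s, e ν (sel ν) / (sel ν).len ≤ 8 * E * (1 + Real.log (2 + M0 / ε)) / ε := by
  classical
  have hlen := cell_len_pos R
  have hlog : 0 ≤ Real.log (2 + M0 / ε) := by
    apply Real.log_nonneg
    have : 0 ≤ M0 / ε := by positivity
    linarith
  rcases hE.eq_or_lt with rfl | hE
  · -- all energies vanish
    have h0 : ∀ ν, e ν R ≤ 0 := by
      intro ν
      have h1 : e ν R ≤ ∑ ν, e ν R :=
        Finset.single_le_sum (f := fun ν => e ν R) (fun ν _ => (he ν).nonneg R) (Finset.mem_univ ν)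
      linarith
    refine ⟨∅, by simp, by simp; positivity, ?_⟩
    intro I s sel hsel
    have : ∑ ν ∈ s, e ν (sel ν) / (sel ν).len ≤ 0 := by
      refine Finset.sum_nonpos fun ν hν => ?_
      have h1 : e ν (sel ν) ≤ 0 := ((he ν).mono (hH ν _ (hsel ν hν).1)).trans (h0 ν)
      exact div_nonpos_of_nonpos_of_nonneg h1 (cell_len_nonneg _)
    simpa using this
  obtain ⟨n, hn1, hn2⟩ := nb_caps_num hM0 hε hε1
  have hM0' : 0 < M0 := lt_of_lt_of_le one_pos hM0
  set Λ := 2 * E / ε with hΛ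
  set τ := E / M0 with hτ
  set cap := 2 * E * (1 + (n : ℝ)) / ε with hcap
  have hΛ0 : 0 < Λ := by positivity
  have hτ0 : 0 < τ := by positivity
  have hcap0 : 0 < cap := by positivity
  have hΛτ : Λ ≤ τ * 2 ^ n := by
    have : Λ = τ * (2 * M0 / ε) := by rw [hΛ, hτ]; field_simp
    rw [this]
    exact mul_le_mul_of_nonneg_left hn1 hτ0.le
  set HH := (Finset.univ : Finset ι).biUnion H with hHH
  have hHHle : ∀ J ∈ HH, J ≤ R := by
    intro J hJ
    obtain ⟨ν, -, hν⟩ := Finset.mem_biUnion.1 hJ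
    exact hH ν J hν
  set bad1 : Cell → Prop := fun I => ∃ ν, Λ < nbMu (H ν) (e ν) I with hbad1
  set bad2 : Cell → Prop := fun I => cap < ∑ ν, min (nbMu (H ν) (e ν) I : ℝ) Λ with hbad2
  set S1 := cellFirst HH bad1 with hS1
  set S2 := cellFirst HH bad2 with hS2
  have hA1 : IsAntichain (· ≤ ·) (S1 : Set Cell) := cell_first_antichain HH bad1
  have hA2 : IsAntichain (· ≤ ·) (S2 : Set Cell) := cell_first_antichain HH bad2
  -- cost of the individual crossings
  have cost1 : ∑ I ∈ S1, I.len ≤ ε * R.len / 2 := by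
    have h1 : ∑ I ∈ S1, I.len
        ≤ ∑ ν, ∑ I ∈ S1.filter (fun I => Λ < nbMu (H ν) (e ν) I), I.len := by
      simp only [Finset.sum_filter]
      rw [Finset.sum_comm]
      refine Finset.sum_le_sum fun I hI => ?_
      obtain ⟨ν, hν⟩ : bad1 I := cell_first_bad hI
      have := Finset.single_le_sum
        (f := fun ν => if Λ < (nbMu (H ν) (e ν) I : ℝ) then I.len else 0)
        (fun ν _ => by split_ifs <;> [exact cell_len_nonneg I; exact le_rfl]) (Finset.mem_univ ν)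
      simpa only [if_pos hν] using this
    have h2 : Λ * ∑ ν, ∑ I ∈ S1.filter (fun I => Λ < nbMu (H ν) (e ν) I), I.len
        ≤ ∑ ν, e ν R := by
      rw [Finset.mul_sum]
      exact Finset.sum_le_sum fun ν _ => nb_level_len (hH ν) (he ν) hA1 hΛ0
    have h3 : Λ * ∑ I ∈ S1, I.len ≤ E * R.len :=
      (mul_le_mul_of_nonneg_left h1 hΛ0.le).trans (h2.trans hEsum)
    have h4 : ∑ I ∈ S1, I.len ≤ E * R.len / Λ := by
      rw [le_div_iff₀ hΛ0]; linarith
    refine h4.trans (le_of_eq ?_)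
    rw [hΛ]; field_simp
  -- cost of the joint crossing
  have cost2 : ∑ I ∈ S2, I.len ≤ ε * R.len / 2 := by
    have h1 : cap * ∑ I ∈ S2, I.len ≤ ∑ I ∈ S2, I.len * ∑ ν, min (nbMu (H ν) (e ν) I : ℝ) Λ := by
      rw [Finset.mul_sum]
      refine Finset.sum_le_sum fun I hI => ?_
      have hb : bad2 I := cell_first_bad hI
      rw [mul_comm]
      exact mul_le_mul_of_nonneg_left hb.le (cell_len_nonneg I)
    have h2 : ∑ I ∈ S2, I.len * ∑ ν, min (nbMu (H ν) (e ν) I : ℝ) Λ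
        ≤ ∑ ν, (τ * ω ν + n * e ν R) := by
      simp only [Finset.mul_sum]
      rw [Finset.sum_comm]
      exact Finset.sum_le_sum fun ν _ => nb_trunc_sum (hH ν) (he ν) (hω ν) hA2 hτ0 n hΛτ
    have h3 : ∑ ν, (τ * ω ν + n * e ν R) ≤ (1 + (n : ℝ)) * E * R.len := by
      rw [Finset.sum_add_distrib, ← Finset.mul_sum, ← Finset.mul_sum]
      have a1 : τ * ∑ ν, ω ν ≤ τ * (M0 * R.len) := mul_le_mul_of_nonneg_left hωsum hτ0.le
      have a2 : (n : ℝ) * ∑ ν, e ν R ≤ n * (E * R.len) :=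
        mul_le_mul_of_nonneg_left hEsum (Nat.cast_nonneg n)
      have a3 : τ * (M0 * R.len) = E * R.len := by rw [hτ]; field_simp
      linarith
    have h4 : ∑ I ∈ S2, I.len ≤ (1 + (n : ℝ)) * E * R.len / cap := by
      rw [le_div_iff₀ hcap0]; linarith
    refine h4.trans (le_of_eq ?_)
    rw [hcap]; field_simp
  refine ⟨S1 ∪ S2, ?_, ?_, ?_⟩
  · intro S hS
    rcases Finset.mem_union.1 hS with h | h
    · exact hHHle S (cell_first_subset _ _ h)
    · exact hHHle S (cell_first_subset _ _ h)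
  · have h := Finset.sum_union_inter (s₁ := S1) (s₂ := S2) (f := fun I : Cell => I.len)
    have h' : 0 ≤ ∑ I ∈ S1 ∩ S2, I.len := Finset.sum_nonneg fun I _ => cell_len_nonneg I
    linarith
  · intro I s sel hsel
    have hRHS : cap ≤ 8 * E * (1 + Real.log (2 + M0 / ε)) / ε := by
      rw [hcap]
      apply div_le_div_of_nonneg_right _ hε.le
      nlinarith
    rcases s.eq_empty_or_nonempty with rfl | hs
    · simp only [Finset.sum_empty]
      exact hcap0.le.trans hRHS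
    obtain ⟨ν₀, hν₀, hmax⟩ := Finset.exists_max_image s (fun ν => (sel ν).depth) hs
    set J := sel ν₀ with hJ
    have hJle : ∀ ν ∈ s, J ≤ sel ν := fun ν hν =>
      cell_chain_of_depth (hsel ν₀ hν₀).2.1 (hsel ν hν).2.1 (hmax ν hν)
    have hJHH : J ∈ HH := Finset.mem_biUnion.2 ⟨ν₀, Finset.mem_univ _, (hsel ν₀ hν₀).1⟩
    have hret := cell_retained_union.1 (hsel ν₀ hν₀).2.2
    have hnb1 : ¬ bad1 J := cell_first_retained hJHH hret.1
    have hnb2 : ¬ bad2 J := cell_first_retained hJHH hret.2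
    have h1 : ∀ ν ∈ s, e ν (sel ν) / (sel ν).len ≤ min (nbMu (H ν) (e ν) J : ℝ) Λ := by
      intro ν hν
      refine le_min (nb_avg_le_mu (hsel ν hν).1 (hJle ν hν)) ?_
      refine (nb_avg_le_mu (hsel ν hν).1 (hJle ν hν)).trans ?_
      by_contra hc
      exact hnb1 ⟨ν, not_le.1 hc⟩
    calc ∑ ν ∈ s, e ν (sel ν) / (sel ν).len
        ≤ ∑ ν ∈ s, min (nbMu (H ν) (e ν) J : ℝ) Λ := Finset.sum_le_sum h1
      _ ≤ ∑ ν, min (nbMu (H ν) (e ν) J : ℝ) Λ :=
          Finset.sum_le_sum_of_subset_of_nonneg (Finset.subset_univ s)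
            fun ν _ _ => le_min (NNReal.coe_nonneg _) hΛ0.le
      _ ≤ cap := not_lt.1 hnb2
      _ ≤ _ := hRHS

end Claimed.Agent.R258
end

/- ===== packed: Claimed.Agent.R258.S7nb.Sparse ===== -/
section
/-
Row 258, block [S7-NB], package P-NB-SPARSE (architect helper192).

Existence of the sparse stopping decomposition (sides.tex, "The near-band estimate": from a piece root `Q`, stop at the first descendants where either squared
stack average exceeds sixteen times its average on `Q`; their total length is at most `|Q|/8`).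

CONSTRUCTION.  `cr J r` ("crossing") := `16 * (ea r / r.len) < ea J / J.len ∨ 16 * (eb r / r.len) < eb J / J.len`.
`rt` is defined from the top of `H` downwards:
    `rt J = J`                                                     if `J.anc 1 ∉ H`,
    `rt J = if cr J (rt (J.anc 1)) then J else rt (J.anc 1)`       if `J.anc 1 ∈ H`.
E.g. by structural recursion on a fuel `n`: `go 0 J = J`, `go (n+1) J = if J.anc 1 ∈ H then (if cr J (go n (J.anc 1)) then J else go n (J.anc 1)) else J`,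
`rt J = go (J.depth - d0).toNat J`, where `d0` is a lower bound of the depths of `H` (so that fuel `0` is reached only at cells whose parent is not in `H`).
Or prove the existence by induction on `H.card`, removing a minimal (deepest) cell (a convex set stays convex), carrying the extra invariant (X) below.
`Qs = H.filter (rt J = J)`.
PROPERTIES, all by induction along the chain `J, J.anc 1, ...` inside `H` (`cell_induction_down`-style / induction on the fuel):
  `rt J ∈ H`, `J ≤ rt J`, `rt (rt J) = rt J`, all cells between `J` and `rt J` have the same `rt` (they are in `H` by convexity), no crossing inside a piece: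
  `¬ cr J (rt J)` (trivial if `rt J = J` since `x ≤ 16 x` for `x ≥ 0`), which is `avg_a`, `avg_b`.
  (X) a root `Q'` with `Q'.anc 1 ∈ H` satisfies `cr Q' (rt (Q'.anc 1))`.
SPARSENESS.  Let `Q ∈ Qs` and `Q'` maximal among the roots `< Q`.  All cells between `Q'` and `Q` are in `H`; `r = rt (Q'.anc 1)` is a root `≥ Q'.anc 1 > Q'`, comparable with `Q`
  (`cell_chain`): `r < Q` contradicts maximality, `Q < r` gives `rt Q = r ≠ Q` by `conv`; so `r = Q` and `cr Q' Q` by (X).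
  The maximal roots below `Q` form an antichain (`cell_maxs_antichain`) of cells `≤ Q`.  Those with `16 (ea Q/|Q|) |Q'| < ea Q'`: summing,
  `16 (ea Q/|Q|) ∑ |Q'| ≤ ∑ ea Q' ≤ ea Q` (`NbEnergy.anti`), so `∑ |Q'| ≤ |Q|/16` if `ea Q > 0`; if `ea Q = 0` there is no such `Q'` (`ea Q' ≤ ea Q = 0`).  The same for `eb`.
-/
set_option autoImplicit false

open MeasureTheory Finset

namespace Claimed.Agent.R258

/-- cost of one family of crossings -/
theorem nb_crossing_len {e : Cell → ℝ} (he : NbEnergy e) {Q : Cell} {A : Finset Cell}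
    (hA : IsAntichain (· ≤ ·) (A : Set Cell)) (hle : ∀ J ∈ A, J ≤ Q)
    (hcr : ∀ J ∈ A, 16 * (e Q / Q.len) < e J / J.len) : ∑ J ∈ A, J.len ≤ Q.len / 16 := by
  rcases A.eq_empty_or_nonempty with rfl | ⟨J0, hJ0⟩
  · rw [Finset.sum_empty]
    exact div_nonneg (cell_len_nonneg Q) (by norm_num)
  have hQl := cell_len_pos Q
  have hQpos : 0 < e Q := by
    have h1 := hcr J0 hJ0
    have h2 : 0 ≤ 16 * (e Q / Q.len) :=
      mul_nonneg (by norm_num) (div_nonneg (he.nonneg Q) hQl.le)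
    have h3 : 0 < e J0 / J0.len := lt_of_le_of_lt h2 h1
    have h4 : 0 < e J0 := by
      by_contra hn
      exact absurd h3 (not_lt.2 (div_nonpos_of_nonpos_of_nonneg (not_lt.1 hn) (cell_len_nonneg J0)))
    exact lt_of_lt_of_le h4 (he.mono (hle J0 hJ0))
  have h5 : ∑ J ∈ A, 16 * (e Q / Q.len) * J.len ≤ ∑ J ∈ A, e J := by
    refine Finset.sum_le_sum fun J hJ => ?_
    have := hcr J hJ
    rw [lt_div_iff₀ (cell_len_pos J)] at this
    exact this.le
  have h6 := he.anti Q A hA hle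
  rw [← Finset.mul_sum] at h5
  have h7 : 16 * (e Q / Q.len) * ∑ J ∈ A, J.len ≤ e Q := h5.trans h6
  rw [le_div_iff₀ (by norm_num)]
  have h8 : e Q * ((∑ J ∈ A, J.len) * 16) ≤ e Q * Q.len := by
    calc e Q * ((∑ J ∈ A, J.len) * 16) = Q.len * (16 * (e Q / Q.len) * ∑ J ∈ A, J.len) := by
          field_simp
      _ ≤ Q.len * e Q := mul_le_mul_of_nonneg_left h7 hQl.le
      _ = e Q * Q.len := mul_comm _ _
  exact le_of_mul_le_mul_left h8 hQpos

open Classical in
/-- the root map with fuel -/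
noncomputable def nbGo (H : Finset Cell) (cr : Cell → Cell → Prop) : ℕ → Cell → Cell
  | 0, J => J
  | n + 1, J =>
    if J.anc 1 ∈ H then (if cr J (nbGo H cr n (J.anc 1)) then J else nbGo H cr n (J.anc 1)) else J

theorem nb_exists_depth_lb (H : Finset Cell) : ∃ d0 : ℤ, ∀ J ∈ H, d0 ≤ J.depth := by
  obtain ⟨b, hb⟩ := (H.image Cell.depth).bddBelow
  exact ⟨b, fun J hJ => hb (Finset.mem_coe.2 (Finset.mem_image_of_mem Cell.depth hJ))⟩

open Classical in
/-- existence of a root map satisfying the recursion from the top of `H` downwards -/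
theorem nb_exists_rt (H : Finset Cell) (cr : Cell → Cell → Prop) :
    ∃ rt : Cell → Cell, ∀ J, rt J =
      if J.anc 1 ∈ H then (if cr J (rt (J.anc 1)) then J else rt (J.anc 1)) else J := by
  obtain ⟨d0, hd0⟩ := nb_exists_depth_lb H
  refine ⟨fun J => nbGo H cr (J.depth - d0).toNat J, fun J => ?_⟩
  by_cases h : J.anc 1 ∈ H
  · have h1 := hd0 _ h
    rw [cell_depth_anc] at h1
    push_cast at h1
    have h2 : (J.depth - d0).toNat = ((J.anc 1).depth - d0).toNat + 1 := by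
      rw [cell_depth_anc]
      push_cast
      omega
    simp only []
    rw [h2]
    rfl
  · rw [if_neg h]
    simp only []
    cases (J.depth - d0).toNat with
    | zero => rfl
    | succ n =>
      unfold nbGo
      rw [if_neg h]

/-- induction from the top of `H` downwards -/
theorem nb_induction_top (H : Finset Cell) {P : Cell → Prop}
    (h : ∀ J ∈ H, (J.anc 1 ∈ H → P (J.anc 1)) → P J) : ∀ J ∈ H, P J := by
  obtain ⟨d0, hd0⟩ := nb_exists_depth_lb H
  have key : ∀ n : ℕ, ∀ J ∈ H, (J.depth - d0).toNat ≤ n → P J := by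
    intro n
    induction n with
    | zero =>
      intro J hJ hn
      refine h J hJ fun h' => ?_
      have h1 := hd0 _ h'
      rw [cell_depth_anc] at h1
      push_cast at h1
      omega
    | succ n ih =>
      intro J hJ hn
      refine h J hJ fun h' => ih _ h' ?_
      rw [cell_depth_anc]
      push_cast
      omega
  exact fun J hJ => key _ J hJ le_rfl

open Classical in
/-- the properties of the root map -/
theorem nb_rt_props {H : Finset Cell} {cr : Cell → Cell → Prop} (hcr : ∀ J, ¬ cr J J) {rt : Cell → Cell}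
    (hrt : ∀ J, rt J = if J.anc 1 ∈ H then (if cr J (rt (J.anc 1)) then J else rt (J.anc 1)) else J) :
    ∀ J ∈ H, rt J ∈ H ∧ J ≤ rt J ∧ rt (rt J) = rt J ∧ ¬ cr J (rt J) ∧
      ∀ J' : Cell, J ≤ J' → J' ≤ rt J → rt J' = rt J := by
  refine nb_induction_top H fun J hJ ih => ?_
  have hself : rt J = J → rt J ∈ H ∧ J ≤ rt J ∧ rt (rt J) = rt J ∧ ¬ cr J (rt J) ∧
      ∀ J' : Cell, J ≤ J' → J' ≤ rt J → rt J' = rt J := by
    intro he
    rw [he]
    refine ⟨hJ, le_rfl, he, hcr J, fun J' h1 h2 => ?_⟩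
    rw [le_antisymm h2 h1, he]
  by_cases h : J.anc 1 ∈ H
  · by_cases hc : cr J (rt (J.anc 1))
    · exact hself (by rw [hrt J, if_pos h, if_pos hc])
    · have he : rt J = rt (J.anc 1) := by
        conv_lhs => rw [hrt J, if_pos h, if_neg hc]
      obtain ⟨h1, h2, h3, _, h5⟩ := ih h
      rw [he]
      refine ⟨h1, (cell_le_anc J 1).trans h2, h3, hc, fun J' h6 h7 => ?_⟩
      rcases h6.eq_or_lt with h8 | h8
      · rw [← h8, he]
      · exact h5 J' (cell_lt_iff_parent_le.1 h8) h7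
  · exact hself (by rw [hrt J, if_neg h])

theorem nb_sparse_exists {H : Finset Cell} (hH : NbConvex H) {ea eb : Cell → ℝ} (ha : NbEnergy ea)
    (hb : NbEnergy eb) : ∃ (Qs : Finset Cell) (rt : Cell → Cell), NbSparse H ea eb Qs rt := by
  classical
  set cr : Cell → Cell → Prop := fun J r =>
    16 * (ea r / r.len) < ea J / J.len ∨ 16 * (eb r / r.len) < eb J / J.len with hcrdef
  have hcr : ∀ J, ¬ cr J J := by
    intro J h
    have h1 : 0 ≤ ea J / J.len := div_nonneg (ha.nonneg J) (cell_len_nonneg J)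
    have h2 : 0 ≤ eb J / J.len := div_nonneg (hb.nonneg J) (cell_len_nonneg J)
    rcases h with h | h <;> linarith
  obtain ⟨rt, hrt⟩ := nb_exists_rt H cr
  have hp := nb_rt_props hcr hrt
  have hX : ∀ Q' ∈ H, rt Q' = Q' → Q'.anc 1 ∈ H → cr Q' (rt (Q'.anc 1)) := by
    intro Q' _ he h
    by_contra hc
    have h1 : rt Q' = rt (Q'.anc 1) := by
      conv_lhs => rw [hrt Q', if_pos h, if_neg hc]
    have h2 : Q'.anc 1 ≤ Q' := by
      have := (hp _ h).2.1
      rwa [← h1, he] at this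
    exact absurd h2 (not_le_of_gt (cell_lt_anc Q' one_pos))
  refine ⟨H.filter fun J => rt J = J, rt, Finset.filter_subset _ _,
    fun J hJ => Finset.mem_filter.2 ⟨(hp J hJ).1, (hp J hJ).2.2.1⟩, fun J hJ => (hp J hJ).2.1,
    fun Q hQ => (Finset.mem_filter.1 hQ).2, fun J hJ => (hp J hJ).2.2.2.2, fun J hJ => ?_,
    fun J hJ => ?_, fun Q hQ => ?_⟩
  · exact not_lt.1 fun h => (hp J hJ).2.2.2.1 (Or.inl h)
  · exact not_lt.1 fun h => (hp J hJ).2.2.2.1 (Or.inr h)
  · obtain ⟨hQH, hQr⟩ := Finset.mem_filter.1 hQ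
    set M := cellMaxs ((H.filter fun J => rt J = J).filter fun Q' => Q' < Q) with hM
    have hMa : IsAntichain (· ≤ ·) (M : Set Cell) := cell_maxs_antichain _
    have hMcr : ∀ Q' ∈ M, Q' ≤ Q ∧ cr Q' Q := by
      intro Q' hQ'
      obtain ⟨h1, hmax⟩ := cell_mem_maxs.1 hQ'
      obtain ⟨h2, hlt⟩ := Finset.mem_filter.1 h1
      obtain ⟨hQ'H, hQ'r⟩ := Finset.mem_filter.1 h2
      have hpar : Q'.anc 1 ≤ Q := cell_lt_iff_parent_le.1 hlt
      have hparH : Q'.anc 1 ∈ H := hH Q' hQ'H Q hQH _ (cell_le_anc Q' 1) hpar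
      obtain ⟨h3, h4, h5, _, h7⟩ := hp _ hparH
      have hr : rt (Q'.anc 1) = Q := by
        rcases cell_chain h4 hpar with h8 | h8
        · by_contra hne
          have h9 : rt (Q'.anc 1) = Q' :=
            hmax _ (Finset.mem_filter.2 ⟨Finset.mem_filter.2 ⟨h3, h5⟩, lt_of_le_of_ne h8 hne⟩)
              ((cell_le_anc Q' 1).trans h4)
          rw [h9] at h4
          exact absurd h4 (not_le_of_gt (cell_lt_anc Q' one_pos))
        · rw [← h7 Q hpar h8, hQr]
      refine ⟨hlt.le, ?_⟩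
      have := hX Q' hQ'H hQ'r hparH
      rwa [hr] at this
    have hsub : M ⊆ M.filter (fun Q' => 16 * (ea Q / Q.len) < ea Q' / Q'.len) ∪
        M.filter (fun Q' => 16 * (eb Q / Q.len) < eb Q' / Q'.len) := by
      intro Q' hQ'
      rcases (hMcr Q' hQ').2 with h | h
      · exact Finset.mem_union_left _ (Finset.mem_filter.2 ⟨hQ', h⟩)
      · exact Finset.mem_union_right _ (Finset.mem_filter.2 ⟨hQ', h⟩)
    have hA1 : ∑ Q' ∈ M.filter (fun Q' => 16 * (ea Q / Q.len) < ea Q' / Q'.len), Q'.len ≤ Q.len / 16 := by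
      refine nb_crossing_len ha (hMa.subset ?_) (fun J hJ => (hMcr J (Finset.mem_filter.1 hJ).1).1)
        (fun J hJ => (Finset.mem_filter.1 hJ).2)
      exact fun J hJ => Finset.mem_coe.2 (Finset.mem_filter.1 (Finset.mem_coe.1 hJ)).1
    have hA2 : ∑ Q' ∈ M.filter (fun Q' => 16 * (eb Q / Q.len) < eb Q' / Q'.len), Q'.len ≤ Q.len / 16 := by
      refine nb_crossing_len hb (hMa.subset ?_) (fun J hJ => (hMcr J (Finset.mem_filter.1 hJ).1).1)
        (fun J hJ => (Finset.mem_filter.1 hJ).2)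
      exact fun J hJ => Finset.mem_coe.2 (Finset.mem_filter.1 (Finset.mem_coe.1 hJ)).1
    have h10 := Finset.sum_le_sum_of_subset_of_nonneg hsub (f := fun K : Cell => K.len)
      (fun I _ _ => cell_len_nonneg I)
    have h11 := cell_sum_len_union_le (M.filter (fun Q' => 16 * (ea Q / Q.len) < ea Q' / Q'.len))
      (M.filter (fun Q' => 16 * (eb Q / Q.len) < eb Q' / Q'.len))
    linarith

end Claimed.Agent.R258
end

/- ===== packed: Claimed.Agent.R258.S7nb.Sum ===== -/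
section
/-
Row 258, block [S7-NB], package P-NB-SUM (architect helper192).

The sparse summation (sides.tex: `∑_{ν,Q} |Q| a_Q b_Q ≤ C ∫_R ∑_ν sqrt(m_{a,ν} m_{b,ν})`), in combinatorial form, and the multiplicity bound `∑_ν |Ω_ν| ≤ M0 |R|`.

PROOF of `nb_sparse_sum`.  Choose `n` with all roots in `cellsUpTo R n` (`cell_exists_cellsUpTo` for the union of the `Qs ν`); `F = cellsAt R n` = fine cells.
For `ν`, `Q ∈ Qs ν` let `E ν Q = {L ∈ F : L ≤ Q, and L ≤ Q' for no Q' ∈ Qs ν with Q' < Q}`.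
 (1) `∑_{L ∈ F, L ≤ Q} |L| = |Q|` (fine cells below `Q` are `cellsAt Q (n - k)`; `cell_sum_len_cellsAt`; or `cell_sum_cellsAt_add`), the same for the maximal roots `Q' < Q`, which are disjoint;
     a fine cell below some root `< Q` is below a maximal one (`cell_exists_le_maxs`).  Hence `∑_{L ∈ E ν Q} |L| = |Q| - ∑_{Q' maximal} |Q'| ≥ 7/8 |Q|`.
 (2) for fixed `ν` and `L ∈ F` at most one `Q` has `L ∈ E ν Q` (two roots above `L` are comparable, `cell_chain`; the larger one is excluded by the smaller one).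
 (3) `∑_{ν,Q} |Q| c ≤ 8/7 ∑_{ν,Q} ∑_{L ∈ E ν Q} |L| c ν Q = 8/7 ∑_L |L| ∑_ν ∑_{Q : L ∈ E ν Q} c ν Q ≤ 8/7 ∑_L |L| Λ = 8/7 Λ |R|`: for fixed `L` apply `hΛ` with `I = L`,
     `s = {ν : some Q has L ∈ E ν Q}`, `sel ν` = that `Q`.
PROOF of `nb_mult`.  `cell_sum_len_mul_eq_setIntegral`-type Tonelli (or `cell_path_bound` applied to the disjoint union over `ν`; simplest: integrate):
  `∑_ν ∑_{K ∈ cellMaxs (U ν)} |K| = ∫_R ∑_ν ∑_K 1_K(y) dy`, and for `y ∈ R` the inner double sum equals the number of `ν` with `y ∈ ⋃ U ν` (the maximal cells of `U ν` are disjoint with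
  the same union, `cell_maxs_iUnion`, `cell_maxs_antichain`).
-/
set_option autoImplicit false

open MeasureTheory Finset

namespace Claimed.Agent.R258

open Classical in
/-- the common core of `nb_sparse_sum` (`ρ = 1/8`) and `nb_mult` (`ρ = 0`) -/
theorem nb_sum_core {ι : Type*} [Fintype ι] (R : Cell) (Qs : ι → Finset Cell)
    (hle : ∀ ν, ∀ Q ∈ Qs ν, Q ≤ R) {ρ : ℝ}
    (hsp : ∀ ν, ∀ Q ∈ Qs ν, ∑ Q' ∈ cellMaxs ((Qs ν).filter fun Q' => Q' < Q), Q'.len ≤ ρ * Q.len)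
    (c : ι → Cell → ℝ) (hc : ∀ ν Q, 0 ≤ c ν Q) {Λ : ℝ}
    (hΛ : ∀ (I : Cell) (s : Finset ι) (sel : ι → Cell), I ≤ R →
      (∀ ν ∈ s, sel ν ∈ Qs ν ∧ I ≤ sel ν) → ∑ ν ∈ s, c ν (sel ν) ≤ Λ) :
    (1 - ρ) * ∑ ν, ∑ Q ∈ Qs ν, Q.len * c ν Q ≤ Λ * R.len := by
  obtain ⟨n, hn⟩ := cell_exists_cellsUpTo R ((Finset.univ : Finset ι).biUnion Qs) (by
    intro I hI
    obtain ⟨ν, -, hν⟩ := Finset.mem_biUnion.1 hI
    exact hle ν I hν)
  set F := cellsAt R n with hF
  have hFpart : CellPart R F := cell_part_cellsAt R n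
  have hdep : ∀ ν, ∀ Q ∈ Qs ν, Q.depth ≤ R.depth + n := fun ν Q hQ =>
    (cell_mem_cellsUpTo.1 (hn (Finset.mem_biUnion.2 ⟨ν, Finset.mem_univ _, hQ⟩))).2
  -- fine cells below a root
  have hA : ∀ ν, ∀ Q ∈ Qs ν, ∑ L ∈ F.filter (fun L => L ≤ Q), L.len = Q.len := by
    intro ν Q hQ
    refine (hFpart.restrict (hle ν Q hQ) ?_).sum_len
    intro K hK hlt
    have h1 := cell_depth_lt_of_lt hlt
    have h2 := (cell_mem_cellsAt'.1 hK).2
    have h3 := hdep ν Q hQ
    omega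
  set P : ι → Cell → Cell → Prop := fun ν Q L => L ≤ Q ∧ ∀ Q' ∈ Qs ν, Q' < Q → ¬ L ≤ Q' with hP
  have h1 : ∀ ν, ∀ Q ∈ Qs ν, (1 - ρ) * Q.len ≤ ∑ L ∈ F, if P ν Q L then L.len else 0 := by
    intro ν Q hQ
    have hsplit := Finset.sum_filter_add_sum_filter_not (F.filter (fun L => L ≤ Q))
      (fun L => ∀ Q' ∈ Qs ν, Q' < Q → ¬ L ≤ Q') (fun L => L.len)
    rw [hA ν Q hQ, Finset.filter_filter, Finset.filter_filter] at hsplit
    have hbad : ∑ L ∈ F.filter (fun L => L ≤ Q ∧ ¬ ∀ Q' ∈ Qs ν, Q' < Q → ¬ L ≤ Q'), L.len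
        ≤ ∑ Q' ∈ cellMaxs ((Qs ν).filter fun Q' => Q' < Q), Q'.len := by
      refine cell_sum_len_le_of_below
        (hFpart.anti.subset (by exact_mod_cast Finset.filter_subset _ _)) ?_
      intro L hL
      have hL2 := (Finset.mem_filter.1 hL).2.2
      push Not at hL2
      obtain ⟨Q', hQ', hlt, hLQ'⟩ := hL2
      obtain ⟨K, hK, hQK⟩ := cell_exists_le_maxs
        (S := (Qs ν).filter fun Q' => Q' < Q) (Finset.mem_filter.2 ⟨hQ', hlt⟩)
      exact ⟨K, hK, hLQ'.trans hQK⟩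
    have := hsp ν Q hQ
    rw [← Finset.sum_filter]
    linarith
  have h2 : (1 - ρ) * ∑ ν, ∑ Q ∈ Qs ν, Q.len * c ν Q
      ≤ ∑ ν, ∑ Q ∈ Qs ν, (∑ L ∈ F, if P ν Q L then L.len else 0) * c ν Q := by
    rw [Finset.mul_sum]
    refine Finset.sum_le_sum fun ν _ => ?_
    rw [Finset.mul_sum]
    refine Finset.sum_le_sum fun Q hQ => ?_
    rw [← mul_assoc]
    exact mul_le_mul_of_nonneg_right (h1 ν Q hQ) (hc ν Q)
  have h3 : ∑ ν, ∑ Q ∈ Qs ν, (∑ L ∈ F, if P ν Q L then L.len else 0) * c ν Q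
      = ∑ L ∈ F, L.len * ∑ ν, ∑ Q ∈ Qs ν, if P ν Q L then c ν Q else 0 := by
    calc ∑ ν, ∑ Q ∈ Qs ν, (∑ L ∈ F, if P ν Q L then L.len else 0) * c ν Q
        = ∑ ν, ∑ L ∈ F, ∑ Q ∈ Qs ν, L.len * (if P ν Q L then c ν Q else 0) := by
          refine Finset.sum_congr rfl fun ν _ => ?_
          rw [Finset.sum_comm]
          refine Finset.sum_congr rfl fun Q _ => ?_
          rw [Finset.sum_mul]
          refine Finset.sum_congr rfl fun L _ => ?_
          split_ifs <;> ring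
      _ = ∑ L ∈ F, ∑ ν, ∑ Q ∈ Qs ν, L.len * (if P ν Q L then c ν Q else 0) := Finset.sum_comm
      _ = _ := by
          refine Finset.sum_congr rfl fun L _ => ?_
          rw [Finset.mul_sum]
          refine Finset.sum_congr rfl fun ν _ => ?_
          rw [Finset.mul_sum]
  have h4 : ∀ L ∈ F, ∑ ν, ∑ Q ∈ Qs ν, (if P ν Q L then c ν Q else 0) ≤ Λ := by
    intro L hL
    set T : ι → Finset Cell := fun ν => (Qs ν).filter (fun Q => P ν Q L) with hT
    have huniq : ∀ ν, ∀ Q₁ ∈ T ν, ∀ Q₂ ∈ T ν, Q₁ = Q₂ := by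
      intro ν Q₁ h₁ Q₂ h₂
      obtain ⟨m₁, l₁, n₁⟩ := Finset.mem_filter.1 h₁
      obtain ⟨m₂, l₂, n₂⟩ := Finset.mem_filter.1 h₂
      by_contra hne
      rcases cell_chain l₁ l₂ with h | h
      · exact n₂ Q₁ m₁ (lt_of_le_of_ne h hne) l₁
      · exact n₁ Q₂ m₂ (lt_of_le_of_ne h (Ne.symm hne)) l₂
    set s : Finset ι := Finset.univ.filter (fun ν => (T ν).Nonempty) with hs
    set sel : ι → Cell := fun ν => if h : (T ν).Nonempty then h.choose else R with hsel
    have hselmem : ∀ ν ∈ s, sel ν ∈ T ν := by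
      intro ν hν
      have hne : (T ν).Nonempty := (Finset.mem_filter.1 hν).2
      simp only [hsel, dif_pos hne]
      exact hne.choose_spec
    have e1 : ∑ ν, ∑ Q ∈ Qs ν, (if P ν Q L then c ν Q else 0) = ∑ ν ∈ s, c ν (sel ν) := by
      have e0 : ∀ ν, ∑ Q ∈ Qs ν, (if P ν Q L then c ν Q else 0) = ∑ Q ∈ T ν, c ν Q :=
        fun ν => (Finset.sum_filter _ _).symm
      rw [Finset.sum_congr rfl (fun ν _ => e0 ν), ← Finset.sum_subset (Finset.subset_univ s)]
      · refine Finset.sum_congr rfl fun ν hν => ?_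
        have : T ν = {sel ν} := Finset.eq_singleton_iff_unique_mem.2
          ⟨hselmem ν hν, fun x hx => huniq ν x hx _ (hselmem ν hν)⟩
        show ∑ Q ∈ T ν, c ν Q = _
        rw [this, Finset.sum_singleton]
      · intro ν _ hν
        have : T ν = ∅ := by
          by_contra hne
          exact hν (Finset.mem_filter.2 ⟨Finset.mem_univ _, Finset.nonempty_iff_ne_empty.2 hne⟩)
        show ∑ Q ∈ T ν, c ν Q = 0
        rw [this, Finset.sum_empty]
    rw [e1]
    refine hΛ L s sel (hFpart.le L hL) fun ν hν => ?_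
    obtain ⟨m, l, -⟩ := Finset.mem_filter.1 (hselmem ν hν)
    exact ⟨m, l⟩
  calc (1 - ρ) * ∑ ν, ∑ Q ∈ Qs ν, Q.len * c ν Q
      ≤ ∑ L ∈ F, L.len * ∑ ν, ∑ Q ∈ Qs ν, if P ν Q L then c ν Q else 0 := h3 ▸ h2
    _ ≤ ∑ L ∈ F, L.len * Λ := Finset.sum_le_sum fun L hL =>
        mul_le_mul_of_nonneg_left (h4 L hL) (cell_len_nonneg L)
    _ = Λ * R.len := by rw [← Finset.sum_mul, hFpart.sum_len, mul_comm]

open Classical in
theorem nb_sparse_sum {ι : Type*} [Fintype ι] (R : Cell) (Qs : ι → Finset Cell)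
    (hle : ∀ ν, ∀ Q ∈ Qs ν, Q ≤ R)
    (hsp : ∀ ν, ∀ Q ∈ Qs ν, ∑ Q' ∈ cellMaxs ((Qs ν).filter fun Q' => Q' < Q), Q'.len ≤ Q.len / 8)
    (c : ι → Cell → ℝ) (hc : ∀ ν Q, 0 ≤ c ν Q) {Λ : ℝ} (hΛ0 : 0 ≤ Λ)
    (hΛ : ∀ (I : Cell) (s : Finset ι) (sel : ι → Cell), (∀ ν ∈ s, sel ν ∈ Qs ν ∧ I ≤ sel ν) →
      ∑ ν ∈ s, c ν (sel ν) ≤ Λ) :
    ∑ ν, ∑ Q ∈ Qs ν, Q.len * c ν Q ≤ 8 / 7 * Λ * R.len := by
  have h := nb_sum_core R Qs hle (ρ := 1 / 8)
    (fun ν Q hQ => (hsp ν Q hQ).trans (le_of_eq (by ring))) c hc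
    (fun I s sel _ hsel => hΛ I s sel hsel)
  linarith

open Classical in
theorem nb_mult {ι : Type*} [Fintype ι] (R : Cell) (U : ι → Finset Cell) (hU : ∀ ν, ∀ I ∈ U ν, I ≤ R)
    {M0 : ℝ}
    (h : ∀ y ∈ R.set, (((Finset.univ : Finset ι).filter fun ν => ∃ I ∈ U ν, y ∈ I.set).card : ℝ) ≤ M0) :
    ∑ ν, ∑ K ∈ cellMaxs (U ν), K.len ≤ M0 * R.len := by
  have h1 := nb_sum_core R (fun ν => cellMaxs (U ν))
    (fun ν Q hQ => hU ν Q (cell_maxs_subset _ hQ)) (ρ := 0)
    (fun ν Q hQ => by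
      have : (cellMaxs (U ν)).filter (fun Q' => Q' < Q) = ∅ := by
        refine Finset.filter_eq_empty_iff.2 fun Q' hQ' hlt => ?_
        exact (cell_maxs_antichain (U ν)) hQ' hQ hlt.ne hlt.le
      rw [this]
      simp [cellMaxs])
    (fun _ _ => 1) (fun _ _ => zero_le_one) (Λ := M0)
    (fun I s sel hI hsel => by
      have hy : I.left ∈ R.set := cell_set_subset hI (cell_left_mem I)
      refine le_trans ?_ (h _ hy)
      rw [Finset.sum_const, nsmul_eq_mul, mul_one]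
      have : s ⊆ (Finset.univ : Finset ι).filter fun ν => ∃ I' ∈ U ν, I.left ∈ I'.set := by
        intro ν hν
        refine Finset.mem_filter.2 ⟨Finset.mem_univ _, sel ν, cell_maxs_subset _ (hsel ν hν).1, ?_⟩
        exact cell_set_subset (hsel ν hν).2 (cell_left_mem I)
      exact_mod_cast Finset.card_le_card this)
  simpa using h1

/-- antichains in the hull of `U` are shorter than the maximal cells of `U` -/
theorem nb_hull_antichain_len {U A : Finset Cell} (hA : IsAntichain (· ≤ ·) (A : Set Cell))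
    (hsub : A ⊆ nbHull U) : ∑ J ∈ A, J.len ≤ ∑ K ∈ cellMaxs U, K.len := by
  refine cell_sum_len_le_of_below hA fun J hJ => ?_
  obtain ⟨-, I', hI', hle⟩ := nb_mem_hull.1 (hsub hJ)
  obtain ⟨K, hK, hIK⟩ := cell_exists_le_maxs hI'
  exact ⟨K, hK, hle.trans hIK⟩

end Claimed.Agent.R258
end

/- ===== packed: Claimed.Agent.R258.S7nb.Main ===== -/
section
/-
Row 258, block [S7-NB] (architect helper192).  ASSEMBLY: `ShortBlockGoal c0 C0 → NearBandGoal c0 C0` for `c0 > 0`.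

Order of the argument (sides.tex l.745-880):
  energies of the four stacks -> hulls -> common cuts (`nb_caps` for the two side energies, `ε/2` each) -> retained uses and their hulls -> sparse pieces (`nb_sparse_exists`)
  -> completion by children (`nb_treePiece`, `nb_leaf_energy`) -> Lemma 7.2 on every piece (`nb_piece`) -> sparse summation (`nb_sparse_sum`) with the joint caps and Cauchy-Schwarz.
-/
set_option autoImplicit false

open MeasureTheory Finset

namespace Claimed.Agent.R258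

/-- numerics of the final constant -/
theorem nb_main_num {Ea Eb M0 ε : ℝ} (hEa : 0 ≤ Ea) (hEb : 0 ≤ Eb) (hM0 : 1 ≤ M0) (hε : 0 < ε)
    (hε1 : ε < 1) :
    64 * (8 / 7 * Real.sqrt ((8 * Ea * (1 + Real.log (2 + M0 / (ε / 2))) / (ε / 2)) *
        (8 * Eb * (1 + Real.log (2 + M0 / (ε / 2))) / (ε / 2))))
      ≤ 2400 * (Real.sqrt (Ea * Eb) * ((1 + Real.log (2 + M0 / ε)) / ε)) := by
  set l : ℝ := 1 + Real.log (2 + M0 / ε) with hl
  set l' : ℝ := 1 + Real.log (2 + M0 / (ε / 2)) with hl'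
  have hx : 0 < M0 / ε := by positivity
  have hlog0 : 0 ≤ Real.log (2 + M0 / ε) := Real.log_nonneg (by linarith)
  have hl1 : 1 ≤ l := by rw [hl]; linarith
  have hl'0 : 0 ≤ l' := by
    have : 0 ≤ Real.log (2 + M0 / (ε / 2)) := Real.log_nonneg (by
      have : 0 < M0 / (ε / 2) := by positivity
      linarith)
    rw [hl']; linarith
  have hll : l' ≤ 2 * l := by
    have h1 : 2 + M0 / (ε / 2) ≤ 2 * (2 + M0 / ε) := by
      have : M0 / (ε / 2) = 2 * (M0 / ε) := by field_simp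
      rw [this]; linarith
    have h2 : Real.log (2 + M0 / (ε / 2)) ≤ Real.log 2 + Real.log (2 + M0 / ε) := by
      rw [← Real.log_mul (by norm_num) (by positivity)]
      exact Real.log_le_log (by positivity) h1
    have h3 : Real.log 2 ≤ 1 := by
      have := Real.log_two_lt_d9
      linarith
    rw [hl, hl']; linarith
  have e1 : (8 * Ea * l' / (ε / 2)) * (8 * Eb * l' / (ε / 2)) = (Ea * Eb) * ((16 * l' / ε) * (16 * l' / ε)) := by
    field_simp
    ring
  rw [e1, Real.sqrt_mul (by positivity), Real.sqrt_mul_self (by positivity)]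
  have hs : 0 ≤ Real.sqrt (Ea * Eb) := Real.sqrt_nonneg _
  have h4 : 16 * l' / ε ≤ 32 * (l / ε) := by
    rw [div_le_iff₀ hε]
    have : 32 * (l / ε) * ε = 32 * l := by field_simp
    rw [this]; linarith
  have h5 : 0 ≤ l / ε := by positivity
  calc 64 * (8 / 7 * (Real.sqrt (Ea * Eb) * (16 * l' / ε)))
      ≤ 64 * (8 / 7 * (Real.sqrt (Ea * Eb) * (32 * (l / ε)))) := by gcongr
    _ = (64 * (8 / 7) * 32) * (Real.sqrt (Ea * Eb) * (l / ε)) := by ring
    _ ≤ 2400 * (Real.sqrt (Ea * Eb) * (l / ε)) := by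
        have : 0 ≤ Real.sqrt (Ea * Eb) * (l / ε) := by positivity
        nlinarith

open Classical in
/-- the combinatorial core of the assembly: energies and the per-piece bound are abstract -/
theorem nb_main_core {ι : Type} [Fintype ι] (R : Cell) (K : ℕ) (b : ι → ℤ) (U : ι → Finset Cell)
    (g : ι → Cell → ℝ) (eA eB eC eD : ι → Cell → ℝ)
    (heA : ∀ ν, NbEnergy (eA ν)) (heB : ∀ ν, NbEnergy (eB ν)) (heC : ∀ ν, NbEnergy (eC ν))
    (heD : ∀ ν, NbEnergy (eD ν)) {Ea Eb M0 cc SB : ℝ} (hEa : 0 ≤ Ea) (hEb : 0 ≤ Eb) (hM0 : 1 ≤ M0)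
    (hcc : 0 ≤ cc) (hSB : 0 ≤ SB)
    (hU : ∀ ν, ∀ I ∈ U ν, I ≤ R ∧ b ν ≤ I.depth ∧ I.depth < b ν + K)
    (hEaS : ∑ ν, eA ν R ≤ Ea * R.len) (hEbS : ∑ ν, eB ν R ≤ Eb * R.len)
    (hmult : ∀ y ∈ R.set,
      (((Finset.univ : Finset ι).filter fun ν => ∃ I ∈ U ν, y ∈ I.set).card : ℝ) ≤ M0)
    (hfro : ∀ ν, ∀ J ∈ nbHull (U ν), eC ν J ≤ cc ^ 2 * J.len ∧ eD ν J ≤ cc ^ 2 * J.len)
    (hpiece : ∀ (ν : ι) (Q : Cell) (int leaves : Finset Cell), TreePiece Q int leaves (b ν) K →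
      int ⊆ U ν → Q ≤ R → ∀ sa sb sc sd : ℝ, 0 ≤ sa → 0 ≤ sb → 0 ≤ sc → 0 ≤ sd →
      (∀ L ∈ leaves, eA ν L ≤ sa ^ 2 * L.len) → (∀ L ∈ leaves, eB ν L ≤ sb ^ 2 * L.len) →
      (∀ L ∈ leaves, eC ν L ≤ sc ^ 2 * L.len) → (∀ L ∈ leaves, eD ν L ≤ sd ^ 2 * L.len) →
      ∑ I ∈ int, I.len * g ν I ≤ SB * Q.len * (sa * sb * sc * sd))
    {ε : ℝ} (hε : 0 < ε) (hε1 : ε < 1) :
    ∃ stops : Finset Cell, StopSet R stops ε ∧
      ∑ ν, ∑ I ∈ (U ν).filter (Retained stops), I.len * g ν I ≤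
        SB * cc ^ 2 * (2400 * (Real.sqrt (Ea * Eb) * ((1 + Real.log (2 + M0 / ε)) / ε))) * R.len := by
  have hUle : ∀ ν, ∀ I ∈ U ν, I ≤ R := fun ν I hI => (hU ν I hI).1
  have hH : ∀ ν, ∀ J ∈ nbHull (U ν), J ≤ R := fun ν => nb_hull_le (hUle ν)
  have hω : ∀ ν, ∀ B : Finset Cell, B ⊆ nbHull (U ν) → IsAntichain (· ≤ ·) (B : Set Cell) →
      ∑ J ∈ B, J.len ≤ ∑ K ∈ cellMaxs (U ν), K.len :=
    fun ν B hB hanti => nb_hull_antichain_len hanti hB
  have hωsum : ∑ ν, ∑ K ∈ cellMaxs (U ν), K.len ≤ M0 * R.len := nb_mult R U hUle hmult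
  have hε2 : 0 < ε / 2 := by positivity
  have hε21 : ε / 2 < 1 := by linarith
  obtain ⟨SA, hSAle, hSAlen, hcapA⟩ := nb_caps R (fun ν => nbHull (U ν)) hH eA heA hEa hM0 hEaS
    (fun ν => ∑ K ∈ cellMaxs (U ν), K.len) hω hωsum hε2 hε21
  obtain ⟨SBs, hSBle, hSBlen, hcapB⟩ := nb_caps R (fun ν => nbHull (U ν)) hH eB heB hEb hM0 hEbS
    (fun ν => ∑ K ∈ cellMaxs (U ν), K.len) hω hωsum hε2 hε21
  set capA : ℝ := 8 * Ea * (1 + Real.log (2 + M0 / (ε / 2))) / (ε / 2) with hcapAdef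
  set capB : ℝ := 8 * Eb * (1 + Real.log (2 + M0 / (ε / 2))) / (ε / 2) with hcapBdef
  have hlog0 : 0 ≤ Real.log (2 + M0 / (ε / 2)) := Real.log_nonneg (by
    have : 0 < M0 / (ε / 2) := by positivity
    linarith)
  have hcapA0 : 0 ≤ capA := by rw [hcapAdef]; positivity
  have hcapB0 : 0 ≤ capB := by rw [hcapBdef]; positivity
  refine ⟨SA ∪ SBs, ⟨?_, ?_⟩, ?_⟩
  · intro S hS
    rcases Finset.mem_union.1 hS with h | h
    · exact hSAle S h
    · exact hSBle S h
  · have h1 : ∑ S ∈ SA ∪ SBs, S.len ≤ ∑ S ∈ SA, S.len + ∑ S ∈ SBs, S.len := by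
      have := Finset.sum_union_inter (s₁ := SA) (s₂ := SBs) (f := fun S : Cell => S.len)
      have h0 : 0 ≤ ∑ S ∈ SA ∩ SBs, S.len := Finset.sum_nonneg fun S _ => (cell_len_pos S).le
      linarith
    have : ε / 2 * R.len + ε / 2 * R.len = ε * R.len := by ring
    linarith
  · set stops := SA ∪ SBs with hstops
    set U' : ι → Finset Cell := fun ν => (U ν).filter (Retained stops) with hU'
    have hU'sub : ∀ ν, U' ν ⊆ U ν := fun ν => Finset.filter_subset _ _
    have hU'ret : ∀ ν, ∀ I ∈ U' ν, cellRetained stops I := fun ν I hI => (Finset.mem_filter.1 hI).2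
    have hH'sub : ∀ ν, nbHull (U' ν) ⊆ nbHull (U ν) := fun ν => nb_hull_mono (hU'sub ν)
    have hH'ret : ∀ ν, ∀ J ∈ nbHull (U' ν), cellRetained stops J := fun ν => nb_hull_retained (hU'ret ν)
    choose Qs rt hsp using fun ν => nb_sparse_exists (nb_hull_convex (U' ν)) (heA ν) (heB ν)
    set c : ι → Cell → ℝ := fun ν Q => Real.sqrt (eA ν Q / Q.len) * Real.sqrt (eB ν Q / Q.len) with hc
    have hc0 : ∀ ν Q, 0 ≤ c ν Q := fun ν Q => by rw [hc]; positivity
    -- the bound on one piece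
    have hpc : ∀ ν, ∀ Q ∈ Qs ν, ∑ I ∈ (U' ν).filter (fun I => rt ν I = Q), I.len * g ν I ≤
        SB * cc ^ 2 * 64 * (Q.len * c ν Q) := by
      intro ν Q hQ
      have hQH : Q ∈ nbHull (U' ν) := (hsp ν).sub hQ
      have hQR : Q ≤ R := hH ν Q (hH'sub ν hQH)
      set P := (nbHull (U' ν)).filter (fun J => rt ν J = Q) with hP
      have hPtree : RootedTree Q P := (hsp ν).rootedTree (nb_hull_convex (U' ν)) hQ
      have hint : (U' ν).filter (fun I => rt ν I = Q) ⊆ P := by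
        intro I hI
        rw [Finset.mem_filter] at hI
        exact Finset.mem_filter.2 ⟨nb_subset_hull _ hI.1, hI.2⟩
      have hdep : ∀ J ∈ P, b ν ≤ J.depth ∧ J.depth < b ν + K := by
        intro J hJ
        exact nb_hull_depth (U := U ν) (fun I hI => (hU ν I hI).2) J
          (hH'sub ν (Finset.mem_filter.1 hJ).1)
      have hTP := nb_treePiece hPtree hint hdep
      have hlenQ := cell_len_pos Q
      set aA := eA ν Q / Q.len with haA
      set aB := eB ν Q / Q.len with haB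
      have haA0 : 0 ≤ aA := div_nonneg ((heA ν).nonneg Q) hlenQ.le
      have haB0 : 0 ≤ aB := div_nonneg ((heB ν).nonneg Q) hlenQ.le
      have hAP : ∀ J ∈ P, eA ν J ≤ (16 * aA) * J.len := by
        intro J hJ
        have hJ' := Finset.mem_filter.1 hJ
        have := (hsp ν).avg_a J hJ'.1
        rw [hJ'.2] at this
        rwa [div_le_iff₀ (cell_len_pos J)] at this
      have hBP : ∀ J ∈ P, eB ν J ≤ (16 * aB) * J.len := by
        intro J hJ
        have hJ' := Finset.mem_filter.1 hJ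
        have := (hsp ν).avg_b J hJ'.1
        rw [hJ'.2] at this
        rwa [div_le_iff₀ (cell_len_pos J)] at this
      have hCP : ∀ J ∈ P, eC ν J ≤ cc ^ 2 * J.len := fun J hJ =>
        (hfro ν J (hH'sub ν (Finset.mem_filter.1 hJ).1)).1
      have hDP : ∀ J ∈ P, eD ν J ≤ cc ^ 2 * J.len := fun J hJ =>
        (hfro ν J (hH'sub ν (Finset.mem_filter.1 hJ).1)).2
      have key := hpiece ν Q _ _ hTP ((Finset.filter_subset _ _).trans (hU'sub ν)) hQR
        (Real.sqrt (32 * aA)) (Real.sqrt (32 * aB)) (Real.sqrt 2 * cc) (Real.sqrt 2 * cc)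
        (Real.sqrt_nonneg _) (Real.sqrt_nonneg _) (by positivity) (by positivity)
        (fun L hL => by
          rw [Real.sq_sqrt (by positivity)]
          have := nb_leaf_energy (heA ν) hL hAP
          linarith)
        (fun L hL => by
          rw [Real.sq_sqrt (by positivity)]
          have := nb_leaf_energy (heB ν) hL hBP
          linarith)
        (fun L hL => by
          rw [mul_pow, Real.sq_sqrt (by norm_num)]
          exact nb_leaf_energy (heC ν) hL hCP)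
        (fun L hL => by
          rw [mul_pow, Real.sq_sqrt (by norm_num)]
          exact nb_leaf_energy (heD ν) hL hDP)
      refine key.trans (le_of_eq ?_)
      have e1 : Real.sqrt (32 * aA) * Real.sqrt (32 * aB) = 32 * (Real.sqrt aA * Real.sqrt aB) := by
        rw [Real.sqrt_mul (by norm_num), Real.sqrt_mul (by norm_num)]
        have : Real.sqrt 32 * Real.sqrt 32 = 32 := Real.mul_self_sqrt (by norm_num)
        calc Real.sqrt 32 * Real.sqrt aA * (Real.sqrt 32 * Real.sqrt aB)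
            = (Real.sqrt 32 * Real.sqrt 32) * (Real.sqrt aA * Real.sqrt aB) := by ring
          _ = 32 * (Real.sqrt aA * Real.sqrt aB) := by rw [this]
      have e2 : Real.sqrt 2 * Real.sqrt 2 = 2 := Real.mul_self_sqrt (by norm_num)
      calc SB * Q.len * (Real.sqrt (32 * aA) * Real.sqrt (32 * aB) * (Real.sqrt 2 * cc) * (Real.sqrt 2 * cc))
          = SB * Q.len * ((Real.sqrt (32 * aA) * Real.sqrt (32 * aB)) * ((Real.sqrt 2 * Real.sqrt 2) * cc ^ 2)) := by
            ring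
        _ = SB * cc ^ 2 * 64 * (Q.len * c ν Q) := by
            rw [e1, e2, hc]
            ring
    -- the joint caps along a path
    have hΛ : ∀ (I : Cell) (s : Finset ι) (sel : ι → Cell), (∀ ν ∈ s, sel ν ∈ Qs ν ∧ I ≤ sel ν) →
        ∑ ν ∈ s, c ν (sel ν) ≤ Real.sqrt (capA * capB) := by
      intro I s sel hsel
      have hmem : ∀ ν ∈ s, sel ν ∈ nbHull (U ν) ∧ I ≤ sel ν ∧ cellRetained stops (sel ν) := by
        intro ν hν
        have h1 := (hsp ν).sub (hsel ν hν).1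
        exact ⟨hH'sub ν h1, (hsel ν hν).2, hH'ret ν _ h1⟩
      have hA := hcapA I s sel (fun ν hν => ⟨(hmem ν hν).1, (hmem ν hν).2.1,
        (hmem ν hν).2.2.mono Finset.subset_union_left⟩)
      have hB := hcapB I s sel (fun ν hν => ⟨(hmem ν hν).1, (hmem ν hν).2.1,
        (hmem ν hν).2.2.mono Finset.subset_union_right⟩)
      have hcs := Real.sum_sqrt_mul_sqrt_le s
        (f := fun ν => eA ν (sel ν) / (sel ν).len) (g := fun ν => eB ν (sel ν) / (sel ν).len)
        (fun ν => div_nonneg ((heA ν).nonneg _) (cell_len_pos _).le)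
        (fun ν => div_nonneg ((heB ν).nonneg _) (cell_len_pos _).le)
      refine hcs.trans ?_
      rw [Real.sqrt_mul hcapA0]
      exact mul_le_mul (Real.sqrt_le_sqrt hA) (Real.sqrt_le_sqrt hB) (Real.sqrt_nonneg _)
        (Real.sqrt_nonneg _)
    have hsum := nb_sparse_sum R Qs (fun ν Q hQ => hH ν Q (hH'sub ν ((hsp ν).sub hQ)))
      (fun ν Q hQ => (hsp ν).sparse Q hQ) c hc0 (Real.sqrt_nonneg _) hΛ
    have hfib : ∀ ν, ∑ I ∈ U' ν, I.len * g ν I =
        ∑ Q ∈ Qs ν, ∑ I ∈ (U' ν).filter (fun I => rt ν I = Q), I.len * g ν I := by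
      intro ν
      exact (Finset.sum_fiberwise_of_maps_to
        (fun I hI => (hsp ν).rt_mem I (nb_subset_hull _ hI)) _).symm
    have hnum := nb_main_num hEa hEb hM0 hε hε1
    have hRlen := cell_len_pos R
    calc ∑ ν, ∑ I ∈ U' ν, I.len * g ν I
        = ∑ ν, ∑ Q ∈ Qs ν, ∑ I ∈ (U' ν).filter (fun I => rt ν I = Q), I.len * g ν I :=
          Finset.sum_congr rfl fun ν _ => hfib ν
      _ ≤ ∑ ν, ∑ Q ∈ Qs ν, SB * cc ^ 2 * 64 * (Q.len * c ν Q) :=
          Finset.sum_le_sum fun ν _ => Finset.sum_le_sum fun Q hQ => hpc ν Q hQ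
      _ = SB * cc ^ 2 * 64 * ∑ ν, ∑ Q ∈ Qs ν, Q.len * c ν Q := by
          simp only [Finset.mul_sum]
      _ ≤ SB * cc ^ 2 * 64 * (8 / 7 * Real.sqrt (capA * capB) * R.len) := by
          gcongr
      _ = SB * cc ^ 2 * (64 * (8 / 7 * Real.sqrt (capA * capB))) * R.len := by ring
      _ ≤ SB * cc ^ 2 * (2400 * (Real.sqrt (Ea * Eb) * ((1 + Real.log (2 + M0 / ε)) / ε))) * R.len := by
          gcongr

theorem nb_en_sum1 {β : Type*} [Fintype β] {R J : Cell} (hJ : J ≤ R) (Y : β → ℝ → ℂ)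
    (hY2 : ∀ j, IntegrableOn (fun y => ‖Y j y‖ ^ 2) R.set) :
    nbEn R (fun y => ∑ j, ‖Y j y‖ ^ 2) J = ∑ j, ∫ y in J.set, ‖Y j y‖ ^ 2 := by
  rw [nbEn_eq hJ]
  exact integral_finsetSum _ fun j _ => (hY2 j).mono_set (cell_set_subset hJ)

theorem nb_en_sum2 {α γ : Type*} [Fintype α] [Fintype γ] {R J : Cell} (hJ : J ≤ R)
    (X : α → γ → ℝ → ℂ) (hX2 : ∀ i p, IntegrableOn (fun y => ‖X i p y‖ ^ 2) R.set) :
    nbEn R (fun y => ∑ i, ∑ p, ‖X i p y‖ ^ 2) J = ∑ i, ∑ p, ∫ y in J.set, ‖X i p y‖ ^ 2 := by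
  rw [nbEn_eq hJ]
  have h1 : ∀ i p, IntegrableOn (fun y => ‖X i p y‖ ^ 2) J.set :=
    fun i p => (hX2 i p).mono_set (cell_set_subset hJ)
  rw [integral_finsetSum _ fun i _ => integrable_finsetSum _ fun p _ => h1 i p]
  exact Finset.sum_congr rfl fun i _ => integral_finsetSum _ fun p _ => h1 i p

/-- **[S7-NB]**: the near-band estimate (19) from Lemma 7.2. -/
theorem nearBandGoal_of_shortBlock {c0 C0 : ℝ} (hc0 : 0 < c0) (hSB : ShortBlockGoal c0 C0) :
    NearBandGoal c0 C0 := by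
  classical
  obtain ⟨C, hC, hq⟩ := nb_piece hc0 hSB
  refine ⟨C, hC, fun q hq2 hq3 => ?_⟩
  obtain ⟨Cq, hCq, hP⟩ := hq q hq2 hq3
  refine ⟨2400 * Cq, by positivity, ?_⟩
  intro N CN s0 hCN hLB R K w e ι α β γ _ _ _ _ b U X Y Cc Dd ia ib Ea Eb M0 cc hU hXm hYm hCm hDm
    hX2 hY2 hC2 hD2 hEa hEb hM0 hcc hEaS hEbS hmult hfro ε hε hε1
  set SBc : ℝ := (1 + CN) * Cq * (1 + Real.log ((K : ℝ) + 2)) ^ C * ((K : ℝ) + 2) ^ (C * (q - 2))
    with hSBc
  have hlogK : 0 ≤ Real.log ((K : ℝ) + 2) := Real.log_nonneg (by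
    have : (0 : ℝ) ≤ K := Nat.cast_nonneg K
    linarith)
  have hSBc0 : 0 ≤ SBc := by rw [hSBc]; positivity
  have hIA : ∀ ν, IntegrableOn (fun y => ∑ i, ∑ p, ‖X ν i p y‖ ^ 2) R.set :=
    fun ν => integrable_finsetSum _ fun i _ => integrable_finsetSum _ fun p _ => hX2 ν i p
  have hIB : ∀ ν, IntegrableOn (fun y => ∑ j, ‖Y ν j y‖ ^ 2) R.set :=
    fun ν => integrable_finsetSum _ fun j _ => hY2 ν j
  have hIC : ∀ ν, IntegrableOn (fun y => ∑ p, ‖Cc ν p y‖ ^ 2) R.set :=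
    fun ν => integrable_finsetSum _ fun p _ => hC2 ν p
  have key := nb_main_core R K b U
    (fun ν I => ‖∑ p, form I (w I) (placeArgs e (X ν (ia ν I) p) (Y ν (ib ν I)) (Cc ν p) (Dd ν))‖)
    (fun ν => nbEn R (fun y => ∑ i, ∑ p, ‖X ν i p y‖ ^ 2))
    (fun ν => nbEn R (fun y => ∑ j, ‖Y ν j y‖ ^ 2))
    (fun ν => nbEn R (fun y => ∑ p, ‖Cc ν p y‖ ^ 2))
    (fun ν => nbEn R (fun y => ‖Dd ν y‖ ^ 2))
    (fun ν => nbEn_energy R (hIA ν) fun y => by positivity)
    (fun ν => nbEn_energy R (hIB ν) fun y => by positivity)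
    (fun ν => nbEn_energy R (hIC ν) fun y => by positivity)
    (fun ν => nbEn_energy R (hD2 ν) fun y => by positivity)
    hEa hEb hM0 hcc hSBc0
    (fun ν I hI => ⟨(hU ν I hI).1, (hU ν I hI).2.1, (hU ν I hI).2.2.1⟩)
    (by
      simp only [nb_en_sum2 (le_refl R) (X _) (hX2 _)]
      exact hEaS)
    (by
      simp only [nb_en_sum1 (le_refl R) (Y _) (hY2 _)]
      exact hEbS)
    hmult
    (by
      intro ν J hJ
      have hJR : J ≤ R := nb_hull_le (fun I hI => (hU ν I hI).1) J hJ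
      have h := hfro ν J (nb_mem_hull.1 hJ).1 (nb_mem_hull.1 hJ).2
      rw [nb_en_sum1 hJR (Cc ν) (hC2 ν), nbEn_eq hJR]
      exact h)
    (by
      intro ν Q int leaves hTP hint hQR sa sb sc sd hsa hsb hsc hsd hLA hLB' hLC hLD
      have hLR : ∀ L ∈ leaves, L ≤ R := fun L hL => (hTP.leaf_le L hL).trans hQR
      have hsub := cell_set_subset hQR
      have := hP N CN s0 hCN hLB Q int leaves (b ν) K hTP
        (fun I hI => ⟨(hU ν I (hint hI)).2.2.2.1, (hU ν I (hint hI)).2.2.2.2.1⟩) w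
        (fun I hI => (hU ν I (hint hI)).2.2.2.2.2) e α β γ (X ν) (Y ν) (Cc ν) (Dd ν) (ia ν) (ib ν)
        sa sb sc sd (hXm ν) (hYm ν) (hCm ν) (hDm ν)
        (fun i p => (hX2 ν i p).mono_set hsub) (fun j => (hY2 ν j).mono_set hsub)
        (fun p => (hC2 ν p).mono_set hsub) ((hD2 ν).mono_set hsub) hsa hsb hsc hsd
        (fun L hL => by
          rw [← nb_en_sum2 (hLR L hL) (X ν) (hX2 ν)]
          exact hLA L hL)
        (fun L hL => by
          rw [← nb_en_sum1 (hLR L hL) (Y ν) (hY2 ν)]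
          exact hLB' L hL)
        (fun L hL => by
          rw [← nb_en_sum1 (hLR L hL) (Cc ν) (hC2 ν)]
          exact hLC L hL)
        (fun L hL => by
          rw [← nbEn_eq (hLR L hL)]
          exact hLD L hL)
      exact this)
    hε hε1
  obtain ⟨stops, hst, hbound⟩ := key
  refine ⟨stops, hst, ?_⟩
  refine le_trans (le_of_eq ?_) (hbound.trans (le_of_eq ?_))
  · rfl
  · rw [hSBc]
    ring

end Claimed.Agent.R258
end
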