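/- Packed by merge_tool.py (helper293): 5 modules of Claimed.Agent.R258 in one file, same declarations.
   Old modules, in this order: S7.ProjApi, S7.Stack, S7.VarProof, S7.Comb, S7.Near -/
import Claimed.Agent.R258.S7.Terms
import Claimed.Agent.R258.Pack011
import Claimed.Agent.R258.Pack016
import Claimed.Agent.R258.Pack006

/- ===== packed: Claimed.Agent.R258.S7.ProjApi ===== -/
section
/-
Row 258, Sec. 7.2, leaf P-S7-VAR (helper32).  API of the local projections `cproj A J`, the delayed projections `dproj m R n` and of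
block diagonal operators on dyadic cells (prefix `pj_`).  No regularity hypothesis on the columns is needed anywhere.
* `cproj A J = restr J ∘ cproj A J ∘ restr J`, self-adjoint, contraction; behaviour under `restr J'` (`J ≤ J'` or disjoint);
* vectors supported on pairwise disjoint cells: `pj_restr_sum`, `pj_normsq_sum`;
* `pjSpan m R n` = sum of the spaces `colSpan (m Q) Q`, `Q ∈ cellsAt R n`; `dproj m R n` is its orthogonal projection (`pj_dproj_eq`);
  inheritance gives `pjSpan m R n ≤ pjSpan m R n'` (`pj_span_mono`) and `s3_Nested` (`pj_nested`);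
* `pjE E = ∑_{J ∈ E} restr J`;
* abstract duality row Bessel <-> column Bessel (`pj_dual_col`, `pj_dual_row`).
-/
set_option autoImplicit false
open MeasureTheory
open scoped InnerProductSpace

namespace Claimed.Agent.R258

/-! ### `colSpan`, `cproj` -/

theorem pj_vec_mem_colSpan {A : Finset Col} {Φ : Col} (h : Φ ∈ A) (J : Cell) : Φ.vec J ∈ colSpan A J := by
  classical
  unfold colSpan
  apply Submodule.subset_span
  rw [Finset.coe_image]
  exact ⟨Φ, h, rfl⟩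

theorem pj_colSpan_le_of {A : Finset Col} {J : Cell} {V : Submodule ℂ XV} (h : ∀ Φ ∈ A, Φ.vec J ∈ V) :
    colSpan A J ≤ V := by
  classical
  unfold colSpan
  rw [Submodule.span_le, Finset.coe_image]
  rintro _ ⟨Φ, hΦ, rfl⟩
  exact h Φ hΦ

theorem pj_colSpan_le (A : Finset Col) (J : Cell) : colSpan A J ≤ xvSub J.set :=
  pj_colSpan_le_of fun Φ _ => xv_vec_mem_sub Φ J

theorem pj_cproj_mem (A : Finset Col) (J : Cell) (x : XV) : cproj A J x ∈ colSpan A J :=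
  Submodule.starProjection_apply_mem _ _

theorem pj_cproj_of_mem {A : Finset Col} {J : Cell} {x : XV} (h : x ∈ colSpan A J) : cproj A J x = x :=
  Submodule.starProjection_eq_self_iff.2 h

theorem pj_cproj_idem (A : Finset Col) (J : Cell) (x : XV) : cproj A J (cproj A J x) = cproj A J x :=
  pj_cproj_of_mem (pj_cproj_mem A J x)

theorem pj_restr_cproj (A : Finset Col) (J : Cell) (x : XV) : restr J.set (cproj A J x) = cproj A J x :=
  xv_mem_sub_iff.1 (pj_colSpan_le A J (pj_cproj_mem A J x))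

theorem pj_cproj_restr (A : Finset Col) (J : Cell) (x : XV) : cproj A J (restr J.set x) = cproj A J x :=
  xv_proj_of_le (pj_colSpan_le A J) x

theorem pj_cproj_inner (A : Finset Col) (J : Cell) (x y : XV) : ⟪cproj A J x, y⟫_ℂ = ⟪x, cproj A J y⟫_ℂ :=
  Submodule.inner_starProjection_left_eq_right _ _ _

theorem pj_norm_cproj_le (A : Finset Col) (J : Cell) (x : XV) : ‖cproj A J x‖ ≤ ‖x‖ :=
  Submodule.norm_starProjection_apply_le _ _

theorem pj_norm_cproj_le_restr (A : Finset Col) (J : Cell) (x : XV) : ‖cproj A J x‖ ≤ ‖restr J.set x‖ := by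
  rw [← pj_cproj_restr]
  exact pj_norm_cproj_le _ _ _

theorem pj_norm_restr_sub_cproj_le (A : Finset Col) (J : Cell) (x : XV) :
    ‖restr J.set x - cproj A J x‖ ≤ ‖restr J.set x‖ := by
  rw [← pj_cproj_restr]
  exact xv_norm_sub_proj_le _ _

theorem pj_cproj_restr_le (A : Finset Col) {J J' : Cell} (h : J ≤ J') (x : XV) :
    cproj A J (restr J'.set x) = cproj A J x := by
  rw [← pj_cproj_restr, xv_restr_cell_le h, pj_cproj_restr]

theorem pj_restr_cproj_le (A : Finset Col) {J J' : Cell} (h : J ≤ J') (x : XV) :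
    restr J'.set (cproj A J x) = cproj A J x := by
  rw [← pj_restr_cproj, xv_restr_cell_le' h]

theorem pj_cproj_restr_disj (A : Finset Col) {J J' : Cell} (h : Disjoint J.set J'.set) (x : XV) :
    cproj A J (restr J'.set x) = 0 := by
  rw [← pj_cproj_restr, xv_restr_disjoint (cell_measurableSet J) (cell_measurableSet J') h, map_zero]

theorem pj_restr_cproj_disj (A : Finset Col) {J J' : Cell} (h : Disjoint J.set J'.set) (x : XV) :
    restr J'.set (cproj A J x) = 0 := by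
  rw [← pj_restr_cproj, xv_restr_disjoint (cell_measurableSet J') (cell_measurableSet J) h.symm]

theorem pj_restr_comm (J J' : Cell) (x : XV) : restr J.set (restr J'.set x) = restr J'.set (restr J.set x) := by
  rw [xv_restr_restr (cell_measurableSet J) (cell_measurableSet J'),
    xv_restr_restr (cell_measurableSet J') (cell_measurableSet J), Set.inter_comm]

/-! ### cells of two generations -/

theorem pj_le_or_disjoint {R Q J : Cell} {n k : ℕ} (hQ : Q ∈ cellsAt R n) (hJ : J ∈ cellsAt R k) (hkn : k ≤ n) :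
    Q ≤ J ∨ Disjoint Q.set J.set := by
  rcases cell_nested_or_disjoint Q J with h | h | h
  · exact Or.inl h
  · have h1 := (cell_mem_cellsAt'.1 hQ).2
    have h2 := (cell_mem_cellsAt'.1 hJ).2
    have : J = Q := cell_eq_of_le_of_depth h (by rw [h1, h2]; exact_mod_cast (by omega : (R.depth + k : ℤ) ≤ R.depth + n))
    exact Or.inl (this ▸ le_rfl)
  · exact Or.inr h

theorem pj_le_root {R J : Cell} {n : ℕ} (hJ : J ∈ cellsAt R n) : J ≤ R := (cell_mem_cellsAt'.1 hJ).1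

theorem pj_mem_cellsAt_add {R J Q : Cell} {n k : ℕ} (hJ : J ∈ cellsAt R n) (hQ : Q ∈ cellsAt J k) :
    Q ∈ cellsAt R (n + k) := by
  rw [cell_mem_cellsAt] at hJ hQ ⊢
  rw [add_comm, ← cell_anc_anc, hQ, hJ]

theorem pj_cproj_comm (A : Finset Col) {Q J : Cell} (h : Q ≤ J ∨ Disjoint Q.set J.set) (x : XV) :
    cproj A Q (restr J.set x) = restr J.set (cproj A Q x) := by
  rcases h with h | h
  · rw [pj_cproj_restr_le A h, pj_restr_cproj_le A h]
  · rw [pj_cproj_restr_disj A h, pj_restr_cproj_disj A h]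

/-! ### vectors supported on pairwise disjoint cells -/

theorem pj_restr_sum {S : Finset Cell} (hS : (S : Set Cell).PairwiseDisjoint Cell.set) (v : Cell → XV)
    (hv : ∀ J ∈ S, restr J.set (v J) = v J) {J : Cell} (hJ : J ∈ S) : restr J.set (∑ J' ∈ S, v J') = v J := by
  rw [map_sum, Finset.sum_eq_single J, hv J hJ]
  · intro J' hJ' hne
    rw [← hv J' hJ']
    exact xv_restr_disjoint (cell_measurableSet J) (cell_measurableSet J') (hS hJ hJ' hne.symm) _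
  · intro h; exact absurd hJ h

theorem pj_restr_sum_disj {S : Finset Cell} (v : Cell → XV) (hv : ∀ J ∈ S, restr J.set (v J) = v J) {J : Cell}
    (hJ : ∀ J' ∈ S, Disjoint J.set J'.set) : restr J.set (∑ J' ∈ S, v J') = 0 := by
  rw [map_sum]
  refine Finset.sum_eq_zero fun J' hJ' => ?_
  rw [← hv J' hJ']
  exact xv_restr_disjoint (cell_measurableSet J) (cell_measurableSet J') (hJ J' hJ') _

theorem pj_normsq_sum {S : Finset Cell} (hS : (S : Set Cell).PairwiseDisjoint Cell.set) (v : Cell → XV)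
    (hv : ∀ J ∈ S, restr J.set (v J) = v J) : ‖∑ J ∈ S, v J‖ ^ 2 = ∑ J ∈ S, ‖v J‖ ^ 2 := by
  have h := xv_normsq_sum_proj S (fun J => xvSub J.set)
    (fun I hI J hJ hne => xv_sub_ortho (cell_measurableSet I) (cell_measurableSet J) (hS hI hJ hne)) (∑ J ∈ S, v J)
  have e : ∀ J ∈ S, (xvSub J.set).starProjection (∑ J' ∈ S, v J') = v J := fun J hJ => pj_restr_sum hS v hv hJ
  rw [Finset.sum_congr rfl e] at h
  rw [h]
  exact Finset.sum_congr rfl fun J hJ => by rw [e J hJ]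

/-! ### the delayed projections -/

/-- the range of `dproj m R n` -/
noncomputable def pjSpan (m : Cell → Finset Col) (R : Cell) (n : ℕ) : Submodule ℂ XV :=
  (cellsAt R n).sup fun Q => colSpan (m Q) Q

instance pjSpanFin (m : Cell → Finset Col) (R : Cell) (n : ℕ) : FiniteDimensional ℂ (pjSpan m R n) := by
  unfold pjSpan; infer_instance

theorem pj_colSpan_ortho (A A' : Finset Col) {Q Q' : Cell} (h : Disjoint Q.set Q'.set) :
    colSpan A Q ⟂ colSpan A' Q' :=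
  (xv_sub_ortho (cell_measurableSet Q) (cell_measurableSet Q') h).mono (pj_colSpan_le A Q) (pj_colSpan_le A' Q')

theorem pj_dproj_eq (m : Cell → Finset Col) (R : Cell) (n : ℕ) : dproj m R n = (pjSpan m R n).starProjection := by
  unfold dproj pjSpan cproj
  exact (xv_sup_proj (cellsAt R n) (fun Q => colSpan (m Q) Q) fun Q hQ Q' hQ' hne =>
    pj_colSpan_ortho _ _ (cell_cellsAt_pairwiseDisjoint R n hQ hQ' hne)).symm

theorem pj_dproj_apply (m : Cell → Finset Col) (R : Cell) (n : ℕ) (x : XV) :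
    dproj m R n x = ∑ Q ∈ cellsAt R n, cproj (m Q) Q x := by
  unfold dproj
  rw [_root_.sum_apply]

theorem pj_colSpan_le_span (m : Cell → Finset Col) {R Q : Cell} {n : ℕ} (hQ : Q ∈ cellsAt R n) :
    colSpan (m Q) Q ≤ pjSpan m R n :=
  Finset.le_sup (f := fun Q => colSpan (m Q) Q) hQ

theorem pj_span_mono {R : Cell} {m : Cell → Finset Col} (hm : Inh R m) {n n' : ℕ} (h : n ≤ n') :
    pjSpan m R n ≤ pjSpan m R n' := by
  obtain ⟨k, rfl⟩ := Nat.exists_eq_add_of_le h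
  refine Finset.sup_le fun J hJ => pj_colSpan_le_of fun Φ hΦ => ?_
  by_cases hr : Φ.Reg J
  · rw [← xv_vec_part hr (cell_part_cellsAt J k)]
    refine Submodule.sum_mem _ fun Q hQ => ?_
    exact pj_colSpan_le_span m (pj_mem_cellsAt_add hJ hQ)
      (pj_vec_mem_colSpan (hm.mono J Q (pj_le_root hJ) (pj_le_root hQ) hΦ) Q)
  · have : Φ.vec J = 0 := xv_toXV_of_not hr
    rw [this]
    exact Submodule.zero_mem _

theorem pj_span_le_sub (m : Cell → Finset Col) (R : Cell) (n : ℕ) : pjSpan m R n ≤ xvSub R.set :=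
  Finset.sup_le fun Q hQ => (pj_colSpan_le (m Q) Q).trans (xv_sub_cell_mono (pj_le_root hQ))

theorem pj_dproj_inner (m : Cell → Finset Col) (R : Cell) (n : ℕ) (x y : XV) :
    ⟪dproj m R n x, y⟫_ℂ = ⟪x, dproj m R n y⟫_ℂ := by
  rw [pj_dproj_eq]
  exact Submodule.inner_starProjection_left_eq_right _ _ _

theorem pj_norm_dproj_le (m : Cell → Finset Col) (R : Cell) (n : ℕ) (x : XV) : ‖dproj m R n x‖ ≤ ‖x‖ := by
  rw [pj_dproj_eq]
  exact Submodule.norm_starProjection_apply_le _ _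

theorem pj_restr_dproj (m : Cell → Finset Col) (R : Cell) (n : ℕ) (x : XV) :
    restr R.set (dproj m R n x) = dproj m R n x := by
  rw [pj_dproj_eq]
  exact xv_mem_sub_iff.1 (pj_span_le_sub m R n (Submodule.starProjection_apply_mem _ _))

theorem pj_dproj_restr (m : Cell → Finset Col) (R : Cell) (n : ℕ) (x : XV) :
    dproj m R n (restr R.set x) = dproj m R n x := by
  rw [pj_dproj_eq]
  exact xv_proj_of_le (pj_span_le_sub m R n) x

theorem pj_norm_restr_sub_dproj_le (m : Cell → Finset Col) (R : Cell) (n : ℕ) (x : XV) :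
    ‖restr R.set x - dproj m R n x‖ ≤ ‖x‖ := by
  rw [← pj_dproj_restr, pj_dproj_eq]
  exact (xv_norm_sub_proj_le _ _).trans (xv_norm_restr_le _ _)

/-- the delayed projections of an inherited family are nested -/
theorem pj_nested {R : Cell} {m : Cell → Finset Col} (hm : Inh R m) :
    s3_Nested (𝕜 := ℂ) fun n => (dproj m R n : XV →ₗ[ℂ] XV) where
  symm n x y := pj_dproj_inner m R n x y
  fix n n' x h := by
    simp only [ContinuousLinearMap.coe_coe]
    rw [pj_dproj_eq, pj_dproj_eq]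
    exact xv_proj_of_le' (pj_span_mono hm h) x

/-- Bessel inequality for the increments over disjoint depth intervals -/
theorem pj_bessel {R : Cell} {m : Cell → Finset Col} (hm : Inh R m) {κ : Type*} (s : Finset κ) (r t : κ → ℕ)
    (hrt : ∀ i ∈ s, r i ≤ t i) (hd : ∀ i ∈ s, ∀ j ∈ s, i ≠ j → t i ≤ r j ∨ t j ≤ r i) (x : XV) :
    ∑ i ∈ s, ‖dproj m R (t i) x - dproj m R (r i) x‖ ^ 2 ≤ ‖x‖ ^ 2 :=
  (pj_nested hm).bessel s r t hrt hd x

/-- block diagonality: `dproj m R n` commutes with the restriction to a cell of a coarser generation -/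
theorem pj_dproj_comm (m : Cell → Finset Col) {R J : Cell} {n k : ℕ} (hJ : J ∈ cellsAt R k) (hkn : k ≤ n) (x : XV) :
    dproj m R n (restr J.set x) = restr J.set (dproj m R n x) := by
  rw [pj_dproj_apply, pj_dproj_apply, map_sum]
  exact Finset.sum_congr rfl fun Q hQ => pj_cproj_comm _ (pj_le_or_disjoint hQ hJ hkn) x

theorem pj_restr_dproj_cell (m : Cell → Finset Col) {R J : Cell} {n : ℕ} (hJ : J ∈ cellsAt R n) (x : XV) :
    restr J.set (dproj m R n x) = cproj (m J) J x := by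
  rw [pj_dproj_apply]
  exact pj_restr_sum (cell_cellsAt_pairwiseDisjoint R n) (fun Q => cproj (m Q) Q x)
    (fun Q _ => pj_restr_cproj _ _ _) hJ

theorem pj_sum_restr (R : Cell) (n : ℕ) (x : XV) : ∑ J ∈ cellsAt R n, restr J.set x = restr R.set x :=
  xv_restr_part (cell_part_cellsAt R n) x

theorem pj_sum_normsq_restr (R : Cell) (n : ℕ) (x : XV) :
    ∑ J ∈ cellsAt R n, ‖restr J.set x‖ ^ 2 = ‖restr R.set x‖ ^ 2 :=
  xv_normsq_restr_part (cell_part_cellsAt R n) x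

/-! ### restriction to a union of cells -/

/-- multiplication by the indicator of the union of the cells of `E` (used for pairwise disjoint cells only) -/
noncomputable def pjE (E : Finset Cell) : XV →L[ℂ] XV := ∑ J ∈ E, restr J.set

theorem pjE_apply (E : Finset Cell) (x : XV) : pjE E x = ∑ J ∈ E, restr J.set x := by
  unfold pjE
  rw [_root_.sum_apply]

theorem pjE_inner (E : Finset Cell) (x y : XV) : ⟪pjE E x, y⟫_ℂ = ⟪x, pjE E y⟫_ℂ := by
  rw [pjE_apply, pjE_apply, sum_inner, inner_sum]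
  exact Finset.sum_congr rfl fun J _ => xv_restr_inner _ _ _

theorem pjE_comm (E : Finset Cell) (J : Cell) (x : XV) : pjE E (restr J.set x) = restr J.set (pjE E x) := by
  rw [pjE_apply, pjE_apply, map_sum]
  exact Finset.sum_congr rfl fun J' _ => pj_restr_comm _ _ _

theorem pjE_normsq {E : Finset Cell} (hE : (E : Set Cell).PairwiseDisjoint Cell.set) (x : XV) :
    ‖pjE E x‖ ^ 2 = ∑ J ∈ E, ‖restr J.set x‖ ^ 2 := by
  rw [pjE_apply]
  exact pj_normsq_sum hE (fun J => restr J.set x) fun J _ => xv_restr_idem _ _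

theorem pj_disj_of_subset {R : Cell} {n : ℕ} {E : Finset Cell} (hE : E ⊆ cellsAt R n) :
    (E : Set Cell).PairwiseDisjoint Cell.set :=
  (cell_cellsAt_pairwiseDisjoint R n).subset (by exact_mod_cast hE)

theorem pjE_norm_le {R : Cell} {n : ℕ} {E : Finset Cell} (hE : E ⊆ cellsAt R n) (x : XV) : ‖pjE E x‖ ≤ ‖x‖ := by
  have h1 : ‖pjE E x‖ ^ 2 ≤ ‖x‖ ^ 2 := by
    rw [pjE_normsq (pj_disj_of_subset hE)]
    calc ∑ J ∈ E, ‖restr J.set x‖ ^ 2 ≤ ∑ J ∈ cellsAt R n, ‖restr J.set x‖ ^ 2 :=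
          Finset.sum_le_sum_of_subset_of_nonneg hE fun _ _ _ => sq_nonneg _
      _ = ‖restr R.set x‖ ^ 2 := pj_sum_normsq_restr R n x
      _ ≤ ‖x‖ ^ 2 := pow_le_pow_left₀ (norm_nonneg _) (xv_norm_restr_le _ _) 2
  exact (abs_le_of_sq_le_sq' h1 (norm_nonneg x)).2

/-! ### duality: row Bessel <-> column Bessel -/

section dual

variable {X : Type*} [NormedAddCommGroup X] [InnerProductSpace ℂ X] {ι : Type*}

/-- row Bessel implies column Bessel -/
theorem pj_dual_col (s : Finset ι) (A A' : ι → X → X) (hadj : ∀ i ∈ s, ∀ x y, ⟪A i x, y⟫_ℂ = ⟪x, A' i y⟫_ℂ)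
    (c : ℝ) (hc : 0 ≤ c) (h : ∀ x, ∑ i ∈ s, ‖A i x‖ ^ 2 ≤ c * ‖x‖ ^ 2) (w : ι → X) :
    ‖∑ i ∈ s, A' i (w i)‖ ^ 2 ≤ c * ∑ i ∈ s, ‖w i‖ ^ 2 := by
  set v := ∑ i ∈ s, A' i (w i) with hv
  have h1 : ‖v‖ ^ 2 ≤ ∑ i ∈ s, ‖A i v‖ * ‖w i‖ := by
    have e1 : ((‖v‖ ^ 2 : ℝ) : ℂ) = ∑ i ∈ s, ⟪A i v, w i⟫_ℂ := by
      have : ⟪v, v⟫_ℂ = ∑ i ∈ s, ⟪A i v, w i⟫_ℂ := by
        conv_lhs => rw [hv, inner_sum]
        exact Finset.sum_congr rfl fun i hi => (hadj i hi _ _).symm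
      rw [← this, inner_self_eq_norm_sq_to_K]
      norm_cast
    calc ‖v‖ ^ 2 = ‖((‖v‖ ^ 2 : ℝ) : ℂ)‖ := by
          rw [Complex.norm_real, Real.norm_eq_abs, abs_of_nonneg (sq_nonneg _)]
      _ ≤ ∑ i ∈ s, ‖⟪A i v, w i⟫_ℂ‖ := by rw [e1]; exact norm_sum_le _ _
      _ ≤ ∑ i ∈ s, ‖A i v‖ * ‖w i‖ := Finset.sum_le_sum fun i _ => norm_inner_le_norm _ _
  have h2 : (‖v‖ ^ 2) ^ 2 ≤ (c * ‖v‖ ^ 2) * ∑ i ∈ s, ‖w i‖ ^ 2 := by
    calc (‖v‖ ^ 2) ^ 2 ≤ (∑ i ∈ s, ‖A i v‖ * ‖w i‖) ^ 2 := pow_le_pow_left₀ (sq_nonneg _) h1 2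
      _ ≤ (∑ i ∈ s, ‖A i v‖ ^ 2) * ∑ i ∈ s, ‖w i‖ ^ 2 := Finset.sum_mul_sq_le_sq_mul_sq _ _ _
      _ ≤ (c * ‖v‖ ^ 2) * ∑ i ∈ s, ‖w i‖ ^ 2 :=
          mul_le_mul_of_nonneg_right (h v) (Finset.sum_nonneg fun _ _ => sq_nonneg _)
  rcases (sq_nonneg ‖v‖).eq_or_lt with h0 | h0
  · rw [← h0]
    exact mul_nonneg hc (Finset.sum_nonneg fun _ _ => sq_nonneg _)
  · have : ‖v‖ ^ 2 * ‖v‖ ^ 2 ≤ ‖v‖ ^ 2 * (c * ∑ i ∈ s, ‖w i‖ ^ 2) := by nlinarith [h2]
    exact le_of_mul_le_mul_left this h0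

/-- column Bessel implies row Bessel -/
theorem pj_dual_row (s : Finset ι) (A A' : ι → X → X) (hadj : ∀ i ∈ s, ∀ x y, ⟪A i x, y⟫_ℂ = ⟪x, A' i y⟫_ℂ)
    (c : ℝ) (hc : 0 ≤ c) (h : ∀ w : ι → X, ‖∑ i ∈ s, A' i (w i)‖ ^ 2 ≤ c * ∑ i ∈ s, ‖w i‖ ^ 2) (x : X) :
    ∑ i ∈ s, ‖A i x‖ ^ 2 ≤ c * ‖x‖ ^ 2 := by
  set S := ∑ i ∈ s, ‖A i x‖ ^ 2 with hS
  set v := ∑ i ∈ s, A' i (A i x) with hv
  have hS0 : 0 ≤ S := Finset.sum_nonneg fun _ _ => sq_nonneg _
  have h1 : S ≤ ‖x‖ * ‖v‖ := by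
    have e1 : ((S : ℝ) : ℂ) = ⟪x, v⟫_ℂ := by
      rw [hv, inner_sum, hS, Complex.ofReal_sum]
      refine Finset.sum_congr rfl fun i hi => ?_
      rw [← hadj i hi, inner_self_eq_norm_sq_to_K]
      norm_cast
    calc S = ‖((S : ℝ) : ℂ)‖ := by rw [Complex.norm_real, Real.norm_eq_abs, abs_of_nonneg hS0]
      _ ≤ ‖x‖ * ‖v‖ := by rw [e1]; exact norm_inner_le_norm _ _
  have h2 : S ^ 2 ≤ ‖x‖ ^ 2 * (c * S) := by
    calc S ^ 2 ≤ (‖x‖ * ‖v‖) ^ 2 := pow_le_pow_left₀ hS0 h1 2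
      _ = ‖x‖ ^ 2 * ‖v‖ ^ 2 := mul_pow _ _ _
      _ ≤ ‖x‖ ^ 2 * (c * S) := mul_le_mul_of_nonneg_left (h _) (sq_nonneg _)
  rcases hS0.eq_or_lt with h0 | h0
  · rw [← h0]; positivity
  · have : S * S ≤ S * (c * ‖x‖ ^ 2) := by nlinarith [h2]
    exact le_of_mul_le_mul_left this h0

end dual

end Claimed.Agent.R258
end

/- ===== packed: Claimed.Agent.R258.S7.Stack ===== -/
section
/-
Row 258, Sec. 7.4 (home architect: helper244).  BLOCK [S7-STK]: ABSTRACT FORM of Lemma 7.4 (side stacks).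

Relative depths `n : ℕ` below the root `R`; blocks `[jK, (j+1)K)`; the frozen depth of the block `j` is `(j-4)K` (`j ≥ 4`); in the first
four blocks the frozen output is `0` (zero convention, as in S8/Iface.lean: `s7Rel = s8Rel`, `s7Blk = s8Blk`, `s7Off = s8Off` by `rfl`).
* `VarBud R grps cert Zg V0` : the CONCLUSION of Lemma 7.3 for the global coarse outputs `Zg G n` (group, relative depth);
* `LocOp R T cT J0 win`      : a family `T n` of operators, block diagonal on the cells of relative depth `n`, of norm `≤ cT`, with the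
                               product-jump estimate (Lemma 3.3, second assertion) on windows of `win` depths, constant `J0`;
* `HasStacks R K grps uses γ x Ncfg E` : the time dependent inputs `x G I p` (`p : γ` band index) are, at the uses, sums of `≤ Ncfg`
                               configurations of fixed stacks `Xs c G j i p` (`j` block, `i ≤ K` position), one position selected at a use,
                               every configuration of energy `≤ E |R|`.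
GOALS: `StackRollGoal`, `StackLinGoal`, `StackUGoal` (the three kinds of side components), `HasStacks.add`.

PROOF PLAN (complete; see also sides.tex l.648-745).  Write `n = jK + o`, `b = jK`.  Binary prefix decomposition: for a sequence `W`,
  `W_(b+o) = W_b + ∑_{a : bit a of o is set} (W_(t_a(o)) - W_(r_a(o)))`, `t_a(o) = b + (o >>> a) <<< a`, `r_a(o) = t_a(o) - 2^a`.
For fixed `a` the intervals `[r,t]` are the dyadic intervals `[b + i 2^a, b + (i+1) 2^a]`: pairwise disjoint, also for different blocks.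
A configuration = a choice of `a` (or "base"); position `i` = index of the dyadic interval; a use whose offset has bit `a` not set selects the
position `K`, where the stack is `0`.  Every stack function is cut down to `Ω` = the union of the use cells selecting it.
(lin)  `W_n = T n V`: base `‖1_Ω T_b V‖ ≤ cT ‖V‖`; increments: `LocOp.jump` on the window `[b, b+K]`.
(U)    one configuration, position = offset `o`, stack = `∑_{uses (G,I) of the block with offset o} 1_I T n (Sg G I)`; `LocOp.loc`, `LocOp.bd`.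
(roll) `W_n = T n (Zg n - Zf)`, `Zf = Zg ((j-4)K)` or `0`.
   base: `‖1_Ω T_b y‖ ≤ ‖T_b 1_{Ω^b} y‖ ≤ cT ‖1_{Ω^b} y‖`, `Ω^b` = union of the `b`-cells containing a use (certified); `VarBud.var` for the
     intervals `[(j-4)K, jK]`, `j` in one residue class mod 4 (4 classes); `VarBud.one` for `j < 4`.
   increments: `W_t - W_r = T t (Zg t - Zg r) + (T t - T r)(Zg r - Zf)`.
     first term (configuration `a`): `≤ cT ‖1_{Ω^t}(Zg t - Zg r)‖`, `VarBud.var` (all these intervals are disjoint).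
     second term (configuration `(a, a')`): expand `Zg r - Zf` by the binary prefix decomposition of `[u', r]`, `u' = (j-4)K` (or `0`, then
       there is the extra term `Zg 0`: configuration `(a, base)`); for a fixed inner interval `[a0, v]` all outer positions using it have the
       common input `X = 1_{Ω'} (Zg v - Zg a0)`, `Ω'` = union of the needed `r`-cells (`LocOp.loc`: `1_Ω (T t - T r) y = 1_Ω (T t - T r) 1_{Ω'} y`);
       `LocOp.jump` gives `J0 ‖X‖²`; `‖X‖ ≤ ‖1_{Ω'^v}(Zg v - Zg a0)‖` (`v`-cells containing them: certified); `VarBud.var` for the inner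
       intervals of length `2^a'`, `j` in one residue class mod 5 (the windows `[(j-4)K, (j+1)K)` are then disjoint), separately for `j < 4`.
-/
set_option autoImplicit false
open MeasureTheory

namespace Claimed.Agent.R258

open Classical

/-- depth of `I` below the root -/
def s7Rel (R I : Cell) : ℕ := (I.depth - R.depth).toNat
/-- index of the block containing the depth of `I` -/
def s7Blk (K : ℕ) (R I : Cell) : ℕ := s7Rel R I / K
/-- offset in the block -/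
def s7Off (K : ℕ) (R I : Cell) : ℕ := s7Rel R I % K

/-- the conclusion of Lemma 7.3 (with the one-time bound) for global coarse outputs `Zg G n` -/
structure VarBud (R : Cell) (grps : Finset ℕ) (cert : ℕ → Cell → Prop) (Zg : ℕ → ℕ → XV) (V0 : ℝ) : Prop where
  var : ∀ (κ : Type) [Fintype κ] (r t : κ → ℕ), (∀ i, r i ≤ t i) → (∀ i j, i ≠ j → t i ≤ r j ∨ t j ≤ r i) →
    ∀ (E : ℕ → κ → Finset Cell), (∀ G i, E G i ⊆ cellsAt R (t i)) → (∀ G i, ∀ J ∈ E G i, cert G J) →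
      ∑ G ∈ grps, ∑ i, ∑ J ∈ E G i, ‖restr J.set (Zg G (t i) - Zg G (r i))‖ ^ 2 ≤ V0 * R.len
  one : ∀ (t : ℕ) (E : ℕ → Finset Cell), (∀ G, E G ⊆ cellsAt R t) → (∀ G, ∀ J ∈ E G, cert G J) →
      ∑ G ∈ grps, ∑ J ∈ E G, ‖restr J.set (Zg G t)‖ ^ 2 ≤ V0 * R.len

/-- local operator families with a jump estimate -/
structure LocOp (R : Cell) (T : ℕ → XV →L[ℂ] XV) (cT J0 : ℝ) (win : ℕ) : Prop where
  loc : ∀ n, ∀ J ∈ cellsAt R n, ∀ x, restr J.set (T n x) = T n (restr J.set x)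
  bd : ∀ n x, ‖T n x‖ ≤ cT * ‖x‖
  jump : ∀ (κ : Type) [Fintype κ] (r t : κ → ℕ) (n0 : ℕ), (∀ i, r i ≤ t i) → (∀ i j, i ≠ j → t i ≤ r j ∨ t j ≤ r i) →
    (∀ i, n0 ≤ r i ∧ t i ≤ n0 + win) → ∀ x, ∑ i, ‖T (t i) x - T (r i) x‖ ^ 2 ≤ J0 * ‖x‖ ^ 2

/-- decomposition into fixed stacks -/
def HasStacks (R : Cell) (K : ℕ) (grps : Finset ℕ) (uses : Finset (ℕ × Cell)) (γ : Type) [Fintype γ]
    (x : ℕ → Cell → γ → XV) (Ncfg : ℕ) (E : ℝ) : Prop :=
  ∃ (𝒞 : Type) (_ : Fintype 𝒞) (Xs : 𝒞 → ℕ → ℕ → ℕ → γ → XV) (sel : 𝒞 → ℕ → Cell → ℕ),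
    Fintype.card 𝒞 ≤ Ncfg ∧ (∀ c G I, sel c G I ≤ K) ∧
    (∀ u ∈ uses, ∀ p, restr u.2.set (x u.1 u.2 p)
        = ∑ c, restr u.2.set (Xs c u.1 (s7Blk K R u.2) (sel c u.1 u.2) p)) ∧
    ∀ (c : 𝒞) (B : Finset ℕ), ∑ G ∈ grps, ∑ j ∈ B, ∑ i ∈ Finset.range (K + 1), ∑ p, ‖Xs c G j i p‖ ^ 2 ≤ E * R.len

/-- the rolling side at relative depth `n` -/
noncomputable def s7roll (K : ℕ) (Zg : ℕ → ℕ → XV) (G n : ℕ) : XV :=
  Zg G n - (if 4 ≤ n / K then Zg G ((n / K - 4) * K) else 0)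

theorem HasStacks.mono {R : Cell} {K : ℕ} {grps : Finset ℕ} {uses : Finset (ℕ × Cell)} {γ : Type} [Fintype γ]
    {x : ℕ → Cell → γ → XV} {N N' : ℕ} {E E' : ℝ} (h : HasStacks R K grps uses γ x N E) (hN : N ≤ N') (hE : E ≤ E') :
    HasStacks R K grps uses γ x N' E' := by
  obtain ⟨𝒞, i𝒞, Xs, sel, h1, h2, h3, h4⟩ := h
  exact ⟨𝒞, i𝒞, Xs, sel, h1.trans hN, h2, h3,
    fun c B => (h4 c B).trans (mul_le_mul_of_nonneg_right hE (cell_len_nonneg R))⟩

/-- sums of inputs: disjoint union of the configurations -/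
theorem HasStacks.add {R : Cell} {K : ℕ} {grps : Finset ℕ} {uses : Finset (ℕ × Cell)} {γ : Type} [Fintype γ]
    {x y : ℕ → Cell → γ → XV} {N N' : ℕ} {E : ℝ} (h : HasStacks R K grps uses γ x N E) (h' : HasStacks R K grps uses γ y N' E) :
    HasStacks R K grps uses γ (fun G I p => x G I p + y G I p) (N + N') E := by
  obtain ⟨𝒞, i𝒞, Xs, sel, h1, h2, h3, h4⟩ := h
  obtain ⟨𝒞', i𝒞', Xs', sel', h1', h2', h3', h4'⟩ := h'
  refine ⟨𝒞 ⊕ 𝒞', inferInstance, Sum.elim Xs Xs', Sum.elim sel sel', ?_, ?_, ?_, ?_⟩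
  · rw [Fintype.card_sum]; omega
  · rintro (c | c) G I
    · exact h2 c G I
    · exact h2' c G I
  · intro u hu p
    rw [map_add, h3 u hu p, h3' u hu p, Fintype.sum_sum_type]
    rfl
  · rintro (c | c) B
    · exact h4 c B
    · exact h4' c B

/-- **Lemma 7.4, rolling component.** -/
def StackRollGoal : Prop :=
  ∀ (R : Cell) (K : ℕ), 1 ≤ K → ∀ (grps : Finset ℕ) (uses : Finset (ℕ × Cell)), (∀ u ∈ uses, u.1 ∈ grps ∧ u.2 ≤ R) →
  ∀ (γ : Type) [Fintype γ] (T : γ → ℕ → ℕ → XV →L[ℂ] XV) (cT J0 : ℝ), 0 ≤ cT → 0 ≤ J0 → (∀ p G, LocOp R (T p G) cT J0 K) →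
  ∀ (Zg : ℕ → ℕ → XV) (V0 : ℝ), 0 ≤ V0 → VarBud R grps (certU R uses) Zg V0 →
    HasStacks R K grps uses γ (fun G I p => T p G (s7Rel R I) (s7roll K Zg G (s7Rel R I)))
      ((Nat.log 2 K + 6) ^ 2) ((Fintype.card γ : ℝ) * (10 * (cT ^ 2 + J0) * V0))

/-- **Lemma 7.4, linear component** (`Vg G j` fixed on the block `j`, hypothesis (17)). -/
def StackLinGoal : Prop :=
  ∀ (R : Cell) (K : ℕ), 1 ≤ K → ∀ (grps : Finset ℕ) (uses : Finset (ℕ × Cell)), (∀ u ∈ uses, u.1 ∈ grps ∧ u.2 ≤ R) →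
  ∀ (γ : Type) [Fintype γ] (T : γ → ℕ → ℕ → XV →L[ℂ] XV) (cT J0 : ℝ), 0 ≤ cT → 0 ≤ J0 → (∀ p G, LocOp R (T p G) cT J0 K) →
  ∀ (Vg : ℕ → ℕ → XV) (EV : ℝ), 0 ≤ EV → (∀ B : Finset ℕ, ∑ G ∈ grps, ∑ j ∈ B, ‖Vg G j‖ ^ 2 ≤ EV * R.len) →
    HasStacks R K grps uses γ (fun G I p => T p G (s7Rel R I) (Vg G (s7Blk K R I)))
      (Nat.log 2 K + 2) ((Fintype.card γ : ℝ) * ((cT ^ 2 + J0) * EV))

/-- **Lemma 7.4, basic-`U` input**: every depth is a position. -/
def StackUGoal : Prop :=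
  ∀ (R : Cell) (K : ℕ), 1 ≤ K → ∀ (grps : Finset ℕ) (uses : Finset (ℕ × Cell)), (∀ u ∈ uses, u.1 ∈ grps ∧ u.2 ≤ R) →
  ∀ (γ : Type) [Fintype γ] (T : γ → ℕ → ℕ → XV →L[ℂ] XV) (cT J0 : ℝ), 0 ≤ cT → 0 ≤ J0 → (∀ p G, LocOp R (T p G) cT J0 K) →
  ∀ (Sg : ℕ → Cell → XV) (EU : ℝ), 0 ≤ EU → ∑ u ∈ uses, ‖restr u.2.set (Sg u.1 u.2)‖ ^ 2 ≤ EU * R.len →
    HasStacks R K grps uses γ (fun G I p => T p G (s7Rel R I) (Sg G I)) 1 ((Fintype.card γ : ℝ) * (cT ^ 2 * EU))

/-- side square budget of the rolling component (display after Lemma 7.3): intervals `[(j-4)K, jK+o]`, `5K`-fold overlap. -/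
def RollBudGoal : Prop :=
  ∀ (R : Cell) (K : ℕ), 1 ≤ K → ∀ (grps : Finset ℕ) (uses : Finset (ℕ × Cell)), (∀ u ∈ uses, u.1 ∈ grps ∧ u.2 ≤ R) →
  ∀ (Zg : ℕ → ℕ → XV) (V0 : ℝ), 0 ≤ V0 → VarBud R grps (certU R uses) Zg V0 →
    ∑ u ∈ uses, ‖restr u.2.set (s7roll K Zg u.1 (s7Rel R u.2))‖ ^ 2 ≤ 9 * K * V0 * R.len

/-- freeze budget: differences from the value at the start of the block, at ALL certified cells, aggregated over the groups. -/
def FreezeBudGoal : Prop :=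
  ∀ (R : Cell) (K : ℕ), 1 ≤ K → ∀ (grps : Finset ℕ) (uses : Finset (ℕ × Cell)), (∀ u ∈ uses, u.1 ∈ grps ∧ u.2 ≤ R) →
  ∀ (Zg : ℕ → ℕ → XV) (V0 : ℝ), 0 ≤ V0 → VarBud R grps (certU R uses) Zg V0 →
  ∀ A : Finset Cell, (∀ J ∈ A, J ≤ R) →
    ∑ J ∈ A, ∑ G ∈ grps.filter (fun G => certU R uses G J),
      ‖restr J.set (Zg G (s7Rel R J) - Zg G (s7Blk K R J * K))‖ ^ 2 ≤ K * V0 * R.len

end Claimed.Agent.R258
end

/- ===== packed: Claimed.Agent.R258.S7.VarProof ===== -/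
section
/-
Row 258, Sec. 7.2, leaf P-S7-VAR (helper32).  PROOF of the abstract Lemma 7.3 (`VarShGoal`, `VarOneGoal`, `VarGoal` of S7/Var.lean),
following the plan in the header of S7/Var.lean.  Prefix `s7v_`.
-/
set_option autoImplicit false
open MeasureTheory
open scoped InnerProductSpace

namespace Claimed.Agent.R258

/-! ### factors, products, block diagonal sums -/

theorem s7v_fac_apply (f : (Cell → Finset Col) × Bool) (J : Cell) (x : XV) :
    s7fac f J x = if f.2 then restr J.set x - cproj (f.1 J) J x else cproj (f.1 J) J x := by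
  unfold s7fac
  split_ifs <;> rfl

theorem s7v_restr_fac (f : (Cell → Finset Col) × Bool) (J : Cell) (x : XV) :
    restr J.set (s7fac f J x) = s7fac f J x := by
  rw [s7v_fac_apply]
  split_ifs
  · rw [map_sub, xv_restr_idem, pj_restr_cproj]
  · rw [pj_restr_cproj]

theorem s7v_fac_restr (f : (Cell → Finset Col) × Bool) (J : Cell) (x : XV) :
    s7fac f J (restr J.set x) = s7fac f J x := by
  rw [s7v_fac_apply, s7v_fac_apply]
  split_ifs
  · rw [xv_restr_idem, pj_cproj_restr]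
  · rw [pj_cproj_restr]

theorem s7v_restr_prod (W : List ((Cell → Finset Col) × Bool)) (J : Cell) (x : XV) :
    restr J.set (s7prod W J x) = s7prod W J x := by
  cases W with
  | nil => exact xv_restr_idem _ _
  | cons f W => exact s7v_restr_fac f J _

/-- the global factor at relative depth `n` -/
noncomputable def s7gf (R : Cell) (f : (Cell → Finset Col) × Bool) (n : ℕ) : XV →L[ℂ] XV :=
  ∑ J ∈ cellsAt R n, s7fac f J

theorem s7v_gf_apply (R : Cell) (f : (Cell → Finset Col) × Bool) (n : ℕ) (x : XV) :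
    s7gf R f n x = ∑ J ∈ cellsAt R n, s7fac f J x := by
  unfold s7gf
  rw [_root_.sum_apply]

theorem s7v_gf_eq (R : Cell) (f : (Cell → Finset Col) × Bool) (n : ℕ) (x : XV) :
    s7gf R f n x = if f.2 then restr R.set x - dproj f.1 R n x else dproj f.1 R n x := by
  rw [s7v_gf_apply, pj_dproj_apply]
  simp only [s7v_fac_apply]
  split_ifs
  · rw [Finset.sum_sub_distrib, pj_sum_restr]
  · rfl

theorem s7v_norm_gf_le (R : Cell) (f : (Cell → Finset Col) × Bool) (n : ℕ) (x : XV) : ‖s7gf R f n x‖ ≤ ‖x‖ := by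
  rw [s7v_gf_eq]
  split_ifs
  · exact pj_norm_restr_sub_dproj_le _ _ _ _
  · exact pj_norm_dproj_le _ _ _ _

theorem s7v_norm_gf_sub (R : Cell) (f : (Cell → Finset Col) × Bool) (t r : ℕ) (x : XV) :
    ‖s7gf R f t x - s7gf R f r x‖ = ‖dproj f.1 R t x - dproj f.1 R r x‖ := by
  rw [s7v_gf_eq, s7v_gf_eq]
  split_ifs
  · rw [sub_sub_sub_cancel_left, norm_sub_rev]
  · rfl

theorem s7v_gf_comm (f : (Cell → Finset Col) × Bool) {R J : Cell} {n k : ℕ} (hJ : J ∈ cellsAt R k) (hkn : k ≤ n)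
    (x : XV) : s7gf R f n (restr J.set x) = restr J.set (s7gf R f n x) := by
  rw [s7v_gf_eq, s7v_gf_eq]
  split_ifs
  · rw [map_sub, pj_dproj_comm _ hJ hkn, pj_restr_comm]
  · rw [pj_dproj_comm _ hJ hkn]

theorem s7v_sh_apply (R : Cell) (W : List ((Cell → Finset Col) × Bool)) (n : ℕ) (x : XV) :
    s7sh R W n x = ∑ J ∈ cellsAt R n, s7prod W J x := by
  unfold s7sh
  rw [_root_.sum_apply]

theorem s7v_restr_sh (W : List ((Cell → Finset Col) × Bool)) {R J : Cell} {n : ℕ} (hJ : J ∈ cellsAt R n) (x : XV) :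
    restr J.set (s7sh R W n x) = s7prod W J x := by
  rw [s7v_sh_apply]
  exact pj_restr_sum (cell_cellsAt_pairwiseDisjoint R n) (fun J => s7prod W J x)
    (fun J _ => s7v_restr_prod W J x) hJ

theorem s7v_sh_nil (R : Cell) (n : ℕ) (x : XV) : s7sh R [] n x = restr R.set x := by
  rw [s7v_sh_apply]
  exact pj_sum_restr R n x

theorem s7v_sh_cons (R : Cell) (f : (Cell → Finset Col) × Bool) (W : List ((Cell → Finset Col) × Bool)) (n : ℕ)
    (x : XV) : s7sh R (f :: W) n x = s7gf R f n (s7sh R W n x) := by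
  rw [s7v_sh_apply, s7v_gf_apply]
  refine Finset.sum_congr rfl fun J hJ => ?_
  rw [← s7v_fac_restr, s7v_restr_sh W hJ]
  rfl

theorem s7v_out_eq (R : Cell) (L : ℕ → Cell → Finset Col) (W : List ((Cell → Finset Col) × Bool)) (G n : ℕ) (x : XV) :
    s7out R L W G n x = dproj (L G) R n (s7sh R W n x) := by
  unfold s7out
  rw [_root_.sum_apply, pj_dproj_apply]
  refine Finset.sum_congr rfl fun J hJ => ?_
  rw [← pj_cproj_restr (L G J) J (s7sh R W n x), s7v_restr_sh W hJ]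
  rfl

/-! ### Lemma K: compression against time dependent block diagonal rows -/

theorem s7v_compr_rows {R : Cell} {W : List ((Cell → Finset Col) × Bool)} {Kap : ℝ} (hC : ComprFor R W Kap)
    {ι' : Type} (s : Finset ι') (r : ι' → ℕ) (T : ι' → XV →L[ℂ] XV)
    (hcomm : ∀ a ∈ s, ∀ J ∈ cellsAt R (r a), ∀ x, T a (restr J.set x) = restr J.set (T a x))
    (c : ℝ) (hc : 0 < c) (hT : ∀ z, ∑ a ∈ s, ‖T a z‖ ^ 2 ≤ c * ‖z‖ ^ 2) (F : XV) :
    ∑ a ∈ s, ‖T a (s7sh R W (r a) F)‖ ^ 2 ≤ c * (Kap ^ 2 * ‖F‖ ^ 2) := by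
  classical
  set S : Finset (Σ _ : ι', Cell) := s.sigma fun a => cellsAt R (r a) with hS
  have hsq : (Real.sqrt c) ^ 2 = c := Real.sq_sqrt hc.le
  have hsq0 : 0 < Real.sqrt c := Real.sqrt_pos.2 hc
  let B : S → XV →L[ℂ] XV := fun ν => (((Real.sqrt c)⁻¹ : ℝ) : ℂ) • (T ν.1.1).comp (restr ν.1.2.set)
  have hBn : ∀ (ν : S) (z : XV), ‖B ν z‖ ^ 2 = c⁻¹ * ‖T ν.1.1 (restr ν.1.2.set z)‖ ^ 2 := by
    intro ν z
    simp only [B, _root_.smul_apply, ContinuousLinearMap.comp_apply]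
    rw [norm_smul, Complex.norm_real, Real.norm_eq_abs, abs_of_nonneg (by positivity), mul_pow, inv_pow, hsq]
  have hsum : ∀ g : (Σ _ : ι', Cell) → ℝ, ∑ ν : S, g ν.1 = ∑ a ∈ s, ∑ J ∈ cellsAt R (r a), g ⟨a, J⟩ := by
    intro g
    rw [Finset.sum_coe_sort S g, hS, Finset.sum_sigma]
  have key := hC S B (fun ν => ν.1.2)
    (fun ν => pj_le_root (Finset.mem_sigma.1 ν.2).2)
    (fun ν => by
      ext1 z
      simp only [B, _root_.smul_apply, ContinuousLinearMap.comp_apply, xv_restr_idem])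
    (fun z => by
      simp only [hBn]
      rw [hsum fun p => c⁻¹ * ‖T p.1 (restr p.2.set z)‖ ^ 2]
      calc ∑ a ∈ s, ∑ J ∈ cellsAt R (r a), c⁻¹ * ‖T a (restr J.set z)‖ ^ 2
          = c⁻¹ * ∑ a ∈ s, ‖restr R.set (T a z)‖ ^ 2 := by
            rw [Finset.mul_sum]
            refine Finset.sum_congr rfl fun a ha => ?_
            rw [← Finset.mul_sum, ← pj_sum_normsq_restr R (r a)]
            congr 1
            exact Finset.sum_congr rfl fun J hJ => by rw [hcomm a ha J hJ]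
        _ ≤ c⁻¹ * ∑ a ∈ s, ‖T a z‖ ^ 2 := by
            refine mul_le_mul_of_nonneg_left ?_ (by positivity)
            exact Finset.sum_le_sum fun a _ => pow_le_pow_left₀ (norm_nonneg _) (xv_norm_restr_le _ _) 2
        _ ≤ c⁻¹ * (c * ‖z‖ ^ 2) := mul_le_mul_of_nonneg_left (hT z) (by positivity)
        _ = ‖z‖ ^ 2 := by field_simp) F
  simp only [hBn] at key
  rw [hsum fun p => c⁻¹ * ‖T p.1 (restr p.2.set (s7prod W p.2 F))‖ ^ 2] at key
  have e : ∀ a ∈ s, ‖T a (s7sh R W (r a) F)‖ ^ 2 =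
      ∑ J ∈ cellsAt R (r a), ‖T a (restr J.set (s7prod W J F))‖ ^ 2 := by
    intro a ha
    rw [s7v_sh_apply, map_sum, pj_normsq_sum (cell_cellsAt_pairwiseDisjoint R (r a))]
    · exact Finset.sum_congr rfl fun J _ => by rw [s7v_restr_prod]
    · intro J hJ
      rw [← hcomm a ha J hJ, s7v_restr_prod]
  rw [Finset.sum_congr rfl e]
  have : c⁻¹ * ∑ a ∈ s, ∑ J ∈ cellsAt R (r a), ‖T a (restr J.set (s7prod W J F))‖ ^ 2 ≤ Kap ^ 2 * ‖F‖ ^ 2 := by
    refine le_trans (le_of_eq ?_) key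
    rw [Finset.mul_sum]
    exact Finset.sum_congr rfl fun a _ => by rw [Finset.mul_sum]
  rwa [inv_mul_le_iff₀ hc] at this

/-! ### (1) the shared version -/

theorem s7v_varSh_aux (R : Cell) (Kap : ℝ) (hK : 1 ≤ Kap) (κ : Type) [Fintype κ] (r t : κ → ℕ)
    (hrt : ∀ i, r i ≤ t i) (hd : ∀ i j, i ≠ j → t i ≤ r j ∨ t j ≤ r i) :
    ∀ W : List ((Cell → Finset Col) × Bool), (∀ f ∈ W, Inh R f.1) → (∀ W', W' <:+ W → ComprFor R W' Kap) →
      ∀ F : XV, ∑ i, ‖s7sh R W (t i) F - s7sh R W (r i) F‖ ^ 2 ≤ ((W.length : ℝ) * Kap) ^ 2 * ‖F‖ ^ 2 := by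
  intro W
  induction W with
  | nil =>
    intro _ _ F
    simp [s7v_sh_nil]
  | cons f W ih =>
    intro hI hC F
    have ih' := ih (fun g hg => hI g (List.mem_cons_of_mem _ hg))
      (fun W' hW' => hC W' (hW'.trans (List.suffix_cons f W))) F
    have hf : Inh R f.1 := hI f (by simp)
    have hCW : ComprFor R W Kap := hC W (List.suffix_cons f W)
    have h2 := s7v_compr_rows hCW (Finset.univ : Finset κ) r (fun i => s7gf R f (t i) - s7gf R f (r i))
      (fun i _ J hJ x => by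
        simp only [_root_.sub_apply]
        rw [s7v_gf_comm f hJ (hrt i), s7v_gf_comm f hJ le_rfl, map_sub])
      1 one_pos
      (fun z => by
        simp only [_root_.sub_apply, s7v_norm_gf_sub, one_mul]
        exact pj_bessel hf Finset.univ r t (fun i _ => hrt i) (fun i _ j _ hij => hd i j hij) z) F
    simp only [_root_.sub_apply, one_mul] at h2
    have hK0 : 0 ≤ Kap := by linarith
    have := s3_sum_sq_add_le (Finset.univ : Finset κ)
      (fun i => ‖s7sh R (f :: W) (t i) F - s7sh R (f :: W) (r i) F‖)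
      (fun i => ‖s7sh R W (t i) F - s7sh R W (r i) F‖)
      (fun i => ‖s7gf R f (t i) (s7sh R W (r i) F) - s7gf R f (r i) (s7sh R W (r i) F)‖)
      ((W.length : ℝ) * Kap * ‖F‖) (Kap * ‖F‖) (by positivity) (by positivity)
      (fun _ _ => norm_nonneg _)
      (fun i _ => by
        have e : s7sh R (f :: W) (t i) F - s7sh R (f :: W) (r i) F =
            s7gf R f (t i) (s7sh R W (t i) F - s7sh R W (r i) F) +
              (s7gf R f (t i) (s7sh R W (r i) F) - s7gf R f (r i) (s7sh R W (r i) F)) := by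
          rw [s7v_sh_cons, s7v_sh_cons, map_sub]; abel
        rw [e]
        exact (norm_add_le _ _).trans (add_le_add_left (s7v_norm_gf_le _ _ _ _) _))
      (by rw [mul_pow]; exact ih') (by rw [mul_pow]; exact h2)
    refine this.trans (le_of_eq ?_)
    rw [List.length_cons]
    push_cast
    ring

theorem s7_varShGoal : VarShGoal := by
  intro R W Kap hI hC hK κ _ r t hrt hd F
  exact s7v_varSh_aux R Kap hK κ r t hrt hd W hI hC F

/-! ### the usable spaces -/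

/-- the usable endpoint space of the group `G` -/
noncomputable def s7U (R : Cell) (L : ℕ → Cell → Finset Col) (cert : ℕ → Cell → Prop) (G : ℕ) : Submodule ℂ XV :=
  ⨆ (J : Cell) (_ : J ≤ R ∧ cert G J), colSpan (L G J) J

theorem s7v_cproj_mem_U {R : Cell} {L : ℕ → Cell → Finset Col} {cert : ℕ → Cell → Prop} {G : ℕ} {J : Cell}
    (hJ : J ≤ R) (hc : cert G J) (x : XV) : cproj (L G J) J x ∈ s7U R L cert G :=
  Submodule.mem_iSup_of_mem J (Submodule.mem_iSup_of_mem ⟨hJ, hc⟩ (pj_cproj_mem _ _ _))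

theorem s7v_dproj_pjE_mem_U {R : Cell} {L : ℕ → Cell → Finset Col} {cert : ℕ → Cell → Prop}
    (cert_up : ∀ G J J', cert G J → J ≤ J' → J' ≤ R → cert G J') {G : ℕ} {E : Finset Cell} {t n : ℕ}
    (hE : E ⊆ cellsAt R t) (hn : n ≤ t) (hcert : ∀ J ∈ E, cert G J) (w : XV) :
    dproj (L G) R n (pjE E w) ∈ s7U R L cert G := by
  rw [pj_dproj_apply]
  refine Submodule.sum_mem _ fun J' hJ' => ?_
  by_cases h : ∃ J ∈ E, J ≤ J'
  · obtain ⟨J, hJ, hle⟩ := h
    exact s7v_cproj_mem_U (pj_le_root hJ') (cert_up G J J' (hcert J hJ) hle (pj_le_root hJ')) _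
  · push Not at h
    have h0 : restr J'.set (pjE E w) = 0 := by
      rw [pjE_apply]
      refine pj_restr_sum_disj (fun J => restr J.set w) (fun J _ => xv_restr_idem _ _) fun J hJ => ?_
      exact ((pj_le_or_disjoint (hE hJ) hJ' hn).resolve_left (h J hJ)).symm
    rw [← pj_cproj_restr, h0, map_zero]
    exact Submodule.zero_mem _

/-! ### (2) group Bessel at one time -/

theorem s7v_group_bessel {R : Cell} {grps : Finset ℕ} {L : ℕ → Cell → Finset Col} {cert : ℕ → Cell → Prop}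
    {W : List ((Cell → Finset Col) × Bool)} {Kap : ℝ} (h : VarHyp R grps L cert W Kap) (t : ℕ) (E : ℕ → Finset Cell)
    (hE : ∀ G, E G ⊆ cellsAt R t) (hcert : ∀ G, ∀ J ∈ E G, cert G J) (x : XV) :
    ∑ G ∈ grps, ‖pjE (E G) (dproj (L G) R t x)‖ ^ 2 ≤ 2 * ‖x‖ ^ 2 := by
  refine pj_dual_row grps (fun G x => pjE (E G) (dproj (L G) R t x)) (fun G y => dproj (L G) R t (pjE (E G) y))
    (fun G _ x y => by rw [pjE_inner, pj_dproj_inner]) 2 (by norm_num) (fun w => ?_) x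
  refine (h.ub (fun G => dproj (L G) R t (pjE (E G) (w G)))
    (fun G _ => s7v_dproj_pjE_mem_U h.cert_up (hE G) le_rfl (hcert G) _)).trans ?_
  refine mul_le_mul_of_nonneg_left (Finset.sum_le_sum fun G _ => ?_) (by norm_num)
  exact pow_le_pow_left₀ (norm_nonneg _) ((pj_norm_dproj_le _ _ _ _).trans (pjE_norm_le (hE G) _)) 2

theorem s7v_pjE_comp_comm (m : Cell → Finset Col) (E : Finset Cell) {R J : Cell} {n k : ℕ} (hJ : J ∈ cellsAt R k)
    (hkn : k ≤ n) (x : XV) :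
    pjE E (dproj m R n (restr J.set x)) = restr J.set (pjE E (dproj m R n x)) := by
  rw [pj_dproj_comm m hJ hkn, pjE_comm]

theorem s7_varOneGoal : VarOneGoal := by
  intro R grps L cert W Kap h t E hE hcert F
  have hK := s7v_compr_rows (h.compr W (List.suffix_refl W)) grps (fun _ => t)
    (fun G => (pjE (E G)).comp (dproj (L G) R t))
    (fun G _ J hJ x => s7v_pjE_comp_comm (L G) (E G) hJ le_rfl x) 2 (by norm_num)
    (fun z => s7v_group_bessel h t E hE hcert z) F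
  simp only [ContinuousLinearMap.comp_apply] at hK
  calc ∑ G ∈ grps, ∑ J ∈ E G, ‖restr J.set (s7out R L W G t F)‖ ^ 2
      = ∑ G ∈ grps, ‖pjE (E G) (dproj (L G) R t (s7sh R W t F))‖ ^ 2 :=
        Finset.sum_congr rfl fun G _ => by rw [pjE_normsq (pj_disj_of_subset (hE G)), s7v_out_eq]
    _ ≤ 2 * (Kap ^ 2 * ‖F‖ ^ 2) := hK
    _ = 2 * Kap ^ 2 * ‖F‖ ^ 2 := by ring

/-! ### (3) joint Bessel of the increments -/

theorem s7v_joint_bessel {R : Cell} {grps : Finset ℕ} {L : ℕ → Cell → Finset Col} {cert : ℕ → Cell → Prop}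
    {W : List ((Cell → Finset Col) × Bool)} {Kap : ℝ} (h : VarHyp R grps L cert W Kap) (κ : Type) [Fintype κ]
    (r t : κ → ℕ) (hrt : ∀ i, r i ≤ t i) (hd : ∀ i j, i ≠ j → t i ≤ r j ∨ t j ≤ r i) (E : ℕ → κ → Finset Cell)
    (hE : ∀ G i, E G i ⊆ cellsAt R (t i)) (hcert : ∀ G i, ∀ J ∈ E G i, cert G J) (x : XV) :
    ∑ p ∈ grps ×ˢ (Finset.univ : Finset κ),
      ‖pjE (E p.1 p.2) (dproj (L p.1) R (t p.2) x - dproj (L p.1) R (r p.2) x)‖ ^ 2 ≤ 2 * ‖x‖ ^ 2 := by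
  refine pj_dual_row (grps ×ˢ (Finset.univ : Finset κ))
    (fun p x => pjE (E p.1 p.2) (dproj (L p.1) R (t p.2) x - dproj (L p.1) R (r p.2) x))
    (fun p y => dproj (L p.1) R (t p.2) (pjE (E p.1 p.2) y) - dproj (L p.1) R (r p.2) (pjE (E p.1 p.2) y))
    (fun p _ x y => by
      rw [pjE_inner, inner_sub_left, inner_sub_right, pj_dproj_inner, pj_dproj_inner]) 2 (by norm_num)
    (fun w => ?_) x
  rw [Finset.sum_product, Finset.sum_product]
  refine (h.ub (fun G => ∑ i, (dproj (L G) R (t i) (pjE (E G i) (w (G, i))) -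
      dproj (L G) R (r i) (pjE (E G i) (w (G, i)))))
    (fun G _ => Submodule.sum_mem _ fun i _ => Submodule.sub_mem _
      (s7v_dproj_pjE_mem_U h.cert_up (hE G i) le_rfl (hcert G i) _)
      (s7v_dproj_pjE_mem_U h.cert_up (hE G i) (hrt i) (hcert G i) _))).trans ?_
  refine mul_le_mul_of_nonneg_left (Finset.sum_le_sum fun G hG => ?_) (by norm_num)
  have h1 := pj_dual_col (Finset.univ : Finset κ)
    (fun i x => dproj (L G) R (t i) x - dproj (L G) R (r i) x)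
    (fun i x => dproj (L G) R (t i) x - dproj (L G) R (r i) x)
    (fun i _ x y => by rw [inner_sub_left, inner_sub_right, pj_dproj_inner, pj_dproj_inner]) 1 zero_le_one
    (fun x => by
      rw [one_mul]
      exact pj_bessel (h.inhL G hG) Finset.univ r t (fun i _ => hrt i) (fun i _ j _ hij => hd i j hij) x)
    (fun i => pjE (E G i) (w (G, i)))
  rw [one_mul] at h1
  refine h1.trans (Finset.sum_le_sum fun i _ => ?_)
  exact pow_le_pow_left₀ (norm_nonneg _) (pjE_norm_le (hE G i) _) 2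

/-! ### (4) Lemma 7.3 -/

theorem s7_varGoal : VarGoal := by
  intro R grps L cert W Kap h κ _ r t hrt hd E hE hcert F
  have hK0 : 0 ≤ Kap := by linarith [h.kap]
  -- first term
  have h1 := s7v_compr_rows (h.compr W (List.suffix_refl W)) (grps ×ˢ (Finset.univ : Finset κ)) (fun p => r p.2)
    (fun p => (pjE (E p.1 p.2)).comp (dproj (L p.1) R (t p.2) - dproj (L p.1) R (r p.2)))
    (fun p _ J hJ x => by
      simp only [ContinuousLinearMap.comp_apply, _root_.sub_apply]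
      rw [pj_dproj_comm _ hJ (hrt p.2), pj_dproj_comm _ hJ le_rfl, ← map_sub, pjE_comm]) 2 (by norm_num)
    (fun z => by
      simp only [ContinuousLinearMap.comp_apply, _root_.sub_apply]
      exact s7v_joint_bessel h κ r t hrt hd E hE hcert z) F
  simp only [ContinuousLinearMap.comp_apply, _root_.sub_apply] at h1
  -- second term
  have hsh := s7_varShGoal R W Kap h.inhW h.compr h.kap κ r t hrt hd F
  have h2 : ∑ p ∈ grps ×ˢ (Finset.univ : Finset κ),
      ‖pjE (E p.1 p.2) (dproj (L p.1) R (t p.2) (s7sh R W (t p.2) F - s7sh R W (r p.2) F))‖ ^ 2 ≤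
        2 * (((W.length : ℝ) * Kap) ^ 2 * ‖F‖ ^ 2) := by
    rw [Finset.sum_product_right]
    calc ∑ i, ∑ G ∈ grps, ‖pjE (E G i) (dproj (L G) R (t i) (s7sh R W (t i) F - s7sh R W (r i) F))‖ ^ 2
        ≤ ∑ i, 2 * ‖s7sh R W (t i) F - s7sh R W (r i) F‖ ^ 2 :=
          Finset.sum_le_sum fun i _ =>
            s7v_group_bessel h (t i) (fun G => E G i) (fun G => hE G i) (fun G => hcert G i) _
      _ = 2 * ∑ i, ‖s7sh R W (t i) F - s7sh R W (r i) F‖ ^ 2 := (Finset.mul_sum _ _ _).symm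
      _ ≤ 2 * (((W.length : ℝ) * Kap) ^ 2 * ‖F‖ ^ 2) := mul_le_mul_of_nonneg_left hsh (by norm_num)
  have hs2 : Real.sqrt 2 ^ 2 = 2 := Real.sq_sqrt (by norm_num)
  have hM := s3_sum_sq_add_le (grps ×ˢ (Finset.univ : Finset κ))
    (fun p => ‖pjE (E p.1 p.2) (s7out R L W p.1 (t p.2) F - s7out R L W p.1 (r p.2) F)‖)
    (fun p => ‖pjE (E p.1 p.2) (dproj (L p.1) R (t p.2) (s7sh R W (r p.2) F) -
      dproj (L p.1) R (r p.2) (s7sh R W (r p.2) F))‖)
    (fun p => ‖pjE (E p.1 p.2) (dproj (L p.1) R (t p.2) (s7sh R W (t p.2) F - s7sh R W (r p.2) F))‖)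
    (Real.sqrt 2 * (Kap * ‖F‖)) (Real.sqrt 2 * ((W.length : ℝ) * Kap * ‖F‖)) (by positivity) (by positivity)
    (fun _ _ => norm_nonneg _)
    (fun p _ => by
      have e : s7out R L W p.1 (t p.2) F - s7out R L W p.1 (r p.2) F =
          (dproj (L p.1) R (t p.2) (s7sh R W (r p.2) F) - dproj (L p.1) R (r p.2) (s7sh R W (r p.2) F)) +
            dproj (L p.1) R (t p.2) (s7sh R W (t p.2) F - s7sh R W (r p.2) F) := by
        rw [s7v_out_eq, s7v_out_eq, map_sub]; abel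
      rw [e, map_add]
      exact norm_add_le _ _)
    (by rw [mul_pow, mul_pow, hs2]; exact h1) (by rw [mul_pow, mul_pow, hs2]; exact h2)
  calc ∑ G ∈ grps, ∑ i, ∑ J ∈ E G i, ‖restr J.set (s7out R L W G (t i) F - s7out R L W G (r i) F)‖ ^ 2
      = ∑ p ∈ grps ×ˢ (Finset.univ : Finset κ),
          ‖pjE (E p.1 p.2) (s7out R L W p.1 (t p.2) F - s7out R L W p.1 (r p.2) F)‖ ^ 2 := by
        rw [Finset.sum_product]
        exact Finset.sum_congr rfl fun G _ => Finset.sum_congr rfl fun i _ => by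
          rw [pjE_normsq (pj_disj_of_subset (hE G i))]
    _ ≤ (Real.sqrt 2 * (Kap * ‖F‖) + Real.sqrt 2 * ((W.length : ℝ) * Kap * ‖F‖)) ^ 2 := hM
    _ = Real.sqrt 2 ^ 2 * (((W.length : ℝ) + 1) * Kap) ^ 2 * ‖F‖ ^ 2 := by ring
    _ = 2 * (((W.length : ℝ) + 1) * Kap) ^ 2 * ‖F‖ ^ 2 := by rw [hs2]

/-! ### Lemma 8.8 without the lift -/

/-- `ComprFor` for rows with an arbitrary Bessel constant, indexed by a finite set -/
theorem s7v_compr_scaled {R : Cell} {W : List ((Cell → Finset Col) × Bool)} {Kap : ℝ} (hC : ComprFor R W Kap)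
    {ι' : Type} (s : Finset ι') (B : ι' → XV →L[ℂ] XV) (u : ι' → Cell) (hu : ∀ ν ∈ s, u ν ≤ R)
    (hB : ∀ ν ∈ s, ∀ z, B ν (restr (u ν).set z) = B ν z) (c : ℝ) (hc : 0 ≤ c)
    (hbes : ∀ z, ∑ ν ∈ s, ‖B ν z‖ ^ 2 ≤ c * ‖z‖ ^ 2) (z : XV) :
    ∑ ν ∈ s, ‖B ν (s7prod W (u ν) z)‖ ^ 2 ≤ c * (Kap ^ 2 * ‖z‖ ^ 2) := by
  rcases hc.eq_or_lt with rfl | hc
  · rw [zero_mul]
    refine le_of_eq (Finset.sum_eq_zero fun ν hν => ?_)
    have h1 := hbes (s7prod W (u ν) z)
    rw [zero_mul] at h1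
    exact le_antisymm ((Finset.single_le_sum (f := fun ν' => ‖B ν' (s7prod W (u ν) z)‖ ^ 2)
      (fun _ _ => sq_nonneg _) hν).trans h1) (sq_nonneg _)
  · have hsq : (Real.sqrt c) ^ 2 = c := Real.sq_sqrt hc.le
    have hsq0 : 0 < Real.sqrt c := Real.sqrt_pos.2 hc
    let B' : s → XV →L[ℂ] XV := fun ν => (((Real.sqrt c)⁻¹ : ℝ) : ℂ) • B ν.1
    have hBn : ∀ (ν : s) (z : XV), ‖B' ν z‖ ^ 2 = c⁻¹ * ‖B ν.1 z‖ ^ 2 := by
      intro ν z
      simp only [B', _root_.smul_apply]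
      rw [norm_smul, Complex.norm_real, Real.norm_eq_abs, abs_of_nonneg (by positivity), mul_pow, inv_pow, hsq]
    have key := hC s B' (fun ν => u ν.1) (fun ν => hu ν.1 ν.2)
      (fun ν => by
        ext1 z
        simp only [B', _root_.smul_apply, ContinuousLinearMap.comp_apply, hB ν.1 ν.2])
      (fun z => by
        simp only [hBn]
        rw [Finset.sum_coe_sort s fun ν => c⁻¹ * ‖B ν z‖ ^ 2, ← Finset.mul_sum, inv_mul_le_iff₀ hc]
        exact hbes z) z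
    simp only [hBn] at key
    rw [Finset.sum_coe_sort s fun ν => c⁻¹ * ‖B ν (s7prod W (u ν) z)‖ ^ 2, ← Finset.mul_sum,
      inv_mul_le_iff₀ hc] at key
    exact key

theorem s7v_prod_single (m : Cell → Finset Col) (J : Cell) (z : XV) :
    s7prod [(m, false)] J z = cproj (m J) J z := by
  show s7fac (m, false) J (restr J.set z) = _
  rw [s7v_fac_restr, s7v_fac_apply]
  rfl

theorem s7_varRowsGoal : VarRowsGoal := by
  intro R grps L cert W Kap h hL ι _ Ge Ue Te Bz hBz he hTe hbes F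
  have hK0 : 0 ≤ Kap := by linarith [h.kap]
  -- (a) one group
  have ha : ∀ G ∈ grps, ∀ z : XV, ∑ e with Ge e = G, ‖Te e (cproj (L (Ge e) (Ue e)) (Ue e) z)‖ ^ 2 ≤
      Bz * Kap ^ 2 * ‖z‖ ^ 2 := by
    intro G hG z
    have h1 := s7v_compr_scaled (hL G hG) (Finset.univ.filter fun e => Ge e = G) Te Ue (fun e _ => (he e).2.1)
      (fun e _ z => hTe e z) Bz hBz (hbes G) z
    simp only [s7v_prod_single] at h1
    calc ∑ e with Ge e = G, ‖Te e (cproj (L (Ge e) (Ue e)) (Ue e) z)‖ ^ 2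
        = ∑ e with Ge e = G, ‖Te e (cproj (L G (Ue e)) (Ue e) z)‖ ^ 2 :=
          Finset.sum_congr rfl fun e he' => by rw [(Finset.mem_filter.1 he').2]
      _ ≤ Bz * (Kap ^ 2 * ‖z‖ ^ 2) := h1
      _ = Bz * Kap ^ 2 * ‖z‖ ^ 2 := by ring
  have hadj : ∀ (e : ι) (x y : XV), ⟪Te e (cproj (L (Ge e) (Ue e)) (Ue e) x), y⟫_ℂ =
      ⟪x, cproj (L (Ge e) (Ue e)) (Ue e) (ContinuousLinearMap.adjoint (Te e) y)⟫_ℂ := by
    intro e x y
    rw [← pj_cproj_inner, ContinuousLinearMap.adjoint_inner_right]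
  -- (b) joint rows
  have hb : ∀ z : XV, ∑ e, ‖Te e (cproj (L (Ge e) (Ue e)) (Ue e) z)‖ ^ 2 ≤ 2 * (Bz * Kap ^ 2) * ‖z‖ ^ 2 := by
    refine pj_dual_row Finset.univ (fun e z => Te e (cproj (L (Ge e) (Ue e)) (Ue e) z))
      (fun e y => cproj (L (Ge e) (Ue e)) (Ue e) (ContinuousLinearMap.adjoint (Te e) y))
      (fun e _ x y => hadj e x y) (2 * (Bz * Kap ^ 2)) (by positivity) (fun w => ?_)
    rw [← Finset.sum_fiberwise_of_maps_to (s := Finset.univ) (t := grps) (g := Ge) (fun e _ => (he e).1),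
      ← Finset.sum_fiberwise_of_maps_to (s := Finset.univ) (t := grps) (g := Ge) (fun e _ => (he e).1)
        (f := fun e => ‖w e‖ ^ 2)]
    refine (h.ub (fun G => ∑ e with Ge e = G,
        cproj (L (Ge e) (Ue e)) (Ue e) (ContinuousLinearMap.adjoint (Te e) (w e)))
      (fun G _ => Submodule.sum_mem _ fun e he' => by
        have hG : Ge e = G := (Finset.mem_filter.1 he').2
        have := s7v_cproj_mem_U (L := L) (he e).2.1 (he e).2.2 (ContinuousLinearMap.adjoint (Te e) (w e))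
        rw [hG] at this ⊢
        exact this)).trans ?_
    rw [mul_assoc, Finset.mul_sum (a := Bz * Kap ^ 2)]
    refine mul_le_mul_of_nonneg_left (Finset.sum_le_sum fun G hG => ?_) (by norm_num)
    exact pj_dual_col (Finset.univ.filter fun e => Ge e = G) (fun e z => Te e (cproj (L (Ge e) (Ue e)) (Ue e) z))
      (fun e y => cproj (L (Ge e) (Ue e)) (Ue e) (ContinuousLinearMap.adjoint (Te e) y))
      (fun e _ x y => hadj e x y) (Bz * Kap ^ 2) (by positivity) (ha G hG) w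
  -- (c) the shared history
  have hc := s7v_compr_scaled (h.compr W (List.suffix_refl W)) Finset.univ
    (fun e => (Te e).comp (cproj (L (Ge e) (Ue e)) (Ue e))) Ue (fun e _ => (he e).2.1)
    (fun e _ z => by simp only [ContinuousLinearMap.comp_apply, pj_cproj_restr]) (2 * (Bz * Kap ^ 2))
    (by positivity) hb F
  simp only [ContinuousLinearMap.comp_apply] at hc
  refine hc.trans (le_of_eq ?_)
  ring

/-! ### the product-jump estimate -/

section jump

variable {X : Type*} [NormedAddCommGroup X] [InnerProductSpace ℂ X]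

theorem s7v_Z_congr {P P' : ℕ → ℕ → X →ₗ[ℂ] X} (m n : ℕ) (h : ∀ j < m, P j n = P' j n) :
    s3_Z P m n = s3_Z P' m n := by
  induction m with
  | zero => rfl
  | succ m ih =>
    simp only [s3_Z]
    rw [h m (Nat.lt_succ_self m), ih fun j hj => h j (Nat.lt_succ_of_lt hj)]

theorem s7v_Z_reparam (P : ℕ → ℕ → X →ₗ[ℂ] X) (σ : ℕ → ℕ) (m n : ℕ) :
    s3_Z (fun j n => P j (σ n)) m n = s3_Z P m (σ n) := by
  induction m with
  | zero => rfl
  | succ m ih => simp only [s3_Z]; rw [ih]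

theorem s7v_nested_reparam {P : ℕ → X →ₗ[ℂ] X} (h : s3_Nested P) {σ : ℕ → ℕ} (hσ : Monotone σ) :
    s3_Nested fun n => P (σ n) where
  symm n x y := h.symm (σ n) x y
  fix n n' x hn := h.fix (σ n) (σ n') x (hσ hn)

open Classical in
/-- rounding down to the left endpoint of the interval -/
noncomputable def s7vRho {κ : Type*} (r t : κ → ℕ) (p : ℕ) : ℕ :=
  if h : ∃ i, r i ≤ p ∧ p < t i then r h.choose else p

variable {κ : Type*} {r t : κ → ℕ}

theorem s7v_rho_in (hd : ∀ i j, i ≠ j → t i ≤ r j ∨ t j ≤ r i) {i : κ} {p : ℕ} (h1 : r i ≤ p) (h2 : p < t i) :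
    s7vRho r t p = r i := by
  have h : ∃ i, r i ≤ p ∧ p < t i := ⟨i, h1, h2⟩
  unfold s7vRho
  rw [dif_pos h]
  obtain ⟨h3, h4⟩ := h.choose_spec
  by_cases e : h.choose = i
  · rw [e]
  · rcases hd _ _ e with h5 | h5 <;> omega

theorem s7v_rho_out {p : ℕ} (h : ¬ ∃ i, r i ≤ p ∧ p < t i) : s7vRho r t p = p := by
  unfold s7vRho
  rw [dif_neg h]

theorem s7v_rho_le (p : ℕ) : s7vRho r t p ≤ p := by
  unfold s7vRho
  split_ifs with h
  · exact h.choose_spec.1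
  · exact le_rfl

theorem s7v_rho_mono (hd : ∀ i j, i ≠ j → t i ≤ r j ∨ t j ≤ r i) : Monotone (s7vRho r t) := by
  intro p p' hpp
  by_cases h : ∃ i, r i ≤ p' ∧ p' < t i
  · obtain ⟨j, h1, h2⟩ := h
    rw [s7v_rho_in hd h1 h2]
    by_cases h3 : r j ≤ p
    · rw [s7v_rho_in hd h3 (lt_of_le_of_lt hpp h2)]
    · exact (s7v_rho_le p).trans (by omega)
  · rw [s7v_rho_out h]
    exact (s7v_rho_le p).trans hpp

theorem s7v_rho_right (hrt : ∀ i, r i ≤ t i) (hd : ∀ i j, i ≠ j → t i ≤ r j ∨ t j ≤ r i) (i : κ) :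
    s7vRho r t (t i) = t i := by
  by_cases h : ∃ j, r j ≤ t i ∧ t i < t j
  · obtain ⟨j, h1, h2⟩ := h
    rw [s7v_rho_in hd h1 h2]
    have hne : i ≠ j := by rintro rfl; exact lt_irrefl _ h2
    have := hrt i
    rcases hd i j hne with h5 | h5 <;> omega
  · exact s7v_rho_out h

theorem s7v_jump_abs (P : ℕ → ℕ → X →ₗ[ℂ] X) (m : ℕ) (hP : ∀ j < m, s3_Nested (P j)) [Fintype κ] (n0 win : ℕ)
    (hrt : ∀ i, r i ≤ t i) (hd : ∀ i j, i ≠ j → t i ≤ r j ∨ t j ≤ r i) (hw : ∀ i, n0 ≤ r i ∧ t i ≤ n0 + win) (g : X) :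
    ∑ i, ‖s3_Z P m (t i) g - s3_Z P m (r i) g‖ ^ 2 ≤ ((m : ℝ) * (s3_LT win : ℝ) ^ (m - 1)) ^ 2 * ‖g‖ ^ 2 := by
  classical
  have hσ : Monotone fun n => s7vRho r t (n0 + n) := fun a b hab => s7v_rho_mono hd (by omega)
  have key := s3_prefix_diff (fun j n => P j (s7vRho r t (n0 + n))) m win
    (fun j hj => s7v_nested_reparam (hP j hj) hσ) g
  simp only [s7v_Z_reparam P (fun n => s7vRho r t (n0 + n))] at key
  refine le_trans ?_ key
  set a : ℕ → ℝ := fun n => ‖s3_Z P m (s7vRho r t (n0 + (n + 1))) g - s3_Z P m (s7vRho r t (n0 + n)) g‖ ^ 2 with ha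
  set s : Finset κ := Finset.univ.filter fun i => r i < t i with hs
  have h1 : ∑ i, ‖s3_Z P m (t i) g - s3_Z P m (r i) g‖ ^ 2 = ∑ i ∈ s, a (t i - 1 - n0) := by
    rw [hs, Finset.sum_filter]
    refine Finset.sum_congr rfl fun i _ => ?_
    have h2 := hrt i
    have h3 := hw i
    split_ifs with h
    · simp only [ha]
      rw [show n0 + (t i - 1 - n0 + 1) = t i by omega, show n0 + (t i - 1 - n0) = t i - 1 by omega,
        s7v_rho_right hrt hd, s7v_rho_in hd (i := i) (by omega) (by omega)]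
    · rw [show t i = r i by omega]; simp
  have hinj : Set.InjOn (fun i => t i - 1 - n0) (s : Set κ) := by
    intro i hi j hj hij
    simp only [hs, Finset.coe_filter, Finset.mem_univ, true_and, Set.mem_ofPred_eq] at hi hj
    have h3 := hw i
    have h4 := hw j
    by_contra hne
    simp only at hij
    rcases hd i j hne with h5 | h5 <;> omega
  rw [h1, ← Finset.sum_image (f := a) hinj]
  refine Finset.sum_le_sum_of_subset_of_nonneg ?_ fun _ _ _ => sq_nonneg _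
  intro n hn
  obtain ⟨i, hi, rfl⟩ := Finset.mem_image.1 hn
  simp only [hs, Finset.mem_filter, Finset.mem_univ, true_and] at hi
  have h3 := hw i
  rw [Finset.mem_range]
  omega

end jump


/-- the layers of a positive product (layer `j` is applied after the layers `< j`) -/
noncomputable def s7vP (R : Cell) : List ((Cell → Finset Col) × Bool) → ℕ → ℕ → XV →ₗ[ℂ] XV
  | [], _, _ => 0
  | f :: W, j, n => if j = W.length then (dproj f.1 R n : XV →ₗ[ℂ] XV) else s7vP R W j n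

theorem s7v_P_nested (R : Cell) : ∀ W : List ((Cell → Finset Col) × Bool), (∀ f ∈ W, Inh R f.1) →
    ∀ j < W.length, s3_Nested (s7vP R W j) := by
  intro W
  induction W with
  | nil => intro _ j hj; simp at hj
  | cons f W ih =>
    intro hI j hj
    by_cases e : j = W.length
    · have : s7vP R (f :: W) j = fun n => (dproj f.1 R n : XV →ₗ[ℂ] XV) := by
        funext n; simp only [s7vP, if_pos e]
      rw [this]
      exact pj_nested (hI f (by simp))
    · have : s7vP R (f :: W) j = s7vP R W j := by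
        funext n; simp only [s7vP, if_neg e]
      rw [this]
      refine ih (fun g hg => hI g (List.mem_cons_of_mem _ hg)) j ?_
      rw [List.length_cons] at hj
      omega

theorem s7v_sh_eq_Z (R : Cell) (n : ℕ) (F : XV) : ∀ W : List ((Cell → Finset Col) × Bool), (∀ f ∈ W, f.2 = false) →
    s7sh R W n F = s3_Z (s7vP R W) W.length n (restr R.set F) := by
  intro W
  induction W with
  | nil => intro _; rw [s7v_sh_nil]; rfl
  | cons f W ih =>
    intro hf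
    rw [s7v_sh_cons, ih fun g hg => hf g (List.mem_cons_of_mem _ hg), s7v_gf_eq, hf f (by simp)]
    simp only [List.length_cons, s3_Z, LinearMap.comp_apply]
    rw [s7v_Z_congr (P := s7vP R (f :: W)) (P' := s7vP R W) W.length n fun j hj => by
      simp only [s7vP, if_neg hj.ne]]
    simp [s7vP]

theorem s7_jumpGoal : JumpGoal := by
  intro R W hW κ _ r t n0 win hrt hd hw F
  have h1 := s7v_jump_abs (s7vP R W) W.length (s7v_P_nested R W fun f hf => (hW f hf).1) n0 win hrt hd hw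
    (restr R.set F)
  simp only [← s7v_sh_eq_Z R _ F W fun f hf => (hW f hf).2] at h1
  refine h1.trans ?_
  have h2 : (s3_LT win : ℝ) ≤ ((1 + Nat.clog 2 (2 * win + 3) : ℕ) : ℝ) := by
    unfold s3_LT
    exact_mod_cast Nat.add_le_add_left (Nat.clog_mono_right 2 (by omega)) 1
  have h3 : ‖restr R.set F‖ ≤ ‖F‖ := xv_norm_restr_le _ _
  gcongr

end Claimed.Agent.R258
end

/- ===== packed: Claimed.Agent.R258.S7.Comb ===== -/
section
/-
Row 258, Sec. 7.2/7.4 (home architect: helper244).  BLOCK [S7-COMB]: LINEAR COMBINATIONS OF PROJECTION PRODUCTS.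

All histories of Sec. 6 (smeared filters, complements, bands, helper products, basic arguments `B_l`) are, cell by cell, finite linear combinations
with FIXED coefficients (independent of the cell: "pad choices coupled across all times") of products `s7prod W J` of individual inherited mask
projections.  `IsComb 𝓕 pos m Ct T`: `T J = ∑_i c_i s7prod (W_i) J`, words of length `≤ m` with families in `𝓕` (all factors positive if `pos`),
`∑ ‖c_i‖ ≤ Ct`.  The class is closed under composition, sums, averages.  By the triangle inequality in `ℓ²` (this is the "Jensen" of the paper):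
* `IsComb.varBud_sh`   : variation budget of a shared history (Lemma 7.3, second part);
* `IsComb.varBud_ball` : variation budget of coarse outputs with outer ball projections (Lemma 7.3);
* `IsComb.rows`        : Lemma 8.8 without the lift;
* `IsComb.locOp`       : helper products are local operators with the product-jump estimate (used in Lemma 7.4).
BLOCK [S7-COMB]: PROVED (helper52), this file is sorry-free (prefix `cmb_`).  Basic facts needed: `s7prod W J = restr J ∘ s7prod W J ∘ restr J`,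
`s7prod W₁ J ∘ s7prod W₂ J = s7prod (W₁ ++ W₂) J`, `‖s7prod W J x‖ ≤ ‖x‖`, disjointness of the cells of one depth (shared with P-S7-VAR: S7/ProjApi.lean).
-/
set_option autoImplicit false
open MeasureTheory

namespace Claimed.Agent.R258

open Classical

/-! ### basic facts on `s7prod`, `s7sh` -/

theorem cmb_prod_append (W₁ W₂ : List ((Cell → Finset Col) × Bool)) (J : Cell) :
    s7prod (W₁ ++ W₂) J = (s7prod W₁ J).comp (s7prod W₂ J) := by
  induction W₁ with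
  | nil =>
    ext1 x
    simp only [List.nil_append, ContinuousLinearMap.comp_apply]
    exact (s7v_restr_prod W₂ J x).symm
  | cons f W ih =>
    simp only [List.cons_append, s7prod]
    rw [ih]
    rfl

theorem cmb_norm_fac_le (f : (Cell → Finset Col) × Bool) (J : Cell) (x : XV) : ‖s7fac f J x‖ ≤ ‖restr J.set x‖ := by
  rw [s7v_fac_apply]
  split_ifs
  · exact pj_norm_restr_sub_cproj_le _ _ _
  · exact pj_norm_cproj_le_restr _ _ _

theorem cmb_norm_prod_le (W : List ((Cell → Finset Col) × Bool)) (J : Cell) (x : XV) :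
    ‖s7prod W J x‖ ≤ ‖restr J.set x‖ := by
  induction W with
  | nil => exact le_rfl
  | cons f W ih =>
    have h1 : ‖s7prod (f :: W) J x‖ ≤ ‖restr J.set (s7prod W J x)‖ := cmb_norm_fac_le f J _
    rw [s7v_restr_prod] at h1
    exact h1.trans ih

theorem cmb_prod_restr (W : List ((Cell → Finset Col) × Bool)) (J : Cell) (x : XV) :
    s7prod W J (restr J.set x) = s7prod W J x := by
  induction W with
  | nil => exact xv_restr_idem _ _
  | cons f W ih =>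
    show s7fac f J (s7prod W J (restr J.set x)) = s7fac f J (s7prod W J x)
    rw [ih]

theorem cmb_prod_restr_disj (W : List ((Cell → Finset Col) × Bool)) {J J' : Cell} (h : Disjoint J.set J'.set) (x : XV) :
    s7prod W J (restr J'.set x) = 0 := by
  rw [← cmb_prod_restr, xv_restr_disjoint (cell_measurableSet J) (cell_measurableSet J') h, map_zero]

theorem cmb_normsq_sh (R : Cell) (W : List ((Cell → Finset Col) × Bool)) (n : ℕ) (x : XV) :
    ‖s7sh R W n x‖ ^ 2 = ∑ J ∈ cellsAt R n, ‖s7prod W J x‖ ^ 2 := by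
  rw [s7v_sh_apply]
  exact pj_normsq_sum (cell_cellsAt_pairwiseDisjoint R n) _ fun J _ => s7v_restr_prod W J x

theorem cmb_norm_sh_le (R : Cell) (W : List ((Cell → Finset Col) × Bool)) (n : ℕ) (x : XV) : ‖s7sh R W n x‖ ≤ ‖x‖ := by
  have h1 : ‖s7sh R W n x‖ ^ 2 ≤ ‖x‖ ^ 2 := by
    rw [cmb_normsq_sh]
    calc ∑ J ∈ cellsAt R n, ‖s7prod W J x‖ ^ 2 ≤ ∑ J ∈ cellsAt R n, ‖restr J.set x‖ ^ 2 :=
          Finset.sum_le_sum fun J _ => pow_le_pow_left₀ (norm_nonneg _) (cmb_norm_prod_le W J x) 2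
      _ = ‖restr R.set x‖ ^ 2 := pj_sum_normsq_restr R n x
      _ ≤ ‖x‖ ^ 2 := pow_le_pow_left₀ (norm_nonneg _) (xv_norm_restr_le _ _) 2
  exact (abs_le_of_sq_le_sq' h1 (norm_nonneg x)).2

theorem cmb_sh_restr (W : List ((Cell → Finset Col) × Bool)) {R J : Cell} {n : ℕ} (hJ : J ∈ cellsAt R n) (x : XV) :
    s7sh R W n (restr J.set x) = s7prod W J x := by
  rw [s7v_sh_apply, Finset.sum_eq_single J, cmb_prod_restr]
  · intro J' hJ' hne
    exact cmb_prod_restr_disj W (cell_cellsAt_pairwiseDisjoint R n hJ' hJ hne) x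
  · intro h; exact absurd hJ h

theorem cmb_sum_restr_le {R : Cell} {n : ℕ} {E : Finset Cell} (hE : E ⊆ cellsAt R n) (y : XV) :
    ∑ J ∈ E, ‖restr J.set y‖ ^ 2 ≤ ‖y‖ ^ 2 := by
  rw [← pjE_normsq (pj_disj_of_subset hE)]
  exact pow_le_pow_left₀ (norm_nonneg _) (pjE_norm_le hE y) 2

/-! ### the triangle inequality in `ℓ²` -/

theorem cmb_jensen {X : Type*} [SeminormedAddCommGroup X] [NormedSpace ℂ X] {ι : Type*} (s : Finset ι) (c : ι → ℂ) (v : ι → X) :
    ‖∑ i ∈ s, c i • v i‖ ^ 2 ≤ (∑ i ∈ s, ‖c i‖) * ∑ i ∈ s, ‖c i‖ * ‖v i‖ ^ 2 := by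
  have h1 : ‖∑ i ∈ s, c i • v i‖ ≤ ∑ i ∈ s, Real.sqrt ‖c i‖ * (Real.sqrt ‖c i‖ * ‖v i‖) := by
    refine (norm_sum_le _ _).trans (le_of_eq (Finset.sum_congr rfl fun i _ => ?_))
    rw [norm_smul, ← mul_assoc, Real.mul_self_sqrt (norm_nonneg _)]
  calc ‖∑ i ∈ s, c i • v i‖ ^ 2 ≤ (∑ i ∈ s, Real.sqrt ‖c i‖ * (Real.sqrt ‖c i‖ * ‖v i‖)) ^ 2 :=
        pow_le_pow_left₀ (norm_nonneg _) h1 2
    _ ≤ (∑ i ∈ s, Real.sqrt ‖c i‖ ^ 2) * ∑ i ∈ s, (Real.sqrt ‖c i‖ * ‖v i‖) ^ 2 := Finset.sum_mul_sq_le_sq_mul_sq _ _ _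
    _ = _ := by
        congr 1
        · exact Finset.sum_congr rfl fun i _ => Real.sq_sqrt (norm_nonneg _)
        · exact Finset.sum_congr rfl fun i _ => by rw [mul_pow, Real.sq_sqrt (norm_nonneg _)]

/-- Minkowski, one level -/
theorem cmb_mink {X : Type*} [SeminormedAddCommGroup X] [NormedSpace ℂ X] {ι β : Type*} (s : Finset ι) (c : ι → ℂ) (t : Finset β)
    (v : ι → β → X) (A : ℝ) (h : ∀ i ∈ s, ∑ b ∈ t, ‖v i b‖ ^ 2 ≤ A) :
    ∑ b ∈ t, ‖∑ i ∈ s, c i • v i b‖ ^ 2 ≤ (∑ i ∈ s, ‖c i‖) ^ 2 * A := by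
  have hS : 0 ≤ ∑ i ∈ s, ‖c i‖ := Finset.sum_nonneg fun _ _ => norm_nonneg _
  calc ∑ b ∈ t, ‖∑ i ∈ s, c i • v i b‖ ^ 2 ≤ ∑ b ∈ t, (∑ i ∈ s, ‖c i‖) * ∑ i ∈ s, ‖c i‖ * ‖v i b‖ ^ 2 :=
        Finset.sum_le_sum fun b _ => cmb_jensen s c fun i => v i b
    _ = (∑ i ∈ s, ‖c i‖) * ∑ i ∈ s, ‖c i‖ * ∑ b ∈ t, ‖v i b‖ ^ 2 := by
        rw [← Finset.mul_sum, Finset.sum_comm]
        congr 1
        exact Finset.sum_congr rfl fun i _ => by rw [Finset.mul_sum]
    _ ≤ (∑ i ∈ s, ‖c i‖) * ∑ i ∈ s, ‖c i‖ * A :=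
        mul_le_mul_of_nonneg_left (Finset.sum_le_sum fun i hi => mul_le_mul_of_nonneg_left (h i hi) (norm_nonneg _)) hS
    _ = (∑ i ∈ s, ‖c i‖) ^ 2 * A := by rw [← Finset.sum_mul]; ring

/-- Minkowski, two levels -/
theorem cmb_mink2 {X : Type*} [SeminormedAddCommGroup X] [NormedSpace ℂ X] {ι α β : Type*} (s : Finset ι) (c : ι → ℂ)
    (t : Finset α) (u : α → Finset β) (v : ι → α → β → X) (A : ℝ) (h : ∀ i ∈ s, ∑ a ∈ t, ∑ b ∈ u a, ‖v i a b‖ ^ 2 ≤ A) :
    ∑ a ∈ t, ∑ b ∈ u a, ‖∑ i ∈ s, c i • v i a b‖ ^ 2 ≤ (∑ i ∈ s, ‖c i‖) ^ 2 * A := by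
  have := cmb_mink s c (t.sigma u) (fun i p => v i p.1 p.2) A (fun i hi => by rw [Finset.sum_sigma]; exact h i hi)
  rwa [Finset.sum_sigma] at this

/-- Minkowski, three levels -/
theorem cmb_mink3 {X : Type*} [SeminormedAddCommGroup X] [NormedSpace ℂ X] {ι α β γ : Type*} (s : Finset ι) (c : ι → ℂ)
    (t : Finset α) (u : α → Finset β) (w : α → β → Finset γ) (v : ι → α → β → γ → X) (A : ℝ)
    (h : ∀ i ∈ s, ∑ a ∈ t, ∑ b ∈ u a, ∑ g ∈ w a b, ‖v i a b g‖ ^ 2 ≤ A) :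
    ∑ a ∈ t, ∑ b ∈ u a, ∑ g ∈ w a b, ‖∑ i ∈ s, c i • v i a b g‖ ^ 2 ≤ (∑ i ∈ s, ‖c i‖) ^ 2 * A := by
  have := cmb_mink2 s c (t.sigma u) (fun p => w p.1 p.2) (fun i p g => v i p.1 p.2 g) A
    (fun i hi => by rw [Finset.sum_sigma]; exact h i hi)
  rwa [Finset.sum_sigma] at this

theorem cmb_fin {S Ct a b x y : ℝ} (hS0 : 0 ≤ S) (hS : S ≤ Ct) (ha : 0 ≤ a) (hab : a ≤ b) (hx : 0 ≤ x) (hxy : x ≤ y) :
    S ^ 2 * (a ^ 2 * x) ≤ (Ct * b) ^ 2 * y := by
  have h1 : S * a ≤ Ct * b := mul_le_mul hS hab ha (hS0.trans hS)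
  have h2 : (S * a) ^ 2 ≤ (Ct * b) ^ 2 := pow_le_pow_left₀ (mul_nonneg hS0 ha) h1 2
  calc S ^ 2 * (a ^ 2 * x) = (S * a) ^ 2 * x := by ring
    _ ≤ (Ct * b) ^ 2 * y := mul_le_mul h2 hxy hx (sq_nonneg _)

theorem cmb_glob {ι : Type} [Fintype ι] (c : ι → ℂ) (W : ι → List ((Cell → Finset Col) × Bool)) (T : Cell → XV →L[ℂ] XV)
    (h3 : ∀ J, T J = ∑ i, c i • s7prod (W i) J) (R : Cell) (n : ℕ) (F : XV) :
    ∑ J ∈ cellsAt R n, T J F = ∑ i, c i • s7sh R (W i) n F := by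
  simp only [h3, _root_.sum_apply, _root_.smul_apply, s7v_sh_apply, Finset.smul_sum]
  rw [Finset.sum_comm]

theorem cmb_norm_le {X : Type*} [SeminormedAddCommGroup X] [NormedSpace ℂ X] {ι : Type*} (s : Finset ι) (c : ι → ℂ) (v : ι → X)
    (B : ℝ) (h : ∀ i ∈ s, ‖v i‖ ≤ B) : ‖∑ i ∈ s, c i • v i‖ ≤ (∑ i ∈ s, ‖c i‖) * B := by
  refine (norm_sum_le _ _).trans ?_
  rw [Finset.sum_mul]
  exact Finset.sum_le_sum fun i hi => by
    rw [norm_smul]; exact mul_le_mul_of_nonneg_left (h i hi) (norm_nonneg _)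

theorem cmb_sum_norm_prod {κ ι : Type*} [Fintype κ] [Fintype ι] (a : κ → ℂ) (c : ι → ℂ) :
    ∑ p : κ × ι, ‖a p.1 * c p.2‖ = (∑ i, ‖a i‖) * ∑ j, ‖c j‖ := by
  rw [Fintype.sum_prod_type, Finset.sum_mul_sum]
  simp only [norm_mul]

theorem cmb_local_ball {ι κ : Type} [Fintype ι] [Fintype κ] (c : ι → ℂ) (W : ι → List ((Cell → Finset Col) × Bool))
    (T : Cell → XV →L[ℂ] XV) (h3 : ∀ J, T J = ∑ i, c i • s7prod (W i) J) (a : κ → ℂ) (L : κ → ℕ → Cell → Finset Col)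
    (G : ℕ) (J : Cell) (F : XV) :
    ∑ i, a i • cproj (L i G J) J (T J F) = ∑ p : κ × ι, (a p.1 * c p.2) • cproj (L p.1 G J) J (s7prod (W p.2) J F) := by
  simp only [h3, _root_.sum_apply, _root_.smul_apply, map_sum, map_smul, Finset.smul_sum, smul_smul, Fintype.sum_prod_type]

theorem cmb_glob_ball {ι κ : Type} [Fintype ι] [Fintype κ] (c : ι → ℂ) (W : ι → List ((Cell → Finset Col) × Bool))
    (T : Cell → XV →L[ℂ] XV) (h3 : ∀ J, T J = ∑ i, c i • s7prod (W i) J) (a : κ → ℂ) (L : κ → ℕ → Cell → Finset Col)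
    (R : Cell) (G n : ℕ) (F : XV) :
    ∑ J ∈ cellsAt R n, ∑ i, a i • cproj (L i G J) J (T J F) = ∑ p : κ × ι, (a p.1 * c p.2) • s7out R (L p.1) (W p.2) G n F := by
  simp only [cmb_local_ball c W T h3]
  rw [Finset.sum_comm]
  refine Finset.sum_congr rfl fun p _ => ?_
  unfold s7out
  rw [_root_.sum_apply, Finset.smul_sum]
  rfl

/-- cell-wise linear combination, with fixed coefficients, of products of individual projections -/
def IsComb (𝓕 : Set (Cell → Finset Col)) (pos : Prop) (m : ℕ) (Ct : ℝ) (T : Cell → XV →L[ℂ] XV) : Prop :=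
  ∃ (ι : Type) (_ : Fintype ι) (c : ι → ℂ) (W : ι → List ((Cell → Finset Col) × Bool)),
    (∀ i, (W i).length ≤ m ∧ ∀ f ∈ W i, f.1 ∈ 𝓕 ∧ (pos → f.2 = false)) ∧ ∑ i, ‖c i‖ ≤ Ct ∧
    ∀ J, T J = ∑ i, c i • s7prod (W i) J

namespace IsComb
variable {𝓕 : Set (Cell → Finset Col)} {pos : Prop} {m m' : ℕ} {Ct Ct' : ℝ} {T T' : Cell → XV →L[ℂ] XV}

theorem restr : IsComb 𝓕 pos 0 1 (fun J => Claimed.Agent.R258.restr J.set) := by
  refine ⟨Unit, inferInstance, fun _ => 1, fun _ => [], ?_, ?_, ?_⟩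
  · intro i; simp
  · simp
  · intro J; simp [s7prod]

theorem mono (h : IsComb 𝓕 pos m Ct T) (hm : m ≤ m') (hC : Ct ≤ Ct') : IsComb 𝓕 pos m' Ct' T := by
  obtain ⟨ι, hι, c, W, h1, h2, h3⟩ := h
  exact ⟨ι, hι, c, W, fun i => ⟨(h1 i).1.trans hm, (h1 i).2⟩, h2.trans hC, h3⟩

theorem mono_fam {𝓕' : Set (Cell → Finset Col)} (h : IsComb 𝓕 pos m Ct T) (hF : 𝓕 ⊆ 𝓕') : IsComb 𝓕' pos m Ct T := by
  obtain ⟨ι, hι, c, W, h1, h2, h3⟩ := h
  exact ⟨ι, hι, c, W, fun i => ⟨(h1 i).1, fun f hf => ⟨hF ((h1 i).2 f hf).1, ((h1 i).2 f hf).2⟩⟩, h2, h3⟩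

theorem of_pos (h : IsComb 𝓕 True m Ct T) : IsComb 𝓕 pos m Ct T := by
  obtain ⟨ι, hι, c, W, h1, h2, h3⟩ := h
  exact ⟨ι, hι, c, W, fun i => ⟨(h1 i).1, fun f hf => ⟨((h1 i).2 f hf).1, fun _ => ((h1 i).2 f hf).2 trivial⟩⟩, h2, h3⟩

theorem proj {f : Cell → Finset Col} (hf : f ∈ 𝓕) : IsComb 𝓕 pos 1 1 (fun J => cproj (f J) J) := by
  refine ⟨Unit, inferInstance, fun _ => 1, fun _ => [(f, false)], ?_, ?_, ?_⟩
  · intro i; simp [hf]
  · simp
  · intro J
    ext1 x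
    simp [s7prod, s7fac, pj_cproj_restr]

theorem compl {f : Cell → Finset Col} (hf : f ∈ 𝓕) :
    IsComb 𝓕 False 1 1 (fun J => Claimed.Agent.R258.restr J.set - cproj (f J) J) := by
  refine ⟨Unit, inferInstance, fun _ => 1, fun _ => [(f, true)], ?_, ?_, ?_⟩
  · intro i; simp [hf]
  · simp
  · intro J
    ext1 x
    simp [s7prod, s7fac, pj_cproj_restr, xv_restr_idem]

theorem comp (h : IsComb 𝓕 pos m Ct T) (h' : IsComb 𝓕 pos m' Ct' T') (hC : 0 ≤ Ct) (hC' : 0 ≤ Ct') :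
    IsComb 𝓕 pos (m + m') (Ct * Ct') (fun J => (T J).comp (T' J)) := by
  obtain ⟨ι, hι, c, W, h1, h2, h3⟩ := h
  obtain ⟨ι', hι', c', W', h1', h2', h3'⟩ := h'
  refine ⟨ι × ι', inferInstance, fun p => c p.1 * c' p.2, fun p => W p.1 ++ W' p.2, ?_, ?_, ?_⟩
  · intro p
    refine ⟨by rw [List.length_append]; exact add_le_add (h1 p.1).1 (h1' p.2).1, fun f hf => ?_⟩
    rcases List.mem_append.1 hf with hf | hf
    · exact (h1 p.1).2 f hf
    · exact (h1' p.2).2 f hf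
  · calc ∑ p : ι × ι', ‖c p.1 * c' p.2‖ = (∑ i, ‖c i‖) * ∑ j, ‖c' j‖ := by
          rw [Fintype.sum_prod_type, Finset.sum_mul_sum]
          simp only [norm_mul]
      _ ≤ Ct * Ct' := mul_le_mul h2 h2' (Finset.sum_nonneg fun _ _ => norm_nonneg _) hC
  · intro J
    beta_reduce
    rw [h3, h3']
    ext1 x
    simp only [ContinuousLinearMap.comp_apply, _root_.sum_apply, _root_.smul_apply, map_sum, map_smul, cmb_prod_append,
      Fintype.sum_prod_type, Finset.smul_sum, smul_smul]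
    rw [Finset.sum_comm]
    exact Finset.sum_congr rfl fun i _ => Finset.sum_congr rfl fun j _ => by rw [mul_comm]

theorem add (h : IsComb 𝓕 pos m Ct T) (h' : IsComb 𝓕 pos m Ct' T') : IsComb 𝓕 pos m (Ct + Ct') (fun J => T J + T' J) := by
  obtain ⟨ι, hι, c, W, h1, h2, h3⟩ := h
  obtain ⟨ι', hι', c', W', h1', h2', h3'⟩ := h'
  refine ⟨ι ⊕ ι', inferInstance, Sum.elim c c', Sum.elim W W', ?_, ?_, ?_⟩
  · rintro (i | i)
    · exact h1 i
    · exact h1' i
  · rw [Fintype.sum_sum_type]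
    exact add_le_add h2 h2'
  · intro J
    beta_reduce
    rw [Fintype.sum_sum_type, h3, h3']
    rfl

theorem smul (h : IsComb 𝓕 pos m Ct T) (a : ℂ) : IsComb 𝓕 pos m (‖a‖ * Ct) (fun J => a • T J) := by
  obtain ⟨ι, hι, c, W, h1, h2, h3⟩ := h
  refine ⟨ι, hι, fun i => a * c i, W, h1, ?_, ?_⟩
  · simp only [norm_mul]
    rw [← Finset.mul_sum]
    exact mul_le_mul_of_nonneg_left h2 (norm_nonneg _)
  · intro J
    beta_reduce
    rw [h3, Finset.smul_sum]
    simp only [smul_smul]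

theorem sub (h : IsComb 𝓕 pos m Ct T) (h' : IsComb 𝓕 pos m Ct' T') : IsComb 𝓕 pos m (Ct + Ct') (fun J => T J - T' J) := by
  have := h.add (h'.smul (-1))
  simpa [sub_eq_add_neg] using this

theorem sum {κ : Type} (s : Finset κ) (Ts : κ → Cell → XV →L[ℂ] XV) (Cs : κ → ℝ) (h : ∀ i ∈ s, IsComb 𝓕 pos m (Cs i) (Ts i)) :
    IsComb 𝓕 pos m (∑ i ∈ s, Cs i) (fun J => ∑ i ∈ s, Ts i J) := by
  induction s using Finset.induction_on with
  | empty => exact ⟨Empty, inferInstance, fun e => e.elim, fun e => e.elim, fun e => e.elim, by simp, by simp⟩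
  | insert a s ha ih =>
    have h1 := h a (Finset.mem_insert_self a s)
    have h2 := ih fun i hi => h i (Finset.mem_insert_of_mem hi)
    have := h1.add h2
    simpa only [Finset.sum_insert ha] using this

/-- **Lemma 7.3, shared histories** (the group index is the dummy `0`). -/
theorem varBud_sh (hVS : VarShGoal) {R : Cell} {Kap cF : ℝ} (hT : IsComb 𝓕 False m Ct T) (hInh : ∀ f ∈ 𝓕, Inh R f)
    (hC : ∀ W : List ((Cell → Finset Col) × Bool), (∀ f ∈ W, f.1 ∈ 𝓕) → W.length ≤ m → ComprFor R W Kap) (hK : 1 ≤ Kap)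
    (hCt : 0 ≤ Ct) (F : XV) (hF : ‖F‖ ^ 2 ≤ cF * R.len) :
    VarBud R {0} (fun _ J => J ≤ R) (fun _ n => ∑ J ∈ cellsAt R n, T J F) ((Ct * ((m : ℝ) + 1) * Kap) ^ 2 * cF) := by
  obtain ⟨ι, hι, c, W, h1, h2, h3⟩ := hT
  have hS0 : 0 ≤ ∑ i, ‖c i‖ := Finset.sum_nonneg fun _ _ => norm_nonneg _
  have hK0 : 0 ≤ Kap := by linarith
  have hm0 : (0 : ℝ) ≤ m := Nat.cast_nonneg m
  constructor
  · intro κ _ r t hrt hd E hE _
    rw [Finset.sum_singleton]
    have hone : ∀ a, ∑ i, ‖s7sh R (W a) (t i) F - s7sh R (W a) (r i) F‖ ^ 2 ≤ ((m : ℝ) * Kap) ^ 2 * ‖F‖ ^ 2 := by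
      intro a
      refine (hVS R (W a) Kap (fun f hf => hInh _ ((h1 a).2 f hf).1)
        (fun W' hW' => hC W' (fun f hf => ((h1 a).2 f (hW'.subset hf)).1) (hW'.length_le.trans (h1 a).1))
        hK κ r t hrt hd F).trans ?_
      exact mul_le_mul_of_nonneg_right (pow_le_pow_left₀ (by positivity)
        (mul_le_mul_of_nonneg_right (by exact_mod_cast (h1 a).1) hK0) 2) (sq_nonneg _)
    calc ∑ i, ∑ J ∈ E 0 i, ‖Claimed.Agent.R258.restr J.set (∑ J ∈ cellsAt R (t i), T J F - ∑ J ∈ cellsAt R (r i), T J F)‖ ^ 2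
        ≤ ∑ i, ‖∑ J ∈ cellsAt R (t i), T J F - ∑ J ∈ cellsAt R (r i), T J F‖ ^ 2 :=
          Finset.sum_le_sum fun i _ => cmb_sum_restr_le (hE 0 i) _
      _ = ∑ i, ‖∑ a, c a • (s7sh R (W a) (t i) F - s7sh R (W a) (r i) F)‖ ^ 2 := by
          refine Finset.sum_congr rfl fun i _ => ?_
          rw [cmb_glob c W T h3, cmb_glob c W T h3, ← Finset.sum_sub_distrib]
          simp only [smul_sub]
      _ ≤ (∑ a, ‖c a‖) ^ 2 * (((m : ℝ) * Kap) ^ 2 * ‖F‖ ^ 2) :=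
          cmb_mink Finset.univ c Finset.univ (fun a i => s7sh R (W a) (t i) F - s7sh R (W a) (r i) F) _ (fun a _ => hone a)
      _ ≤ (Ct * (((m : ℝ) + 1) * Kap)) ^ 2 * (cF * R.len) :=
          cmb_fin hS0 h2 (by positivity) (by nlinarith) (sq_nonneg _) hF
      _ = _ := by ring
  · intro t E hE _
    rw [Finset.sum_singleton]
    have hb : ‖∑ a, c a • s7sh R (W a) t F‖ ≤ (∑ a, ‖c a‖) * ‖F‖ :=
      cmb_norm_le Finset.univ c _ _ fun a _ => cmb_norm_sh_le R (W a) t F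
    calc ∑ J ∈ E 0, ‖Claimed.Agent.R258.restr J.set (∑ J ∈ cellsAt R t, T J F)‖ ^ 2 ≤ ‖∑ J ∈ cellsAt R t, T J F‖ ^ 2 :=
          cmb_sum_restr_le (hE 0) _
      _ = ‖∑ a, c a • s7sh R (W a) t F‖ ^ 2 := by rw [cmb_glob c W T h3]
      _ ≤ ((∑ a, ‖c a‖) * ‖F‖) ^ 2 := pow_le_pow_left₀ (norm_nonneg _) hb 2
      _ = (∑ a, ‖c a‖) ^ 2 * ((1 : ℝ) ^ 2 * ‖F‖ ^ 2) := by ring
      _ ≤ (Ct * (((m : ℝ) + 1) * Kap)) ^ 2 * (cF * R.len) :=
          cmb_fin hS0 h2 zero_le_one (by nlinarith) (sq_nonneg _) hF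
      _ = _ := by ring

/-- **Lemma 7.3, outer ball projections**: `L i G` individual outer families (`i` = pad choice), coefficients `a i`. -/
theorem varBud_ball (hV : VarGoal) (hV1 : VarOneGoal) {R : Cell} {Kap cF : ℝ} (hT : IsComb 𝓕 False m Ct T) (hInh : ∀ f ∈ 𝓕, Inh R f)
    (hC : ∀ W : List ((Cell → Finset Col) × Bool), (∀ f ∈ W, f.1 ∈ 𝓕) → W.length ≤ m → ComprFor R W Kap) (hK : 1 ≤ Kap)
    (hCt : 0 ≤ Ct) (F : XV) (hF : ‖F‖ ^ 2 ≤ cF * R.len)
    (grps : Finset ℕ) (cert : ℕ → Cell → Prop) (hcert : ∀ G J J', cert G J → J ≤ J' → J' ≤ R → cert G J')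
    {κ : Type} [Fintype κ] (a : κ → ℂ) (L : κ → ℕ → Cell → Finset Col) (ha : ∑ i, ‖a i‖ ≤ Ct')
    (hL : ∀ i, ∀ G ∈ grps, Inh R (L i G)) (hub : ∀ i, UsableBessel R grps (L i) cert) :
    VarBud R grps cert (fun G n => ∑ J ∈ cellsAt R n, ∑ i, a i • cproj (L i G J) J (T J F))
      (2 * (Ct' * Ct * ((m : ℝ) + 1) * Kap) ^ 2 * cF) := by
  obtain ⟨ι, hι, c, W, h1, h2, h3⟩ := hT
  have hS0 : 0 ≤ ∑ i, ‖c i‖ := Finset.sum_nonneg fun _ _ => norm_nonneg _
  have hA0 : 0 ≤ ∑ i, ‖a i‖ := Finset.sum_nonneg fun _ _ => norm_nonneg _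
  have hK0 : 0 ≤ Kap := by linarith
  have hm0 : (0 : ℝ) ≤ m := Nat.cast_nonneg m
  have hP0 : 0 ≤ ∑ p : κ × ι, ‖a p.1 * c p.2‖ := Finset.sum_nonneg fun _ _ => norm_nonneg _
  have hP : ∑ p : κ × ι, ‖a p.1 * c p.2‖ ≤ Ct' * Ct := by
    rw [cmb_sum_norm_prod]
    exact mul_le_mul ha h2 hS0 (hA0.trans ha)
  have hyp : ∀ p : κ × ι, VarHyp R grps (L p.1) cert (W p.2) Kap := fun p =>
    { inhL := hL p.1
      inhW := fun f hf => hInh _ ((h1 p.2).2 f hf).1
      cert_up := hcert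
      ub := hub p.1
      compr := fun W' hW' => hC W' (fun f hf => ((h1 p.2).2 f (hW'.subset hf)).1) (hW'.length_le.trans (h1 p.2).1)
      kap := hK }
  constructor
  · intro κ' _ r t hrt hd E hE hEc
    have hone : ∀ p : κ × ι, ∑ G ∈ grps, ∑ i, ∑ J ∈ E G i,
        ‖Claimed.Agent.R258.restr J.set (s7out R (L p.1) (W p.2) G (t i) F - s7out R (L p.1) (W p.2) G (r i) F)‖ ^ 2
          ≤ 2 * ((((m : ℝ) + 1) * Kap) ^ 2 * ‖F‖ ^ 2) := by
      intro p
      refine (hV R grps (L p.1) cert (W p.2) Kap (hyp p) κ' r t hrt hd E hE hEc F).trans ?_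
      rw [mul_assoc]
      refine mul_le_mul_of_nonneg_left ?_ zero_le_two
      refine mul_le_mul_of_nonneg_right (pow_le_pow_left₀ (by positivity) (mul_le_mul_of_nonneg_right ?_ hK0) 2) (sq_nonneg _)
      have : ((W p.2).length : ℝ) ≤ m := by exact_mod_cast (h1 p.2).1
      linarith
    calc ∑ G ∈ grps, ∑ i, ∑ J ∈ E G i, ‖Claimed.Agent.R258.restr J.set
          (∑ J ∈ cellsAt R (t i), ∑ i, a i • cproj (L i G J) J (T J F) - ∑ J ∈ cellsAt R (r i), ∑ i, a i • cproj (L i G J) J (T J F))‖ ^ 2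
        = ∑ G ∈ grps, ∑ i, ∑ J ∈ E G i, ‖∑ p : κ × ι, (a p.1 * c p.2) • Claimed.Agent.R258.restr J.set
            (s7out R (L p.1) (W p.2) G (t i) F - s7out R (L p.1) (W p.2) G (r i) F)‖ ^ 2 := by
          refine Finset.sum_congr rfl fun G _ => Finset.sum_congr rfl fun i _ => Finset.sum_congr rfl fun J _ => ?_
          rw [cmb_glob_ball c W T h3, cmb_glob_ball c W T h3, ← Finset.sum_sub_distrib, map_sum]
          simp only [← smul_sub, map_smul]
      _ ≤ (∑ p : κ × ι, ‖a p.1 * c p.2‖) ^ 2 * (2 * ((((m : ℝ) + 1) * Kap) ^ 2 * ‖F‖ ^ 2)) :=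
          cmb_mink3 Finset.univ (fun p : κ × ι => a p.1 * c p.2) grps (fun _ => Finset.univ) E
            (fun p G i J => Claimed.Agent.R258.restr J.set (s7out R (L p.1) (W p.2) G (t i) F - s7out R (L p.1) (W p.2) G (r i) F))
            _ (fun p _ => hone p)
      _ = 2 * ((∑ p : κ × ι, ‖a p.1 * c p.2‖) ^ 2 * ((((m : ℝ) + 1) * Kap) ^ 2 * ‖F‖ ^ 2)) := by ring
      _ ≤ 2 * ((Ct' * Ct * (((m : ℝ) + 1) * Kap)) ^ 2 * (cF * R.len)) :=
          mul_le_mul_of_nonneg_left (cmb_fin hP0 hP (by positivity) le_rfl (sq_nonneg _) hF) zero_le_two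
      _ = _ := by ring
  · intro t E hE hEc
    have hone : ∀ p : κ × ι, ∑ G ∈ grps, ∑ J ∈ E G,
        ‖Claimed.Agent.R258.restr J.set (s7out R (L p.1) (W p.2) G t F)‖ ^ 2 ≤ 2 * (Kap ^ 2 * ‖F‖ ^ 2) := by
      intro p
      refine (hV1 R grps (L p.1) cert (W p.2) Kap (hyp p) t E hE hEc F).trans (le_of_eq ?_)
      ring
    calc ∑ G ∈ grps, ∑ J ∈ E G, ‖Claimed.Agent.R258.restr J.set (∑ J ∈ cellsAt R t, ∑ i, a i • cproj (L i G J) J (T J F))‖ ^ 2
        = ∑ G ∈ grps, ∑ J ∈ E G, ‖∑ p : κ × ι, (a p.1 * c p.2) • Claimed.Agent.R258.restr J.set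
            (s7out R (L p.1) (W p.2) G t F)‖ ^ 2 := by
          refine Finset.sum_congr rfl fun G _ => Finset.sum_congr rfl fun J _ => ?_
          rw [cmb_glob_ball c W T h3, map_sum]
          simp only [map_smul]
      _ ≤ (∑ p : κ × ι, ‖a p.1 * c p.2‖) ^ 2 * (2 * (Kap ^ 2 * ‖F‖ ^ 2)) :=
          cmb_mink2 Finset.univ (fun p : κ × ι => a p.1 * c p.2) grps E
            (fun p G J => Claimed.Agent.R258.restr J.set (s7out R (L p.1) (W p.2) G t F)) _ (fun p _ => hone p)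
      _ = 2 * ((∑ p : κ × ι, ‖a p.1 * c p.2‖) ^ 2 * (Kap ^ 2 * ‖F‖ ^ 2)) := by ring
      _ ≤ 2 * ((Ct' * Ct * (((m : ℝ) + 1) * Kap)) ^ 2 * (cF * R.len)) :=
          mul_le_mul_of_nonneg_left (cmb_fin hP0 hP hK0 (by nlinarith) (sq_nonneg _) hF) zero_le_two
      _ = _ := by ring

/-- **Lemma 8.8 without the lift**, for averaged outer projections and combined histories. -/
theorem rows (hVR : VarRowsGoal) {R : Cell} {Kap cF : ℝ} (hT : IsComb 𝓕 False m Ct T) (hInh : ∀ f ∈ 𝓕, Inh R f)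
    (hC : ∀ W : List ((Cell → Finset Col) × Bool), (∀ f ∈ W, f.1 ∈ 𝓕) → W.length ≤ m → ComprFor R W Kap) (hK : 1 ≤ Kap)
    (hCt : 0 ≤ Ct) (F : XV) (hF : ‖F‖ ^ 2 ≤ cF * R.len)
    (grps : Finset ℕ) (cert : ℕ → Cell → Prop) (hcert : ∀ G J J', cert G J → J ≤ J' → J' ≤ R → cert G J')
    {κ : Type} [Fintype κ] (a : κ → ℂ) (L : κ → ℕ → Cell → Finset Col) (ha : ∑ i, ‖a i‖ ≤ Ct')
    (hL : ∀ i, ∀ G ∈ grps, Inh R (L i G)) (hub : ∀ i, UsableBessel R grps (L i) cert)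
    (hCL : ∀ i, ∀ G ∈ grps, ComprFor R [(L i G, false)] Kap)
    (ι : Type) [Fintype ι] (Ge : ι → ℕ) (Ue : ι → Cell) (Te : ι → XV →L[ℂ] XV) (Bz : ℝ) (hBz : 0 ≤ Bz)
    (he : ∀ e, Ge e ∈ grps ∧ Ue e ≤ R ∧ cert (Ge e) (Ue e)) (hloc : ∀ e x, Te e (Claimed.Agent.R258.restr (Ue e).set x) = Te e x)
    (hB : ∀ G x, ∑ e with Ge e = G, ‖Te e x‖ ^ 2 ≤ Bz * ‖x‖ ^ 2) :
    ∑ e, ‖Te e (∑ i, a i • cproj (L i (Ge e) (Ue e)) (Ue e) (T (Ue e) F))‖ ^ 2
      ≤ 2 * Bz * Kap ^ 4 * (Ct' * Ct) ^ 2 * cF * R.len := by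
  obtain ⟨ι', hι', c, W, h1, h2, h3⟩ := hT
  have hS0 : 0 ≤ ∑ i, ‖c i‖ := Finset.sum_nonneg fun _ _ => norm_nonneg _
  have hA0 : 0 ≤ ∑ i, ‖a i‖ := Finset.sum_nonneg fun _ _ => norm_nonneg _
  have hK0 : 0 ≤ Kap := by linarith
  have hP0 : 0 ≤ ∑ p : κ × ι', ‖a p.1 * c p.2‖ := Finset.sum_nonneg fun _ _ => norm_nonneg _
  have hP : ∑ p : κ × ι', ‖a p.1 * c p.2‖ ≤ Ct' * Ct := by
    rw [cmb_sum_norm_prod]
    exact mul_le_mul ha h2 hS0 (hA0.trans ha)
  have hyp : ∀ p : κ × ι', VarHyp R grps (L p.1) cert (W p.2) Kap := fun p =>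
    { inhL := hL p.1
      inhW := fun f hf => hInh _ ((h1 p.2).2 f hf).1
      cert_up := hcert
      ub := hub p.1
      compr := fun W' hW' => hC W' (fun f hf => ((h1 p.2).2 f (hW'.subset hf)).1) (hW'.length_le.trans (h1 p.2).1)
      kap := hK }
  have hone : ∀ p : κ × ι', ∑ e, ‖Te e (cproj (L p.1 (Ge e) (Ue e)) (Ue e) (s7prod (W p.2) (Ue e) F))‖ ^ 2
      ≤ 2 * Bz * Kap ^ 4 * ‖F‖ ^ 2 := fun p =>
    hVR R grps (L p.1) cert (W p.2) Kap (hyp p) (hCL p.1) ι Ge Ue Te Bz hBz he hloc hB F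
  calc ∑ e, ‖Te e (∑ i, a i • cproj (L i (Ge e) (Ue e)) (Ue e) (T (Ue e) F))‖ ^ 2
      = ∑ e, ‖∑ p : κ × ι', (a p.1 * c p.2) • Te e (cproj (L p.1 (Ge e) (Ue e)) (Ue e) (s7prod (W p.2) (Ue e) F))‖ ^ 2 := by
        refine Finset.sum_congr rfl fun e _ => ?_
        rw [cmb_local_ball c W T h3, map_sum]
        simp only [map_smul]
    _ ≤ (∑ p : κ × ι', ‖a p.1 * c p.2‖) ^ 2 * (2 * Bz * Kap ^ 4 * ‖F‖ ^ 2) :=
        cmb_mink Finset.univ (fun p : κ × ι' => a p.1 * c p.2) Finset.univ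
          (fun p e => Te e (cproj (L p.1 (Ge e) (Ue e)) (Ue e) (s7prod (W p.2) (Ue e) F))) _ (fun p _ => hone p)
    _ = (2 * Bz * Kap ^ 4) * ((∑ p : κ × ι', ‖a p.1 * c p.2‖) ^ 2 * ((1 : ℝ) ^ 2 * ‖F‖ ^ 2)) := by ring
    _ ≤ (2 * Bz * Kap ^ 4) * ((Ct' * Ct * 1) ^ 2 * (cF * R.len)) :=
        mul_le_mul_of_nonneg_left (cmb_fin hP0 hP zero_le_one le_rfl (sq_nonneg _) hF) (by positivity)
    _ = _ := by ring

/-- positive combinations are local operators with the product-jump estimate -/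
theorem locOp (hJ : JumpGoal) {R : Cell} (hT : IsComb 𝓕 True m Ct T) (hInh : ∀ f ∈ 𝓕, Inh R f) (hCt : 0 ≤ Ct) (win : ℕ) :
    LocOp R (fun n => ∑ J ∈ cellsAt R n, T J) Ct
      ((Ct * (m : ℝ) * ((1 + Nat.clog 2 (2 * win + 3) : ℕ) : ℝ) ^ (m - 1)) ^ 2) win := by
  obtain ⟨ι, hι, c, W, h1, h2, h3⟩ := hT
  have hS0 : 0 ≤ ∑ i, ‖c i‖ := Finset.sum_nonneg fun _ _ => norm_nonneg _
  have hg : ∀ n x, (∑ J ∈ cellsAt R n, T J) x = ∑ a, c a • s7sh R (W a) n x := by
    intro n x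
    rw [_root_.sum_apply, cmb_glob c W T h3]
  constructor
  · intro n J hJn x
    beta_reduce
    rw [hg, hg, map_sum]
    refine Finset.sum_congr rfl fun a _ => ?_
    rw [map_smul, s7v_restr_sh (W a) hJn, cmb_sh_restr (W a) hJn]
  · intro n x
    beta_reduce
    rw [hg]
    exact (cmb_norm_le Finset.univ c _ _ fun a _ => cmb_norm_sh_le R (W a) n x).trans
      (mul_le_mul_of_nonneg_right h2 (norm_nonneg _))
  · intro κ _ r t n0 hrt hd hwin x
    beta_reduce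
    set B : ℝ := ((1 + Nat.clog 2 (2 * win + 3) : ℕ) : ℝ) with hB
    have hB1 : 1 ≤ B := by
      rw [hB]; push_cast; linarith [Nat.cast_nonneg (α := ℝ) (Nat.clog 2 (2 * win + 3))]
    have hone : ∀ a, ∑ i, ‖s7sh R (W a) (t i) x - s7sh R (W a) (r i) x‖ ^ 2 ≤ ((m : ℝ) * B ^ (m - 1)) ^ 2 * ‖x‖ ^ 2 := by
      intro a
      refine (hJ R (W a) (fun f hf => ⟨hInh _ ((h1 a).2 f hf).1, ((h1 a).2 f hf).2 trivial⟩) κ r t n0 win hrt hd hwin x).trans ?_
      refine mul_le_mul_of_nonneg_right (pow_le_pow_left₀ (by positivity) ?_ 2) (sq_nonneg _)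
      exact mul_le_mul (by exact_mod_cast (h1 a).1) (pow_le_pow_right₀ hB1 (Nat.sub_le_sub_right (h1 a).1 1))
        (by positivity) (Nat.cast_nonneg m)
    calc ∑ i, ‖(∑ J ∈ cellsAt R (t i), T J) x - (∑ J ∈ cellsAt R (r i), T J) x‖ ^ 2
        = ∑ i, ‖∑ a, c a • (s7sh R (W a) (t i) x - s7sh R (W a) (r i) x)‖ ^ 2 := by
          refine Finset.sum_congr rfl fun i _ => ?_
          rw [hg, hg, ← Finset.sum_sub_distrib]
          simp only [smul_sub]
      _ ≤ (∑ a, ‖c a‖) ^ 2 * (((m : ℝ) * B ^ (m - 1)) ^ 2 * ‖x‖ ^ 2) :=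
          cmb_mink Finset.univ c Finset.univ (fun a i => s7sh R (W a) (t i) x - s7sh R (W a) (r i) x) _ (fun a _ => hone a)
      _ ≤ (Ct * ((m : ℝ) * B ^ (m - 1))) ^ 2 * ‖x‖ ^ 2 :=
          cmb_fin hS0 h2 (by positivity) le_rfl (sq_nonneg _) le_rfl
      _ = _ := by ring

/-- local contraction bound -/
theorem n2_le (hT : IsComb 𝓕 pos m Ct T) (J : Cell) (x : XV) : n2 J (T J x) ≤ Ct * n2 J x := by
  obtain ⟨ι, hι, c, W, h1, h2, h3⟩ := hT
  have e : Claimed.Agent.R258.restr J.set (T J x) = ∑ a, c a • s7prod (W a) J x := by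
    rw [h3, _root_.sum_apply, map_sum]
    exact Finset.sum_congr rfl fun a _ => by rw [_root_.smul_apply, map_smul, s7v_restr_prod]
  have hb : ‖Claimed.Agent.R258.restr J.set (T J x)‖ ≤ Ct * ‖Claimed.Agent.R258.restr J.set x‖ := by
    rw [e]
    exact (cmb_norm_le Finset.univ c _ _ fun a _ => cmb_norm_prod_le (W a) J x).trans
      (mul_le_mul_of_nonneg_right h2 (norm_nonneg _))
  unfold n2
  rw [← mul_div_assoc]
  exact div_le_div_of_nonneg_right hb (Real.sqrt_nonneg _)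

end IsComb

end Claimed.Agent.R258
end

/- ===== packed: Claimed.Agent.R258.S7.Near ===== -/
section
/-
Row 258, Secs. 7.3 (frozen complements, flags) + 7.6 (home architect: helper244).  BLOCK [S7-NB2]:
the coupled near-band terms of one transfer step at one fixed offset, from fixed stacks + freeze budgets to a `Ctrl` statement.

DATA (`NearData γ`, `γ` = band index): the banded side `xa G I p`, the untouched side `xb G I` (at the uses), the CURRENT complementary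
band stack `Cg G n p` (already shifted by the offset) and the other complement `Dg G n` as global functions at relative depth `n`.
`NearData.term I = ∑_{G used at I} ∑_p H_I(xa G I p, xb G I, Cg G n p, Dg G n)`, `n = s7Rel R I`, arguments placed by `e : slot ≃ role`.

PROOF PLAN of `NearGoal` (from `NearBandGoal` and `PowerGoal`; complete):
 put `bs J = s7Blk K R J * K`, `N(G,I;C,D) = ∑_p H_I(xa p, xb, C p, D)`; Cauchy-Schwarz in `p`:
   `|N| ≤ Cw sa(G,I) sb(G,I) ‖C‖_{stack,I} ‖D‖_{2,I}`, `sa = (∑_p n2(xa p)²)^{1/2}`.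
 FLAG: `(G,I)` is flagged if at some `J`, `I ≤ J ≤ I.anc (s7Off K R I)`, the FROZEN stack `Cg G (bs I)` or `Dg G (bs I)` has normalized
   size `> 2 cc` on `J`.  Then (current size `≤ cc` at `J`, `J` certified) `cF J > cc`.  Hence `f(I) := [some G is flagged at I]` satisfies
   `f(I)² ≤ cc⁻² ∑_{J in the block above I} cF(J)²` and `∑_I |I| f(I)² ≤ K Ef / cc² |R|` (cells of one depth below `J` have total length `≤ |J|`).
 (i)   flagged uses keep the CURRENT complements: `∑_{G flagged} |N(C_n, D_n)| ≤ Cw cc² a(I) b(I) f(I)`                       → `Ctrl.of_three`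
 (ii)  unflagged uses: `N(C_n,D_n) = N(C_bs,D_bs) + N(C_n - C_bs, D_n) + N(C_bs, D_n - D_bs)`, the two errors are
       `≤ Cw sa sb cF(I) cc` and `≤ Cw sa sb (2cc) cF(I)`                                                                     → `Ctrl.of_three`
 (iii) unflagged frozen terms: insert the two stack decompositions (`s5f_restr`, `s5f_multilinear`); for every pair of configurations apply
       `NearBandGoal` with `ι` = pairs (G, block), `U ν` = unflagged uses, `α = β = Fin (K+1)`, `cc ↦ 2 cc`, `ε ↦ ε / (2 Na Nb)`;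
       hull cells of unflagged uses lie in the block above an unflagged use, so the frozen sizes are `≤ 2cc` there.
-/
set_option autoImplicit false
open MeasureTheory

namespace Claimed.Agent.R258

open Classical

/-- four vector arguments in role order `a, b, c, d`, placed into the slots by `e : slot ≃ role` -/
def placeV (e : Fin 4 ≃ Fin 4) (xa xb xc xd : XV) : Fin 4 → XV := fun j => ![xa, xb, xc, xd] (e j)

/-- the data of the near-band terms of one transfer step and one offset -/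
structure NearData (γ : Type) where
  R : Cell
  K : ℕ
  cells : Finset Cell
  w : Cell → ℝ × ℝ → ℂ
  grps : Finset ℕ
  uses : Finset (ℕ × Cell)
  e : Fin 4 ≃ Fin 4
  xa : ℕ → Cell → γ → XV
  xb : ℕ → Cell → XV
  Cg : ℕ → ℕ → γ → XV
  Dg : ℕ → ℕ → XV

namespace NearData
variable {γ : Type} [Fintype γ] (Y : NearData γ)

/-- the coupled band sum at the cell `I`, summed over the groups used at `I` -/
noncomputable def term (I : Cell) : ℂ :=
  ∑ G ∈ usesAt Y.uses I, ∑ p, formV I (Y.w I)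
    (placeV Y.e (Y.xa G I p) (Y.xb G I) (Y.Cg G (s7Rel Y.R I) p) (Y.Dg G (s7Rel Y.R I)))

/-- the hypotheses -/
structure Hyp (c0 C0 : ℝ) (Na Nb : ℕ) (Ea Eb Sa Sb cc Ef M0 : ℝ) : Prop where
  K_pos : 1 ≤ Y.K
  cells_le : ∀ I ∈ Y.cells, I ≤ Y.R
  adm : ∀ I ∈ Y.cells, Admissible c0 C0 I (Y.w I)
  uses_sub : ∀ u ∈ Y.uses, u.1 ∈ Y.grps ∧ u.2 ∈ Y.cells
  stA : HasStacks Y.R Y.K Y.grps Y.uses γ Y.xa Na Ea
  stB : HasStacks Y.R Y.K Y.grps Y.uses Unit (fun G I _ => Y.xb G I) Nb Eb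
  szA : ∑ u ∈ Y.uses, ∑ p, ‖restr u.2.set (Y.xa u.1 u.2 p)‖ ^ 2 ≤ Sa * Y.R.len
  szB : ∑ u ∈ Y.uses, ‖restr u.2.set (Y.xb u.1 u.2)‖ ^ 2 ≤ Sb * Y.R.len
  /-- current sizes at all certified cells -/
  curC : ∀ G J, certU Y.R Y.uses G J → ∑ p, ‖restr J.set (Y.Cg G (s7Rel Y.R J) p)‖ ^ 2 ≤ cc ^ 2 * J.len
  curD : ∀ G J, certU Y.R Y.uses G J → ‖restr J.set (Y.Dg G (s7Rel Y.R J))‖ ^ 2 ≤ cc ^ 2 * J.len
  /-- freeze budget at all certified cells -/
  frz : ∃ cF : Cell → ℝ, (∀ J, 0 ≤ cF J) ∧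
    (∀ A : Finset Cell, (∀ J ∈ A, J ≤ Y.R) → ∑ J ∈ A, J.len * cF J ^ 2 ≤ Ef * Y.R.len) ∧
    ∀ G J, certU Y.R Y.uses G J →
      ∑ p, ‖restr J.set (Y.Cg G (s7Rel Y.R J) p - Y.Cg G (s7Blk Y.K Y.R J * Y.K) p)‖ ^ 2 ≤ cF J ^ 2 * J.len ∧
      ‖restr J.set (Y.Dg G (s7Rel Y.R J) - Y.Dg G (s7Blk Y.K Y.R J * Y.K))‖ ^ 2 ≤ cF J ^ 2 * J.len
  /-- number of uses over a point -/
  mult : ∀ y : ℝ, ((Y.uses.filter fun u => y ∈ u.2.set).card : ℝ) ≤ M0
  pos : 0 < cc ∧ 0 ≤ Ea ∧ 0 ≤ Eb ∧ 0 ≤ Sa ∧ 0 ≤ Sb ∧ 0 ≤ Ef ∧ 1 ≤ M0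

end NearData

/-- the absolute part of the near-band bound: (19) before the coefficient `O(1/P)` -/
noncomputable def nearAbs (C Cq q CN : ℝ) (K Na Nb : ℕ) (Ea Eb cc M0 ε : ℝ) : ℝ :=
  (1 + CN) * Cq * (1 + Real.log ((K : ℝ) + 2)) ^ C * ((K : ℝ) + 2) ^ (C * (q - 2)) * cc ^ 2 * Real.sqrt (Ea * Eb) *
    ((Na : ℝ) * Nb) ^ 2 * ((1 + Real.log (2 + 2 * M0 * Na * Nb / ε)) / ε)

/-- the powered part: freeze errors and flagged uses -/
noncomputable def nearPow (Cw : ℝ) (K : ℕ) (Sa Sb cc Ef pw ε : ℝ) : ℝ :=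
  2 * (3 * Cw * cc) ^ pw * (1728 * Sa * Sb * K * Ef / ε ^ 3) ^ (pw / 2)

/-- **[S7-NB2]** -/
def NearGoal (c0 C0 : ℝ) : Prop :=
  ∃ C : ℝ, 0 < C ∧ ∀ q : ℝ, 2 < q → q < 3 → ∃ Cq : ℝ, 0 < Cq ∧
  ∀ (N : ℕ) (CN : ℝ) (s0 : ℤ), 0 ≤ CN → LocalBound c0 C0 q N CN →
  ∀ (Cw : ℝ), 0 ≤ Cw →
    (∀ (I : Cell) (w : ℝ × ℝ → ℂ), Admissible c0 C0 I w → ∀ z : Fin 4 → XV, ‖formV I w z‖ ≤ Cw * ∏ l, n2 I (z l)) →
  ∀ (γ : Type) [Fintype γ] (Y : NearData γ) (Na Nb : ℕ) (Ea Eb Sa Sb cc Ef M0 : ℝ),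
    Y.Hyp c0 C0 Na Nb Ea Eb Sa Sb cc Ef M0 → (∀ I ∈ Y.cells, s0 ≤ I.depth ∧ I.depth < s0 + N) →
  ∀ pw ε : ℝ, 2 / 3 ≤ pw → pw ≤ 1 → 0 < ε → ε < 1 →
    Ctrl Y.R Y.cells (fun I => ‖Y.term I‖) (nearAbs C Cq q CN Y.K Na Nb Ea Eb cc M0 ε) (nearPow Cw Y.K Sa Sb cc Ef pw ε) pw ε

/- ARCHITECT block [S7-NB2] (helper82): the theorem
  `nearGoal_of (c0 C0 : ℝ) (hc0 : 0 < c0) (hC0 : 1 ≤ C0) (hNB : NearBandGoal c0 C0) (hPW : PowerGoal) : NearGoal c0 C0`
is stated and proved in S7/Nb2Main.lean (files S7/Nb2*.lean import this file). -/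

end Claimed.Agent.R258
end
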