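/- Packed by merge_tool.py (helper293): 6 modules of Claimed.Agent.R258 in one file, same declarations.
   Old modules, in this order: S7.AdaptDefs, S7.StkBase, S7.StkLin, S7.StkRoll, S7.Nb2Defs, U3.Brk -/
import Claimed.Agent.R258.S7.Hist
import Claimed.Agent.R258.S7.Side
import Claimed.Agent.R258.Pack013
import Claimed.Agent.R258.Pack007
import Claimed.Agent.R258.Pack011
import Claimed.Agent.R258.Pack018
import Claimed.Agent.R258.Pack022

/- ===== packed: Claimed.Agent.R258.S7.AdaptDefs ===== -/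
section
/-
Row 258 (home architect: helper244).  The `SideSys` of one search leaf: concrete objects of Sec. 6 (`LocSys`) and Sec. 8 (`ModeSys`).
Block [S7-ADP] (helper52) proves its validity; S10/Att.lean consumes it.
-/
set_option autoImplicit false
open MeasureTheory

namespace Claimed.Agent.R258

/-- the side system of the leaf `κ` on the retained active cells `cells` -/
noncomputable def sideSysOf {Tag : Type} (Y : LocSys Tag) (κ : ℕ) (cells : Finset Cell) {d : ℕ} (M : ModeSys d) (p : S8Par) : SideSys where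
  R := Y.X.root
  K := p.K
  P := Y.p.P
  cells := cells
  w := Y.X.w
  grps := Y.grps7 κ cells
  uses := Y.uses7 κ cells
  isB := fun l => !Y.pat l
  Z := Y.Z κ
  A := M.Ac p
  S := M.Sc p (Y.Z κ)
  E := M.Ec p (Y.Z κ)
  Bb := Y.X.B
  Uu := Y.X.U

end Claimed.Agent.R258
end

/- ===== packed: Claimed.Agent.R258.S7.StkBase ===== -/
section
/-
Row 258, Sec. 7.4, block [S7-STK] (helper275), file 1: TOOLS for the abstract Lemma 7.4 (`S7/Stack.lean`).
1. binary prefix decomposition `stk_bits`:  `W o = W 0 + ∑_{a < L} stkD W K a (stkSel K a o)` for `o < K ≤ 2^L`;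
   `stkD W K a i = W ((i+1) 2^a) - W (i 2^a)` if `(i+1) 2^a ≤ K`, else `0`; `stkSel K a o = o / 2^a - 1` if the bit `a` of `o` is set, else `K`.
2. cells: ancestors of a use at a smaller relative depth are certified (`stk_anc_cert`).
3. `stkCut R uses G m` = multiplication by the indicator of the union of ALL certified cells of relative depth `m`.
   DEVIATION FROM THE PLAN of Stack.lean (simplification): the stacks are never cut to the use cells; every INPUT is cut to the union of all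
   certified cells of its own depth `m`; the operators `T n`, `n ≥ m`, commute with this cut (`LocOp.cut_comm`).
4. calculus of `HasStacks`: `single`, `congr`, `zero`, `sum`.
5. two kinds of single configurations: `stk_bd_cfg` (bounded operator applied to a stack of inputs), `stk_jump_cfg` (jumps of `T` on the dyadic
   intervals of length `2^a` of the block applied to selected inputs).
-/
set_option autoImplicit false
open MeasureTheory
open scoped InnerProductSpace

namespace Claimed.Agent.R258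

open Classical Finset

/-! ### 1. binary prefix decomposition -/

/-- the selected position: index of the dyadic interval of length `2^a` ending at `o` with the low bits cleared; `K` if the bit is not set -/
def stkSel (K a o : ℕ) : ℕ := if (o / 2 ^ a) % 2 = 1 then o / 2 ^ a - 1 else K

/-- increment over the `i`-th dyadic interval of length `2^a`, if it is contained in `[0, K]` -/
def stkD {M : Type*} [AddCommGroup M] (W : ℕ → M) (K a i : ℕ) : M :=
  if (i + 1) * 2 ^ a ≤ K then W ((i + 1) * 2 ^ a) - W (i * 2 ^ a) else 0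

theorem stk_sel_le {K o : ℕ} (a : ℕ) (ho : o < K) : stkSel K a o ≤ K := by
  unfold stkSel
  split_ifs
  · have := Nat.div_le_self o (2 ^ a)
    omega
  · exact le_rfl

/-- at a selected position the interval ends at or before `o` -/
theorem stk_sel_spec {K a o : ℕ} (h : (stkSel K a o + 1) * 2 ^ a ≤ K) : (stkSel K a o + 1) * 2 ^ a ≤ o := by
  unfold stkSel at h ⊢
  split_ifs at h ⊢ with hb
  · have h1 : o / 2 ^ a - 1 + 1 = o / 2 ^ a := by
      generalize o / 2 ^ a = q at hb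
      omega
    rw [h1]
    exact Nat.div_mul_le_self o (2 ^ a)
  · exfalso
    have : 1 ≤ 2 ^ a := Nat.one_le_two_pow
    nlinarith

theorem stk_D_sel {M : Type*} [AddCommGroup M] (W : ℕ → M) {K o : ℕ} (a : ℕ) (ho : o < K) :
    stkD W K a (stkSel K a o) = W (o / 2 ^ a * 2 ^ a) - W (o / 2 ^ (a + 1) * 2 ^ (a + 1)) := by
  have hq : o / 2 ^ (a + 1) = o / 2 ^ a / 2 := by rw [pow_succ, Nat.div_div_eq_div_mul]
  have h2 : 1 ≤ 2 ^ a := Nat.one_le_two_pow
  unfold stkD stkSel
  by_cases hb : (o / 2 ^ a) % 2 = 1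
  · rw [if_pos hb]
    have h1 : o / 2 ^ a - 1 + 1 = o / 2 ^ a := by
      generalize o / 2 ^ a = q at hb
      omega
    have h3 : o / 2 ^ a * 2 ^ a ≤ K := (Nat.div_mul_le_self o (2 ^ a)).trans ho.le
    rw [h1, if_pos h3]
    have h4 : (o / 2 ^ a - 1) * 2 ^ a = o / 2 ^ (a + 1) * 2 ^ (a + 1) := by
      rw [hq, pow_succ]
      have : o / 2 ^ a - 1 = o / 2 ^ a / 2 * 2 := by
        generalize o / 2 ^ a = q at hb
        omega
      rw [this]; ring
    rw [h4]
  · rw [if_neg hb, if_neg (by nlinarith)]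
    have h4 : o / 2 ^ a * 2 ^ a = o / 2 ^ (a + 1) * 2 ^ (a + 1) := by
      rw [hq, pow_succ]
      have : o / 2 ^ a = o / 2 ^ a / 2 * 2 := by
        generalize o / 2 ^ a = q at hb
        omega
      calc o / 2 ^ a * 2 ^ a = o / 2 ^ a / 2 * 2 * 2 ^ a := by rw [← this]
        _ = _ := by ring
    rw [h4, sub_self]

/-- **binary prefix decomposition** -/
theorem stk_bits {M : Type*} [AddCommGroup M] (W : ℕ → M) {K L o : ℕ} (hK : K ≤ 2 ^ L) (ho : o < K) :
    W o = W 0 + ∑ a ∈ range L, stkD W K a (stkSel K a o) := by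
  have h1 : ∑ a ∈ range L, stkD W K a (stkSel K a o) =
      ∑ a ∈ range L, ((fun a => W (o / 2 ^ a * 2 ^ a)) a - (fun a => W (o / 2 ^ a * 2 ^ a)) (a + 1)) :=
    Finset.sum_congr rfl fun a _ => stk_D_sel W a ho
  rw [h1, Finset.sum_range_sub']
  have h2 : o / 2 ^ L = 0 := Nat.div_eq_of_lt (lt_of_lt_of_le ho hK)
  simp [h2]

theorem stk_le_pow_log (K : ℕ) : K ≤ 2 ^ (Nat.log 2 K + 1) := (Nat.lt_pow_succ_log_self (by norm_num) K).le

theorem stk_five_le_pow_log (K : ℕ) : 5 * K ≤ 2 ^ (Nat.log 2 K + 4) := by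
  have := stk_le_pow_log K
  calc 5 * K ≤ 8 * 2 ^ (Nat.log 2 K + 1) := by omega
    _ = 2 ^ (Nat.log 2 K + 4) := by ring

/-! ### 2. cells -/

theorem stk_mem_cellsAt {R I : Cell} (h : I ≤ R) : I ∈ cellsAt R (s7Rel R I) := by
  rw [cell_mem_cellsAt']
  refine ⟨h, ?_⟩
  have := cell_depth_le_of_le h
  unfold s7Rel
  omega

theorem stk_rel_of_mem {R I : Cell} {n : ℕ} (h : I ∈ cellsAt R n) : s7Rel R I = n := by
  have := (cell_mem_cellsAt'.1 h).2
  unfold s7Rel
  omega

theorem stk_rel_eq (K : ℕ) (R I : Cell) : s7Rel R I = s7Blk K R I * K + s7Off K R I := by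
  unfold s7Blk s7Off
  rw [mul_comm]
  exact (Nat.div_add_mod _ _).symm

theorem stk_off_lt {K : ℕ} (hK : 1 ≤ K) (R I : Cell) : s7Off K R I < K := Nat.mod_lt _ hK

/-- the ancestor of relative depth `m` -/
theorem stk_anc {R I : Cell} (h : I ≤ R) {m : ℕ} (hm : m ≤ s7Rel R I) : ∃ J ∈ cellsAt R m, I ≤ J := by
  refine ⟨I.anc (s7Rel R I - m), ?_, cell_le_anc _ _⟩
  have hd := cell_depth_le_of_le h
  have e : (I.anc (s7Rel R I - m)).depth = R.depth + m := by
    show I.depth - ((s7Rel R I - m : ℕ) : ℤ) = R.depth + m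
    unfold s7Rel at hm ⊢
    omega
  rw [cell_mem_cellsAt']
  exact ⟨cell_chain_of_depth (cell_le_anc _ _) h (by omega), e⟩

/-- two cells of the same relative depth above a common cell coincide -/
theorem stk_eq_of_le {R I J J' : Cell} {m : ℕ} (hJ : J ∈ cellsAt R m) (hJ' : J' ∈ cellsAt R m) (h : I ≤ J) (h' : I ≤ J') :
    J = J' := by
  have d1 := (cell_mem_cellsAt'.1 hJ).2
  have d2 := (cell_mem_cellsAt'.1 hJ').2
  exact cell_eq_of_le_of_depth (cell_chain_of_depth h h' (by omega)) (by omega)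

theorem stk_not_le {R J J' : Cell} {m : ℕ} (hJ : J ∈ cellsAt R m) (hJ' : J' ∈ cellsAt R m) (hne : J ≠ J') : ¬ J ≤ J' := by
  intro h
  exact hne (stk_eq_of_le hJ hJ' le_rfl h)

/-- the certified cells of relative depth `m` -/
noncomputable def stkC (R : Cell) (uses : Finset (ℕ × Cell)) (G m : ℕ) : Finset Cell :=
  (cellsAt R m).filter fun J => certU R uses G J

theorem stk_C_sub (R : Cell) (uses : Finset (ℕ × Cell)) (G m : ℕ) : stkC R uses G m ⊆ cellsAt R m := Finset.filter_subset _ _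

theorem stk_C_cert {R : Cell} {uses : Finset (ℕ × Cell)} {G m : ℕ} {J : Cell} (h : J ∈ stkC R uses G m) : certU R uses G J :=
  (Finset.mem_filter.1 h).2

theorem stk_anc_cert {R : Cell} {uses : Finset (ℕ × Cell)} {u : ℕ × Cell} (hu : u ∈ uses) (h : u.2 ≤ R) {m : ℕ}
    (hm : m ≤ s7Rel R u.2) : ∃ J ∈ stkC R uses u.1 m, u.2 ≤ J := by
  obtain ⟨J, hJ, hIJ⟩ := stk_anc h hm
  exact ⟨J, Finset.mem_filter.2 ⟨hJ, (cell_mem_cellsAt'.1 hJ).1, u, hu, rfl, hIJ⟩, hIJ⟩

/-! ### 3. orthogonal sums, the cut -/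

theorem stk_normsq_sum_orth {ι : Type*} (s : Finset ι) (v : ι → XV) (h : ∀ i ∈ s, ∀ j ∈ s, i ≠ j → ⟪v i, v j⟫_ℂ = 0) :
    ‖∑ i ∈ s, v i‖ ^ 2 = ∑ i ∈ s, ‖v i‖ ^ 2 := by
  induction s using Finset.induction_on with
  | empty => simp
  | insert a s ha ih =>
    rw [Finset.sum_insert ha, Finset.sum_insert ha, ← ih fun i hi j hj => h i (by simp [hi]) j (by simp [hj])]
    have h0 : ⟪v a, ∑ i ∈ s, v i⟫_ℂ = 0 := by
      rw [inner_sum]
      refine Finset.sum_eq_zero fun i hi => h a (by simp) i (by simp [hi]) ?_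
      rintro rfl; exact ha hi
    have := norm_add_sq_eq_norm_sq_add_norm_sq_of_inner_eq_zero (𝕜 := ℂ) _ _ h0
    nlinarith [this]

/-- vectors living on distinct cells of the same relative depth -/
theorem stk_normsq_sum_cells {R : Cell} {m : ℕ} {A : Finset Cell} (hA : A ⊆ cellsAt R m) (y : Cell → XV) :
    ‖∑ J ∈ A, restr J.set (y J)‖ ^ 2 = ∑ J ∈ A, ‖restr J.set (y J)‖ ^ 2 := by
  refine stk_normsq_sum_orth A _ fun J hJ J' hJ' hne => ?_
  exact xv_inner_restr_disjoint (cell_measurableSet _) (cell_measurableSet _)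
    (cell_disjoint_iff.2 ⟨stk_not_le (hA hJ) (hA hJ') hne, stk_not_le (hA hJ') (hA hJ) hne.symm⟩) _ _

/-- restriction of such a sum to a cell below one of its members -/
theorem stk_restr_sum_cells {R : Cell} {m : ℕ} {A : Finset Cell} (hA : A ⊆ cellsAt R m) (y : Cell → XV) {I J : Cell}
    (hJ : J ∈ A) (hI : I ≤ J) : restr I.set (∑ J' ∈ A, restr J'.set (y J')) = restr I.set (y J) := by
  rw [map_sum, Finset.sum_eq_single J]
  · exact xv_restr_cell_le hI _
  · intro J' hJ' hne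
    refine xv_restr_cell_disjoint (fun h => hne (stk_eq_of_le (hA hJ') (hA hJ) h hI)) (fun h => ?_) _
    exact stk_not_le (hA hJ') (hA hJ) hne (h.trans hI)
  · intro h; exact absurd hJ h

/-- multiplication by the indicator of the union of the certified cells of relative depth `m` -/
noncomputable def stkCut (R : Cell) (uses : Finset (ℕ × Cell)) (G m : ℕ) : XV →L[ℂ] XV :=
  ∑ J ∈ stkC R uses G m, restr J.set

theorem stk_cut_apply (R : Cell) (uses : Finset (ℕ × Cell)) (G m : ℕ) (y : XV) :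
    stkCut R uses G m y = ∑ J ∈ stkC R uses G m, restr J.set y := by
  unfold stkCut
  rw [_root_.sum_apply]

theorem stk_normsq_cut (R : Cell) (uses : Finset (ℕ × Cell)) (G m : ℕ) (y : XV) :
    ‖stkCut R uses G m y‖ ^ 2 = ∑ J ∈ stkC R uses G m, ‖restr J.set y‖ ^ 2 := by
  rw [stk_cut_apply]
  exact stk_normsq_sum_cells (stk_C_sub R uses G m) fun _ => y

/-- the cut is invisible at a use of larger relative depth -/
theorem stk_restr_cut {R : Cell} {uses : Finset (ℕ × Cell)} {u : ℕ × Cell} (hu : u ∈ uses) (h : u.2 ≤ R) {m : ℕ}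
    (hm : m ≤ s7Rel R u.2) (y : XV) : restr u.2.set (stkCut R uses u.1 m y) = restr u.2.set y := by
  obtain ⟨J, hJ, hIJ⟩ := stk_anc_cert hu h hm
  rw [stk_cut_apply]
  exact stk_restr_sum_cells (stk_C_sub R uses u.1 m) (fun _ => y) hJ hIJ

/-- locality with respect to coarser cells -/
theorem LocOp.loc_le {R : Cell} {T : ℕ → XV →L[ℂ] XV} {cT J0 : ℝ} {win : ℕ} (h : LocOp R T cT J0 win) {m n : ℕ} (hmn : m ≤ n)
    {J : Cell} (hJ : J ∈ cellsAt R m) (x : XV) : restr J.set (T n x) = T n (restr J.set x) := by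
  have hp := cell_part_cellsAt J (n - m)
  rw [← xv_restr_part hp (T n x), ← xv_restr_part hp x, map_sum]
  refine Finset.sum_congr rfl fun Q hQ => h.loc n Q ?_ x
  have h1 := cell_mem_cellsAt'.1 hQ
  have h2 := cell_mem_cellsAt'.1 hJ
  rw [cell_mem_cellsAt']
  refine ⟨h1.1.trans h2.1, ?_⟩
  rw [h1.2, h2.2]
  push_cast [Nat.cast_sub hmn]
  ring

theorem LocOp.cut_comm {R : Cell} {T : ℕ → XV →L[ℂ] XV} {cT J0 : ℝ} {win : ℕ} (h : LocOp R T cT J0 win)
    (uses : Finset (ℕ × Cell)) (G : ℕ) {m n : ℕ} (hmn : m ≤ n) (x : XV) :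
    T n (stkCut R uses G m x) = stkCut R uses G m (T n x) := by
  rw [stk_cut_apply, stk_cut_apply, map_sum]
  exact Finset.sum_congr rfl fun J hJ => (h.loc_le hmn (stk_C_sub R uses G m hJ) x).symm

/-- an operator of depth `n ≥ m` applied to a cut input, seen from a use of depth `≥ m` -/
theorem LocOp.restr_cut {R : Cell} {T : ℕ → XV →L[ℂ] XV} {cT J0 : ℝ} {win : ℕ} (h : LocOp R T cT J0 win)
    {uses : Finset (ℕ × Cell)} {u : ℕ × Cell} (hu : u ∈ uses) (hR : u.2 ≤ R) {m n : ℕ} (hmn : m ≤ n) (hm : m ≤ s7Rel R u.2)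
    (x : XV) : restr u.2.set (T n (stkCut R uses u.1 m x)) = restr u.2.set (T n x) := by
  rw [h.cut_comm uses u.1 hmn, stk_restr_cut hu hR hm]

theorem LocOp.bd_sq {R : Cell} {T : ℕ → XV →L[ℂ] XV} {cT J0 : ℝ} {win : ℕ} (h : LocOp R T cT J0 win) (n : ℕ)
    (x : XV) : ‖T n x‖ ^ 2 ≤ cT ^ 2 * ‖x‖ ^ 2 := by
  rw [← mul_pow]
  exact pow_le_pow_left₀ (norm_nonneg _) (h.bd n x) 2

/-- the jump estimate for a family indexed by a finite set -/
theorem LocOp.jump_finset {R : Cell} {T : ℕ → XV →L[ℂ] XV} {cT J0 : ℝ} {win : ℕ} (h : LocOp R T cT J0 win) {κ : Type}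
    (s : Finset κ) (r t : κ → ℕ) (n0 : ℕ) (hrt : ∀ i ∈ s, r i ≤ t i)
    (hd : ∀ i ∈ s, ∀ j ∈ s, i ≠ j → t i ≤ r j ∨ t j ≤ r i) (hw : ∀ i ∈ s, n0 ≤ r i ∧ t i ≤ n0 + win) (x : XV) :
    ∑ i ∈ s, ‖T (t i) x - T (r i) x‖ ^ 2 ≤ J0 * ‖x‖ ^ 2 := by
  have := h.jump {i // i ∈ s} (fun i => r i) (fun i => t i) n0 (fun i => hrt i i.2)
    (fun i j hij => hd i i.2 j j.2 fun e => hij (Subtype.ext e)) (fun i => hw i i.2) x
  rwa [Finset.sum_coe_sort s fun i => ‖T (t i) x - T (r i) x‖ ^ 2] at this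

/-- the variation budget for a family indexed by a finite set, cut form -/
theorem VarBud.var_finset {R : Cell} {grps : Finset ℕ} {uses : Finset (ℕ × Cell)} {Zg : ℕ → ℕ → XV} {V0 : ℝ}
    (h : VarBud R grps (certU R uses) Zg V0) {κ : Type} (s : Finset κ) (r t : κ → ℕ) (hrt : ∀ i ∈ s, r i ≤ t i)
    (hd : ∀ i ∈ s, ∀ j ∈ s, i ≠ j → t i ≤ r j ∨ t j ≤ r i) :
    ∑ G ∈ grps, ∑ i ∈ s, ‖stkCut R uses G (t i) (Zg G (t i) - Zg G (r i))‖ ^ 2 ≤ V0 * R.len := by
  have := h.var {i // i ∈ s} (fun i => r i) (fun i => t i) (fun i => hrt i i.2)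
    (fun i j hij => hd i i.2 j j.2 fun e => hij (Subtype.ext e)) (fun G i => stkC R uses G (t i))
    (fun G i => stk_C_sub R uses G _) (fun G i J hJ => stk_C_cert hJ)
  refine le_trans (le_of_eq ?_) this
  refine Finset.sum_congr rfl fun G _ => ?_
  rw [Finset.sum_coe_sort s fun i => ∑ J ∈ stkC R uses G (t i), ‖restr J.set (Zg G (t i) - Zg G (r i))‖ ^ 2]
  exact Finset.sum_congr rfl fun i _ => stk_normsq_cut R uses G _ _

theorem VarBud.one_cut {R : Cell} {grps : Finset ℕ} {uses : Finset (ℕ × Cell)} {Zg : ℕ → ℕ → XV} {V0 : ℝ}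
    (h : VarBud R grps (certU R uses) Zg V0) (t : ℕ) :
    ∑ G ∈ grps, ‖stkCut R uses G t (Zg G t)‖ ^ 2 ≤ V0 * R.len := by
  have := h.one t (fun G => stkC R uses G t) (fun G => stk_C_sub R uses G _) (fun G J hJ => stk_C_cert hJ)
  refine le_trans (le_of_eq ?_) this
  exact Finset.sum_congr rfl fun G _ => stk_normsq_cut R uses G _ _

/-! ### 4. calculus of `HasStacks` -/

section calculus

variable {R : Cell} {K : ℕ} {grps : Finset ℕ} {uses : Finset (ℕ × Cell)} {γ : Type} [Fintype γ]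

theorem HasStacks.congr {x y : ℕ → Cell → γ → XV} {N : ℕ} {E : ℝ} (h : HasStacks R K grps uses γ x N E)
    (hxy : ∀ u ∈ uses, ∀ p, restr u.2.set (y u.1 u.2 p) = restr u.2.set (x u.1 u.2 p)) :
    HasStacks R K grps uses γ y N E := by
  obtain ⟨𝒞, i𝒞, Xs, sel, h1, h2, h3, h4⟩ := h
  exact ⟨𝒞, i𝒞, Xs, sel, h1, h2, fun u hu p => (hxy u hu p).trans (h3 u hu p), h4⟩

theorem HasStacks.zero (E : ℝ) : HasStacks R K grps uses γ (fun _ _ _ => 0) 0 E :=
  ⟨Empty, inferInstance, fun c => c.elim, fun c => c.elim, by simp, fun c => c.elim, fun u _ p => by simp,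
    fun c => c.elim⟩

/-- one configuration -/
theorem HasStacks.single {x : ℕ → Cell → γ → XV} {E : ℝ} (Xs : ℕ → ℕ → ℕ → γ → XV) (sel : ℕ → Cell → ℕ)
    (hsel : ∀ G I, sel G I ≤ K)
    (hx : ∀ u ∈ uses, ∀ p, restr u.2.set (x u.1 u.2 p) = restr u.2.set (Xs u.1 (s7Blk K R u.2) (sel u.1 u.2) p))
    (hE : ∀ B : Finset ℕ, ∑ G ∈ grps, ∑ j ∈ B, ∑ i ∈ Finset.range (K + 1), ∑ p, ‖Xs G j i p‖ ^ 2 ≤ E * R.len) :
    HasStacks R K grps uses γ x 1 E :=
  ⟨Unit, inferInstance, fun _ => Xs, fun _ => sel, by simp, fun _ => hsel, fun u hu p => by simpa using hx u hu p,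
    fun _ => hE⟩

/-- finite sums of inputs -/
theorem HasStacks.sum {ι : Type*} (s : Finset ι) (x : ι → ℕ → Cell → γ → XV) (N : ℕ) (E : ℝ)
    (h : ∀ a ∈ s, HasStacks R K grps uses γ (x a) N E) :
    HasStacks R K grps uses γ (fun G I p => ∑ a ∈ s, x a G I p) (s.card * N) E := by
  induction s using Finset.induction_on with
  | empty => simpa using HasStacks.zero (R := R) (K := K) (grps := grps) (uses := uses) (γ := γ) E
  | insert a s ha ih =>
    have h1 := (h a (by simp)).add (ih fun b hb => h b (by simp [hb]))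
    rw [Finset.card_insert_of_notMem ha]
    have e : (s.card + 1) * N = N + s.card * N := by ring
    rw [e]
    refine h1.congr fun u _ p => ?_
    rw [Finset.sum_insert ha]

/-! ### 5. the two kinds of configurations -/

variable {T : γ → ℕ → ℕ → XV →L[ℂ] XV} {cT J0 : ℝ}

/-- a bounded operator applied to a stack of inputs -/
theorem stk_bd_cfg (hT : ∀ p G, LocOp R (T p G) cT J0 K) (τ : ℕ → ℕ → ℕ) (Y : ℕ → ℕ → ℕ → XV) (sel : ℕ → Cell → ℕ)
    (hsel : ∀ G I, sel G I ≤ K) (EY : ℝ)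
    (hY : ∀ B : Finset ℕ, ∑ G ∈ grps, ∑ j ∈ B, ∑ i ∈ range (K + 1), ‖Y G j i‖ ^ 2 ≤ EY * R.len)
    (x : ℕ → Cell → γ → XV)
    (hx : ∀ u ∈ uses, ∀ p, restr u.2.set (x u.1 u.2 p) =
      restr u.2.set (T p u.1 (τ (s7Blk K R u.2) (sel u.1 u.2)) (Y u.1 (s7Blk K R u.2) (sel u.1 u.2)))) :
    HasStacks R K grps uses γ x 1 ((Fintype.card γ : ℝ) * (cT ^ 2 * EY)) := by
  refine HasStacks.single (fun G j i p => T p G (τ j i) (Y G j i)) sel hsel hx fun B => ?_
  calc ∑ G ∈ grps, ∑ j ∈ B, ∑ i ∈ range (K + 1), ∑ p, ‖T p G (τ j i) (Y G j i)‖ ^ 2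
      ≤ ∑ G ∈ grps, ∑ j ∈ B, ∑ i ∈ range (K + 1), (Fintype.card γ : ℝ) * cT ^ 2 * ‖Y G j i‖ ^ 2 := by
        refine sum_le_sum fun G _ => sum_le_sum fun j _ => sum_le_sum fun i _ => ?_
        calc ∑ p, ‖T p G (τ j i) (Y G j i)‖ ^ 2 ≤ ∑ _p : γ, cT ^ 2 * ‖Y G j i‖ ^ 2 :=
              sum_le_sum fun p _ => (hT p G).bd_sq _ _
          _ = _ := by rw [sum_const, card_univ, nsmul_eq_mul]; ring
    _ = (Fintype.card γ : ℝ) * cT ^ 2 * ∑ G ∈ grps, ∑ j ∈ B, ∑ i ∈ range (K + 1), ‖Y G j i‖ ^ 2 := by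
        simp only [mul_sum]
    _ ≤ (Fintype.card γ : ℝ) * cT ^ 2 * (EY * R.len) := mul_le_mul_of_nonneg_left (hY B) (by positivity)
    _ = _ := by ring

/-- the jump of `T` over the `i`-th dyadic interval of length `2^a` of the block `j` -/
noncomputable def stkJ (T : γ → ℕ → ℕ → XV →L[ℂ] XV) (K a : ℕ) (p : γ) (G j i : ℕ) : XV →L[ℂ] XV :=
  if (i + 1) * 2 ^ a ≤ K then T p G (j * K + (i + 1) * 2 ^ a) - T p G (j * K + i * 2 ^ a) else 0

omit [Fintype γ] in
theorem stk_sum_jump (hT : ∀ p G, LocOp R (T p G) cT J0 K) (a : ℕ) (p : γ) (G j : ℕ) (y : XV) :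
    ∑ i ∈ range (K + 1), ‖stkJ T K a p G j i y‖ ^ 2 ≤ J0 * ‖y‖ ^ 2 := by
  have h := (hT p G).jump_finset ((range (K + 1)).filter fun i => (i + 1) * 2 ^ a ≤ K)
    (fun i => j * K + i * 2 ^ a) (fun i => j * K + (i + 1) * 2 ^ a) (j * K)
    (fun i _ => by nlinarith [Nat.one_le_two_pow (n := a)])
    (fun i _ i' _ hne => by
      rcases Nat.lt_or_gt_of_ne hne with h | h
      · left
        have : (i + 1) * 2 ^ a ≤ i' * 2 ^ a := Nat.mul_le_mul_right _ h
        omega
      · right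
        have : (i' + 1) * 2 ^ a ≤ i * 2 ^ a := Nat.mul_le_mul_right _ h
        omega)
    (fun i hi => ⟨Nat.le_add_right _ _, by have := (Finset.mem_filter.1 hi).2; omega⟩) y
  refine le_trans (le_of_eq ?_) h
  rw [Finset.sum_filter]
  refine Finset.sum_congr rfl fun i _ => ?_
  unfold stkJ
  split_ifs <;> simp

/-- jumps of `T` applied to selected inputs -/
theorem stk_jump_cfg (hT : ∀ p G, LocOp R (T p G) cT J0 K) (hJ0 : 0 ≤ J0) (a M : ℕ) (Y : ℕ → ℕ → ℕ → XV) (μ : ℕ → ℕ → ℕ)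
    (hμ : ∀ j i, (i + 1) * 2 ^ a ≤ K → μ j i ≤ M) (EY : ℝ)
    (hY : ∀ B : Finset ℕ, ∑ G ∈ grps, ∑ j ∈ B, ∑ m ∈ range (M + 1), ‖Y G j m‖ ^ 2 ≤ EY * R.len)
    (sel : ℕ → Cell → ℕ) (hsel : ∀ G I, sel G I ≤ K) (x : ℕ → Cell → γ → XV)
    (hx : ∀ u ∈ uses, ∀ p, restr u.2.set (x u.1 u.2 p) =
      restr u.2.set (stkJ T K a p u.1 (s7Blk K R u.2) (sel u.1 u.2)
        (Y u.1 (s7Blk K R u.2) (μ (s7Blk K R u.2) (sel u.1 u.2))))) :
    HasStacks R K grps uses γ x 1 ((Fintype.card γ : ℝ) * (J0 * EY)) := by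
  refine HasStacks.single (fun G j i p => stkJ T K a p G j i (Y G j (μ j i))) sel hsel hx fun B => ?_
  have key : ∀ G j, ∑ i ∈ range (K + 1), ∑ p, ‖stkJ T K a p G j i (Y G j (μ j i))‖ ^ 2 ≤
      (Fintype.card γ : ℝ) * J0 * ∑ m ∈ range (M + 1), ‖Y G j m‖ ^ 2 := by
    intro G j
    rw [Finset.sum_comm]
    calc ∑ p, ∑ i ∈ range (K + 1), ‖stkJ T K a p G j i (Y G j (μ j i))‖ ^ 2
        ≤ ∑ _p : γ, J0 * ∑ m ∈ range (M + 1), ‖Y G j m‖ ^ 2 := by
          refine sum_le_sum fun p _ => ?_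
          calc ∑ i ∈ range (K + 1), ‖stkJ T K a p G j i (Y G j (μ j i))‖ ^ 2
              ≤ ∑ i ∈ range (K + 1), ∑ m ∈ range (M + 1), ‖stkJ T K a p G j i (Y G j m)‖ ^ 2 := by
                refine sum_le_sum fun i _ => ?_
                by_cases hi : (i + 1) * 2 ^ a ≤ K
                · exact Finset.single_le_sum (f := fun m => ‖stkJ T K a p G j i (Y G j m)‖ ^ 2)
                    (fun _ _ => sq_nonneg _) (Finset.mem_range.2 (Nat.lt_succ_of_le (hμ j i hi)))
                · have : stkJ T K a p G j i = 0 := by unfold stkJ; rw [if_neg hi]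
                  rw [this]
                  simp
            _ = ∑ m ∈ range (M + 1), ∑ i ∈ range (K + 1), ‖stkJ T K a p G j i (Y G j m)‖ ^ 2 := Finset.sum_comm
            _ ≤ ∑ m ∈ range (M + 1), J0 * ‖Y G j m‖ ^ 2 := sum_le_sum fun m _ => stk_sum_jump hT a p G j _
            _ = _ := by rw [mul_sum]
      _ = _ := by rw [sum_const, card_univ, nsmul_eq_mul]; ring
  calc ∑ G ∈ grps, ∑ j ∈ B, ∑ i ∈ range (K + 1), ∑ p, ‖stkJ T K a p G j i (Y G j (μ j i))‖ ^ 2
      ≤ ∑ G ∈ grps, ∑ j ∈ B, (Fintype.card γ : ℝ) * J0 * ∑ m ∈ range (M + 1), ‖Y G j m‖ ^ 2 :=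
        sum_le_sum fun G _ => sum_le_sum fun j _ => key G j
    _ = (Fintype.card γ : ℝ) * J0 * ∑ G ∈ grps, ∑ j ∈ B, ∑ m ∈ range (M + 1), ‖Y G j m‖ ^ 2 := by
        simp only [mul_sum]
    _ ≤ (Fintype.card γ : ℝ) * J0 * (EY * R.len) := mul_le_mul_of_nonneg_left (hY B) (by positivity)
    _ = _ := by ring

end calculus

end Claimed.Agent.R258
end

/- ===== packed: Claimed.Agent.R258.S7.StkLin ===== -/
section
/-
Row 258, Sec. 7.4, block [S7-STK] (helper275), file 2: `StackLinGoal`, `StackUGoal` and the ENERGY LEMMAS for the variation budget.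
* `stk_sum_fiber_le`   : sums over the fibres of a map are dominated by the whole sum;
* `stk_split`          : blocks `j ≥ 4` in residue classes mod `q`, blocks `j < 4` one at a time: factor `q + 4`;
* `stk_var_windows`    : all dyadic intervals of length `2^a` inside pairwise disjoint windows `[w j, w j + Wd]`;
* `stk_linGoal : StackLinGoal`, `stk_uGoal : StackUGoal`.
-/
set_option autoImplicit false
open MeasureTheory
open scoped InnerProductSpace

namespace Claimed.Agent.R258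

open Classical Finset

/-! ### 6. sums -/

theorem stk_sum_fiber_le {α β : Type*} [DecidableEq β] (s : Finset α) (t : Finset β) (φ : α → β) (f : α → ℝ) (hf : ∀ x ∈ s, 0 ≤ f x) :
    ∑ b ∈ t, ∑ x ∈ s.filter (fun x => φ x = b), f x ≤ ∑ x ∈ s, f x := by
  have h1 := Finset.sum_fiberwise_of_maps_to (s := s.filter fun x => φ x ∈ t) (t := t) (g := φ)
    (fun x hx => (Finset.mem_filter.1 hx).2) f
  have h2 : ∑ b ∈ t, ∑ x ∈ s.filter (fun x => φ x = b), f x =
      ∑ b ∈ t, ∑ x ∈ (s.filter fun x => φ x ∈ t).filter (fun x => φ x = b), f x := by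
    refine Finset.sum_congr rfl fun b hb => Finset.sum_congr ?_ fun _ _ => rfl
    ext x
    simp only [Finset.mem_filter]
    constructor
    · rintro ⟨h, rfl⟩; exact ⟨⟨h, hb⟩, rfl⟩
    · rintro ⟨⟨h, -⟩, h'⟩; exact ⟨h, h'⟩
  rw [h2, h1]
  exact Finset.sum_le_sum_of_subset_of_nonneg (Finset.filter_subset _ _) fun x hx _ => hf x hx

/-- blocks `j ≥ 4` in residue classes mod `q`, blocks `j < 4` one at a time -/
theorem stk_split (grps B : Finset ℕ) (f : ℕ → ℕ → ℝ) (hf : ∀ G j, 0 ≤ f G j) (q : ℕ) (hq : 0 < q) (V : ℝ)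
    (h5 : ∀ c < q, ∀ B' : Finset ℕ, (∀ j ∈ B', 4 ≤ j ∧ j % q = c) → ∑ G ∈ grps, ∑ j ∈ B', f G j ≤ V)
    (h1 : ∀ j < 4, ∑ G ∈ grps, f G j ≤ V) :
    ∑ G ∈ grps, ∑ j ∈ B, f G j ≤ ((q : ℝ) + 4) * V := by
  have e : ∀ G, ∑ j ∈ B, f G j ≤
      ∑ c ∈ range q, ∑ j ∈ (B.filter fun j => 4 ≤ j).filter (fun j => j % q = c), f G j + ∑ j ∈ range 4, f G j := by
    intro G
    rw [← Finset.sum_filter_add_sum_filter_not B (fun j => 4 ≤ j)]
    refine add_le_add (le_of_eq ?_) ?_
    · exact (Finset.sum_fiberwise_of_maps_to (fun j _ => Finset.mem_range.2 (Nat.mod_lt j hq)) _).symm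
    · refine Finset.sum_le_sum_of_subset_of_nonneg (fun j hj => ?_) fun j _ _ => hf G j
      have := (Finset.mem_filter.1 hj).2
      exact Finset.mem_range.2 (by omega)
  refine (Finset.sum_le_sum fun G _ => e G).trans ?_
  rw [Finset.sum_add_distrib, Finset.sum_comm, Finset.sum_comm (t := range 4)]
  have a1 : ∑ c ∈ range q, ∑ G ∈ grps, ∑ j ∈ (B.filter fun j => 4 ≤ j).filter (fun j => j % q = c), f G j ≤
      ∑ _c ∈ range q, V := by
    refine Finset.sum_le_sum fun c hc => h5 c (Finset.mem_range.1 hc) _ fun j hj => ?_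
    have := Finset.mem_filter.1 hj
    exact ⟨(Finset.mem_filter.1 this.1).2, this.2⟩
  have a2 : ∑ j ∈ range 4, ∑ G ∈ grps, f G j ≤ ∑ _j ∈ range 4, V :=
    Finset.sum_le_sum fun j hj => h1 j (Finset.mem_range.1 hj)
  rw [Finset.sum_const, Finset.card_range, nsmul_eq_mul] at a1 a2
  push_cast at a2
  linarith

section energy

variable {R : Cell} {grps : Finset ℕ} {uses : Finset (ℕ × Cell)} {Zg : ℕ → ℕ → XV} {V0 : ℝ}

/-- the cut increment of `Zg G` over the `m`-th dyadic interval of length `2^a` of the window `[w0, w0 + Wd]` -/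
noncomputable def stkY (R : Cell) (uses : Finset (ℕ × Cell)) (Zg : ℕ → ℕ → XV) (Wd a G w0 m : ℕ) : XV :=
  if (m + 1) * 2 ^ a ≤ Wd then
    stkCut R uses G (w0 + (m + 1) * 2 ^ a) (Zg G (w0 + (m + 1) * 2 ^ a) - Zg G (w0 + m * 2 ^ a))
  else 0

/-- all dyadic intervals of length `2^a` inside pairwise disjoint windows -/
theorem stk_var_windows (h : VarBud R grps (certU R uses) Zg V0) (B' : Finset ℕ) (w : ℕ → ℕ) (Wd a : ℕ)
    (hw : ∀ j ∈ B', ∀ j' ∈ B', j ≠ j' → w j + Wd ≤ w j' ∨ w j' + Wd ≤ w j) :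
    ∑ G ∈ grps, ∑ j ∈ B', ∑ m ∈ range (Wd + 1), ‖stkY R uses Zg Wd a G (w j) m‖ ^ 2 ≤ V0 * R.len := by
  have h2 : 1 ≤ 2 ^ a := Nat.one_le_two_pow
  have key := h.var_finset ((B' ×ˢ range (Wd + 1)).filter fun q : ℕ × ℕ => (q.2 + 1) * 2 ^ a ≤ Wd)
    (fun q => w q.1 + q.2 * 2 ^ a) (fun q => w q.1 + (q.2 + 1) * 2 ^ a)
    (fun q _ => by nlinarith)
    (fun q hq q' hq' hne => by
      have c1 := (Finset.mem_filter.1 hq).2
      have c2 := (Finset.mem_filter.1 hq').2
      have m1 := (Finset.mem_product.1 (Finset.mem_filter.1 hq).1).1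
      have m2 := (Finset.mem_product.1 (Finset.mem_filter.1 hq').1).1
      by_cases h1 : q.1 = q'.1
      · have h3 : q.2 ≠ q'.2 := fun e => hne (Prod.ext h1 e)
        rw [h1]
        rcases Nat.lt_or_gt_of_ne h3 with h | h
        · left
          have : (q.2 + 1) * 2 ^ a ≤ q'.2 * 2 ^ a := Nat.mul_le_mul_right _ h
          omega
        · right
          have : (q'.2 + 1) * 2 ^ a ≤ q.2 * 2 ^ a := Nat.mul_le_mul_right _ h
          omega
      · rcases hw q.1 m1 q'.1 m2 h1 with h | h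
        · left; omega
        · right; omega)
  refine le_trans (le_of_eq ?_) key
  refine Finset.sum_congr rfl fun G _ => ?_
  rw [Finset.sum_filter, Finset.sum_product]
  refine Finset.sum_congr rfl fun j _ => Finset.sum_congr rfl fun m _ => ?_
  unfold stkY
  split_ifs <;> simp

end energy

/-! ### 7. the linear component -/

theorem stk_J_apply {γ : Type} (T : γ → ℕ → ℕ → XV →L[ℂ] XV) (K a : ℕ) (p : γ) (G j i : ℕ) (y : XV) :
    stkJ T K a p G j i y = stkD (fun o => T p G (j * K + o) y) K a i := by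
  unfold stkJ stkD
  split_ifs <;> simp

theorem stk_linGoal : StackLinGoal := by
  intro R K hK grps uses huses γ _ T cT J0 hcT hJ0 hT Vg EV hEV hV
  have hlen := cell_len_nonneg R
  have hbase : HasStacks R K grps uses γ (fun G I p => T p G (s7Blk K R I * K) (Vg G (s7Blk K R I))) 1
      ((Fintype.card γ : ℝ) * (cT ^ 2 * EV)) := by
    refine stk_bd_cfg hT (fun j _ => j * K) (fun G j i => if i = 0 then Vg G j else 0) (fun _ _ => 0)
      (fun _ _ => Nat.zero_le _) EV (fun B => ?_) _ (fun u _ p => by simp)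
    refine le_trans (le_of_eq ?_) (hV B)
    refine Finset.sum_congr rfl fun G _ => Finset.sum_congr rfl fun j _ => ?_
    rw [Finset.sum_eq_single 0]
    · simp
    · intro i _ hi; simp [hi]
    · intro h; exact absurd (Finset.mem_range.2 (Nat.succ_pos K)) h
  have hinc : ∀ a ∈ range (Nat.log 2 K + 1), HasStacks R K grps uses γ
      (fun G I p => stkJ T K a p G (s7Blk K R I) (stkSel K a (s7Off K R I)) (Vg G (s7Blk K R I))) 1
      ((Fintype.card γ : ℝ) * (J0 * EV)) := by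
    intro a _
    refine stk_jump_cfg hT hJ0 a 0 (fun G j _ => Vg G j) (fun _ _ => 0) (fun _ _ _ => le_rfl) EV (fun B => ?_)
      (fun _ I => stkSel K a (s7Off K R I)) (fun _ I => stk_sel_le a (stk_off_lt hK R I)) _ (fun u _ p => rfl)
    simpa using hV B
  have hc : (0 : ℝ) ≤ Fintype.card γ := Nat.cast_nonneg _
  have e1 : (Fintype.card γ : ℝ) * (cT ^ 2 * EV) ≤ (Fintype.card γ : ℝ) * ((cT ^ 2 + J0) * EV) :=
    mul_le_mul_of_nonneg_left (by nlinarith [mul_nonneg hJ0 hEV]) hc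
  have e2 : (Fintype.card γ : ℝ) * (J0 * EV) ≤ (Fintype.card γ : ℝ) * ((cT ^ 2 + J0) * EV) :=
    mul_le_mul_of_nonneg_left (by nlinarith [mul_nonneg (sq_nonneg cT) hEV]) hc
  have hsum := HasStacks.sum (range (Nat.log 2 K + 1)) _ 1 _ fun a ha => (hinc a ha).mono le_rfl e2
  have hall := (hbase.mono le_rfl e1).add hsum
  refine (hall.mono (by rw [Finset.card_range]; omega) le_rfl).congr fun u _ p => ?_
  congr 1
  have hb := stk_bits (fun o => T p u.1 (s7Blk K R u.2 * K + o) (Vg u.1 (s7Blk K R u.2))) (stk_le_pow_log K)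
    (stk_off_lt hK R u.2)
  simp only [add_zero] at hb
  rw [← stk_rel_eq] at hb
  rw [hb]
  congr 1
  exact Finset.sum_congr rfl fun a _ => (stk_J_apply T K a p _ _ _ _).symm

/-! ### 8. the basic-`U` input -/

theorem stk_uGoal : StackUGoal := by
  intro R K hK grps uses huses γ _ T cT J0 hcT hJ0 hT Sg EU hEU hS
  set φ : ℕ × Cell → ℕ × ℕ × ℕ := fun u => (u.1, s7Blk K R u.2, s7Off K R u.2) with hφ
  -- two uses in the same fibre live on distinct cells of the same depth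
  have hfib : ∀ b : ℕ × ℕ × ℕ, ∀ u ∈ uses.filter (fun u => φ u = b), u.2 ∈ cellsAt R (b.2.1 * K + b.2.2) := by
    intro b u hu
    obtain ⟨h1, h2⟩ := Finset.mem_filter.1 hu
    have := stk_mem_cellsAt (huses u h1).2
    rw [stk_rel_eq K] at this
    rw [← h2]
    exact this
  have hne : ∀ b : ℕ × ℕ × ℕ, ∀ u ∈ uses.filter (fun u => φ u = b), ∀ u' ∈ uses.filter (fun u => φ u = b), u ≠ u' →
      u.2 ≠ u'.2 := by
    intro b u hu u' hu' hn e
    have h1 := (Finset.mem_filter.1 hu).2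
    have h2 := (Finset.mem_filter.1 hu').2
    have : u.1 = u'.1 := by
      have := congrArg Prod.fst (h1.trans h2.symm)
      exact this
    exact hn (Prod.ext this e)
  refine stk_bd_cfg hT (fun j i => j * K + i)
    (fun G j i => ∑ u ∈ uses.filter (fun u => φ u = (G, j, i)), restr u.2.set (Sg u.1 u.2))
    (fun _ I => s7Off K R I) (fun _ I => (stk_off_lt hK R I).le) EU (fun B => ?_) _ (fun u hu p => ?_)
  · -- energy
    have e : ∀ G j i, ‖∑ u ∈ uses.filter (fun u => φ u = (G, j, i)), restr u.2.set (Sg u.1 u.2)‖ ^ 2 =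
        ∑ u ∈ uses.filter (fun u => φ u = (G, j, i)), ‖restr u.2.set (Sg u.1 u.2)‖ ^ 2 := by
      intro G j i
      refine stk_normsq_sum_orth _ _ fun u hu u' hu' hn => ?_
      have c1 := hfib _ u hu
      have c2 := hfib _ u' hu'
      have c3 := hne _ u hu u' hu' hn
      exact xv_inner_restr_disjoint (cell_measurableSet _) (cell_measurableSet _)
        (cell_disjoint_iff.2 ⟨stk_not_le c1 c2 c3, stk_not_le c2 c1 c3.symm⟩) _ _
    simp only [e]
    have := stk_sum_fiber_le uses (grps ×ˢ B ×ˢ range (K + 1)) φ (fun u => ‖restr u.2.set (Sg u.1 u.2)‖ ^ 2)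
      fun _ _ => sq_nonneg _
    rw [Finset.sum_product] at this
    simp only [Finset.sum_product] at this
    exact this.trans hS
  · -- identity
    have hR := (huses u hu).2
    have hcell := stk_mem_cellsAt hR
    have hn : s7Blk K R u.2 * K + s7Off K R u.2 = s7Rel R u.2 := (stk_rel_eq K R u.2).symm
    simp only [hn]
    rw [(hT p u.1).loc _ _ hcell, (hT p u.1).loc _ _ hcell]
    congr 1
    have hmem : u ∈ uses.filter (fun v => φ v = (u.1, s7Blk K R u.2, s7Off K R u.2)) :=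
      Finset.mem_filter.2 ⟨hu, rfl⟩
    rw [map_sum, Finset.sum_eq_single u]
    · rw [xv_restr_idem]
    · intro u' hu' hn'
      have c1 := hfib _ u hmem
      have c2 := hfib _ u' hu'
      have c3 := hne _ u' hu' u hmem hn'
      exact xv_restr_cell_disjoint (stk_not_le c1 c2 c3.symm) (stk_not_le c2 c1 c3) _
    · intro h
      exact absurd hmem h

end Claimed.Agent.R258
end

/- ===== packed: Claimed.Agent.R258.S7.StkRoll ===== -/
section
/-
Row 258, Sec. 7.4, block [S7-STK] (helper275), file 3: the ROLLING component `stk_rollGoal : StackRollGoal` and the two budgets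
`stk_rollBudGoal : RollBudGoal`, `stk_freezeBudGoal : FreezeBudGoal`.

Notation: `n = jK + o`, `Zf = stkZf K Zg G j` (frozen output of the block), `u' = (j - 4) K` (natural subtraction: `u' = 0` for `j < 4`).
   `T_n (Zg_n - Zf) = T_b (Zg_b - Zf) + ∑_a [ F1_a + ∑_{a'} J_a (D_{a'}) + J_a (Zg_{u'} - Zf) ]`      (`stk_roll_identity`)
with `F1_a = T_t (Zg_t - Zg_r)`, `J_a = T_t - T_r` on the selected dyadic interval `[r,t]` of length `2^a` of the block and `D_{a'}` the increment of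
`Zg` over the selected dyadic interval of length `2^{a'}` of the window `[u', u' + 5K]` (selected by `r - u' < 5K`).
Configurations: `1 + L (1 + (L' + 1))`, `L = log K + 1`, `L' = log K + 4`.   Energies: `9 cT² V0`, `cT² V0`, `9 J0 V0`, `5 J0 V0`.
-/
set_option autoImplicit false
open MeasureTheory
open scoped InnerProductSpace

namespace Claimed.Agent.R258

open Classical Finset

/-- the frozen output of the block `j` -/
noncomputable def stkZf (K : ℕ) (Zg : ℕ → ℕ → XV) (G j : ℕ) : XV := if 4 ≤ j then Zg G ((j - 4) * K) else 0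

theorem stk_roll_eq (K : ℕ) (Zg : ℕ → ℕ → XV) (G n : ℕ) : s7roll K Zg G n = Zg G n - stkZf K Zg G (n / K) := rfl

/-! ### arithmetic of the blocks -/

theorem stk_blk_gap {K j j' q : ℕ} (h : j + q ≤ j') (hq : 4 ≤ q) (h4 : 4 ≤ j) : (j - 4) * K + q * K ≤ (j' - 4) * K := by
  have : (j - 4) + q ≤ j' - 4 := by omega
  calc (j - 4) * K + q * K = ((j - 4) + q) * K := by ring
    _ ≤ (j' - 4) * K := Nat.mul_le_mul_right _ this

theorem stk_mod_gap {j j' q c : ℕ} (h1 : j % q = c) (h2 : j' % q = c) (hlt : j < j') : j + q ≤ j' := by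
  have e1 := Nat.div_add_mod j q
  have e2 := Nat.div_add_mod j' q
  rw [h1] at e1
  rw [h2] at e2
  have h3 : j / q < j' / q := by
    by_contra hc
    have : q * (j' / q) ≤ q * (j / q) := Nat.mul_le_mul_left _ (not_lt.1 hc)
    omega
  have : q * (j / q + 1) ≤ q * (j' / q) := Nat.mul_le_mul_left _ h3
  rw [Nat.mul_add, Nat.mul_one] at this
  omega

theorem stk_inner_lt {K a i : ℕ} (j : ℕ) (h : (i + 1) * 2 ^ a ≤ K) : j * K + i * 2 ^ a - (j - 4) * K < 5 * K := by
  have h2 : 1 ≤ 2 ^ a := Nat.one_le_two_pow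
  have h3 : i * 2 ^ a < K := by
    have : (i + 1) * 2 ^ a = i * 2 ^ a + 2 ^ a := by ring
    omega
  by_cases h4 : 4 ≤ j
  · obtain ⟨j0, rfl⟩ : ∃ j0, j = j0 + 4 := ⟨j - 4, by omega⟩
    have e : (j0 + 4) * K = j0 * K + 4 * K := by ring
    rw [Nat.add_sub_cancel, e]
    omega
  · have e : j - 4 = 0 := by omega
    have : j * K ≤ 3 * K := Nat.mul_le_mul_right _ (by omega)
    rw [e]
    omega

theorem stk_frozen_le (K j : ℕ) : (j - 4) * K ≤ j * K := Nat.mul_le_mul_right _ (Nat.sub_le _ _)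

/-! ### energies -/

section energy

variable {R : Cell} {grps : Finset ℕ} {uses : Finset (ℕ × Cell)} {Zg : ℕ → ℕ → XV} {V0 : ℝ}

/-- intervals `[(j-4)K, jK + o]`, fixed offset `o` -/
theorem stk_energy_roll (h : VarBud R grps (certU R uses) Zg V0) {K o : ℕ} (ho : o < K) (B : Finset ℕ) :
    ∑ G ∈ grps, ∑ j ∈ B, ‖stkCut R uses G (j * K + o) (Zg G (j * K + o) - stkZf K Zg G j)‖ ^ 2 ≤ 9 * V0 * R.len := by
  have key := stk_split grps B
    (fun G j => ‖stkCut R uses G (j * K + o) (Zg G (j * K + o) - stkZf K Zg G j)‖ ^ 2) (fun _ _ => sq_nonneg _) 5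
    (by norm_num) (V0 * R.len) ?_ ?_
  · refine key.trans (le_of_eq ?_)
    push_cast; ring
  · intro c _ B' hB'
    have := h.var_finset B' (fun j => (j - 4) * K) (fun j => j * K + o)
      (fun j _ => (stk_frozen_le K j).trans (Nat.le_add_right _ _))
      (fun j hj j' hj' hne => by
        have key : ∀ j j' : ℕ, 4 ≤ j → j % 5 = c → j' % 5 = c → j < j' → j * K + o ≤ (j' - 4) * K := by
          intro j j' h4 h1 h2 hlt
          have g := stk_blk_gap (K := K) (stk_mod_gap h1 h2 hlt) (by norm_num) h4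
          obtain ⟨j0, rfl⟩ : ∃ j0, j = j0 + 4 := ⟨j - 4, by omega⟩
          have e : (j0 + 4) * K = j0 * K + 4 * K := by ring
          rw [Nat.add_sub_cancel] at g
          rw [e]
          omega
        rcases Nat.lt_or_gt_of_ne hne with hl | hl
        · exact Or.inl (key j j' (hB' j hj).1 (hB' j hj).2 (hB' j' hj').2 hl)
        · exact Or.inr (key j' j (hB' j' hj').1 (hB' j' hj').2 (hB' j hj).2 hl))
    refine le_trans (le_of_eq ?_) this
    refine Finset.sum_congr rfl fun G _ => Finset.sum_congr rfl fun j hj => ?_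
    rw [stkZf, if_pos (hB' j hj).1]
  · intro j hj
    have := h.one_cut (j * K + o)
    refine le_trans (le_of_eq ?_) this
    refine Finset.sum_congr rfl fun G _ => ?_
    rw [stkZf, if_neg (by omega), sub_zero]

/-- the dyadic intervals of length `2^a'` of the windows `[(j-4)K, (j+1)K]` -/
theorem stk_energy_inner (h : VarBud R grps (certU R uses) Zg V0) (K a' : ℕ) (B : Finset ℕ) :
    ∑ G ∈ grps, ∑ j ∈ B, ∑ m ∈ range (5 * K + 1), ‖stkY R uses Zg (5 * K) a' G ((j - 4) * K) m‖ ^ 2 ≤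
      9 * V0 * R.len := by
  have key := stk_split grps B
    (fun G j => ∑ m ∈ range (5 * K + 1), ‖stkY R uses Zg (5 * K) a' G ((j - 4) * K) m‖ ^ 2)
    (fun _ _ => Finset.sum_nonneg fun _ _ => sq_nonneg _) 5 (by norm_num) (V0 * R.len) ?_ ?_
  · refine key.trans (le_of_eq ?_)
    push_cast; ring
  · intro c _ B' hB'
    refine stk_var_windows h B' (fun j => (j - 4) * K) (5 * K) a' fun j hj j' hj' hne => ?_
    rcases Nat.lt_or_gt_of_ne hne with hl | hl
    · exact Or.inl (stk_blk_gap (stk_mod_gap (hB' j hj).2 (hB' j' hj').2 hl) (by norm_num) (hB' j hj).1)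
    · exact Or.inr (stk_blk_gap (stk_mod_gap (hB' j' hj').2 (hB' j hj).2 hl) (by norm_num) (hB' j' hj').1)
  · intro j _
    have := stk_var_windows h {j} (fun j => (j - 4) * K) (5 * K) a' fun j1 h1 j2 h2 hne => by
      rw [Finset.mem_singleton] at h1 h2
      exact absurd (h1.trans h2.symm) hne
    simpa using this

/-- the initial value, only in the first four blocks -/
theorem stk_energy_init (h : VarBud R grps (certU R uses) Zg V0) (hV0 : 0 ≤ V0) (K : ℕ) (B : Finset ℕ) :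
    ∑ G ∈ grps, ∑ j ∈ B, ‖stkCut R uses G ((j - 4) * K) (Zg G ((j - 4) * K) - stkZf K Zg G j)‖ ^ 2 ≤ 5 * V0 * R.len := by
  have hV : 0 ≤ V0 * R.len := mul_nonneg hV0 (cell_len_nonneg R)
  have key := stk_split grps B
    (fun G j => ‖stkCut R uses G ((j - 4) * K) (Zg G ((j - 4) * K) - stkZf K Zg G j)‖ ^ 2) (fun _ _ => sq_nonneg _) 1
    (by norm_num) (V0 * R.len) ?_ ?_
  · refine key.trans (le_of_eq ?_)
    push_cast; ring
  · intro c _ B' hB'
    refine le_trans (le_of_eq ?_) hV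
    refine Finset.sum_eq_zero fun G _ => Finset.sum_eq_zero fun j hj => ?_
    rw [stkZf, if_pos (hB' j hj).1, sub_self, map_zero, norm_zero]
    norm_num
  · intro j hj
    have := h.one_cut 0
    refine le_trans (le_of_eq ?_) this
    refine Finset.sum_congr rfl fun G _ => ?_
    have e : j - 4 = 0 := by omega
    rw [stkZf, if_neg (by omega), sub_zero, e, Nat.zero_mul]

end energy

/-! ### the configurations of the rolling component -/

section roll

variable {R : Cell} {K : ℕ} {grps : Finset ℕ} {uses : Finset (ℕ × Cell)} {γ : Type}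
  {T : γ → ℕ → ℕ → XV →L[ℂ] XV} {cT J0 : ℝ} {Zg : ℕ → ℕ → XV} {V0 : ℝ}

theorem stk_blk_le (K : ℕ) (R I : Cell) : s7Blk K R I * K ≤ s7Rel R I := by
  rw [stk_rel_eq K R I]; exact Nat.le_add_right _ _

/-- the end of a selected interval is not deeper than the use -/
theorem stk_sel_le_rel {K a : ℕ} (R I : Cell) (h : (stkSel K a (s7Off K R I) + 1) * 2 ^ a ≤ K) :
    s7Blk K R I * K + (stkSel K a (s7Off K R I) + 1) * 2 ^ a ≤ s7Rel R I := by
  rw [stk_rel_eq K R I]
  exact Nat.add_le_add_left (stk_sel_spec h) _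

/-- a jump applied to an input cut at a depth before the interval -/
theorem stk_restr_J_cut (hT : ∀ p G, LocOp R (T p G) cT J0 K) {u : ℕ × Cell} (hu : u ∈ uses) (hR : u.2 ≤ R) (a : ℕ) (p : γ)
    (j i m : ℕ) (hm : m ≤ j * K + i * 2 ^ a) (hi : (i + 1) * 2 ^ a ≤ K → j * K + (i + 1) * 2 ^ a ≤ s7Rel R u.2) (y : XV) :
    restr u.2.set (stkJ T K a p u.1 j i (stkCut R uses u.1 m y)) = restr u.2.set (stkJ T K a p u.1 j i y) := by
  unfold stkJ
  split_ifs with hc
  · have h1 : j * K + i * 2 ^ a ≤ j * K + (i + 1) * 2 ^ a := by nlinarith [Nat.one_le_two_pow (n := a)]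
    have h2 := hi hc
    rw [_root_.sub_apply, _root_.sub_apply, map_sub, map_sub,
      (hT p u.1).restr_cut hu hR (hm.trans h1) (by omega), (hT p u.1).restr_cut hu hR hm (by omega)]
  · simp

/-- uncut first term -/
noncomputable def stkF1 (T : γ → ℕ → ℕ → XV →L[ℂ] XV) (K : ℕ) (Zg : ℕ → ℕ → XV) (a : ℕ) (p : γ) (G j i : ℕ) : XV :=
  if (i + 1) * 2 ^ a ≤ K then
    T p G (j * K + (i + 1) * 2 ^ a) (Zg G (j * K + (i + 1) * 2 ^ a) - Zg G (j * K + i * 2 ^ a))
  else 0

/-- the inner position selected by the outer position `i` -/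
def stkMu (K a a' j i : ℕ) : ℕ := stkSel (5 * K) a' (j * K + i * 2 ^ a - (j - 4) * K)

variable [Fintype γ]

theorem stk_roll_base (hK : 1 ≤ K) (huses : ∀ u ∈ uses, u.1 ∈ grps ∧ u.2 ≤ R) (hT : ∀ p G, LocOp R (T p G) cT J0 K)
    (h : VarBud R grps (certU R uses) Zg V0) :
    HasStacks R K grps uses γ
      (fun G I p => T p G (s7Blk K R I * K) (Zg G (s7Blk K R I * K) - stkZf K Zg G (s7Blk K R I))) 1
      ((Fintype.card γ : ℝ) * (cT ^ 2 * (9 * V0))) := by
  refine stk_bd_cfg hT (fun j _ => j * K)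
    (fun G j i => if i = 0 then stkCut R uses G (j * K) (Zg G (j * K) - stkZf K Zg G j) else 0) (fun _ _ => 0)
    (fun _ _ => Nat.zero_le _) (9 * V0) (fun B => ?_) _ (fun u hu p => ?_)
  · have := stk_energy_roll h (K := K) (o := 0) hK B
    refine le_trans (le_of_eq ?_) this
    refine Finset.sum_congr rfl fun G _ => Finset.sum_congr rfl fun j _ => ?_
    rw [Finset.sum_eq_single 0]
    · simp
    · intro i _ hi; simp [hi]
    · intro h; exact absurd (Finset.mem_range.2 (Nat.succ_pos K)) h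
  · rw [if_pos rfl]
    exact ((hT p u.1).restr_cut hu (huses u hu).2 le_rfl (stk_blk_le K R u.2) _).symm

theorem stk_roll_first (hK : 1 ≤ K) (huses : ∀ u ∈ uses, u.1 ∈ grps ∧ u.2 ≤ R) (hT : ∀ p G, LocOp R (T p G) cT J0 K)
    (h : VarBud R grps (certU R uses) Zg V0) (a : ℕ) :
    HasStacks R K grps uses γ
      (fun G I p => stkF1 T K Zg a p G (s7Blk K R I) (stkSel K a (s7Off K R I))) 1
      ((Fintype.card γ : ℝ) * (cT ^ 2 * V0)) := by
  refine stk_bd_cfg hT (fun j i => j * K + (i + 1) * 2 ^ a) (fun G j i => stkY R uses Zg K a G (j * K) i)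
    (fun _ I => stkSel K a (s7Off K R I)) (fun _ I => stk_sel_le a (stk_off_lt hK R I)) V0
    (fun B => stk_var_windows h B (fun j => j * K) K a fun j _ j' _ hne => ?_) _ (fun u hu p => ?_)
  · have key : ∀ j j' : ℕ, j < j' → j * K + K ≤ j' * K := by
      intro j j' hl
      calc j * K + K = (j + 1) * K := by ring
        _ ≤ j' * K := Nat.mul_le_mul_right _ hl
    rcases Nat.lt_or_gt_of_ne hne with hl | hl
    · exact Or.inl (key _ _ hl)
    · exact Or.inr (key _ _ hl)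
  · unfold stkF1 stkY
    split_ifs with hc
    · exact ((hT p u.1).restr_cut hu (huses u hu).2 le_rfl (stk_sel_le_rel R u.2 hc) _).symm
    · simp

theorem stk_roll_second (hK : 1 ≤ K) (huses : ∀ u ∈ uses, u.1 ∈ grps ∧ u.2 ≤ R) (hT : ∀ p G, LocOp R (T p G) cT J0 K)
    (hJ0 : 0 ≤ J0) (h : VarBud R grps (certU R uses) Zg V0) (a a' : ℕ) :
    HasStacks R K grps uses γ
      (fun G I p => stkJ T K a p G (s7Blk K R I) (stkSel K a (s7Off K R I))
        (stkD (fun o' => Zg G ((s7Blk K R I - 4) * K + o')) (5 * K) a'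
          (stkMu K a a' (s7Blk K R I) (stkSel K a (s7Off K R I))))) 1
      ((Fintype.card γ : ℝ) * (J0 * (9 * V0))) := by
  refine stk_jump_cfg hT hJ0 a (5 * K) (fun G j m => stkY R uses Zg (5 * K) a' G ((j - 4) * K) m) (stkMu K a a')
    (fun j i hi => stk_sel_le a' (stk_inner_lt j hi)) (9 * V0) (fun B => stk_energy_inner h K a' B)
    (fun _ I => stkSel K a (s7Off K R I)) (fun _ I => stk_sel_le a (stk_off_lt hK R I)) _ (fun u hu p => ?_)
  unfold stkD stkY
  split_ifs with hc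
  · refine (stk_restr_J_cut hT hu (huses u hu).2 a p _ _ _ ?_ (fun hi => stk_sel_le_rel R u.2 hi) _).symm
    have := stk_sel_spec hc
    have h1 : 1 ≤ (stkMu K a a' (s7Blk K R u.2) (stkSel K a (s7Off K R u.2)) + 1) * 2 ^ a' :=
      Nat.mul_pos (Nat.succ_pos _) (Nat.pos_of_ne_zero (by positivity))
    unfold stkMu at h1 ⊢
    omega
  · rfl

theorem stk_roll_third (hK : 1 ≤ K) (huses : ∀ u ∈ uses, u.1 ∈ grps ∧ u.2 ≤ R) (hT : ∀ p G, LocOp R (T p G) cT J0 K)
    (hJ0 : 0 ≤ J0) (hV0 : 0 ≤ V0) (h : VarBud R grps (certU R uses) Zg V0) (a : ℕ) :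
    HasStacks R K grps uses γ
      (fun G I p => stkJ T K a p G (s7Blk K R I) (stkSel K a (s7Off K R I))
        (Zg G ((s7Blk K R I - 4) * K) - stkZf K Zg G (s7Blk K R I))) 1
      ((Fintype.card γ : ℝ) * (J0 * (5 * V0))) := by
  refine stk_jump_cfg hT hJ0 a 0
    (fun G j _ => stkCut R uses G ((j - 4) * K) (Zg G ((j - 4) * K) - stkZf K Zg G j)) (fun _ _ => 0)
    (fun _ _ _ => le_rfl) (5 * V0) (fun B => ?_)
    (fun _ I => stkSel K a (s7Off K R I)) (fun _ I => stk_sel_le a (stk_off_lt hK R I)) _ (fun u hu p => ?_)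
  · simpa using stk_energy_init h hV0 K B
  · exact (stk_restr_J_cut hT hu (huses u hu).2 a p _ _ _
      ((stk_frozen_le K _).trans (Nat.le_add_right _ _)) (fun hi => stk_sel_le_rel R u.2 hi) _).symm

omit [Fintype γ] in
/-- the increment of `W_n = T_n (Zg_n - Zf)` over one dyadic interval of the block -/
theorem stk_roll_term (T : γ → ℕ → ℕ → XV →L[ℂ] XV) (K : ℕ) (Zg : ℕ → ℕ → XV) (p : γ) (G j a i : ℕ) :
    stkD (fun o => T p G (j * K + o) (Zg G (j * K + o) - stkZf K Zg G j)) K a i =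
      stkF1 T K Zg a p G j i
        + (∑ a' ∈ range (Nat.log 2 K + 4), stkJ T K a p G j i
              (stkD (fun o' => Zg G ((j - 4) * K + o')) (5 * K) a' (stkMu K a a' j i))
            + stkJ T K a p G j i (Zg G ((j - 4) * K) - stkZf K Zg G j)) := by
  by_cases hc : (i + 1) * 2 ^ a ≤ K
  · have hb := stk_bits (fun o' => Zg G ((j - 4) * K + o')) (stk_five_le_pow_log K) (stk_inner_lt j hc)
    have e : (j - 4) * K + (j * K + i * 2 ^ a - (j - 4) * K) = j * K + i * 2 ^ a := by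
      have := stk_frozen_le K j
      omega
    simp only [e, add_zero] at hb
    rw [← map_sum, ← map_add]
    have e2 : ∑ a' ∈ range (Nat.log 2 K + 4), stkD (fun o' => Zg G ((j - 4) * K + o')) (5 * K) a' (stkMu K a a' j i)
        + (Zg G ((j - 4) * K) - stkZf K Zg G j) = Zg G (j * K + i * 2 ^ a) - stkZf K Zg G j := by
      rw [hb]
      unfold stkMu
      abel
    rw [e2]
    unfold stkD stkF1 stkJ
    rw [if_pos hc, if_pos hc, if_pos hc, _root_.sub_apply]
    simp only [map_sub]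
    abel
  · unfold stkD stkF1 stkJ
    simp [hc]

omit [Fintype γ] in
theorem stk_roll_identity (T : γ → ℕ → ℕ → XV →L[ℂ] XV) {K : ℕ} (Zg : ℕ → ℕ → XV) (p : γ) (G j : ℕ) {o : ℕ} (ho : o < K) :
    T p G (j * K + o) (Zg G (j * K + o) - stkZf K Zg G j) =
      T p G (j * K) (Zg G (j * K) - stkZf K Zg G j)
        + ∑ a ∈ range (Nat.log 2 K + 1), (stkF1 T K Zg a p G j (stkSel K a o)
          + (∑ a' ∈ range (Nat.log 2 K + 4), stkJ T K a p G j (stkSel K a o)
                (stkD (fun o' => Zg G ((j - 4) * K + o')) (5 * K) a' (stkMu K a a' j (stkSel K a o)))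
              + stkJ T K a p G j (stkSel K a o) (Zg G ((j - 4) * K) - stkZf K Zg G j))) := by
  have hb := stk_bits (fun o => T p G (j * K + o) (Zg G (j * K + o) - stkZf K Zg G j)) (stk_le_pow_log K) ho
  simp only [add_zero] at hb
  rw [hb]
  congr 1
  exact Finset.sum_congr rfl fun a _ => stk_roll_term T K Zg p G j a _

end roll

/-- **Lemma 7.4, rolling component.** -/
theorem stk_rollGoal : StackRollGoal := by
  intro R K hK grps uses huses γ _ T cT J0 hcT hJ0 hT Zg V0 hV0 h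
  have hc : (0 : ℝ) ≤ Fintype.card γ := Nat.cast_nonneg _
  have p1 : 0 ≤ cT ^ 2 * V0 := mul_nonneg (sq_nonneg _) hV0
  have p2 : 0 ≤ J0 * V0 := mul_nonneg hJ0 hV0
  set E : ℝ := (Fintype.card γ : ℝ) * (10 * (cT ^ 2 + J0) * V0) with hE
  have e0 : (Fintype.card γ : ℝ) * (cT ^ 2 * (9 * V0)) ≤ E := mul_le_mul_of_nonneg_left (by nlinarith) hc
  have e1 : (Fintype.card γ : ℝ) * (cT ^ 2 * V0) ≤ E := mul_le_mul_of_nonneg_left (by nlinarith) hc
  have e2 : (Fintype.card γ : ℝ) * (J0 * (9 * V0)) ≤ E := mul_le_mul_of_nonneg_left (by nlinarith) hc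
  have e3 : (Fintype.card γ : ℝ) * (J0 * (5 * V0)) ≤ E := mul_le_mul_of_nonneg_left (by nlinarith) hc
  have h0 := (stk_roll_base hK huses hT h).mono le_rfl e0
  have hA : ∀ a ∈ range (Nat.log 2 K + 1), HasStacks R K grps uses γ _ (1 + ((range (Nat.log 2 K + 4)).card * 1 + 1)) E :=
    fun a _ => ((stk_roll_first hK huses hT h a).mono le_rfl e1).add
      ((HasStacks.sum (range (Nat.log 2 K + 4)) _ 1 E fun a' _ =>
        (stk_roll_second hK huses hT hJ0 h a a').mono le_rfl e2).add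
        ((stk_roll_third hK huses hT hJ0 hV0 h a).mono le_rfl e3))
  have hall := h0.add (HasStacks.sum (range (Nat.log 2 K + 1)) _ _ E hA)
  refine (hall.mono ?_ le_rfl).congr fun u _ p => ?_
  · rw [Finset.card_range, Finset.card_range]
    nlinarith
  · congr 1
    have hn := stk_rel_eq K R u.2
    have := stk_roll_identity T Zg p u.1 (s7Blk K R u.2) (stk_off_lt hK R u.2)
    rw [← hn] at this
    exact this

/-! ### the two budgets -/

/-- cells of relative depth `n`, certified for `G`: their square sum is dominated by the cut -/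
theorem stk_sum_cells_le {R : Cell} {uses : Finset (ℕ × Cell)} {G n : ℕ} {A : Finset Cell}
    (hA : ∀ J ∈ A, J ≤ R ∧ s7Rel R J = n ∧ certU R uses G J) (y : XV) :
    ∑ J ∈ A, ‖restr J.set y‖ ^ 2 ≤ ‖stkCut R uses G n y‖ ^ 2 := by
  rw [stk_normsq_cut]
  refine Finset.sum_le_sum_of_subset_of_nonneg (fun J hJ => ?_) fun _ _ _ => sq_nonneg _
  obtain ⟨h1, h2, h3⟩ := hA J hJ
  refine Finset.mem_filter.2 ⟨?_, h3⟩
  rw [← h2]
  exact stk_mem_cellsAt h1

/-- a bound for the block indices of a finite family -/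
theorem stk_exists_blk_bound {α : Type*} (s : Finset α) (f : α → ℕ) : ∃ M, ∀ x ∈ s, f x < M :=
  ⟨s.sup f + 1, fun _ hx => Nat.lt_succ_of_le (Finset.le_sup hx)⟩

theorem stk_rollBudGoal : RollBudGoal := by
  intro R K hK grps uses huses Zg V0 hV0 h
  obtain ⟨M, hM⟩ := stk_exists_blk_bound uses fun u => s7Blk K R u.2
  set φ : ℕ × Cell → ℕ × ℕ × ℕ := fun u => (s7Off K R u.2, u.1, s7Blk K R u.2) with hφ
  have h1 := Finset.sum_fiberwise_of_maps_to (s := uses) (t := range K ×ˢ grps ×ˢ range M) (g := φ)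
    (fun u hu => Finset.mem_product.2 ⟨Finset.mem_range.2 (stk_off_lt hK R u.2),
      Finset.mem_product.2 ⟨(huses u hu).1, Finset.mem_range.2 (hM u hu)⟩⟩)
    (fun u => ‖restr u.2.set (s7roll K Zg u.1 (s7Rel R u.2))‖ ^ 2)
  rw [← h1, Finset.sum_product]
  simp only [Finset.sum_product]
  have key : ∀ o G j, ∑ u ∈ uses.filter (fun u => φ u = (o, G, j)), ‖restr u.2.set (s7roll K Zg u.1 (s7Rel R u.2))‖ ^ 2 ≤
      ‖stkCut R uses G (j * K + o) (Zg G (j * K + o) - stkZf K Zg G j)‖ ^ 2 := by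
    intro o G j
    have hf : ∀ u ∈ uses.filter (fun u => φ u = (o, G, j)),
        u ∈ uses ∧ s7Off K R u.2 = o ∧ u.1 = G ∧ s7Blk K R u.2 = j := by
      intro u hu
      obtain ⟨a1, a2⟩ := Finset.mem_filter.1 hu
      have b1 : s7Off K R u.2 = o := congrArg Prod.fst a2
      have b2 : u.1 = G := congrArg (fun q : ℕ × ℕ × ℕ => q.2.1) a2
      have b3 : s7Blk K R u.2 = j := congrArg (fun q : ℕ × ℕ × ℕ => q.2.2) a2
      exact ⟨a1, b1, b2, b3⟩
    have e1 : ∑ u ∈ uses.filter (fun u => φ u = (o, G, j)), ‖restr u.2.set (s7roll K Zg u.1 (s7Rel R u.2))‖ ^ 2 =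
        ∑ u ∈ uses.filter (fun u => φ u = (o, G, j)),
          (fun J : Cell => ‖restr J.set (Zg G (j * K + o) - stkZf K Zg G j)‖ ^ 2) u.2 := by
      refine Finset.sum_congr rfl fun u hu => ?_
      obtain ⟨-, b1, b2, b3⟩ := hf u hu
      have hn : s7Rel R u.2 = j * K + o := by rw [stk_rel_eq K R u.2, b1, b3]
      have hq : s7Rel R u.2 / K = j := b3
      rw [stk_roll_eq, hq, hn, b2]
    rw [e1, ← Finset.sum_image (f := fun J : Cell => ‖restr J.set (Zg G (j * K + o) - stkZf K Zg G j)‖ ^ 2)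
      (g := Prod.snd)]
    · refine stk_sum_cells_le (fun J hJ => ?_) _
      obtain ⟨u, hu, rfl⟩ := Finset.mem_image.1 hJ
      obtain ⟨a1, b1, b2, b3⟩ := hf u hu
      exact ⟨(huses u a1).2, by rw [stk_rel_eq K R u.2, b1, b3], (huses u a1).2, u, a1, b2, le_rfl⟩
    · intro u hu u' hu' e
      exact Prod.ext ((hf u hu).2.2.1.trans (hf u' hu').2.2.1.symm) e
  calc ∑ o ∈ range K, ∑ G ∈ grps, ∑ j ∈ range M,
        ∑ u ∈ uses.filter (fun u => φ u = (o, G, j)), ‖restr u.2.set (s7roll K Zg u.1 (s7Rel R u.2))‖ ^ 2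
      ≤ ∑ o ∈ range K, ∑ G ∈ grps, ∑ j ∈ range M,
          ‖stkCut R uses G (j * K + o) (Zg G (j * K + o) - stkZf K Zg G j)‖ ^ 2 :=
        Finset.sum_le_sum fun o _ => Finset.sum_le_sum fun G _ => Finset.sum_le_sum fun j _ => key o G j
    _ ≤ ∑ _o ∈ range K, 9 * V0 * R.len :=
        Finset.sum_le_sum fun o ho => stk_energy_roll h (Finset.mem_range.1 ho) (range M)
    _ = 9 * K * V0 * R.len := by
        rw [Finset.sum_const, Finset.card_range, nsmul_eq_mul]; ring

theorem stk_freezeBudGoal : FreezeBudGoal := by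
  intro R K hK grps uses huses Zg V0 hV0 h A hA
  obtain ⟨M, hM⟩ := stk_exists_blk_bound A fun J => s7Blk K R J
  -- exchange the sums
  have e0 : ∑ J ∈ A, ∑ G ∈ grps.filter (fun G => certU R uses G J),
        ‖restr J.set (Zg G (s7Rel R J) - Zg G (s7Blk K R J * K))‖ ^ 2 =
      ∑ G ∈ grps, ∑ J ∈ A.filter (fun J => certU R uses G J),
        ‖restr J.set (Zg G (s7Rel R J) - Zg G (s7Blk K R J * K))‖ ^ 2 := by
    simp only [Finset.sum_filter]
    exact Finset.sum_comm
  rw [e0]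
  set φ : Cell → ℕ × ℕ := fun J => (s7Off K R J, s7Blk K R J) with hφ
  have e1 : ∀ G, ∑ J ∈ A.filter (fun J => certU R uses G J),
        ‖restr J.set (Zg G (s7Rel R J) - Zg G (s7Blk K R J * K))‖ ^ 2 ≤
      ∑ o ∈ range K, ∑ j ∈ range M, ‖stkCut R uses G (j * K + o) (Zg G (j * K + o) - Zg G (j * K))‖ ^ 2 := by
    intro G
    have h1 := Finset.sum_fiberwise_of_maps_to (s := A.filter fun J => certU R uses G J) (t := range K ×ˢ range M) (g := φ)
      (fun J hJ => Finset.mem_product.2 ⟨Finset.mem_range.2 (stk_off_lt hK R J),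
        Finset.mem_range.2 (hM J (Finset.mem_filter.1 hJ).1)⟩)
      (fun J => ‖restr J.set (Zg G (s7Rel R J) - Zg G (s7Blk K R J * K))‖ ^ 2)
    rw [← h1, Finset.sum_product]
    refine Finset.sum_le_sum fun o _ => Finset.sum_le_sum fun j _ => ?_
    have hf : ∀ J ∈ (A.filter fun J => certU R uses G J).filter (fun J => φ J = (o, j)),
        J ∈ A ∧ certU R uses G J ∧ s7Off K R J = o ∧ s7Blk K R J = j := by
      intro J hJ
      obtain ⟨a1, a2⟩ := Finset.mem_filter.1 hJ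
      obtain ⟨a3, a4⟩ := Finset.mem_filter.1 a1
      exact ⟨a3, a4, congrArg Prod.fst a2, congrArg Prod.snd a2⟩
    have e2 : ∑ J ∈ (A.filter fun J => certU R uses G J).filter (fun J => φ J = (o, j)),
          ‖restr J.set (Zg G (s7Rel R J) - Zg G (s7Blk K R J * K))‖ ^ 2 =
        ∑ J ∈ (A.filter fun J => certU R uses G J).filter (fun J => φ J = (o, j)),
          ‖restr J.set (Zg G (j * K + o) - Zg G (j * K))‖ ^ 2 := by
      refine Finset.sum_congr rfl fun J hJ => ?_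
      obtain ⟨-, -, b1, b2⟩ := hf J hJ
      rw [stk_rel_eq K R J, b1, b2]
    rw [e2]
    refine stk_sum_cells_le (fun J hJ => ?_) _
    obtain ⟨a1, a2, b1, b2⟩ := hf J hJ
    exact ⟨hA J a1, by rw [stk_rel_eq K R J, b1, b2], a2⟩
  refine (Finset.sum_le_sum fun G _ => e1 G).trans ?_
  rw [Finset.sum_comm]
  calc ∑ o ∈ range K, ∑ G ∈ grps, ∑ j ∈ range M, ‖stkCut R uses G (j * K + o) (Zg G (j * K + o) - Zg G (j * K))‖ ^ 2
      ≤ ∑ _o ∈ range K, V0 * R.len := by
        refine Finset.sum_le_sum fun o ho => ?_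
        have ho' := Finset.mem_range.1 ho
        refine h.var_finset (range M) (fun j => j * K) (fun j => j * K + o) (fun j _ => Nat.le_add_right _ _)
          fun j _ j' _ hne => ?_
        have key : ∀ j j' : ℕ, j < j' → j * K + o ≤ j' * K := by
          intro j j' hl
          have : (j + 1) * K ≤ j' * K := Nat.mul_le_mul_right _ hl
          have e : (j + 1) * K = j * K + K := by ring
          omega
        rcases Nat.lt_or_gt_of_ne hne with hl | hl
        · exact Or.inl (key _ _ hl)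
        · exact Or.inr (key _ _ hl)
    _ = K * V0 * R.len := by
        rw [Finset.sum_const, Finset.card_range, nsmul_eq_mul]; ring

end Claimed.Agent.R258
end

/- ===== packed: Claimed.Agent.R258.S7.Nb2Defs ===== -/
section
/-
Row 258, block [S7-NB2] (architect+prover: helper82; home architect of Sec. 7: helper244).  DEFINITIONS of the proof of `nearGoal_of`.

Notation (`Y : NearData γ`, `n = s7Rel Y.R I`, `Y.bs I = s7Blk Y.K Y.R I * Y.K` = first depth of the block of `I`):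
* `Y.bsum G I C D = ∑_p H_I(xa G I p, xb G I, C p, D)`                 band sum with arbitrary complements;
* `Y.flag cc G I`  : at some `J = I.anc o`, `o ≤ s7Off Y.K Y.R I` (the cells between `I` and the top of its block) one of the FROZEN complements
                     `Cg G (bs I)`, `Dg G (bs I)` has normalized size `> 2 cc`;
* `Y.fl cc I`      : `1` if some group used at `I` is flagged, else `0`;
* `Y.aA I`, `Y.aB I` : group-aggregated sizes of the two sides;
* `Y.t1 cc I`      : flagged uses, current complements;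
* `Y.t2 cc I`      : unflagged uses, the two freeze errors;
* `Y.t3 cc Xa sa Xb sb I` : unflagged uses, frozen complements, ONE pair of configurations of fixed stacks.
Chain:  `‖Y.term I‖ ≤ t1 + t2 + ∑_{ca, cb} t3`  (Nb2Main.lean),   `Ctrl` for `t1, t2` (Nb2Pow.lean, from Nb2Flag.lean),  `Ctrl` for `t3` (Nb2Frz.lean).
-/
set_option autoImplicit false
open MeasureTheory

namespace Claimed.Agent.R258

open Classical

namespace NearData
variable {γ : Type} [Fintype γ] (Y : NearData γ)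

/-- first relative depth of the block of `I` -/
def bs (I : Cell) : ℕ := s7Blk Y.K Y.R I * Y.K

/-- the band sum at `(G, I)` with complements `C`, `D` -/
noncomputable def bsum (G : ℕ) (I : Cell) (C : γ → XV) (D : XV) : ℂ :=
  ∑ p, formV I (Y.w I) (placeV Y.e (Y.xa G I p) (Y.xb G I) (C p) D)

/-- a frozen complement is large somewhere between `I` and the top of its block -/
def flag (cc : ℝ) (G : ℕ) (I : Cell) : Prop :=
  ∃ o, o ≤ s7Off Y.K Y.R I ∧
    ((2 * cc) ^ 2 * (I.anc o).len < ∑ p, ‖restr (I.anc o).set (Y.Cg G (Y.bs I) p)‖ ^ 2 ∨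
     (2 * cc) ^ 2 * (I.anc o).len < ‖restr (I.anc o).set (Y.Dg G (Y.bs I))‖ ^ 2)

/-- indicator of the cells with a flagged use -/
noncomputable def fl (cc : ℝ) (I : Cell) : ℝ := if ∃ G ∈ usesAt Y.uses I, Y.flag cc G I then 1 else 0

/-- aggregated size of the banded side -/
noncomputable def aA (I : Cell) : ℝ := Real.sqrt (∑ G ∈ usesAt Y.uses I, ∑ p, n2 I (Y.xa G I p) ^ 2)

/-- aggregated size of the untouched side -/
noncomputable def aB (I : Cell) : ℝ := Real.sqrt (∑ G ∈ usesAt Y.uses I, n2 I (Y.xb G I) ^ 2)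

/-- (i) flagged uses keep the current complements -/
noncomputable def t1 (cc : ℝ) (I : Cell) : ℝ :=
  ∑ G ∈ (usesAt Y.uses I).filter (fun G => Y.flag cc G I),
    ‖Y.bsum G I (Y.Cg G (s7Rel Y.R I)) (Y.Dg G (s7Rel Y.R I))‖

/-- (ii) the two freeze errors of the unflagged uses -/
noncomputable def t2 (cc : ℝ) (I : Cell) : ℝ :=
  ∑ G ∈ (usesAt Y.uses I).filter (fun G => ¬ Y.flag cc G I),
    (‖Y.bsum G I (fun p => Y.Cg G (s7Rel Y.R I) p - Y.Cg G (Y.bs I) p) (Y.Dg G (s7Rel Y.R I))‖ +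
      ‖Y.bsum G I (Y.Cg G (Y.bs I)) (Y.Dg G (s7Rel Y.R I) - Y.Dg G (Y.bs I))‖)

/-- (iii) unflagged uses, frozen complements, one pair of configurations: stacks `Xa G j i p`, `Xb G j i ()`, selected positions `sa G I`, `sb G I` -/
noncomputable def t3 (cc : ℝ) (Xa : ℕ → ℕ → ℕ → γ → XV) (sa : ℕ → Cell → ℕ) (Xb : ℕ → ℕ → ℕ → Unit → XV) (sb : ℕ → Cell → ℕ)
    (I : Cell) : ℝ :=
  ∑ G ∈ (usesAt Y.uses I).filter (fun G => ¬ Y.flag cc G I),
    ‖∑ p, formV I (Y.w I) (placeV Y.e (Xa G (s7Blk Y.K Y.R I) (sa G I) p) (Xb G (s7Blk Y.K Y.R I) (sb G I) ())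
      (Y.Cg G (Y.bs I) p) (Y.Dg G (Y.bs I)))‖

end NearData

/-- the bound of `NearBandGoal` (before `|R|`) -/
noncomputable def nbBound (C Cq q CN : ℝ) (K : ℕ) (Ea Eb cc M0 ε : ℝ) : ℝ :=
  (1 + CN) * Cq * (1 + Real.log ((K : ℝ) + 2)) ^ C * ((K : ℝ) + 2) ^ (C * (q - 2)) * cc ^ 2 *
    Real.sqrt (Ea * Eb) * ((1 + Real.log (2 + M0 / ε)) / ε)

/-- membership in `usesAt` -/
theorem nb2_mem_usesAt {uses : Finset (ℕ × Cell)} {I : Cell} {G : ℕ} : G ∈ usesAt uses I ↔ (G, I) ∈ uses := by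
  unfold usesAt
  simp only [Finset.mem_image, Finset.mem_filter]
  constructor
  · rintro ⟨⟨G', I'⟩, ⟨hu, rfl⟩, rfl⟩
    exact hu
  · intro h
    exact ⟨(G, I), ⟨h, rfl⟩, rfl⟩

/-- double sums over cells and groups used there = sums over the uses -/
theorem nb2_sum_usesAt {M : Type*} [AddCommMonoid M] (uses : Finset (ℕ × Cell)) (cells : Finset Cell)
    (hu : ∀ u ∈ uses, u.2 ∈ cells) (F : ℕ → Cell → M) :
    ∑ I ∈ cells, ∑ G ∈ usesAt uses I, F G I = ∑ u ∈ uses, F u.1 u.2 := by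
  rw [← Finset.sum_fiberwise_of_maps_to (s := uses) (t := cells) (g := Prod.snd) hu]
  refine Finset.sum_congr rfl fun I _ => ?_
  unfold usesAt
  rw [Finset.sum_image]
  · refine Finset.sum_congr rfl fun u hu' => ?_
    rw [(Finset.mem_filter.1 hu').2]
  · intro u hu' v hv' h
    have h1 := (Finset.mem_filter.1 hu').2
    have h2 := (Finset.mem_filter.1 hv').2
    exact Prod.ext h (h1.trans h2.symm)

end Claimed.Agent.R258
end

/- ===== packed: Claimed.Agent.R258.U3.Brk ===== -/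
section
/-
R258 / U3 / Brk : A LOCALLY LINEAR MAP ON A BOHR SET IS A BRACKET-LINEAR FORM.
   `LocLin S r Mp`  ⟹  on a smaller Bohr set  `Mp h / N ≡ ξ₀ h / N + ∑_{s ∈ S} α_s {s h / N}  (mod 1)`  with REAL coefficients `α_s`.
This replaces the geometry of numbers (Minkowski II, proper progressions in Bohr sets) by the Steinitz rearrangement lemma + linear algebra over `ℚ`.
Blueprint owner: helper52.  Leaves: K1 `brk_fr_add_int`, `brk_lift`, K2 `brk_relation`, K3 `brk_linear`, K4 `brk_explicit`, `brk_absorb`, K5 `u3_brk`.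
Statements verbatim; helper lemmas prefix `brk_`.   `d = #S`, `B(t) = zbohr S t`, `v h = (fr (s h))_{s ∈ S}`.

K1 (`brk_lift`).  `ε₂ = 1 / (10 * 2^d)`; `exists_regular_radius S (r := r) (ε := ε₂)`: `r₁ ∈ [r/2, r]`, `t = ε₂ r / (16 (d+1))`.  `exists_large_ft` at radius `r₁`: `ξ₀` with `#B(r₁) / 2^d ≤ ‖∑_{B(r₁)} e(Mp x - ξ₀ x)‖`.
     `avg_small` with `lam x = Mp x - ξ₀ x`, `c = 1 / 2^d`, `ε = ε₂`: `‖e(lam h) - 1‖ ≤ 1/10` for `h ∈ B(t)`, so `nrm (lam h) ≤ 1/40`.
     `μ h = fr (lam h)` is additive on pairs of `B(t)` (`fr_add`, `1/40 + 1/40 < 1/2`) and bounded by `1/40` there.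
K2 (`brk_relation`).  `g_1 .. g_m ∈ B(t / (d+1))`, `∑_i fr (s g_i) = 0` for all `s ∈ S`.  `u3_steinitz` (index type `{s // s ∈ S}`, `R = t/(d+1)`) gives a permutation with all prefix sums of the `v (g_i)` bounded by `d t / (d+1)`.
     By induction on `k`, for `G_k = ∑_{i < k} g_{σ i}`:  `fr (s G_k) = ∑_{i<k} fr (s g_{σ i})` (`fr_add`: `d t/(d+1) + t/(d+1) = t < 1/2`), hence `G_k ∈ B(d t/(d+1)) ⊆ B(t)`, and `μ G_k = ∑_{i<k} μ g_{σ i}` (additivity on pairs of `B(t)`).
     At `k = m`: `fr (s G_m) = 0` for all `s`, so `j G_m ∈ B(0) ⊆ B(t)` for all `j`, `μ (j G_m) = j μ (G_m)` is bounded, hence `μ G_m = 0`.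
K3 (`brk_linear`).  Work over `ℚ`: `vq h = ((s h).valMinAbs / N : ℚ)_{s}`.  Let `ι = B(t/(d+1))` (a finite type), `Tv : (ι →₀ ℚ) →ₗ[ℚ] ({s // s ∈ S} → ℚ)` and `Tμ : (ι →₀ ℚ) →ₗ[ℚ] ℝ` the linear combination maps of `vq` and `μ`.
     CLAIM `ker Tv ≤ ker Tμ`: clear denominators, `∑ n_i vq (h_i) = 0` with integers `n_i`; the list consisting of `|n_i|` copies of `sign(n_i) h_i` (note `-h ∈ B`, `fr (s (-h)) = - fr (s h)`, `μ (-h) = - μ h`) satisfies K2.
     So `Tμ` factors through the range of `Tv`, extend to `({s // s ∈ S} → ℚ) →ₗ[ℚ] ℝ` (`LinearMap.exists_extend`), `α s = ` value at the basis vector `Pi.single s 1`.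
K4.  `fr (Mp h) = fr (lam h + ξ₀ h) = fr (lam h) + fr (ξ₀ h) + integer`.
-/
set_option autoImplicit false

namespace Claimed.Agent.R258.U3

open Finset
open scoped ComplexConjugate Pointwise

variable {N : ℕ} [NeZero N]

private theorem brk_factor {K V W U : Type*} [Field K] [AddCommGroup V] [Module K V] [AddCommGroup W]
    [Module K W] [AddCommGroup U] [Module K U] (f : V →ₗ[K] W) (g : V →ₗ[K] U)
    (h : LinearMap.ker f ≤ LinearMap.ker g) : ∃ L : W →ₗ[K] U, ∀ x, L (f x) = g x := by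
  let L₀ : LinearMap.range f →ₗ[K] U :=
    ((LinearMap.ker f).liftQ g h).comp f.quotKerEquivRange.symm.toLinearMap
  obtain ⟨L, hL⟩ := LinearMap.exists_extend L₀
  refine ⟨L, fun x => ?_⟩
  have h1 := LinearMap.congr_fun hL ⟨f x, LinearMap.mem_range_self f x⟩
  simp only [LinearMap.coe_comp, Function.comp_apply, Submodule.coe_subtype] at h1
  rw [h1]
  simp only [L₀, LinearMap.coe_comp, Function.comp_apply, LinearEquiv.coe_coe,
    LinearMap.quotKerEquivRange_symm_apply_image]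
  simp

private theorem brk_sum_filter_succ {M : Type*} [AddCommMonoid M] {m : ℕ} (f : Fin m → M) (k : ℕ) :
    ∑ i ∈ univ.filter (fun i : Fin m => (i : ℕ) < k + 1), f i =
      ∑ i ∈ univ.filter (fun i : Fin m => (i : ℕ) < k), f i + (if h : k < m then f ⟨k, h⟩ else 0) := by
  by_cases hk : k < m
  · have e : univ.filter (fun i : Fin m => (i : ℕ) < k + 1) =
        insert (⟨k, hk⟩ : Fin m) (univ.filter fun i : Fin m => (i : ℕ) < k) := by
      ext i
      simp only [Finset.mem_filter, Finset.mem_univ, true_and, Finset.mem_insert, Fin.ext_iff]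
      omega
    rw [e, Finset.sum_insert (by simp), dif_pos hk, add_comm]
  · have e : univ.filter (fun i : Fin m => (i : ℕ) < k + 1) =
        univ.filter fun i : Fin m => (i : ℕ) < k := by
      ext i
      simp only [Finset.mem_filter, Finset.mem_univ, true_and]
      have := i.2
      omega
    rw [e, dif_neg hk, add_zero]

theorem brk_fr_add_int (a b : ZMod N) : ∃ m : ℤ, fr (a + b) = fr a + fr b + m := by
  obtain ⟨m, hm⟩ := fr_intCast (N := N) (a.valMinAbs + b.valMinAbs)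
  refine ⟨m, ?_⟩
  have e : ((a.valMinAbs + b.valMinAbs : ℤ) : ZMod N) = a + b := by simp
  rw [e] at hm
  rw [hm]
  unfold fr
  push_cast
  ring

/-- the radius `t` of `brk_lift`. -/
noncomputable def brkT (d : ℕ) (r : ℝ) : ℝ := 1 / (10 * 2 ^ d) * r / (16 * (d + 1))

/-- K1: after removing a global linear phase, a locally linear map is small on a smaller Bohr set. -/
theorem brk_lift (S : Finset (ZMod N)) {r : ℝ} (hr : 0 < r) (Mp : ZMod N → ZMod N) (hM : LocLin S r Mp) :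
    ∃ ξ₀ : ZMod N, ∀ h ∈ zbohr S (brkT S.card r), nrm (Mp h - ξ₀ * h) ≤ 1 / 40 := by
  set d := S.card with hd
  have h2d : (0 : ℝ) < 2 ^ d := by positivity
  have h2d1 : (1 : ℝ) ≤ 2 ^ d := one_le_pow₀ (by norm_num)
  set ε : ℝ := 1 / (10 * 2 ^ d) with hε
  have hε0 : 0 < ε := by positivity
  have hε1 : ε ≤ 1 := by
    rw [hε, div_le_one (by positivity)]
    linarith
  obtain ⟨r₁, h1, h2, h3⟩ := exists_regular_radius S hr hε0 hε1
  rw [← hd] at h1 h2 h3
  have htdef : ε * r / (16 * ((d : ℝ) + 1)) = brkT d r := rfl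
  rw [htdef] at h1 h2 h3
  set t := brkT d r with ht
  have ht0 : 0 < t := by
    rw [← htdef]
    positivity
  have hr₁0 : 0 ≤ r₁ := by linarith
  have hr₁r : r₁ ≤ r := by linarith
  have htr : t ≤ r := by linarith
  obtain ⟨ξ₀, hξ⟩ := exists_large_ft S hr₁0 Mp (hM.mono (Finset.Subset.refl _) hr₁r)
  rw [← hd] at hξ
  refine ⟨ξ₀, fun h hh => ?_⟩
  have hsmall := avg_small S (r := r₁) (r₃ := t) (c := 1 / 2 ^ d) (ε := ε) hr₁0
    (fun x => Mp x - ξ₀ * x)
    (fun x hx y hy => by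
      rw [hM x (zbohr_mono S hr₁r hx) y (zbohr_mono S htr hy)]
      ring)
    (by
      rw [one_div, inv_mul_eq_div]
      exact hξ)
    (by
      have hmono : ((zbohr S (r₁ - t)).card : ℝ) ≤ (zbohr S r₁).card := by
        exact_mod_cast Finset.card_le_card (zbohr_mono S (by linarith))
      have : ε * ((zbohr S (r₁ - t)).card : ℝ) ≤ ε * (zbohr S r₁).card :=
        mul_le_mul_of_nonneg_left hmono hε0.le
      linarith)
    h hh
  have h4 := four_nrm_le (Mp h - ξ₀ * h)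
  have h5 : ‖eN (Mp h - ξ₀ * h) - 1‖ ≤ 1 / 10 := by
    rw [hε, one_div_mul_eq_div, div_le_div_iff₀ h2d (by positivity)] at hsmall
    have : ‖eN (Mp h - ξ₀ * h) - 1‖ * 10 * 2 ^ d ≤ 1 * 2 ^ d := by linarith
    have := le_of_mul_le_mul_right this h2d
    linarith
  linarith

private theorem brk_mu_zero (S : Finset (ZMod N)) {t : ℝ} (ht : 0 < t) (μ : ZMod N → ℝ)
    (hadd : ∀ x ∈ zbohr S t, ∀ y ∈ zbohr S t, μ (x + y) = μ x + μ y) : μ 0 = 0 := by
  have := hadd 0 (zero_mem_zbohr S ht.le) 0 (zero_mem_zbohr S ht.le)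
  rw [add_zero] at this
  linarith

/-- K2: integer relations between the lifted coordinates are respected by a bounded locally additive real function. -/
theorem brk_relation (S : Finset (ZMod N)) {t : ℝ} (ht : 0 < t) (ht' : t ≤ 1 / 8) (μ : ZMod N → ℝ)
    (hadd : ∀ x ∈ zbohr S t, ∀ y ∈ zbohr S t, μ (x + y) = μ x + μ y) {Cb : ℝ} (hbd : ∀ x ∈ zbohr S t, |μ x| ≤ Cb)
    (m : ℕ) (g : Fin m → ZMod N) (hg : ∀ i, g i ∈ zbohr S (t / (S.card + 1))) (hrel : ∀ s ∈ S, ∑ i, fr (s * g i) = 0) :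
    ∑ i, μ (g i) = 0 := by
  classical
  set d := S.card with hd
  have hd0 : (0 : ℝ) ≤ d := Nat.cast_nonneg _
  have hd1 : (0 : ℝ) < (d : ℝ) + 1 := by positivity
  set R := t / ((d : ℝ) + 1) with hR
  have hR0 : 0 ≤ R := by positivity
  have hdR : (d : ℝ) * R + R = t := by
    rw [hR]
    field_simp
  have hμ0 : μ 0 = 0 := brk_mu_zero S ht μ hadd
  obtain ⟨σ, hσ⟩ := u3_steinitz (ι := {s // s ∈ S}) m (fun i s => fr (s.1 * g i)) hR0
    (fun i s => (mem_zbohr.1 (hg i)) s.1 s.2) (fun s => hrel s.1 s.2)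
  rw [Fintype.card_coe, ← hd] at hσ
  have hgR : ∀ i, ∀ s ∈ S, nrm (s * g i) ≤ R := fun i s hs => (mem_zbohr.1 (hg i)) s hs
  have hgt : ∀ i, g i ∈ zbohr S t := fun i => zbohr_mono S (by nlinarith) (hg i)
  have main : ∀ k : ℕ,
      (∀ s ∈ S, fr (s * ∑ i ∈ univ.filter (fun i : Fin m => (i : ℕ) < k), g (σ i)) =
        ∑ i ∈ univ.filter (fun i : Fin m => (i : ℕ) < k), fr (s * g (σ i))) ∧
      μ (∑ i ∈ univ.filter (fun i : Fin m => (i : ℕ) < k), g (σ i)) =
        ∑ i ∈ univ.filter (fun i : Fin m => (i : ℕ) < k), μ (g (σ i)) := by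
    intro k
    induction k with
    | zero => simp [fr_zero, hμ0]
    | succ k ih =>
      obtain ⟨ih1, ih2⟩ := ih
      rw [brk_sum_filter_succ (fun i => g (σ i)), brk_sum_filter_succ (fun i => μ (g (σ i)))]
      by_cases hk : k < m
      · simp only [dif_pos hk]
        have hGk : ∀ s ∈ S, nrm (s * ∑ i ∈ univ.filter (fun i : Fin m => (i : ℕ) < k), g (σ i)) ≤ d * R := by
          intro s hs
          unfold nrm
          rw [ih1 s hs]
          exact hσ k ⟨s, hs⟩
        constructor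
        · intro s hs
          rw [brk_sum_filter_succ (fun i => fr (s * g (σ i))), dif_pos hk, mul_add, fr_add, ih1 s hs]
          have := hGk s hs
          have := hgR (σ ⟨k, hk⟩) s hs
          linarith
        · rw [hadd _ (mem_zbohr.2 fun s hs => (hGk s hs).trans (by linarith)) _ (hgt _), ih2]
      · simp only [dif_neg hk, add_zero]
        refine ⟨fun s hs => ?_, ih2⟩
        rw [brk_sum_filter_succ (fun i => fr (s * g (σ i))), dif_neg hk, add_zero, ih1 s hs]
  obtain ⟨m1, m2⟩ := main m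
  have huniv : univ.filter (fun i : Fin m => (i : ℕ) < m) = univ := by
    ext i
    simp
  rw [huniv] at m1 m2
  rw [Equiv.sum_comp σ (fun i => μ (g i)), Equiv.sum_comp σ g] at m2
  have hs0 : ∀ s ∈ S, s * ∑ i, g i = 0 := by
    intro s hs
    have := m1 s hs
    rw [Equiv.sum_comp σ (fun i => fr (s * g i)), Equiv.sum_comp σ g, hrel s hs] at this
    rw [← nrm_eq_zero]
    unfold nrm
    rw [this, abs_zero]
  rw [← m2]
  set G := ∑ i, g i with hG
  have hj : ∀ j : ℕ, j • G ∈ zbohr S t ∧ μ (j • G) = j * μ G := by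
    intro j
    have hmem : ∀ j : ℕ, j • G ∈ zbohr S t := by
      intro j
      rw [mem_zbohr]
      intro s hs
      rw [mul_smul_comm, hs0 s hs, smul_zero, nrm_zero]
      exact ht.le
    refine ⟨hmem j, ?_⟩
    induction j with
    | zero => simp [hμ0]
    | succ j ih =>
      rw [succ_nsmul, hadd _ (hmem j) _ (by simpa using hmem 1), ih]
      push_cast
      ring
  by_contra hne
  have hpos : 0 < |μ G| := abs_pos.2 hne
  obtain ⟨j, hj'⟩ := exists_nat_gt (Cb / |μ G|)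
  rw [div_lt_iff₀ hpos] at hj'
  have := hbd _ (hj j).1
  rw [(hj j).2, abs_mul, Nat.abs_cast] at this
  linarith

private theorem brk_relation_fintype (S : Finset (ZMod N)) {t : ℝ} (ht : 0 < t) (ht' : t ≤ 1 / 8) (μ : ZMod N → ℝ)
    (hadd : ∀ x ∈ zbohr S t, ∀ y ∈ zbohr S t, μ (x + y) = μ x + μ y) {Cb : ℝ} (hbd : ∀ x ∈ zbohr S t, |μ x| ≤ Cb)
    {κ : Type*} [Fintype κ] (g : κ → ZMod N) (hg : ∀ i, g i ∈ zbohr S (t / (S.card + 1)))
    (hrel : ∀ s ∈ S, ∑ i, fr (s * g i) = 0) : ∑ i, μ (g i) = 0 := by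
  have e := Fintype.equivFin κ
  have h1 := brk_relation S ht ht' μ hadd hbd (Fintype.card κ) (g ∘ e.symm) (fun i => hg _)
    (fun s hs => by
      rw [← hrel s hs]
      exact Equiv.sum_comp e.symm (fun i => fr (s * g i)))
  rw [← h1]
  exact (Equiv.sum_comp e.symm (fun i => μ (g i))).symm

private theorem brk_int_relation (S : Finset (ZMod N)) {t : ℝ} (ht : 0 < t) (ht' : t ≤ 1 / 8) (μ : ZMod N → ℝ)
    (hadd : ∀ x ∈ zbohr S t, ∀ y ∈ zbohr S t, μ (x + y) = μ x + μ y) {Cb : ℝ} (hbd : ∀ x ∈ zbohr S t, |μ x| ≤ Cb)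
    {κ : Type*} [Fintype κ] (h : κ → ZMod N) (hh : ∀ i, h i ∈ zbohr S (t / (S.card + 1))) (n : κ → ℤ)
    (hrel : ∀ s ∈ S, ∑ i, (n i : ℝ) * fr (s * h i) = 0) : ∑ i, (n i : ℝ) * μ (h i) = 0 := by
  classical
  have hd0 : (0 : ℝ) ≤ S.card := Nat.cast_nonneg _
  have hRt : t / ((S.card : ℝ) + 1) ≤ t := div_le_self ht.le (by linarith)
  let g : (Σ i : κ, Fin (n i).natAbs) → ZMod N := fun p => if 0 ≤ n p.1 then h p.1 else - h p.1
  have key : ∀ F : ZMod N → ℝ, (∀ i, F (- h i) = - F (h i)) →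
      ∑ p : (Σ i : κ, Fin (n i).natAbs), F (g p) = ∑ i, (n i : ℝ) * F (h i) := by
    intro F hF
    rw [Fintype.sum_sigma]
    refine Finset.sum_congr rfl fun i _ => ?_
    simp only [g]
    rw [Finset.sum_const, Finset.card_univ, Fintype.card_fin, nsmul_eq_mul, Nat.cast_natAbs]
    by_cases hn : 0 ≤ n i
    · rw [if_pos hn, abs_of_nonneg hn]
    · rw [if_neg hn, abs_of_neg (not_le.1 hn), hF]
      push_cast
      ring
  have hμneg : ∀ i, μ (- h i) = - μ (h i) := by
    intro i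
    have hi : h i ∈ zbohr S t := zbohr_mono S hRt (hh i)
    have := hadd _ hi _ (neg_mem_zbohr hi)
    rw [add_neg_cancel, brk_mu_zero S ht μ hadd] at this
    linarith
  rw [← key μ hμneg]
  refine brk_relation_fintype S ht ht' μ hadd hbd g ?_ ?_
  · intro p
    simp only [g]
    split_ifs
    · exact hh _
    · exact neg_mem_zbohr (hh _)
  · intro s hs
    rw [key (fun x => fr (s * x)) ?_, hrel s hs]
    intro i
    have hi : nrm (s * h i) ≤ t := (mem_zbohr.1 (zbohr_mono S hRt (hh i))) s hs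
    have h2 := fr_add (a := s * h i) (b := -(s * h i)) (by rw [nrm_neg]; linarith)
    rw [add_neg_cancel, fr_zero] at h2
    rw [mul_neg]
    linarith

private theorem brk_rat_relation (S : Finset (ZMod N)) {t : ℝ} (ht : 0 < t) (ht' : t ≤ 1 / 8) (μ : ZMod N → ℝ)
    (hadd : ∀ x ∈ zbohr S t, ∀ y ∈ zbohr S t, μ (x + y) = μ x + μ y) {Cb : ℝ} (hbd : ∀ x ∈ zbohr S t, |μ x| ≤ Cb)
    {κ : Type*} [Fintype κ] (h : κ → ZMod N) (hh : ∀ i, h i ∈ zbohr S (t / (S.card + 1))) (x : κ → ℚ)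
    (hrel : ∀ s ∈ S, ∑ i, (x i : ℝ) * fr (s * h i) = 0) : ∑ i, (x i : ℝ) * μ (h i) = 0 := by
  classical
  set D : ℕ := ∏ i, (x i).den with hD
  have hD0 : (D : ℝ) ≠ 0 := by
    rw [hD]
    exact_mod_cast Finset.prod_ne_zero_iff.2 fun i _ => (x i).den_nz
  let n : κ → ℤ := fun i => (x i).num * ∏ j ∈ univ.erase i, ((x j).den : ℤ)
  have hn : ∀ i, (n i : ℝ) = D * (x i : ℝ) := by
    intro i
    have h1 : (D : ℚ) = (x i).den * ∏ j ∈ univ.erase i, ((x j).den : ℚ) := by
      rw [hD, ← Finset.mul_prod_erase univ _ (Finset.mem_univ i)]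
      push_cast
      rfl
    have h2 : ((n i : ℤ) : ℚ) = D * x i := by
      rw [h1]
      simp only [n]
      push_cast
      have := Rat.mul_den_eq_num (x i)
      rw [← this]
      ring
    have h3 : (((n i : ℤ) : ℚ) : ℝ) = ((D * x i : ℚ) : ℝ) := by rw [h2]
    push_cast at h3
    exact h3
  have h1 := brk_int_relation S ht ht' μ hadd hbd h hh n (fun s hs => by
    simp only [hn, mul_assoc]
    rw [← Finset.mul_sum, hrel s hs, mul_zero])
  simp only [hn, mul_assoc] at h1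
  rw [← Finset.mul_sum] at h1
  exact (mul_eq_zero.1 h1).resolve_left hD0

private theorem brk_linear_aux {ι σ : Type*} [Fintype ι] [Fintype σ] [DecidableEq ι] [DecidableEq σ]
    (vq : ι → σ → ℚ) (μ : ι → ℝ)
    (hrel : ∀ x : ι → ℚ, (∀ s, ∑ i, x i * vq i s = 0) → ∑ i, (x i : ℝ) * μ i = 0) :
    ∃ α : σ → ℝ, ∀ i, μ i = ∑ s, α s * (vq i s : ℝ) := by
  let Tv := Fintype.linearCombination ℚ vq
  let Tμ := Fintype.linearCombination ℚ μ
  have hker : LinearMap.ker Tv ≤ LinearMap.ker Tμ := by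
    intro x hx
    rw [LinearMap.mem_ker] at hx ⊢
    simp only [Tμ, Fintype.linearCombination_apply, Rat.smul_def]
    refine hrel x fun s => ?_
    have h1 := congrFun hx s
    simpa only [Tv, Fintype.linearCombination_apply, Finset.sum_apply, Pi.smul_apply, smul_eq_mul,
      Pi.zero_apply] using h1
  obtain ⟨L, hL⟩ := brk_factor Tv Tμ hker
  refine ⟨fun s => L (fun j => if s = j then 1 else 0), ?_⟩
  intro i
  have h1 := hL (Pi.single i 1)
  have e1 : Tμ (Pi.single i 1) = μ i := by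
    simp only [Tμ, Fintype.linearCombination_apply]
    rw [Finset.sum_eq_single i]
    · simp
    · intro b _ hb
      simp [hb]
    · intro hb
      exact absurd (Finset.mem_univ _) hb
  have e2 : Tv (Pi.single i 1) = vq i := by
    simp only [Tv, Fintype.linearCombination_apply]
    rw [Finset.sum_eq_single i]
    · simp
    · intro b _ hb
      simp [hb]
    · intro hb
      exact absurd (Finset.mem_univ _) hb
  rw [e1, e2, LinearMap.pi_apply_eq_sum_univ] at h1
  rw [← h1]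
  refine Finset.sum_congr rfl fun s _ => ?_
  rw [Rat.smul_def, mul_comm]

/-- K3: a bounded locally additive real function on a Bohr set is a linear form in the lifted coordinates. -/
theorem brk_linear (S : Finset (ZMod N)) {t : ℝ} (ht : 0 < t) (ht' : t ≤ 1 / 8) (μ : ZMod N → ℝ)
    (hadd : ∀ x ∈ zbohr S t, ∀ y ∈ zbohr S t, μ (x + y) = μ x + μ y) {Cb : ℝ} (hbd : ∀ x ∈ zbohr S t, |μ x| ≤ Cb) :
    ∃ α : ZMod N → ℝ, ∀ h ∈ zbohr S (t / (S.card + 1)), μ h = ∑ s ∈ S, α s * fr (s * h) := by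
  let vq : {h // h ∈ zbohr S (t / (S.card + 1))} → ({s // s ∈ S} → ℚ) :=
    fun h s => ((s.1 * h.1).valMinAbs : ℚ) / N
  have hvq : ∀ h s, ((vq h s : ℚ) : ℝ) = fr (s.1 * h.1) := by
    intro h s
    simp only [vq, fr]
    push_cast
    rfl
  obtain ⟨α, hα⟩ := brk_linear_aux vq (fun h => μ h.1) (by
    intro x hx
    refine brk_rat_relation S ht ht' μ hadd hbd (fun h => h.1) (fun h => h.2) x ?_
    intro s hs
    have h2 : ((∑ i, x i * vq i ⟨s, hs⟩ : ℚ) : ℝ) = 0 := by rw [hx ⟨s, hs⟩]; simp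
    push_cast at h2
    simp only [hvq] at h2
    exact h2)
  refine ⟨fun s => if hs : s ∈ S then α ⟨s, hs⟩ else 0, ?_⟩
  intro h hh
  have h1 := hα ⟨h, hh⟩
  simp only [hvq] at h1
  rw [h1, ← Finset.sum_coe_sort S]
  refine Finset.sum_congr rfl fun s _ => ?_
  simp

private theorem brk_T_pos (d : ℕ) {r : ℝ} (hr : 0 < r) : 0 < brkT d r := by
  unfold brkT
  positivity

private theorem brk_T_le (d : ℕ) {r : ℝ} (hr : 0 < r) : brkT d r ≤ r / 160 := by
  unfold brkT
  have h2d1 : (1 : ℝ) ≤ 2 ^ d := one_le_pow₀ (by norm_num)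
  have hd0 : (0 : ℝ) ≤ d := Nat.cast_nonneg _
  rw [one_div_mul_eq_div, div_div, div_le_div_iff₀ (by positivity) (by norm_num)]
  have : (1 : ℝ) ≤ 2 ^ d * ((d : ℝ) + 1) := by nlinarith
  nlinarith

/-- K4: **bracket form of a locally linear map, explicit radius.** -/
theorem brk_explicit (S : Finset (ZMod N)) {r : ℝ} (hr : 0 < r) (hr1 : r ≤ 1) (Mp : ZMod N → ZMod N) (hM : LocLin S r Mp) :
    ∃ (ξ₀ : ZMod N) (α : ZMod N → ℝ), ∀ h ∈ zbohr S (brkT S.card r / (S.card + 1)),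
      ∃ m : ℤ, fr (Mp h) = fr (ξ₀ * h) + ∑ s ∈ S, α s * fr (s * h) + m := by
  obtain ⟨ξ₀, hξ⟩ := brk_lift S hr Mp hM
  have ht0 := brk_T_pos S.card hr
  have htle := brk_T_le S.card hr
  set t := brkT S.card r with ht
  obtain ⟨α, hα⟩ := brk_linear S ht0 (by linarith) (fun h => fr (Mp h - ξ₀ * h))
    (fun x hx y hy => by
      have e : Mp (x + y) - ξ₀ * (x + y) = (Mp x - ξ₀ * x) + (Mp y - ξ₀ * y) := by
        rw [hM x (zbohr_mono S (by linarith) hx) y (zbohr_mono S (by linarith) hy)]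
        ring
      rw [e]
      refine fr_add ?_
      have := hξ x hx
      have := hξ y hy
      linarith)
    (Cb := 1 / 40) (fun x hx => hξ x hx)
  refine ⟨ξ₀, α, fun h hh => ?_⟩
  obtain ⟨m, hm⟩ := brk_fr_add_int (Mp h - ξ₀ * h) (ξ₀ * h)
  refine ⟨m, ?_⟩
  rw [sub_add_cancel] at hm
  rw [hm, hα h hh]
  ring

/-- K4': if `1 ∈ S` the global linear phase is absorbed in the coefficient of the frequency `1`:
`fr (ξ₀ * h) = ξ₀.val * fr (1 * h) + integer` (both sides are congruent to `ξ₀.val * h.valMinAbs / N` mod 1: `fr_intCast`). -/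
theorem brk_absorb (S : Finset (ZMod N)) (h1 : (1 : ZMod N) ∈ S) (ξ₀ : ZMod N) (α : ZMod N → ℝ) :
    ∃ α' : ZMod N → ℝ, ∀ h : ZMod N, ∃ m : ℤ,
      fr (ξ₀ * h) + ∑ s ∈ S, α s * fr (s * h) = ∑ s ∈ S, α' s * fr (s * h) + m := by
  refine ⟨fun s => α s + if s = 1 then (ξ₀.val : ℝ) else 0, fun h => ?_⟩
  obtain ⟨m, hm⟩ := fr_intCast (N := N) ((ξ₀.val : ℤ) * h.valMinAbs)
  have e : (((ξ₀.val : ℤ) * h.valMinAbs : ℤ) : ZMod N) = ξ₀ * h := by simp
  rw [e] at hm
  refine ⟨m, ?_⟩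
  have e2 : ∑ s ∈ S, (α s + if s = 1 then (ξ₀.val : ℝ) else 0) * fr (s * h) =
      ∑ s ∈ S, α s * fr (s * h) + (ξ₀.val : ℝ) * fr h := by
    simp only [add_mul, Finset.sum_add_distrib, ite_mul, zero_mul]
    rw [Finset.sum_ite_eq' S 1, if_pos h1, one_mul]
  rw [e2, hm]
  unfold fr
  push_cast
  ring

/-- K5: quasipolynomial form (with `1 ∈ S`, no separate linear phase). -/
theorem u3_brk : ∀ C₁ : ℕ, ∃ C₂ : ℕ, ∀ (X : ℝ), 1 ≤ X → ∀ (N : ℕ) [NeZero N] (S : Finset (ZMod N)) (r : ℝ) (Mp : ZMod N → ZMod N),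
    (1 : ZMod N) ∈ S → (S.card : ℝ) ≤ pl C₁ X → qs C₁ X ≤ r → r ≤ 1 → LocLin S r Mp →
    ∃ (r' : ℝ) (α : ZMod N → ℝ), qs C₂ X ≤ r' ∧ r' ≤ r ∧ ∀ h ∈ zbohr S r',
      ∃ m : ℤ, fr (Mp h) = ∑ s ∈ S, α s * fr (s * h) + m := by
  intro C₁
  refine ⟨C₁ + (3 * C₁ + 8), ?_⟩
  intro X hX N _ S r Mp h1 hS hr hr1 hM
  have hr0 : 0 < r := lt_of_lt_of_le (qs_pos _ _) hr
  obtain ⟨ξ₀, α, hα⟩ := brk_explicit S hr0 hr1 Mp hM
  obtain ⟨α', hα'⟩ := brk_absorb S h1 ξ₀ α
  set d := S.card with hd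
  have hd0 : (0 : ℝ) ≤ d := Nat.cast_nonneg _
  have ht0 := brk_T_pos d hr0
  have htle := brk_T_le d hr0
  refine ⟨brkT d r / (d + 1), α', ?_, ?_, ?_⟩
  · -- the numerics
    have e : brkT d r / ((d : ℝ) + 1) = r * (1 / (160 * 2 ^ d * ((d : ℝ) + 1) ^ 2)) := by
      unfold brkT
      field_simp
      ring
    rw [e]
    refine (qs_mul_ge C₁ (3 * C₁ + 8) hX).trans ?_
    refine mul_le_mul hr ?_ (qs_pos _ _).le hr0.le
    have hexp : 160 * 2 ^ d * ((d : ℝ) + 1) ^ 2 ≤ Real.exp (8 + 3 * d) := by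
      have h2 : (2 : ℝ) ≤ Real.exp 1 := by
        have := Real.add_one_le_exp (1 : ℝ)
        linarith
      have h8 : (160 : ℝ) ≤ Real.exp 8 := by
        have : Real.exp 8 = Real.exp 1 ^ 8 := by
          rw [← Real.exp_nat_mul]
          norm_num
        rw [this]
        calc (160 : ℝ) ≤ 2 ^ 8 := by norm_num
          _ ≤ Real.exp 1 ^ 8 := pow_le_pow_left₀ (by norm_num) h2 8
      have hd2 : (2 : ℝ) ^ d ≤ Real.exp d := by
        have : Real.exp d = Real.exp 1 ^ d := by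
          rw [← Real.exp_nat_mul]
          simp
        rw [this]
        exact pow_le_pow_left₀ (by norm_num) h2 d
      have hd3 : ((d : ℝ) + 1) ^ 2 ≤ Real.exp (2 * d) := by
        have : Real.exp (2 * d) = Real.exp d ^ 2 := by
          rw [← Real.exp_nat_mul]
          norm_num
        rw [this]
        exact pow_le_pow_left₀ (by positivity) (Real.add_one_le_exp _) 2
      have : Real.exp (8 + 3 * d) = Real.exp 8 * Real.exp d * Real.exp (2 * d) := by
        rw [← Real.exp_add, ← Real.exp_add]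
        congr 1
        ring
      rw [this]
      exact mul_le_mul (mul_le_mul h8 hd2 (by positivity) (Real.exp_pos _).le) hd3 (by positivity)
        (by positivity)
    have hpl : 8 + 3 * (d : ℝ) ≤ pl (3 * C₁ + 8) X := by
      have h3 : 3 * pl C₁ X ≤ (3 * C₁ : ℕ) * X ^ (3 * C₁ + 8) := by
        unfold pl
        push_cast
        have : X ^ C₁ ≤ X ^ (3 * C₁ + 8) := pow_le_pow_right₀ hX (by omega)
        have hC : (0 : ℝ) ≤ C₁ := Nat.cast_nonneg _
        nlinarith
      have h4 : (8 : ℝ) ≤ 8 * X ^ (3 * C₁ + 8) := by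
        have : (1 : ℝ) ≤ X ^ (3 * C₁ + 8) := one_le_pow₀ hX
        linarith
      unfold pl
      push_cast at h3 ⊢
      nlinarith
    unfold qs
    rw [Real.exp_neg, ← one_div]
    refine one_div_le_one_div_of_le (by positivity) ?_
    exact hexp.trans (Real.exp_le_exp.2 hpl)
  · have : brkT d r / ((d : ℝ) + 1) ≤ brkT d r := div_le_self ht0.le (by linarith)
    linarith
  · intro h hh
    obtain ⟨m, hm⟩ := hα h hh
    obtain ⟨m', hm'⟩ := hα' h
    refine ⟨m' + m, ?_⟩
    rw [hm, hm']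
    push_cast
    ring

end Claimed.Agent.R258.U3
end
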