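/- Packed by merge_tool.py (helper293): 4 modules of Claimed.Agent.R258 in one file, same declarations.
   Old modules, in this order: S5.Repl, S5.High, S5.Level, S5.Pairs -/
import Claimed.Agent.R258.S5.Replace
import Claimed.Agent.R258.S5.TDefs
import Claimed.Agent.R258.Pack017
import Claimed.Agent.R258.Pack022

/- ===== packed: Claimed.Agent.R258.S5.Repl ===== -/
section
/-
Row 258, Sec. 5.4, architect helper182.   THE REPLACEMENT ERROR OF ONE TUPLE SEGMENT (`TSeg.Repl`) FROM THE PREDICTOR PROPERTIES (`PredProp`, S5/Replace.lean).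
   `H_I(X) - H_I(Y) = H_I(X_i, X_j, X_a - Y_a, X_b) + H_I(X_i, X_j, Y_a, X_b - Y_b)`,
`X_e - Y_e = F_e - P^{new}_{e,s+K0} F_e`;   `X_b = F_b - P^{prev}_b F_b` is admissible with `L = 0`, `Y_a = P^{new}_{a,s+K0} F_a - P^{prev}_a F_a` with `L = K0`.
-/
set_option autoImplicit false
open MeasureTheory

namespace Claimed.Agent.R258

/-- the slots of a tuple segment: `i, j` low, `a, b` high -/
structure TSeg.Slots (X : TSeg) (i j a b : Fin 4) : Prop where
  slots : slot4 i j a b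
  hi_i : X.hi i = false
  hi_j : X.hi j = false
  hi_a : X.hi a = true
  hi_b : X.hi b = true

theorem s5b_slot_cases {i j a b : Fin 4} (h : slot4 i j a b) (l : Fin 4) : l = i ∨ l = j ∨ l = a ∨ l = b := by
  unfold slot4 at h
  revert i j a b l
  decide

theorem s5b_slot_swap {i j a b : Fin 4} (h : slot4 i j a b) : slot4 i j b a := by
  obtain ⟨h1, h2, h3, h4, h5, h6⟩ := h
  exact ⟨h1, h3, h2, h5, h4, h6.symm⟩

/-- a function on the four slots is `put4` of its values -/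
theorem s5b_put4_eq {α : Type*} {i j a b : Fin 4} (h : slot4 i j a b) (z : Fin 4 → α) :
    z = put4 i j a (z i) (z j) (z a) (z b) := by
  obtain ⟨h1, h2, h3, h4, h5, h6⟩ := h
  funext l
  unfold put4
  rcases s5b_slot_cases ⟨h1, h2, h3, h4, h5, h6⟩ l with rfl | rfl | rfl | rfl
  · simp
  · simp [h1.symm]
  · simp [h2.symm, h4.symm]
  · simp [h3.symm, h5.symm, h6.symm]

theorem s5b_put4_swap {α : Type*} {i j a b : Fin 4} (h : slot4 i j a b) (xi xj xa xb : α) :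
    put4 i j a xi xj xa xb = put4 i j b xi xj xb xa := by
  obtain ⟨h1, h2, h3, h4, h5, h6⟩ := h
  funext l
  unfold put4
  rcases s5b_slot_cases ⟨h1, h2, h3, h4, h5, h6⟩ l with rfl | rfl | rfl | rfl
  · simp
  · simp [h1.symm]
  · simp [h2.symm, h4.symm, h6]
  · simp [h3.symm, h5.symm, h6.symm]

/-- the telescoping identity in the two high slots -/
theorem s5b_telescope {V : Type*} [AddCommGroup V] [Module ℂ V] (M : MultilinearMap ℂ (fun _ : Fin 4 => V) ℂ)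
    {i j a b : Fin 4} (h : slot4 i j a b) (xi xj xa xb ya yb : V) :
    M (put4 i j a xi xj xa xb) - M (put4 i j a xi xj ya yb)
      = M (put4 i j a xi xj (xa - ya) xb) + M (put4 i j b xi xj (xb - yb) ya) := by
  have hsw := s5b_slot_swap h
  obtain ⟨h1, h2, h3, h4, h5, h6⟩ := h
  have e1 : ∀ x y : V, put4 i j a xi xj x y = Function.update (put4 i j a xi xj xa y) a x := by
    intro x y
    funext l
    unfold put4
    by_cases hl : l = a
    · subst hl; simp [h2.symm, h4.symm]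
    · simp [hl]
  have e2 : ∀ x y : V, put4 i j b xi xj x y = Function.update (put4 i j b xi xj xb y) b x := by
    intro x y
    funext l
    unfold put4
    by_cases hl : l = b
    · subst hl; simp [h3.symm, h5.symm]
    · simp [hl]
  have s1 : M (put4 i j a xi xj (xa - ya) xb) = M (put4 i j a xi xj xa xb) - M (put4 i j a xi xj ya xb) := by
    rw [e1 (xa - ya) xb, M.map_update_sub, ← e1, ← e1]
  have s2 : M (put4 i j b xi xj (xb - yb) ya) = M (put4 i j b xi xj xb ya) - M (put4 i j b xi xj yb ya) := by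
    rw [e2 (xb - yb) ya, M.map_update_sub, ← e2, ← e2]
  rw [s1, s2, ← s5b_put4_swap ⟨h1, h2, h3, h4, h5, h6⟩, ← s5b_put4_swap ⟨h1, h2, h3, h4, h5, h6⟩]
  ring

theorem s5b_repl (c0 C0 q : ℝ) (hc0 : 0 < c0) (hq : 2 < q) (X : TSeg) (i j a b : Fin 4)
    (D₁ Dold Dl C B Dpa Dpb ε : ℝ) (R₀ : Cell) (hv : X.Valid c0 C0 q D₁) (hs : X.Slots i j a b) (hR : X.root ≤ R₀)
    (hDold : 0 < Dold) (hlow : ∀ c, Bud X.root (X.cat i c) X.chart Dold ∧ Bud X.root (X.cat j c) X.chart Dold)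
    (prea preb : Cell → Finset Col)
    (hpa : PredProp c0 C0 i j a R₀ (X.mm i) (X.mm j) prea Dl C B Dpa ε) (hsa : ∀ I, prea I ⊆ X.cat a 0 I)
    (hpb : PredProp c0 C0 i j b R₀ (X.mm i) (X.mm j) preb Dl C B Dpb ε) (hsb : ∀ I, preb I ⊆ X.cat b 0 I)
    (hEa : 0 ≤ replErr C B Dpa ε D₁ 0 X.K0) (hEb : 0 ≤ replErr C B Dpb ε D₁ X.K0 X.K0) :
    X.Repl (Dold ^ 2 * Dl ^ 2 * (replErr C B Dpa ε D₁ 0 X.K0 + replErr C B Dpb ε D₁ X.K0 X.K0)) := by
  classical
  -- coefficient arrays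
  have hci : ∀ l : Fin 4, (∀ c, Bud X.root (X.cat l c) X.chart Dold) → ∃ cc : Cell → Col → ℂ,
      (∀ I ∈ X.T, X.Bv l I = ∑ Φ ∈ X.mm l I, cc I Φ • Φ.vec I) ∧ ∀ I Φ, ‖cc I Φ‖ ≤ Dold := by
    intro l hb
    have hex : ∀ I : Cell, ∃ a : Col → ℂ, (I ∈ X.T → X.Bv l I = ∑ Φ ∈ X.mm l I, a Φ • Φ.vec I) ∧ ∀ Φ, ‖a Φ‖ ≤ Dold := by
      intro I
      by_cases hI : I ∈ X.T
      · obtain ⟨a, h1, h2⟩ := s5t_coef hq hv l hDold hb hI
        exact ⟨a, fun _ => h1, h2⟩
      · exact ⟨fun _ => 0, fun h => absurd h hI, fun _ => by simpa using hDold.le⟩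
    choose cc h1 h2 using hex
    exact ⟨cc, fun I hI => h1 I hI, h2⟩
  obtain ⟨ci, hci1, hci2⟩ := hci i fun c => (hlow c).1
  obtain ⟨cj, hcj1, hcj2⟩ := hci j fun c => (hlow c).2
  have hA : ∀ I ∈ X.S, I ≤ X.root ∧ Admissible c0 C0 I (X.w I) := fun I hI =>
    ⟨hv.tree.le_root I (hv.S_sub hI), hv.adm I hI⟩
  -- the two estimates
  have ea := hpa X.root (X.f a) (X.f b) X.K0 D₁ 0 Dold (X.cat a 0) X.chart hR (hv.f_cs a) (hv.f_cs b) le_rfl hDold.le
    (hv.inh a 0) (hv.bud a 0) hsa (fun I => restr I.set (ofScalar (X.f b)) - cproj (X.cat b 1 I) I (ofScalar (X.f b)))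
    (fun J hJ => s5r_adm_resid J _ (X.cat b 1) X.chart D₁ (s5r_inh_sub _ _ hJ _ (hv.inh b 1))
      (s5r_bud_sub _ _ hJ _ _ _ (hv.bud b 1))) X.S X.w hA ci cj hci2 hcj2
  have eb := hpb X.root (X.f b) (X.f a) X.K0 D₁ X.K0 Dold (X.cat b 0) X.chart hR (hv.f_cs b) (hv.f_cs a)
    (Nat.cast_nonneg _) hDold.le
    (hv.inh b 0) (hv.bud b 0) hsb
    (fun I => dproj (X.cat a 0) I X.K0 (ofScalar (X.f a)) - cproj (X.cat a 1 I) I (ofScalar (X.f a)))
    (fun J hJ => s5r_adm_delayed J _ (X.cat a 1) (X.cat a 0) X.chart X.chart D₁ X.K0 (s5r_inh_sub _ _ hJ _ (hv.inh a 1))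
      (s5r_bud_sub _ _ hJ _ _ _ (hv.bud a 1)) (s5r_inh_sub _ _ hJ _ (hv.inh a 0))
      (s5r_bud_sub _ _ hJ _ _ _ (hv.bud a 0))) X.S X.w hA ci cj hci2 hcj2
  have hroot := hv.tree.root_mem
  have hnab : ‖restr X.root.set (ofScalar (X.f a))‖ * ‖restr X.root.set (ofScalar (X.f b))‖ ≤ X.root.len :=
    s5t_norm_F_mul hq hv a b hroot
  have hnba : ‖restr X.root.set (ofScalar (X.f b))‖ * ‖restr X.root.set (ofScalar (X.f a))‖ ≤ X.root.len :=
    s5t_norm_F_mul hq hv b a hroot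
  -- pointwise identity
  have hpt : ∀ I ∈ X.S, ‖formV I (X.w I) (fun l => X.Xv l I) - formV I (X.w I) (fun l => X.Yv l I)‖
      ≤ ‖formV I (X.w I) (put4 i j a (∑ Φ ∈ X.mm i I, ci I Φ • Φ.vec I) (∑ Φ ∈ X.mm j I, cj I Φ • Φ.vec I)
          (restr I.set (ofScalar (X.f a)) - dproj (X.cat a 0) I X.K0 (ofScalar (X.f a)))
          (restr I.set (ofScalar (X.f b)) - cproj (X.cat b 1 I) I (ofScalar (X.f b))))‖
        + ‖formV I (X.w I) (put4 i j b (∑ Φ ∈ X.mm i I, ci I Φ • Φ.vec I) (∑ Φ ∈ X.mm j I, cj I Φ • Φ.vec I)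
          (restr I.set (ofScalar (X.f b)) - dproj (X.cat b 0) I X.K0 (ofScalar (X.f b)))
          (dproj (X.cat a 0) I X.K0 (ofScalar (X.f a)) - cproj (X.cat a 1 I) I (ofScalar (X.f a))))‖ := by
    intro I hI
    obtain ⟨M, hM⟩ := s5f_multilinear c0 C0 hc0 I (X.w I) (hv.adm I hI)
    have hIT := hv.S_sub hI
    have hX : (fun l => X.Xv l I) = put4 i j a (X.Bv i I) (X.Bv j I) (X.Xv a I) (X.Xv b I) := by
      rw [s5b_put4_eq hs.slots (fun l => X.Xv l I)]
      simp only [s5t_Xv_lo X hs.hi_i, s5t_Xv_lo X hs.hi_j]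
    have hY : (fun l => X.Yv l I) = put4 i j a (X.Bv i I) (X.Bv j I) (X.Yv a I) (X.Yv b I) := by
      rw [s5b_put4_eq hs.slots (fun l => X.Yv l I)]
      simp only [s5t_Yv_lo X hs.hi_i, s5t_Yv_lo X hs.hi_j]
    rw [← hM, ← hM, ← hM, ← hM, hX, hY, s5b_telescope M hs.slots, s5t_X_sub_Y X hs.hi_a, s5t_X_sub_Y X hs.hi_b,
      s5t_Xv_hi X hs.hi_b, s5t_Yv_hi X hs.hi_a, hci1 I hIT, hcj1 I hIT]
    exact norm_add_le _ _
  unfold TSeg.Repl
  have hD2 : 0 ≤ Dold ^ 2 * Dl ^ 2 := by positivity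
  calc ∑ I ∈ X.S, I.len * ‖formV I (X.w I) (fun l => X.Xv l I) - formV I (X.w I) (fun l => X.Yv l I)‖
      ≤ ∑ I ∈ X.S, (I.len * _ + I.len * _) := Finset.sum_le_sum fun I hI => by
        rw [← mul_add]; exact mul_le_mul_of_nonneg_left (hpt I hI) (cell_len_nonneg I)
    _ = _ + _ := Finset.sum_add_distrib
    _ ≤ Dold ^ 2 * Dl ^ 2 * replErr C B Dpa ε D₁ 0 X.K0 * X.root.len
        + Dold ^ 2 * Dl ^ 2 * replErr C B Dpb ε D₁ X.K0 X.K0 * X.root.len := by
        refine add_le_add (ea.trans ?_) (eb.trans ?_)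
        · exact mul_le_mul_of_nonneg_left hnab (mul_nonneg hD2 hEa)
        · exact mul_le_mul_of_nonneg_left hnba (mul_nonneg hD2 hEb)
    _ = _ := by ring

end Claimed.Agent.R258
end

/- ===== packed: Claimed.Agent.R258.S5.High ===== -/
section
/-
Row 258, Sec. 5.4 (Prop. 5.6 `prop:high-truncation`), architect helper182.   THE TWO DELAYED HIGH FITS ON A COMMON OLDER SEGMENT.

INPUT: a common older segment `X₀ : TSeg` of a tuple (`X₀.Old`: low slots `i, j` with fully available catalogs, high slots `a, b` whose catalogs `cat a 0`, `cat b 0` are still empty; fresh labels `ι`),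
parameters `B, ε, K0` (predictors), `δa, ρa, Ha`, `δb, ρb, Hb` (detection at the two new precisions).
OUTPUT (continuation form): if every FINAL segment `X` (`X.Refines X₀`: same old catalogs, new high catalogs `cat a 0 = pre_a ∪ ext_a`, `cat b 0 = pre_b ∪ ext_b`; valid with budget `D₁`; replacement error `E₁`;
first new catalog of budget `Da`; delayed residuals `δa`-, `δb`-small on its cells) satisfies the estimate `≤ Bd |root|`, then the older segment satisfies it with `4 Bd`.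

PROOF: `s5p_replace` twice (slots `(i,j,a,b)`, `(i,j,b,a)`), `s5g_greedy` twice on the tree of `X₀`, common refinement (`s5s_union`), `s5b_repl`, `s5s_sum_le`.
-/
set_option autoImplicit false
open MeasureTheory

namespace Claimed.Agent.R258

/-- hypotheses on the common older segment -/
structure TSeg.Old (X : TSeg) (i j a b : Fin 4) (ι : ℕ → ℕ) : Prop extends X.Slots i j a b where
  empty_a : ∀ I, X.cat a 0 I = ∅
  empty_b : ∀ I, X.cat b 0 I = ∅
  av_i : ∀ c, FullAv X.root (X.cat i c)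
  av_j : ∀ c, FullAv X.root (X.cat j c)
  fresh : ∀ l c I, ∀ Φ ∈ X.cat l c I, Φ.lab ∉ Set.range ι
  inj : Function.Injective ι

/-- `X` is a final segment of the older segment `X₀` -/
structure TSeg.Refines (X X₀ : TSeg) (a b : Fin 4) : Prop where
  root_le : X.root ≤ X₀.root
  T_sub : X.T ⊆ X₀.T
  S_sub : X.S ⊆ X₀.S
  w_eq : X.w = X₀.w
  f_eq : X.f = X₀.f
  hi_eq : X.hi = X₀.hi
  cat_eq : ∀ l c, ¬ (c = 0 ∧ (l = a ∨ l = b)) → X.cat l c = X₀.cat l c

/-- new root, tree and high catalogs -/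
def TSeg.refine (X₀ : TSeg) (R : Cell) (T' S' : Finset Cell) (ch' : ℕ → Chart) (a b : Fin 4)
    (ma mb : Cell → Finset Col) (K0 : ℕ) : TSeg :=
  { X₀ with
    root := R, T := T', S := S', chart := ch', K0 := K0,
    cat := fun l c => if c = 0 ∧ l = a then ma else if c = 0 ∧ l = b then mb else X₀.cat l c }

/-- the budget of a predictor family -/
noncomputable def preBud (C Dold B ε : ℝ) : ℝ :=
  (2 * Dold) ^ 2 * qpoly C (B + Real.log (2 * Dold)) + 1 / Real.sqrt ε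

/-- the replacement error of Prop. 5.6 -/
noncomputable def highErr (C Dold B ε D₁ : ℝ) (K0 : ℕ) : ℝ :=
  Dold ^ 2 * (2 * Dold) ^ 2 * (2 * replErr C B (qpoly C (B + Real.log (2 * Dold))) ε D₁ K0 K0)

theorem s5b_Xv_eq {X X₀ : TSeg} {i j a b : Fin 4} (h : X.Refines X₀ a b) (hs : X₀.Slots i j a b) (l : Fin 4) (I : Cell) :
    X.Xv l I = X₀.Xv l I := by
  have hF : X.F l = X₀.F l := by unfold TSeg.F; rw [h.f_eq]
  have h1 : X.cur l 1 I = X₀.cur l 1 I := by
    unfold TSeg.cur; rw [hF, h.cat_eq l 1 (by simp)]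
  obtain ⟨h12, h13, h14, h23, h24, h34⟩ := hs.slots
  unfold TSeg.Xv TSeg.Bv
  rw [h.hi_eq, hF, h1]
  by_cases hl : X₀.hi l = true
  · simp [hl]
  · have hla : l ≠ a := fun e => hl (e ▸ hs.hi_a)
    have hlb : l ≠ b := fun e => hl (e ▸ hs.hi_b)
    have h0 : X.cur l 0 I = X₀.cur l 0 I := by
      unfold TSeg.cur; rw [hF, h.cat_eq l 0 (by simp [hla, hlb])]
    simp [hl, h0]

/-- gluing chart functions along disjoint label sets -/
theorem s5b_glue {κ : Type*} (Ls : κ → Set ℕ) (chs : κ → ℕ → Chart) (hd : ∀ r r', r ≠ r' → Disjoint (Ls r) (Ls r'))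
    (dflt : Chart) : ∃ ch' : ℕ → Chart, ∀ r, ∀ lab ∈ Ls r, ch' lab = chs r lab := by
  classical
  refine ⟨fun lab => if h : ∃ r, lab ∈ Ls r then chs h.choose lab else dflt, fun r lab hl => ?_⟩
  have h : ∃ r, lab ∈ Ls r := ⟨r, hl⟩
  have hr : h.choose = r := by
    by_contra hne
    exact (Set.disjoint_left.1 (hd _ _ hne)) h.choose_spec hl
  simp only [h, dif_pos]
  rw [hr]

/-- the budget of the extra columns of a greedy fit -/
theorem s5b_bud_ext {R : Cell} {ext : Cell → Finset Col} {ch : ℕ → Chart} {ι : ℕ → ℕ} {H ρ : ℝ} (hρ0 : 0 < ρ) (hρ1 : ρ ≤ 1)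
    (hH : 0 ≤ H)
    (hcol : ∀ I, ∀ Φ ∈ ext I, Φ.lab ∈ Set.range ι ∧ Φ.eps = 1 ∧ Φ.phi = (ch Φ.lab).eval ∧
        (ch Φ.lab).Cplx H ∧ (ch Φ.lab).Bdd ∧ Φ.birth ≤ R)
    (hcnt : ∀ I, I ≤ R → ∀ A : Finset Col,
        (∀ Φ ∈ A, (∃ I', I' ≤ R ∧ Φ ∈ ext I') ∧ I ≤ Φ.birth) → (A.card : ℝ) ≤ 9 / ρ ^ 2) :
    Bud R ext ch (H + 9 / ρ ^ 2) := by
  have h9 : 9 ≤ 9 / ρ ^ 2 := by
    rw [le_div_iff₀ (by positivity)]
    have : ρ ^ 2 ≤ 1 := pow_le_one₀ hρ0.le hρ1
    linarith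
  refine ⟨fun I Φ h => (hcol I Φ h).2.2.1, fun I Φ h => s5r_cplx_mono _ _ _ (hcol I Φ h).2.2.2.1 (by linarith),
    fun I Φ h => (hcol I Φ h).2.2.2.2.1, fun I Φ h => ?_, fun I hI A hA => (hcnt I hI A hA).trans (by linarith)⟩
  rw [(hcol I Φ h).2.1, Real.sqrt_one]
  exact ⟨inv_le_one_of_one_le₀ (by linarith), le_rfl⟩

theorem s5b_plog_nonneg {C x : ℝ} (hC : 0 ≤ C) (hx : 0 ≤ x) : 0 ≤ plog C x :=
  Real.rpow_nonneg (mul_nonneg hC (by linarith)) _

theorem s5b_plog_mono {C x y : ℝ} (hC : 0 ≤ C) (hx : 0 ≤ x) (hxy : x ≤ y) : plog C x ≤ plog C y :=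
  Real.rpow_le_rpow (mul_nonneg hC (by linarith)) (mul_le_mul_of_nonneg_left (by linarith) hC) hC

theorem s5b_replErr_nonneg {C B Dp ε Dh L : ℝ} {K0 : ℕ} (hC : 0 ≤ C) (hDp : 0 ≤ Dp) (hDh : 1 ≤ Dh) (hL : 0 ≤ L) :
    0 ≤ replErr C B Dp ε Dh L K0 := by
  unfold replErr
  have h1 : 0 ≤ Real.log Dh + L + K0 := by
    have := Real.log_nonneg hDh
    positivity
  have h2 := s5b_plog_nonneg hC h1
  have h3 : 0 ≤ Dp ^ C := Real.rpow_nonneg hDp _
  have h4 : 0 ≤ Real.sqrt ε := Real.sqrt_nonneg _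
  positivity

theorem s5b_replErr_mono {C B Dp Dp' ε Dh L L' : ℝ} {K0 : ℕ} (hC : 0 ≤ C) (hDp : 0 ≤ Dp) (hDp' : Dp ≤ Dp') (hDh : 1 ≤ Dh)
    (hL : 0 ≤ L) (hL' : L ≤ L') : replErr C B Dp ε Dh L K0 ≤ replErr C B Dp' ε Dh L' K0 := by
  unfold replErr
  have h0 := Real.log_nonneg hDh
  have h1 : 0 ≤ Real.log Dh + L + K0 := by positivity
  have h3 : Dp ^ C ≤ Dp' ^ C := Real.rpow_le_rpow hDp hDp' hC
  have h3' : 0 ≤ Dp ^ C := Real.rpow_nonneg hDp _
  have h4 : 0 ≤ Real.sqrt ε := Real.sqrt_nonneg _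
  have h5 : 0 ≤ (2 : ℝ) ^ (-(K0 : ℝ)) + (1 + (K0 : ℝ)) * Real.sqrt ε := by positivity
  apply mul_le_mul _ (s5b_plog_mono hC h1 (by linarith)) (s5b_plog_nonneg hC h1)
  · have : 0 ≤ Dp' ^ C := h3'.trans h3
    positivity
  · have := mul_le_mul_of_nonneg_left h3 h5
    linarith

section refine
variable {X₀ : TSeg} {R : Cell} {T' S' : Finset Cell} {ch' : ℕ → Chart} {i j a b : Fin 4} {ma mb : Cell → Finset Col} {K0 : ℕ}

theorem s5b_refine_cat_a (X₀ : TSeg) (R : Cell) (T' S' : Finset Cell) (ch' : ℕ → Chart) (a b : Fin 4)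
    (ma mb : Cell → Finset Col) (K0 : ℕ) : (X₀.refine R T' S' ch' a b ma mb K0).cat a 0 = ma := by
  simp [TSeg.refine]

theorem s5b_refine_cat_b (X₀ : TSeg) (R : Cell) (T' S' : Finset Cell) (ch' : ℕ → Chart) {a b : Fin 4} (hab : a ≠ b)
    (ma mb : Cell → Finset Col) (K0 : ℕ) : (X₀.refine R T' S' ch' a b ma mb K0).cat b 0 = mb := by
  simp [TSeg.refine, hab.symm]

theorem s5b_refine_cat_old (X₀ : TSeg) (R : Cell) (T' S' : Finset Cell) (ch' : ℕ → Chart) (a b : Fin 4)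
    (ma mb : Cell → Finset Col) (K0 : ℕ) (l : Fin 4) (c : Fin 2) (h : ¬ (c = 0 ∧ (l = a ∨ l = b))) :
    (X₀.refine R T' S' ch' a b ma mb K0).cat l c = X₀.cat l c := by
  have h1 : ¬ (c = 0 ∧ l = a) := fun e => h ⟨e.1, Or.inl e.2⟩
  have h2 : ¬ (c = 0 ∧ l = b) := fun e => h ⟨e.1, Or.inr e.2⟩
  simp only [TSeg.refine, h1, h2, if_false]

theorem s5b_refine_refines (hR : R ≤ X₀.root) (hT : T' ⊆ X₀.T) (hS0 : S' ⊆ X₀.S) :
    (X₀.refine R T' S' ch' a b ma mb K0).Refines X₀ a b :=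
  ⟨hR, hT, hS0, rfl, rfl, rfl, s5b_refine_cat_old X₀ R T' S' ch' a b ma mb K0⟩

/-- the three kinds of catalogs of a refinement -/
theorem s5b_refine_cases (X₀ : TSeg) (R : Cell) (T' S' : Finset Cell) (ch' : ℕ → Chart) {a b : Fin 4} (hab : a ≠ b)
    (ma mb : Cell → Finset Col) (K0 : ℕ) (l : Fin 4) (c : Fin 2) :
    (l = a ∧ c = 0 ∧ (X₀.refine R T' S' ch' a b ma mb K0).cat l c = ma) ∨
    (l = b ∧ c = 0 ∧ (X₀.refine R T' S' ch' a b ma mb K0).cat l c = mb) ∨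
    (¬ (c = 0 ∧ (l = a ∨ l = b)) ∧ (X₀.refine R T' S' ch' a b ma mb K0).cat l c = X₀.cat l c) := by
  by_cases h1 : c = 0 ∧ l = a
  · obtain ⟨rfl, rfl⟩ := h1
    exact Or.inl ⟨rfl, rfl, s5b_refine_cat_a _ _ _ _ _ _ _ _ _ _⟩
  · by_cases h2 : c = 0 ∧ l = b
    · obtain ⟨rfl, rfl⟩ := h2
      exact Or.inr (Or.inl ⟨rfl, rfl, s5b_refine_cat_b _ _ _ _ _ hab _ _ _⟩)
    · have h : ¬ (c = 0 ∧ (l = a ∨ l = b)) := by
        rintro ⟨e, e' | e'⟩
        · exact h1 ⟨e, e'⟩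
        · exact h2 ⟨e, e'⟩
      exact Or.inr (Or.inr ⟨h, s5b_refine_cat_old _ _ _ _ _ _ _ _ _ _ _ _ h⟩)

theorem s5b_refine_valid {c0 C0 q Dold D₁ : ℝ} {ι : ℕ → ℕ} (hv : X₀.Valid c0 C0 q Dold) (ho : X₀.Old i j a b ι)
    (hR : R ≤ X₀.root) (htree : RootedTree R T') (hT : T' ⊆ X₀.T) (hS : S' ⊆ T') (hS0 : S' ⊆ X₀.S)
    (hch : ∀ lab, lab ∉ Set.range ι → ch' lab = X₀.chart lab) (hDD : Dold ≤ D₁)
    (hma : Inh R ma) (hmb : Inh R mb) (hba : Bud R ma ch' D₁) (hbb : Bud R mb ch' D₁)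
    (hla : ∀ I, ∀ Φ ∈ ma I, Φ.lab ∈ Set.range ι) (hlb : ∀ I, ∀ Φ ∈ mb I, Φ.lab ∈ Set.range ι)
    (hab : ∀ I I', ∀ Φ ∈ ma I, ∀ Φ' ∈ mb I', Φ.lab ≠ Φ'.lab) :
    (X₀.refine R T' S' ch' a b ma mb K0).Valid c0 C0 q D₁ := by
  have hne : a ≠ b := ho.slots.2.2.2.2.2
  refine ⟨htree, hS, fun I hI => hv.adm I (hS0 hI), hv.f_cs, fun l I hI => hv.f_norm l I (hT hI), ?_, ?_, ?_, hv.hi_card⟩
  · intro l c
    rcases s5b_refine_cases X₀ R T' S' ch' hne ma mb K0 l c with ⟨_, _, h⟩ | ⟨_, _, h⟩ | ⟨_, h⟩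
    · rw [h]; exact hma
    · rw [h]; exact hmb
    · rw [h]; exact s5r_inh_sub _ _ hR _ (hv.inh l c)
  · intro l c
    rcases s5b_refine_cases X₀ R T' S' ch' hne ma mb K0 l c with ⟨_, _, h⟩ | ⟨_, _, h⟩ | ⟨_, h⟩
    · rw [h]; exact hba
    · rw [h]; exact hbb
    · rw [h]
      exact s5r_bud_mono _ _ _ _ _ (s5t_bud_congr (s5r_bud_sub _ _ hR _ _ _ (hv.bud l c))
        (fun I Φ hΦ => hch _ (ho.fresh l c I Φ hΦ))) hDD
  · intro l c I l' c' I' Φ hΦ Φ' hΦ' hl
    rcases s5b_refine_cases X₀ R T' S' ch' hne ma mb K0 l c with ⟨e1, e2, h⟩ | ⟨e1, e2, h⟩ | ⟨e, h⟩ <;>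
    rcases s5b_refine_cases X₀ R T' S' ch' hne ma mb K0 l' c' with ⟨e1', e2', h'⟩ | ⟨e1', e2', h'⟩ | ⟨e', h'⟩ <;>
    rw [h] at hΦ <;> rw [h'] at hΦ'
    · exact ⟨hma.lab I I' Φ hΦ Φ' hΦ' hl, e1.trans e1'.symm, e2.trans e2'.symm⟩
    · exact absurd hl (hab I I' Φ hΦ Φ' hΦ')
    · exact absurd (hl ▸ hla I Φ hΦ) (ho.fresh l' c' I' Φ' hΦ')
    · exact absurd hl.symm (hab I' I Φ' hΦ' Φ hΦ)
    · exact ⟨hmb.lab I I' Φ hΦ Φ' hΦ' hl, e1.trans e1'.symm, e2.trans e2'.symm⟩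
    · exact absurd (hl ▸ hlb I Φ hΦ) (ho.fresh l' c' I' Φ' hΦ')
    · exact absurd (hl ▸ hla I' Φ' hΦ') (ho.fresh l c I Φ hΦ)
    · exact absurd (hl ▸ hlb I' Φ' hΦ') (ho.fresh l c I Φ hΦ)
    · exact hv.lab_inj l c I l' c' I' Φ hΦ Φ' hΦ' hl

end refine

/-- four disjoint label supplies inside one -/
theorem s5b_supply {ι : ℕ → ℕ} (hι : Function.Injective ι) (r : ℕ) :
    Function.Injective (fun n => ι (4 * n + r)) ∧ (∀ n, ι (4 * n + r) ∈ Set.range ι) :=
  ⟨fun m n h => by have := hι h; omega, fun n => ⟨_, rfl⟩⟩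

theorem s5b_supply_ne {ι : ℕ → ℕ} (hι : Function.Injective ι) {r r' : ℕ} (hr : r < 4) (hr' : r' < 4) (hne : r ≠ r')
    {x : ℕ} (h : x ∈ Set.range fun n => ι (4 * n + r)) (h' : x ∈ Set.range fun n => ι (4 * n + r')) : False := by
  obtain ⟨m, rfl⟩ := h
  obtain ⟨n, hn⟩ := h'
  have := hι hn
  omega

open Classical in
theorem s5b_high (c0 C0 : ℝ) (hc0 : 0 < c0) (hC0 : 1 ≤ C0) :
    ∃ Cp : ℝ, 1 ≤ Cp ∧ ∀ q : ℝ, 2 < q → q < 3 →
      ∀ (X₀ : TSeg) (i j a b : Fin 4) (ι : ℕ → ℕ) (Dold B ε δa ρa Ha δb ρb Hb : ℝ) (K0 : ℕ),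
      X₀.Valid c0 C0 q Dold → X₀.Old i j a b ι → 1 ≤ Dold → 1 ≤ B → 0 < ε → ε ≤ 1 →
      Detect c0 C0 q δa ρa Ha → 0 < ρa → ρa ≤ 1 → 0 ≤ Ha → Detect c0 C0 q δb ρb Hb → 0 < ρb → ρb ≤ 1 → 0 ≤ Hb →
      ∀ Da D₁ E₁ Bd : ℝ,
        preBud Cp Dold B ε + (Ha + 9 / ρa ^ 2) ≤ Da → Da ≤ D₁ → preBud Cp Dold B ε + (Hb + 9 / ρb ^ 2) ≤ D₁ → Dold ≤ D₁ →
        highErr Cp Dold B ε D₁ K0 ≤ E₁ → 0 ≤ Bd →
        (∀ X : TSeg, X.Valid c0 C0 q D₁ → X.Refines X₀ a b → X.K0 = K0 → X.Repl E₁ →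
            Bud X.root (X.cat a 0) X.chart Da →
            (∀ I ∈ X.S, DSmall q I (X.w I) a (restr I.set (X.F a) - dproj (X.cat a 0) I K0 (X.F a)) δa) →
            (∀ I ∈ X.S, DSmall q I (X.w I) b (restr I.set (X.F b) - dproj (X.cat b 0) I K0 (X.F b)) δb) →
            ∑ I ∈ X.S, I.len * ‖formV I (X.w I) (fun l => X.Xv l I)‖ ≤ Bd * X.root.len) →
        ∑ I ∈ X₀.S, I.len * ‖formV I (X₀.w I) (fun l => X₀.Xv l I)‖ ≤ 4 * Bd * X₀.root.len := by
  obtain ⟨Cp, hCp, hrep⟩ := s5p_replace c0 C0 hc0 hC0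
  refine ⟨Cp, hCp, ?_⟩
  intro q hq2 hq3 X₀ i j a b ι Dold B ε δa ρa Ha δb ρb Hb K0 hv ho hDold hB hε0 hε1 hda hρa0 hρa1 hHa hdb hρb0 hρb1 hHb
    Da D₁ E₁ Bd hDa hDaD hDb hDoldD hE hBd hfin
  have hDold0 : 0 < Dold := by linarith
  have hne : a ≠ b := ho.slots.2.2.2.2.2
  -- low families
  have hmi : Inh X₀.root (X₀.mm i) := s5t_mm_inh hv i
  have hmj : Inh X₀.root (X₀.mm j) := s5t_mm_inh hv j
  have hai : FullAv X₀.root (X₀.mm i) := s5t_fullav_union (ho.av_i 0) (ho.av_i 1)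
  have haj : FullAv X₀.root (X₀.mm j) := s5t_fullav_union (ho.av_j 0) (ho.av_j 1)
  have hbi : Bud X₀.root (X₀.mm i) X₀.chart (2 * Dold) := s5t_mm_bud hv hDold0 i
  have hbj : Bud X₀.root (X₀.mm j) X₀.chart (2 * Dold) := s5t_mm_bud hv hDold0 j
  -- predictor families
  obtain ⟨prea, chpa, Dpa, hDpa1, hDpa, hpai, hpab, hpal, hPa⟩ := hrep i j a b ho.slots X₀.root (X₀.mm i) (X₀.mm j)
    X₀.chart X₀.chart (2 * Dold) B ε (fun n => ι (4 * n + 0)) hmi hmj hai haj hbi hbj hB hε0 hε1 (s5b_supply ho.inj 0).1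
  obtain ⟨preb, chpb, Dpb, hDpb1, hDpb, hpbi, hpbb, hpbl, hPb⟩ := hrep i j b a (s5b_slot_swap ho.slots) X₀.root (X₀.mm i)
    (X₀.mm j) X₀.chart X₀.chart (2 * Dold) B ε (fun n => ι (4 * n + 1)) hmi hmj hai haj hbi hbj hB hε0 hε1
    (s5b_supply ho.inj 1).1
  have hsq : 0 < Real.sqrt ε := Real.sqrt_pos.2 hε0
  have hpB0 : ∀ Dp : ℝ, 1 ≤ Dp → 0 < (2 * Dold) ^ 2 * Dp + 1 / Real.sqrt ε := fun Dp h => by positivity
  have hpBle : ∀ Dp : ℝ, Dp ≤ qpoly Cp (B + Real.log (2 * Dold)) →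
      (2 * Dold) ^ 2 * Dp + 1 / Real.sqrt ε ≤ preBud Cp Dold B ε := fun Dp h => by
    unfold preBud
    have : (2 * Dold) ^ 2 * Dp ≤ (2 * Dold) ^ 2 * qpoly Cp (B + Real.log (2 * Dold)) :=
      mul_le_mul_of_nonneg_left h (by positivity)
    linarith
  have hrega := s5r_reg_of_bud _ _ _ _ hpab (hpB0 Dpa hDpa1)
  have hregb := s5r_reg_of_bud _ _ _ _ hpbb (hpB0 Dpb hDpb1)
  -- the two greedy fits
  obtain ⟨rootsa, sega, exta, cha, hsa, hia, hca, _, hna, hda'⟩ := s5g_greedy c0 C0 q δa ρa Ha hda hρa0 hρa1 X₀.root X₀.T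
    X₀.S X₀.w hv.tree hv.S_sub hv.adm a (X₀.f a) (hv.f_cs a) (fun I hI => s5t_n2_F hq2 hv a hI) prea hpai
    (fun I Φ hΦ => ⟨hrega.meas I Φ hΦ, hrega.bdd I Φ hΦ⟩) (fun I Φ hΦ => (hrega.eps I Φ hΦ).1) K0
    (fun n => ι (4 * n + 2)) (s5b_supply ho.inj 2).1
    (fun I Φ hΦ h => s5b_supply_ne ho.inj (by norm_num) (by norm_num) (by norm_num) (hpal I Φ hΦ).1 h)
  obtain ⟨rootsb, segb, extb, chb, hsb, hib, hcb, _, hnb, hdb'⟩ := s5g_greedy c0 C0 q δb ρb Hb hdb hρb0 hρb1 X₀.root X₀.T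
    X₀.S X₀.w hv.tree hv.S_sub hv.adm b (X₀.f b) (hv.f_cs b) (fun I hI => s5t_n2_F hq2 hv b hI) preb hpbi
    (fun I Φ hΦ => ⟨hregb.meas I Φ hΦ, hregb.bdd I Φ hΦ⟩) (fun I Φ hΦ => (hregb.eps I Φ hΦ).1) K0
    (fun n => ι (4 * n + 3)) (s5b_supply ho.inj 3).1
    (fun I Φ hΦ h => s5b_supply_ne ho.inj (by norm_num) (by norm_num) (by norm_num) (hpbl I Φ hΦ).1 h)
  -- common refinement
  obtain ⟨roots1, seg1, hs1, hconst⟩ := s5s_union hv.tree (Finset.univ : Finset (Fin 2)) ⟨0, Finset.mem_univ _⟩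
    ![rootsa, rootsb] ![sega, segb] ![2, 2] (by
      intro x _
      fin_cases x
      · exact hsa
      · exact hsb)
  have hκ : ∑ x : Fin 2, (![2, 2] : Fin 2 → ℝ) x = 4 := by simp [Fin.sum_univ_two]; norm_num
  rw [hκ] at hs1
  have hconsta : ∀ I ∈ X₀.T, sega I = sega (seg1 I) := hconst 0 (Finset.mem_univ _)
  have hconstb : ∀ I ∈ X₀.T, segb I = segb (seg1 I) := hconst 1 (Finset.mem_univ _)
  -- the glued chart function
  obtain ⟨ch', hch'⟩ := s5b_glue (κ := Option (Fin 4))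
    (fun r => match r with
      | none => (Set.range ι)ᶜ
      | some r => Set.range fun n => ι (4 * n + (r : ℕ)))
    (fun r => match r with
      | none => X₀.chart
      | some r => ![chpa, chpb, cha, chb] r)
    (by
      intro r r' hrr
      rw [Set.disjoint_left]
      rcases r with _ | r <;> rcases r' with _ | r'
      · exact absurd rfl hrr
      · rintro x hx ⟨n, rfl⟩; exact hx ⟨_, rfl⟩
      · rintro x ⟨n, rfl⟩ hx; exact hx ⟨_, rfl⟩
      · intro x hx hx'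
        exact s5b_supply_ne ho.inj r.2 r'.2 (fun e => hrr (by rw [Fin.ext e])) hx hx')
    (X₀.chart 0)
  have hch0 : ∀ lab, lab ∉ Set.range ι → ch' lab = X₀.chart lab := fun lab h => hch' none lab h
  have hch1 : ∀ lab, lab ∈ (Set.range fun n => ι (4 * n + 0)) → ch' lab = chpa lab := fun lab h => hch' (some 0) lab h
  have hch2 : ∀ lab, lab ∈ (Set.range fun n => ι (4 * n + 1)) → ch' lab = chpb lab := fun lab h => hch' (some 1) lab h
  have hch3 : ∀ lab, lab ∈ (Set.range fun n => ι (4 * n + 2)) → ch' lab = cha lab := fun lab h => hch' (some 2) lab h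
  have hch4 : ∀ lab, lab ∈ (Set.range fun n => ι (4 * n + 3)) → ch' lab = chb lab := fun lab h => hch' (some 3) lab h
  -- summation over the final segments
  refine s5s_sum_le hs1 hv.S_sub (fun I => I.len * ‖formV I (X₀.w I) (fun l => X₀.Xv l I)‖) Bd hBd fun R hR => ?_
  have hRT : R ∈ X₀.T := hs1.sub hR
  have hRle : R ≤ X₀.root := hv.tree.le_root R hRT
  have hRa : sega R ∈ rootsa := hsa.seg_mem R hRT
  have hRb : segb R ∈ rootsb := hsb.seg_mem R hRT
  have hRa' : R ≤ sega R := hsa.le_seg R hRT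
  have hRb' : R ≤ segb R := hsb.le_seg R hRT
  set ma : Cell → Finset Col := fun I => prea I ∪ exta (sega R) I with hma_def
  set mb : Cell → Finset Col := fun I => preb I ∪ extb (segb R) I with hmb_def
  have hmaI : Inh R ma := s5r_inh_sub _ _ hRa' _ (hia _ hRa)
  have hmbI : Inh R mb := s5r_inh_sub _ _ hRb' _ (hib _ hRb)
  have h9a : 0 < Ha + 9 / ρa ^ 2 := by positivity
  have h9b : 0 < Hb + 9 / ρb ^ 2 := by positivity
  have hmaB : Bud R ma ch' Da := by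
    have h1 : Bud R prea ch' ((2 * Dold) ^ 2 * Dpa + 1 / Real.sqrt ε) :=
      s5t_bud_congr (s5r_bud_sub _ _ hRle _ _ _ hpab) fun I Φ hΦ => hch1 _ (hpal I Φ hΦ).1
    have h2 : Bud R (exta (sega R)) ch' (Ha + 9 / ρa ^ 2) :=
      s5t_bud_congr (s5r_bud_sub _ _ hRa' _ _ _ (s5b_bud_ext hρa0 hρa1 hHa (hca _ hRa) (hna _ hRa)))
        fun I Φ hΦ => hch3 _ (hca _ hRa I Φ hΦ).1
    exact s5r_bud_mono _ _ _ _ _ (s5t_bud_union h1 h2 (hpB0 Dpa hDpa1) h9a) (by have := hpBle Dpa hDpa; linarith)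
  have hmbB : Bud R mb ch' D₁ := by
    have h1 : Bud R preb ch' ((2 * Dold) ^ 2 * Dpb + 1 / Real.sqrt ε) :=
      s5t_bud_congr (s5r_bud_sub _ _ hRle _ _ _ hpbb) fun I Φ hΦ => hch2 _ (hpbl I Φ hΦ).1
    have h2 : Bud R (extb (segb R)) ch' (Hb + 9 / ρb ^ 2) :=
      s5t_bud_congr (s5r_bud_sub _ _ hRb' _ _ _ (s5b_bud_ext hρb0 hρb1 hHb (hcb _ hRb) (hnb _ hRb)))
        fun I Φ hΦ => hch4 _ (hcb _ hRb I Φ hΦ).1
    exact s5r_bud_mono _ _ _ _ _ (s5t_bud_union h1 h2 (hpB0 Dpb hDpb1) h9b) (by have := hpBle Dpb hDpb; linarith)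
  -- labels of the new catalogs
  have hlabA : ∀ I, ∀ Φ ∈ ma I, Φ.lab ∈ (Set.range fun n => ι (4 * n + 0)) ∨ Φ.lab ∈ (Set.range fun n => ι (4 * n + 2)) := by
    intro I Φ hΦ
    rcases Finset.mem_union.1 hΦ with h | h
    · exact Or.inl (hpal I Φ h).1
    · exact Or.inr (hca _ hRa I Φ h).1
  have hlabB : ∀ I, ∀ Φ ∈ mb I, Φ.lab ∈ (Set.range fun n => ι (4 * n + 1)) ∨ Φ.lab ∈ (Set.range fun n => ι (4 * n + 3)) := by
    intro I Φ hΦ
    rcases Finset.mem_union.1 hΦ with h | h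
    · exact Or.inl (hpbl I Φ h).1
    · exact Or.inr (hcb _ hRb I Φ h).1
  have hsubr : ∀ r x, x ∈ (Set.range fun n => ι (4 * n + r)) → x ∈ Set.range ι := by
    rintro r x ⟨n, rfl⟩; exact ⟨_, rfl⟩
  set X : TSeg := X₀.refine R (segPiece X₀.T seg1 R) (segPiece X₀.S seg1 R) ch' a b ma mb K0 with hX
  have hXv : X.Valid c0 C0 q D₁ := s5b_refine_valid hv ho hRle (s5s_piece_tree hv.tree hs1 hR) (s5s_piece_sub _ _ _)
    (s5s_piece_mono hv.S_sub _ _) (s5s_piece_sub _ _ _) hch0 hDoldD hmaI hmbI (s5r_bud_mono _ _ _ _ _ hmaB hDaD) hmbB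
    (fun I Φ hΦ => (hlabA I Φ hΦ).elim (hsubr 0 _) (hsubr 2 _)) (fun I Φ hΦ => (hlabB I Φ hΦ).elim (hsubr 1 _) (hsubr 3 _))
    (by
      intro I I' Φ hΦ Φ' hΦ' hl
      rcases hlabA I Φ hΦ with h | h <;> rcases hlabB I' Φ' hΦ' with h' | h' <;> rw [hl] at h
      · exact s5b_supply_ne ho.inj (by norm_num) (by norm_num) (by norm_num) h h'
      · exact s5b_supply_ne ho.inj (by norm_num) (by norm_num) (by norm_num) h h'
      · exact s5b_supply_ne ho.inj (by norm_num) (by norm_num) (by norm_num) h h'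
      · exact s5b_supply_ne ho.inj (by norm_num) (by norm_num) (by norm_num) h h')
  have hXr : X.Refines X₀ a b := s5b_refine_refines hRle (s5s_piece_sub _ _ _) (s5s_piece_sub _ _ _)
  have hXa : X.cat a 0 = ma := s5b_refine_cat_a _ _ _ _ _ _ _ _ _ _
  have hXb : X.cat b 0 = mb := s5b_refine_cat_b _ _ _ _ _ hne _ _ _
  have hXs : X.Slots i j a b := ⟨ho.slots, ho.hi_i, ho.hi_j, ho.hi_a, ho.hi_b⟩
  obtain ⟨h12, h13, h14, h23, h24, h34⟩ := ho.slots
  have hXmm : ∀ l, l ≠ a → l ≠ b → X.mm l = X₀.mm l := by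
    intro l hla hlb
    funext I
    unfold TSeg.mm
    rw [hXr.cat_eq l 0 (by simp [hla, hlb]), hXr.cat_eq l 1 (by simp)]
  have hD₁ : 1 ≤ D₁ := hDold.trans hDoldD
  -- replacement error
  have hrepl : X.Repl E₁ := by
    have hlow : ∀ c, Bud X.root (X.cat i c) X.chart Dold ∧ Bud X.root (X.cat j c) X.chart Dold := by
      intro c
      constructor
      · rw [hXr.cat_eq i c (by simp [h13, h14])]
        exact s5t_bud_congr (s5r_bud_sub _ _ hRle _ _ _ (hv.bud i c)) (fun I Φ hΦ => hch0 _ (ho.fresh i c I Φ hΦ))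
      · rw [hXr.cat_eq j c (by simp [h23, h24])]
        exact s5t_bud_congr (s5r_bud_sub _ _ hRle _ _ _ (hv.bud j c)) (fun I Φ hΦ => hch0 _ (ho.fresh j c I Φ hΦ))
    have hCp0 : 0 ≤ Cp := by linarith
    have h := s5b_repl c0 C0 q hc0 hq2 X i j a b D₁ Dold (2 * Dold) Cp B Dpa Dpb ε X₀.root hXv hXs hRle hDold0 hlow prea preb
      (by rw [hXmm i h13 h14, hXmm j h23 h24]; exact hPa) (fun I => by rw [hXa]; exact Finset.subset_union_left)
      (by rw [hXmm i h13 h14, hXmm j h23 h24]; exact hPb) (fun I => by rw [hXb]; exact Finset.subset_union_left)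
      (s5b_replErr_nonneg hCp0 (by linarith) hD₁ le_rfl) (s5b_replErr_nonneg hCp0 (by linarith) hD₁ (Nat.cast_nonneg _))
    unfold TSeg.Repl at h ⊢
    refine h.trans (mul_le_mul_of_nonneg_right (le_trans ?_ hE) (cell_len_nonneg _))
    unfold highErr
    have hK : X.K0 = K0 := rfl
    rw [hK]
    have e1 : replErr Cp B Dpa ε D₁ 0 K0 ≤ replErr Cp B (qpoly Cp (B + Real.log (2 * Dold))) ε D₁ K0 K0 :=
      s5b_replErr_mono hCp0 (by linarith) hDpa hD₁ le_rfl (Nat.cast_nonneg _)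
    have e2 : replErr Cp B Dpb ε D₁ K0 K0 ≤ replErr Cp B (qpoly Cp (B + Real.log (2 * Dold))) ε D₁ K0 K0 :=
      s5b_replErr_mono hCp0 (by linarith) hDpb hD₁ (Nat.cast_nonneg _) le_rfl
    exact mul_le_mul_of_nonneg_left (by linarith) (by positivity)
  -- the final estimate
  have hmain := hfin X hXv hXr rfl hrepl (by rw [hXa]; exact hmaB)
    (by
      intro I hI
      obtain ⟨hIS, hIR⟩ := s5s_mem_piece.1 hI
      have h := hda' I hIS
      rw [hconsta I (hv.S_sub hIS), hIR] at h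
      rw [hXa]
      exact h)
    (by
      intro I hI
      obtain ⟨hIS, hIR⟩ := s5s_mem_piece.1 hI
      have h := hdb' I hIS
      rw [hconstb I (hv.S_sub hIS), hIR] at h
      rw [hXb]
      exact h)
  have hrw : ∑ I ∈ segPiece X₀.S seg1 R, I.len * ‖formV I (X₀.w I) (fun l => X₀.Xv l I)‖
      = ∑ I ∈ X.S, I.len * ‖formV I (X.w I) (fun l => X.Xv l I)‖ := by
    refine Finset.sum_congr rfl fun I _ => ?_
    have : (fun l => X.Xv l I) = fun l => X₀.Xv l I := funext fun l => s5b_Xv_eq hXr ho.toSlots l I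
    rw [this]
    rfl
  rw [hrw]
  exact hmain

end Claimed.Agent.R258
end

/- ===== packed: Claimed.Agent.R258.S5.Level ===== -/
section
/-
Row 258, Sec. 5.3, architect helper182.   THE LEVELS (Lemma 5.4 in final form) AND THE COMMON OLDER SEGMENTS OF A TUPLE.

* `GTree`      : the global normalized tree (the data of `NormalizedBound`);
* `LevData`    : the output of Lemma 5.4 at one level: segmentation, extra columns `ext R I` on the segment root `R`, charts;  `L.g F I = P_{ext (seg I) I, I} F`;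
* `LevData.Ok` : inherited, fully available, budget `Dl`, labels in the supply `ι`;      `LevData.Acc`: accuracy `𝔡(F - g_I) ≤ δ` on the summation cells;
* `s5l_exists` : Lemma 5.4 (from `s5g_greedy` with `pre = ∅`, `K0 = 0`);
* `LevSys`     : a system of levels `t = 1, 2, …` (level `0` = the trivial level, `g = 0`), level `t` updates the slot `pos4 t`, labels `levLab t n = pair t n`;
* `tupLev u t l c` : the level of the catalog `(l,c)` of the tuple `(u,t)`;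
* `s5l_older`  : reduction of the tuple sum to the common older segments (`TSeg.Old`), factor `16`.
-/
set_option autoImplicit false
open MeasureTheory

namespace Claimed.Agent.R258

/-- the global normalized tree -/
structure GTree where
  root : Cell
  T : Finset Cell
  S : Finset Cell
  w : Cell → ℝ × ℝ → ℂ
  f : Fin 4 → ℝ → ℂ

structure GTree.Valid (G : GTree) (c0 C0 q : ℝ) : Prop where
  tree : RootedTree G.root G.T
  S_sub : G.S ⊆ G.T
  adm : ∀ I ∈ G.S, Admissible c0 C0 I (G.w I)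
  f_cs : ∀ l, BddCS (G.f l)
  f_norm : ∀ l, ∀ I ∈ G.T, nnorm q I (G.f l) ≤ 1

noncomputable def GTree.F (G : GTree) (l : Fin 4) : XV := ofScalar (G.f l)

theorem s5l_n2_F {G : GTree} {c0 C0 q : ℝ} (hq : 2 < q) (hG : G.Valid c0 C0 q) (l : Fin 4) {I : Cell} (hI : I ∈ G.T) :
    n2 I (G.F l) ≤ 1 :=
  (s5f_n2_le_nnorm q hq.le I (G.f l) (hG.f_cs l)).trans (hG.f_norm l I hI)

/-- the data of one level -/
structure LevData where
  roots : Finset Cell
  seg : Cell → Cell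
  ext : Cell → Cell → Finset Col
  ch : ℕ → Chart

/-- the approximant of the level -/
noncomputable def LevData.g (L : LevData) (F : XV) (I : Cell) : XV := cproj (L.ext (L.seg I) I) I F

structure LevData.Ok (L : LevData) (G : GTree) (Dl : ℝ) (ι : ℕ → ℕ) : Prop where
  segm : Segm G.root G.T L.roots L.seg 2
  inh : ∀ R ∈ L.roots, Inh R (L.ext R)
  av : ∀ R ∈ L.roots, FullAv R (L.ext R)
  bud : ∀ R ∈ L.roots, Bud R (L.ext R) L.ch Dl
  lab : ∀ R ∈ L.roots, ∀ I, ∀ Φ ∈ L.ext R I, Φ.lab ∈ Set.range ι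

/-- accuracy of the level in the slot `e` -/
def LevData.Acc (L : LevData) (G : GTree) (q : ℝ) (e : Fin 4) (δ : ℝ) : Prop :=
  ∀ I ∈ G.S, DSmall q I (G.w I) e (restr I.set (G.F e) - L.g (G.F e) I) δ

/-- a trivial chart -/
def Chart.triv : Chart := ⟨0, fun _ => 0, 0, 0, 0, fun _ => 0, 1⟩

/-- the trivial level -/
def LevData.triv (G : GTree) : LevData := ⟨{G.root}, fun _ => G.root, fun _ _ => ∅, fun _ => Chart.triv⟩

theorem s5l_cproj_empty (I : Cell) : cproj ∅ I = 0 := by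
  unfold cproj colSpan
  simp [Submodule.starProjection_bot]

theorem s5l_triv_g (G : GTree) (F : XV) (I : Cell) : (LevData.triv G).g F I = 0 := by
  simp [LevData.g, LevData.triv, s5l_cproj_empty]

theorem s5l_inh_empty (R : Cell) : Inh R (fun _ => ∅) :=
  ⟨fun _ _ h => absurd h (Finset.notMem_empty _), fun _ _ _ _ => Finset.Subset.refl _,
    fun _ _ _ h => absurd h (Finset.notMem_empty _)⟩

theorem s5l_bud_empty (R : Cell) (ch : ℕ → Chart) {D : ℝ} (hD : 0 ≤ D) : Bud R (fun _ => ∅) ch D := by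
  refine ⟨fun _ _ h => absurd h (Finset.notMem_empty _), fun _ _ h => absurd h (Finset.notMem_empty _),
    fun _ _ h => absurd h (Finset.notMem_empty _), fun _ _ h => absurd h (Finset.notMem_empty _), fun I _ A hA => ?_⟩
  have : A = ∅ := by
    apply Finset.eq_empty_of_forall_notMem
    intro Φ hΦ
    obtain ⟨⟨I', _, h⟩, _⟩ := hA Φ hΦ
    exact absurd h (Finset.notMem_empty _)
  simp [this, hD]

theorem s5l_triv_ok {G : GTree} {c0 C0 q : ℝ} (hG : G.Valid c0 C0 q) {Dl : ℝ} (hD : 0 ≤ Dl) (ι : ℕ → ℕ) :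
    (LevData.triv G).Ok G Dl ι :=
  ⟨s5s_mono (s5s_trivial hG.tree) (by norm_num), fun R _ => s5l_inh_empty R,
    fun _ _ _ _ h => absurd h (Finset.notMem_empty _), fun R _ => s5l_bud_empty R _ hD,
    fun _ _ _ _ h => absurd h (Finset.notMem_empty _)⟩

open Classical in
/-- **Lemma 5.4** -/
theorem s5l_exists (c0 C0 q δ ρ H : ℝ) (hdet : Detect c0 C0 q δ ρ H) (hρ0 : 0 < ρ) (hρ1 : ρ ≤ 1) (hH : 0 ≤ H) (hq : 2 < q)
    (G : GTree) (hG : G.Valid c0 C0 q) (e : Fin 4) (ι : ℕ → ℕ) (hι : Function.Injective ι) :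
    ∃ L : LevData, L.Ok G (H + 9 / ρ ^ 2) ι ∧ L.Acc G q e δ := by
  obtain ⟨roots, seg, ext, ch, hs, hi, hc, ha, hn, hd⟩ := s5g_greedy c0 C0 q δ ρ H hdet hρ0 hρ1 G.root G.T G.S G.w hG.tree
    hG.S_sub hG.adm e (G.f e) (hG.f_cs e) (fun I hI => s5l_n2_F hq hG e hI) (fun _ => ∅) (s5l_inh_empty _)
    (fun _ _ h => absurd h (Finset.notMem_empty _)) (fun _ _ h => absurd h (Finset.notMem_empty _)) 0 ι hι
    (fun _ _ h => absurd h (Finset.notMem_empty _))
  simp only [Finset.empty_union] at hi hd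
  refine ⟨⟨roots, seg, ext, ch⟩, ⟨hs, hi, ?_, fun R hR => s5b_bud_ext hρ0 hρ1 hH (hc R hR) (hn R hR),
    fun R hR I Φ hΦ => (hc R hR I Φ hΦ).1⟩, ?_⟩
  · intro R hR I Φ hΦ I' _ hb
    exact ha R hR I Φ hΦ I' (by simpa [Cell.anc] using hb)
  · intro I hI
    have h := hd I hI
    rw [s5r_dproj_zero] at h
    exact h

/-! ### systems of levels -/

/-- the label supply of the level `t` (level `0`: the tuple-specific columns) -/
def levLab (t n : ℕ) : ℕ := Nat.pair t n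

theorem s5l_levLab_inj (t : ℕ) : Function.Injective (levLab t) := fun m n h => by
  have := Nat.pair_eq_pair.1 h
  exact this.2

theorem s5l_levLab_ne {s t x : ℕ} (h : x ∈ Set.range (levLab s)) (h' : x ∈ Set.range (levLab t)) : s = t := by
  obtain ⟨m, rfl⟩ := h
  obtain ⟨n, hn⟩ := h'
  exact (Nat.pair_eq_pair.1 hn).1.symm

/-- a system of levels: `L 0` trivial, level `t ≥ 1` updates the slot `pos4 t` with accuracy `δ t` and budget `Dl t` -/
structure LevSys (G : GTree) (q : ℝ) (L : ℕ → LevData) (Dl δ : ℕ → ℝ) : Prop where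
  zero : L 0 = LevData.triv G
  ok : ∀ t, (L t).Ok G (Dl t) (levLab t)
  acc : ∀ t, 1 ≤ t → (L t).Acc G q (pos4 t) (δ t)

/-- the approximant of level `s` (in its own slot) -/
noncomputable def levG (G : GTree) (L : ℕ → LevData) (s : ℕ) (I : Cell) : XV := (L s).g (G.F (pos4 s)) I

/-- the level of the catalog `(l,c)` of the tuple `(u,t)` -/
def tupLev (u t : ℕ) (l : Fin 4) (c : Fin 2) : ℕ :=
  if l = pos4 u then (if c = 0 then u else lastLev l (u - 1))
  else if l = pos4 t then (if c = 0 then t else lastLev l (t - 1))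
  else (if c = 0 then 0 else lastLev l (t - 1))

theorem s5l_tupLev_le {u t : ℕ} (hut : u < t) (l : Fin 4) (c : Fin 2) : tupLev u t l c ≤ t := by
  unfold tupLev
  have h1 := s5x_lastLev_le l (u - 1)
  have h2 := s5x_lastLev_le l (t - 1)
  split_ifs <;> omega

theorem s5l_tupLev_pos4 {u t : ℕ} {l : Fin 4} {c : Fin 2} (h : tupLev u t l c ≠ 0) : pos4 (tupLev u t l c) = l := by
  unfold tupLev at h ⊢
  split_ifs at h ⊢ with h1 h2 h3 h4 h5
  · exact h1.symm
  · exact s5x_lastLev_pos4 l _ h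
  · exact h3.symm
  · exact s5x_lastLev_pos4 l _ h
  · exact absurd rfl h
  · exact s5x_lastLev_pos4 l _ h

theorem s5l_tupLev_ne {u t : ℕ} (hu : 1 ≤ u) (hut : u < t) {l : Fin 4} (h : tupLev u t l 0 = tupLev u t l 1) :
    tupLev u t l 0 = 0 := by
  unfold tupLev at h ⊢
  have h1 := s5x_lastLev_le l (u - 1)
  have h2 := s5x_lastLev_le l (t - 1)
  simp only [if_true, one_ne_zero, if_false] at h ⊢
  split_ifs at h ⊢ <;> omega

/-- the approximant of the catalog `(l,c)` is the approximant of its level -/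
theorem s5l_g_eq {G : GTree} {q : ℝ} {L : ℕ → LevData} {Dl δ : ℕ → ℝ} (hsys : LevSys G q L Dl δ) {s : ℕ} {l : Fin 4}
    (h : s ≠ 0 → pos4 s = l) (I : Cell) : (L s).g (G.F l) I = levG G L s I := by
  unfold levG
  by_cases hs : s = 0
  · subst hs; rw [hsys.zero, s5l_triv_g, s5l_triv_g]
  · rw [h hs]

theorem s5l_hi_card {i j : Fin 4} (h : i ≠ j) :
    (Finset.univ.filter fun l : Fin 4 => decide (l ≠ i ∧ l ≠ j) = true).card = 2 := by
  revert i j
  decide

/-- **reduction to the common older segments** -/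
theorem s5l_older (c0 C0 q : ℝ) (G : GTree) (hG : G.Valid c0 C0 q) (L : ℕ → LevData) (Dl δ : ℕ → ℝ)
    (hsys : LevSys G q L Dl δ) (u t : ℕ) (hu : 1 ≤ u) (hut : u < t) (a b : Fin 4) (hs : slot4 (pos4 u) (pos4 t) a b)
    (Dold Bd : ℝ) (hDold : ∀ s, s ≤ t → Dl s ≤ Dold) (hBd : 0 ≤ Bd)
    (hfin : ∀ X₀ : TSeg, X₀.Valid c0 C0 q Dold → X₀.Old (pos4 u) (pos4 t) a b (levLab 0) → X₀.S ⊆ G.S → X₀.T ⊆ G.T →
      X₀.w = G.w → X₀.f = G.f → (∀ I ∈ X₀.T, ∀ l c, X₀.cur l c I = levG G L (tupLev u t l c) I) →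
      ∑ I ∈ X₀.S, I.len * ‖formV I (X₀.w I) (fun l => X₀.Xv l I)‖ ≤ Bd * X₀.root.len) :
    ∑ I ∈ G.S, I.len * ‖formV I (G.w I) (xarg (fun l => restr I.set (G.F l)) (fun s => levG G L s I) u t)‖
      ≤ 16 * Bd * G.root.len := by
  classical
  obtain ⟨h12, h13, h14, h23, h24, h34⟩ := hs
  -- common refinement of the eight segmentations
  obtain ⟨roots0, seg0, hs0, hconst⟩ := s5s_union hG.tree (Finset.univ : Finset (Fin 4 × Fin 2)) ⟨(0, 0), Finset.mem_univ _⟩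
    (fun x => (L (tupLev u t x.1 x.2)).roots) (fun x => (L (tupLev u t x.1 x.2)).seg) (fun _ => 2)
    (fun x _ => (hsys.ok _).segm)
  have hκ : ∑ _x : Fin 4 × Fin 2, (2 : ℝ) = 16 := by simp; norm_num
  rw [hκ] at hs0
  -- the glued chart function
  obtain ⟨chG, hchG⟩ := s5b_glue (κ := ℕ) (fun s => Set.range (levLab s)) (fun s => (L s).ch)
    (fun r r' hrr => Set.disjoint_left.2 fun x hx hx' => hrr (s5l_levLab_ne hx hx')) Chart.triv
  refine s5s_sum_le hs0 hG.S_sub _ Bd hBd fun R hR => ?_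
  have hRT : R ∈ G.T := hs0.sub hR
  set X₀ : TSeg :=
    { root := R, T := segPiece G.T seg0 R, S := segPiece G.S seg0 R, w := G.w, f := G.f, chart := chG,
      cat := fun l c => (L (tupLev u t l c)).ext ((L (tupLev u t l c)).seg R),
      hi := fun l => decide (l ≠ pos4 u ∧ l ≠ pos4 t), K0 := 0 } with hX₀
  have hmem : ∀ l c, (L (tupLev u t l c)).seg R ∈ (L (tupLev u t l c)).roots := fun l c => (hsys.ok _).segm.seg_mem R hRT
  have hle : ∀ l c, R ≤ (L (tupLev u t l c)).seg R := fun l c => (hsys.ok _).segm.le_seg R hRT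
  have hlab : ∀ l c I, ∀ Φ ∈ X₀.cat l c I, Φ.lab ∈ Set.range (levLab (tupLev u t l c)) := fun l c I Φ hΦ =>
    (hsys.ok _).lab _ (hmem l c) I Φ hΦ
  have hnz : ∀ l c I, ∀ Φ ∈ X₀.cat l c I, tupLev u t l c ≠ 0 := by
    intro l c I Φ hΦ h0
    have : X₀.cat l c I = ∅ := by
      show (L (tupLev u t l c)).ext ((L (tupLev u t l c)).seg R) I = ∅
      rw [h0, hsys.zero]; rfl
    rw [this] at hΦ
    exact absurd hΦ (Finset.notMem_empty _)
  have hvalid : X₀.Valid c0 C0 q Dold := by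
    refine ⟨s5s_piece_tree hG.tree hs0 hR, s5s_piece_mono hG.S_sub _ _, fun I hI => hG.adm I (s5s_piece_sub _ _ _ hI),
      hG.f_cs, fun l I hI => hG.f_norm l I (s5s_piece_sub _ _ _ hI), ?_, ?_, ?_, s5l_hi_card h12⟩
    · exact fun l c => s5r_inh_sub _ _ (hle l c) _ ((hsys.ok _).inh _ (hmem l c))
    · intro l c
      exact s5r_bud_mono _ _ _ _ _ (s5t_bud_congr (s5r_bud_sub _ _ (hle l c) _ _ _ ((hsys.ok _).bud _ (hmem l c)))
        (fun I Φ hΦ => hchG _ _ (hlab l c I Φ hΦ))) (hDold _ (s5l_tupLev_le hut l c))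
    · intro l c I l' c' I' Φ hΦ Φ' hΦ' hl
      have e : tupLev u t l c = tupLev u t l' c' := s5l_levLab_ne (hlab l c I Φ hΦ) (hl ▸ hlab l' c' I' Φ' hΦ')
      have hll : l = l' := by
        rw [← s5l_tupLev_pos4 (hnz l c I Φ hΦ), ← s5l_tupLev_pos4 (hnz l' c' I' Φ' hΦ'), e]
      subst hll
      have hcc : c = c' := by
        by_contra hne
        have h01 : tupLev u t l 0 = tupLev u t l 1 := by
          fin_cases c <;> fin_cases c' <;> first | exact absurd rfl hne | exact e | exact e.symm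
        have h0 := s5l_tupLev_ne hu hut h01
        fin_cases c
        · exact hnz l 0 I Φ hΦ h0
        · exact hnz l 1 I Φ hΦ (h01 ▸ h0)
      subst hcc
      exact ⟨((hsys.ok _).inh _ (hmem l c)).lab I I' Φ hΦ Φ' hΦ' hl, rfl, rfl⟩
  have hav : ∀ l c, FullAv X₀.root (X₀.cat l c) := fun l c I Φ hΦ I' hI' hb =>
    (hsys.ok _).av _ (hmem l c) I Φ hΦ I' (hI'.trans (hle l c)) hb
  have hempty : ∀ l, l ≠ pos4 u → l ≠ pos4 t → ∀ I, X₀.cat l 0 I = ∅ := by
    intro l h1 h2 I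
    show (L (tupLev u t l 0)).ext ((L (tupLev u t l 0)).seg R) I = ∅
    have : tupLev u t l 0 = 0 := by simp [tupLev, h1, h2]
    rw [this, hsys.zero]; rfl
  have hold : X₀.Old (pos4 u) (pos4 t) a b (levLab 0) := by
    refine ⟨⟨⟨h12, h13, h14, h23, h24, h34⟩, ?_, ?_, ?_, ?_⟩, hempty a h13.symm h23.symm, hempty b h14.symm h24.symm,
      hav _, hav _, ?_, s5l_levLab_inj 0⟩
    · simp [hX₀]
    · simp [hX₀]
    · simp [hX₀, h13.symm, h23.symm]
    · simp [hX₀, h14.symm, h24.symm]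
    · intro l c I Φ hΦ h0
      exact hnz l c I Φ hΦ (s5l_levLab_ne (hlab l c I Φ hΦ) h0)
  have hlink : ∀ I ∈ X₀.T, ∀ l c, X₀.cur l c I = levG G L (tupLev u t l c) I := by
    intro I hI l c
    obtain ⟨hIT, hIR⟩ := s5s_mem_piece.1 hI
    rw [← s5l_g_eq hsys (fun h => s5l_tupLev_pos4 h) I]
    show cproj ((L (tupLev u t l c)).ext ((L (tupLev u t l c)).seg R) I) I (ofScalar (G.f l)) = _
    unfold LevData.g
    rw [hconst (l, c) (Finset.mem_univ _) I hIT, hIR]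
    rfl
  have hmain := hfin X₀ hvalid hold (s5s_piece_sub _ _ _) (s5s_piece_sub _ _ _) rfl rfl hlink
  refine le_trans (le_of_eq ?_) hmain
  refine Finset.sum_congr rfl fun I hI => ?_
  have hIT : I ∈ X₀.T := hvalid.S_sub hI
  have : (xarg (fun l => restr I.set (G.F l)) (fun s => levG G L s I) u t) = fun l => X₀.Xv l I := by
    funext l
    unfold xarg
    by_cases h1 : l = pos4 u
    · rw [if_pos h1, s5t_Xv_lo X₀ (by simp [hX₀, h1])]
      unfold TSeg.Bv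
      rw [hlink I hIT, hlink I hIT]
      simp [tupLev, h1]
    · by_cases h2 : l = pos4 t
      · rw [if_neg h1, if_pos h2, s5t_Xv_lo X₀ (by simp [hX₀, h2])]
        unfold TSeg.Bv
        rw [hlink I hIT, hlink I hIT]
        simp [tupLev, h2, h12.symm]
      · rw [if_neg h1, if_neg h2, s5t_Xv_hi X₀ (by simp [hX₀, h1, h2]), hlink I hIT]
        simp [tupLev, h1, h2]
        rfl
  rw [this]

end Claimed.Agent.R258
end

/- ===== packed: Claimed.Agent.R258.S5.Pairs ===== -/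
section
/-
Row 258, Secs. 5.3-5.4 (second halves of Lemma 5.5 and Prop. 5.6), architect helper182.   PAIR SMALLNESS OF THE FULL `Y` ARGUMENTS ON A FINAL SEGMENT, `t ≥ 12`.
Hypotheses on the level sequences: `δ` antitone and nonnegative, `1 ≤ Dl`, STAGGER `δ h * (Dl ℓ)² ≤ δ (h-1)` for `ℓ < h`; on the two new fits: `δb ≤ δa ≤ δ (t+1)`, `δb * Sa ≤ δa` where
`Sa = √Da Da 2^{K0/2}` is the size of the first new approximant; `72 δ (t-7) ≤ η`.
-/
set_option autoImplicit false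
open MeasureTheory

namespace Claimed.Agent.R258

/-- size of the approximant of a level (all levels, also the trivial one) -/
theorem s5l_lq_old {c0 C0 q : ℝ} (hq : 2 < q) {G : GTree} (hG : G.Valid c0 C0 q) {L : ℕ → LevData} {Dl δ : ℕ → ℝ}
    (hsys : LevSys G q L Dl δ) (hDl : ∀ s, 1 ≤ Dl s) (s : ℕ) {I : Cell} (hI : I ∈ G.T) :
    LqLe q I (levG G L s I) ((Dl s) ^ 2) := by
  have hok := hsys.ok s
  have hR := hok.segm.seg_mem I hI
  have hle := hok.segm.le_seg I hI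
  have hD0 : 0 < Dl s := by linarith [hDl s]
  have hb := hok.bud _ hR
  have hi := hok.inh _ hR
  have hreg := s5r_reg_of_bud _ _ _ _ hb hD0
  have h := s5r_lq_cproj q (by linarith) ((L s).ext ((L s).seg I) I) I (fun Φ hΦ Φ' hΦ' => hi.lab I I Φ hΦ Φ' hΦ')
    (hreg.meas I) (hreg.bdd I) (Dl s) (fun Φ hΦ => ⟨(hreg.eps I Φ hΦ).1, (hb.eps I Φ hΦ).1⟩) hD0 (G.F (pos4 s))
  refine s5c_lq_mono h ?_
  have hc : (((L s).ext ((L s).seg I) I).card : ℝ) ≤ Dl s := s5t_card_le hi hb hle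
  have h1 : Real.sqrt (((L s).ext ((L s).seg I) I).card : ℝ) ≤ Dl s := by
    refine (Real.sqrt_le_sqrt hc).trans ?_
    rw [Real.sqrt_le_left hD0.le]
    nlinarith [hDl s]
  have h2 := s5l_n2_F hq hG (pos4 s) hI
  have h3 := s5f_n2_nonneg I (G.F (pos4 s))
  calc Real.sqrt (((L s).ext ((L s).seg I) I).card : ℝ) * Dl s * n2 I (G.F (pos4 s))
      ≤ Dl s * Dl s * 1 := by
        apply mul_le_mul (mul_le_mul_of_nonneg_right h1 hD0.le) h2 h3 (by positivity)
    _ = Dl s ^ 2 := by ring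

theorem s5l_appr_old {c0 C0 q : ℝ} (hq : 2 < q) {G : GTree} (hG : G.Valid c0 C0 q) {L : ℕ → LevData} {Dl δ : ℕ → ℝ}
    (hsys : LevSys G q L Dl δ) (hDl : ∀ s, 1 ≤ Dl s) {s : ℕ} (hs : 1 ≤ s) {I : Cell} (hI : I ∈ G.S) :
    Appr q I (G.w I) (pos4 s) (G.F (pos4 s)) (levG G L s I) (δ s) ((Dl s) ^ 2) := by
  have h := s5l_lq_old hq hG hsys hDl s (hG.S_sub hI)
  exact ⟨hsys.acc s hs I hI, h.mem, h.size⟩

/-- the size of a delayed approximant -/
noncomputable def newSz (D : ℝ) (K0 : ℕ) : ℝ := Real.sqrt D * D * (2 : ℝ) ^ ((K0 : ℝ) / 2)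

theorem s5l_appr_new {c0 C0 q D₁ : ℝ} (hq : 2 < q) {X : TSeg} (hv : X.Valid c0 C0 q D₁) (l : Fin 4) {D δ' : ℝ} (hD : 0 < D)
    (hb : Bud X.root (X.cat l 0) X.chart D) {I : Cell} (hI : I ∈ X.S)
    (hs : DSmall q I (X.w I) l (restr I.set (X.F l) - dproj (X.cat l 0) I X.K0 (X.F l)) δ') :
    Appr q I (X.w I) l (X.F l) (dproj (X.cat l 0) I X.K0 (X.F l)) δ' (newSz D X.K0) := by
  have hIT := hv.S_sub hI
  have hIr := hv.tree.le_root I hIT
  have hi := hv.inh l 0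
  have h := s5r_lq_dproj q (by linarith) (X.cat l 0) I X.K0 (fun Q _ Φ hΦ Φ' hΦ' => hi.lab Q Q Φ hΦ Φ' hΦ')
    (s5r_reg_of_bud _ _ _ _ hb hD) D hD (fun Q _ Φ hΦ => (hb.eps Q Φ hΦ).1)
    (fun Q hQ => s5t_card_le hi hb ((cell_mem_cellsAt'.1 hQ).1.trans hIr)) (X.F l)
  have h2 := s5t_n2_F hq hv l hIT
  have h' : LqLe q I (dproj (X.cat l 0) I X.K0 (X.F l)) (newSz D X.K0) := by
    refine s5c_lq_mono h ?_
    unfold newSz
    exact mul_le_of_le_one_right (by positivity) h2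
  exact ⟨hs, h'.mem, h'.size⟩

theorem s5l_pos4_ne {u t : ℕ} (h : pos4 u ≠ pos4 t) (ht : 4 ≤ t) : u ≠ t - 4 := by
  intro e
  apply h
  unfold pos4
  apply Fin.ext
  simp only
  omega

theorem s5l_pairs (c0 C0 q : ℝ) (hc0 : 0 < c0) (hq : 2 < q) (G : GTree) (hG : G.Valid c0 C0 q) (L : ℕ → LevData)
    (Dl δ : ℕ → ℝ) (hsys : LevSys G q L Dl δ) (hDl : ∀ s, 1 ≤ Dl s) (hδ0 : ∀ s, 0 ≤ δ s) (hδm : Antitone δ)
    (hst : ∀ x y : ℕ, x < y → δ y * (Dl x) ^ 2 ≤ δ (y - 1))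
    (u t : ℕ) (hu : 1 ≤ u) (hut : u < t) (ht : 12 ≤ t) (a b : Fin 4)
    (X₀ X : TSeg) (D₁ Da δa δb η : ℝ) (hS₀ : X₀.S ⊆ G.S) (hST₀ : X₀.S ⊆ X₀.T) (hw₀ : X₀.w = G.w) (hf₀ : X₀.f = G.f)
    (hsl : X₀.Slots (pos4 u) (pos4 t) a b)
    (hlink : ∀ I ∈ X₀.T, ∀ l c, X₀.cur l c I = levG G L (tupLev u t l c) I)
    (hv : X.Valid c0 C0 q D₁) (hr : X.Refines X₀ a b) (hD₁ : 0 < D₁) (hDa : 0 < Da)
    (hBa : Bud X.root (X.cat a 0) X.chart Da)
    (hsa : ∀ I ∈ X.S, DSmall q I (X.w I) a (restr I.set (X.F a) - dproj (X.cat a 0) I X.K0 (X.F a)) δa)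
    (hsb : ∀ I ∈ X.S, DSmall q I (X.w I) b (restr I.set (X.F b) - dproj (X.cat b 0) I X.K0 (X.F b)) δb)
    (hδa : δa ≤ δ (t + 1)) (hδb0 : 0 ≤ δb) (hδba : δb ≤ δa) (hdom : δb * newSz Da X.K0 ≤ δa)
    (hη : 72 * δ (t - 7) ≤ η) :
    ∀ I ∈ X.S, ∀ l l' : Fin 4, l ≠ l' → PairSmall I (X.w I) l l' (X.Yv l I) (X.Yv l' I) (η / 9) := by
  intro I hI
  have hI₀ : I ∈ X₀.S := hr.S_sub hI
  have hIG : I ∈ G.S := hS₀ hI₀
  have hIT₀ : I ∈ X₀.T := hST₀ hI₀
  have hw : X.w I = G.w I := by rw [hr.w_eq, hw₀]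
  have hF : ∀ l, X.F l = G.F l := fun l => by unfold TSeg.F GTree.F; rw [hr.f_eq, hf₀]
  have hF₀ : ∀ l, X.F l = X₀.F l := fun l => by unfold TSeg.F; rw [hr.f_eq]
  have hadm : Admissible c0 C0 I (X.w I) := hv.adm I hI
  have hq1 : 1 ≤ q := by linarith
  obtain ⟨h12, h13, h14, h23, h24, h34⟩ := hsl.slots
  have hhi : ∀ l, X.hi l = X₀.hi l := fun l => by rw [hr.hi_eq]
  set dl : ℕ → ℝ := fun r => if r ≤ t then δ r else if r = t + 1 then δa else δb with hdl
  set sz : ℕ → ℝ := fun r => if r ≤ t then (Dl r) ^ 2 else if r = t + 1 then newSz Da X.K0 else newSz D₁ X.K0 with hsz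
  have hdl_old : ∀ r, r ≤ t → dl r = δ r := fun r h => by simp [hdl, h]
  have hsz_old : ∀ r, r ≤ t → sz r = (Dl r) ^ 2 := fun r h => by simp [hsz, h]
  have hdl_a : dl (t + 1) = δa := by simp [hdl]
  have hsz_a : sz (t + 1) = newSz Da X.K0 := by simp [hsz]
  have hdl_b : dl (t + 2) = δb := by simp [hdl]
  have hsz_b : sz (t + 2) = newSz D₁ X.K0 := by simp [hsz]
  have hδa0 : 0 ≤ δa := hδb0.trans hδba
  have hdl0 : ∀ r, 0 ≤ dl r := by
    intro r
    simp only [hdl]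
    split_ifs
    · exact hδ0 r
    · exact hδa0
    · exact hδb0
  -- old approximants
  have hcur : ∀ l c, ¬ (c = 0 ∧ (l = a ∨ l = b)) → X.cur l c I = levG G L (tupLev u t l c) I := by
    intro l c h
    rw [← hlink I hIT₀ l c]
    unfold TSeg.cur
    rw [hr.cat_eq l c h, hF₀]
  have hold : ∀ s l, 1 ≤ s → s ≤ t → pos4 s = l → Appr q I (X.w I) l (X.F l) (levG G L s I) (dl s) (sz s) := by
    intro s l h1 h2 h3
    have := s5l_appr_old hq hG hsys hDl h1 hIG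
    rw [h3] at this
    rw [hw, hF, hdl_old s h2, hsz_old s h2]
    exact this
  have holdlq : ∀ s, s ≤ t → LqLe q I (levG G L s I) (sz s) := by
    intro s h2
    rw [hsz_old s h2]
    exact s5l_lq_old hq hG hsys hDl s (hG.S_sub hIG)
  have hFq : ∀ l, LqLe q I (restr I.set (X.F l)) 1 := fun l =>
    s5c_lq_mono (s5r_lq_scalar q hq1 I (X.f l) (hv.f_cs l)) (hv.f_norm l I (hv.S_sub hI))
  -- the ladder inequalities
  set ε₀ : ℝ := 2 * δ (t - 7) with hε₀
  have hmono : ∀ x, t - 7 ≤ x → δ x ≤ δ (t - 7) := fun x hx => hδm hx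
  have hDl2 : ∀ x, 0 ≤ (Dl x) ^ 2 := fun x => sq_nonneg _
  have hnew : ∀ x, x ≤ t → δ (t + 1) * (Dl x) ^ 2 ≤ δ t := fun x hx => by
    have := hst x (t + 1) (by omega)
    simpa using this
  have hC1 : ∀ x y : ℕ, t - 7 ≤ x → x < y → y ≤ t + 2 → dl y * sz x + dl x ≤ ε₀ := by
    intro x y hx hxy hy
    have hm7 := hmono x hx
    have hmt := hmono t (by omega)
    by_cases hyt : y ≤ t
    · rw [hdl_old y hyt, hdl_old x (by omega), hsz_old x (by omega)]
      have h1 := hst x y hxy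
      have h2 := hmono (y - 1) (by omega)
      linarith
    · by_cases hxt : x ≤ t
      · rw [hdl_old x hxt, hsz_old x hxt]
        have h1 := hnew x hxt
        have h2 : dl y ≤ δ (t + 1) := by
          have : y = t + 1 ∨ y = t + 2 := by omega
          rcases this with rfl | rfl
          · rw [hdl_a]; exact hδa
          · rw [hdl_b]; exact hδba.trans hδa
        have h3 := mul_le_mul_of_nonneg_right h2 (hDl2 x)
        linarith
      · have hx1 : x = t + 1 := by omega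
        have hy2 : y = t + 2 := by omega
        subst hx1; subst hy2
        rw [hdl_b, hsz_a, hdl_a]
        have := hmono (t + 1) (by omega)
        linarith
  have hC2 : ∀ x y : ℕ, x + 5 ≤ t → t - 4 ≤ y → y ≤ t + 2 → sz x * dl y ≤ ε₀ := by
    intro x y hx hy1 hy2
    rw [hsz_old x (by omega), mul_comm]
    have h7 := hδ0 (t - 7)
    by_cases hyt : y ≤ t
    · rw [hdl_old y hyt]
      have h1 := hst x y (by omega)
      have h2 := hmono (y - 1) (by omega)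
      linarith
    · have h1 := hnew x (by omega)
      have h2 : dl y ≤ δ (t + 1) := by
        have : y = t + 1 ∨ y = t + 2 := by omega
        rcases this with rfl | rfl
        · rw [hdl_a]; exact hδa
        · rw [hdl_b]; exact hδba.trans hδa
      have h3 := mul_le_mul_of_nonneg_right h2 (hDl2 x)
      have hmt := hmono t (by omega)
      linarith
  -- the data of the four slots
  have hslot : ∀ l, ∃ (g : Fin 2 → XV) (r : Fin 2 → ℕ), X.Yv l I = g 0 - g 1 ∧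
      (∀ c, 1 ≤ r c → Appr q I (X.w I) l (X.F l) (g c) (dl (r c)) (sz (r c))) ∧
      (∀ c, r c ≤ t → LqLe q I (g c) (sz (r c))) ∧
      (∀ c, (r c ≤ t → r c ≠ 0 → pos4 (r c) = l) ∧ (r c = t + 1 → l = a) ∧ (r c = t + 2 → l = b) ∧ r c ≤ t + 2) ∧
      (l ≠ pos4 u → ∀ c, t - 4 ≤ r c) ∧ (l = pos4 u → r 0 = u ∧ r 1 = lastLev l (u - 1)) := by
    intro l
    have hll := s5x_lastLev_le l (t - 1)
    have hlg := s5x_lastLev_gt l (t - 1) (by omega)
    have hlp := s5x_lastLev_pos4 l (t - 1)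
    rcases s5b_slot_cases hsl.slots l with rfl | rfl | rfl | rfl
    · -- the early low slot
      have hlu := s5x_lastLev_le (pos4 u) (u - 1)
      refine ⟨![levG G L u I, levG G L (lastLev (pos4 u) (u - 1)) I], ![u, lastLev (pos4 u) (u - 1)], ?_, ?_, ?_, ?_, ?_, ?_⟩
      · rw [s5t_Yv_lo X (by rw [hhi]; exact hsl.hi_i)]
        unfold TSeg.Bv
        rw [hcur _ 0 (by simp [h13, h14]), hcur _ 1 (by simp)]
        simp [tupLev]
      · intro c hc
        fin_cases c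
        · exact hold u _ hu hut.le rfl
        · have hc' : 1 ≤ lastLev (pos4 u) (u - 1) := hc
          exact hold (lastLev (pos4 u) (u - 1)) _ hc' (by omega) (s5x_lastLev_pos4 _ _ (by omega))
      · intro c hc
        fin_cases c
        · exact holdlq u hut.le
        · exact holdlq _ hc
      · intro c
        fin_cases c
        · simp; omega
        · refine ⟨fun _ h => s5x_lastLev_pos4 _ _ h, ?_, ?_, ?_⟩ <;> simp <;> omega
      · exact fun h => absurd rfl h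
      · exact fun _ => ⟨rfl, rfl⟩
    · -- the late low slot
      refine ⟨![levG G L t I, levG G L (lastLev (pos4 t) (t - 1)) I], ![t, lastLev (pos4 t) (t - 1)], ?_, ?_, ?_, ?_, ?_, ?_⟩
      · rw [s5t_Yv_lo X (by rw [hhi]; exact hsl.hi_j)]
        unfold TSeg.Bv
        rw [hcur _ 0 (by simp [h23, h24]), hcur _ 1 (by simp)]
        simp [tupLev, h12.symm]
      · intro c hc
        fin_cases c
        · exact hold t _ (by omega) le_rfl rfl
        · exact hold (lastLev (pos4 t) (t - 1)) _ (by omega) (by omega) (hlp (by omega))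
      · intro c hc
        fin_cases c
        · exact holdlq t le_rfl
        · exact holdlq _ hc
      · intro c
        fin_cases c
        · simp
        · refine ⟨fun _ h => hlp h, ?_, ?_, ?_⟩ <;> simp <;> omega
      · intro _ c
        fin_cases c
        · simp
        · simp; omega
      · exact fun h => absurd h.symm h12
    · -- the first high slot
      refine ⟨![dproj (X.cat l 0) I X.K0 (X.F l), levG G L (lastLev l (t - 1)) I], ![t + 1, lastLev l (t - 1)],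
        ?_, ?_, ?_, ?_, ?_, ?_⟩
      · rw [s5t_Yv_hi X (by rw [hhi]; exact hsl.hi_a), hcur _ 1 (by simp)]
        simp [tupLev, h13.symm, h23.symm]
      · intro c hc
        fin_cases c
        · show Appr q I (X.w I) l (X.F l) _ (dl (t + 1)) (sz (t + 1))
          rw [hdl_a, hsz_a]
          exact s5l_appr_new hq hv l hDa hBa hI (hsa I hI)
        · exact hold (lastLev l (t - 1)) _ (by omega) (by omega) (hlp (by omega))
      · intro c hc
        fin_cases c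
        · simp at hc
        · exact holdlq _ hc
      · intro c
        fin_cases c
        · simp
        · refine ⟨fun _ h => hlp h, ?_, ?_, ?_⟩ <;> simp <;> omega
      · intro _ c
        fin_cases c
        · simp; omega
        · simp; omega
      · exact fun h => absurd h.symm h13
    · -- the second high slot
      refine ⟨![dproj (X.cat l 0) I X.K0 (X.F l), levG G L (lastLev l (t - 1)) I], ![t + 2, lastLev l (t - 1)],
        ?_, ?_, ?_, ?_, ?_, ?_⟩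
      · rw [s5t_Yv_hi X (by rw [hhi]; exact hsl.hi_b), hcur _ 1 (by simp)]
        simp [tupLev, h14.symm, h24.symm]
      · intro c hc
        fin_cases c
        · show Appr q I (X.w I) l (X.F l) _ (dl (t + 2)) (sz (t + 2))
          rw [hdl_b, hsz_b]
          exact s5l_appr_new hq hv l hD₁ (hv.bud l 0) hI (hsb I hI)
        · exact hold (lastLev l (t - 1)) _ (by omega) (by omega) (hlp (by omega))
      · intro c hc
        fin_cases c
        · simp at hc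
        · exact holdlq _ hc
      · intro c
        fin_cases c
        · simp
        · refine ⟨fun _ h => hlp h, ?_, ?_, ?_⟩ <;> simp <;> omega
      · intro _ c
        fin_cases c
        · simp; omega
        · simp; omega
      · exact fun h => absurd h.symm h14
  have hfinal : 4 * ε₀ ≤ η / 9 := by rw [hε₀]; linarith
  -- the main case distinction
  have key : ∀ l l' : Fin 4, l ≠ l' → l' ≠ pos4 u → PairSmall I (X.w I) l l' (X.Yv l I) (X.Yv l' I) (4 * ε₀) := by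
    intro l l' hll hl'
    obtain ⟨g, r, hY, hA, hLq, hRS, hrg, hru⟩ := hslot l
    obtain ⟨g', r', hY', hA', _, hRS', hrg', _⟩ := hslot l'
    have hr'4 := hrg' hl'
    rw [hY, hY']
    have hne : ∀ c c', 1 ≤ r c → r c ≠ r' c' := by
      intro c c' h1 e
      obtain ⟨p1, p2, p3, p4⟩ := hRS c
      obtain ⟨p1', p2', p3', _⟩ := hRS' c'
      have : r c ≤ t ∨ r c = t + 1 ∨ r c = t + 2 := by omega
      rcases this with h | h | h
      · exact hll ((p1 h (by omega)).symm.trans (e ▸ p1' (e ▸ h) (by omega)))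
      · exact hll ((p2 h).trans (p2' (e ▸ h)).symm)
      · exact hll ((p3 h).trans (p3' (e ▸ h)).symm)
    by_cases hnear : l ≠ pos4 u ∨ t ≤ u + 3
    · -- all ranks are at least `t - 7`
      have hr7 : ∀ c, t - 7 ≤ r c := by
        rcases hnear with h | h
        · intro c; have := hrg h c; omega
        · by_cases hl : l = pos4 u
          · obtain ⟨e0, e1⟩ := hru hl
            have e2 : lastLev l (u - 1) = u - 4 := by rw [hl]; exact s5x_lastLev_self u (by omega)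
            intro c
            fin_cases c
            · show t - 7 ≤ r 0
              omega
            · show t - 7 ≤ r 1
              omega
          · intro c; have := hrg hl c; omega
      exact s5c_ladder c0 C0 q hc0 I (X.w I) hadm l l' hll (X.F l) (X.F l') (hFq l) (hFq l') g g' r r' dl sz ε₀ (t - 7) (t + 2)
        (fun c => hA c (by have := hr7 c; omega)) (fun c => hA' c (by have := hr'4 c; omega)) hdl0
        (fun c c' => hne c c' (by have := hr7 c; omega)) (fun c => ⟨hr7 c, (hRS c).2.2.2⟩)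
        (fun c => ⟨by have := hr'4 c; omega, (hRS' c).2.2.2⟩) hC1
    · -- the early slot is much earlier
      push Not at hnear
      obtain ⟨hl, hfar⟩ := hnear
      obtain ⟨e0, e1⟩ := hru hl
      have hu4 : u ≠ t - 4 := s5l_pos4_ne h12 (by omega)
      have hlu := s5x_lastLev_le l (u - 1)
      have hr0 : r 0 + 5 ≤ t := by omega
      have hr1 : r 1 + 5 ≤ t := by omega
      exact s5c_ladder_far c0 C0 q hc0 hq1 I (X.w I) hadm l l' hll (X.F l') (g 0) (g 1) (sz (r 0)) (sz (r 1))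
        (hLq 0 (by omega)) (hLq 1 (by omega)) g' (fun c => dl (r' c)) (fun c => sz (r' c))
        (fun c => hA' c (by have := hr'4 c; omega)) (fun c => hdl0 _) ε₀
        (fun c => ⟨hC2 _ _ hr0 (hr'4 c) (hRS' c).2.2.2, hC2 _ _ hr1 (hr'4 c) (hRS' c).2.2.2⟩)
  intro l l' hll
  by_cases hl' : l' = pos4 u
  · have hl : l ≠ pos4 u := fun e => hll (e.trans hl'.symm)
    exact s5c_pair_mono (s5c_pair_symm (key l' l hll.symm hl)) hfinal
  · exact s5c_pair_mono (key l l' hll hl') hfinal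

end Claimed.Agent.R258
end
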