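/- Packed by merge_tool.py (helper293): 6 modules of Claimed.Agent.R258 in one file, same declarations.
   Old modules, in this order: S7b.Disc, U3.Lin.Ext2, U3.StepA, U3.Lin.Ext1, U3.Lin.Main, U3.Fin -/
import Claimed.Agent.R258.S7b.Main
import Mathlib
import Claimed.Agent.R258.Pack018
import Claimed.Agent.R258.Pack022

/- ===== packed: Claimed.Agent.R258.S7b.Disc ===== -/
section
/-
Row 258, block [S7b] (architect: helper243).  FILE Disc: THE DISCRETE CORE `sb_disc` (assembly; no leaves in this file).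
-/
set_option autoImplicit false
open MeasureTheory
open scoped ENNReal

namespace Claimed.Agent.R258

/-- the sampled form in terms of the form of the bursts. -/
theorem sb_samp_le {c0 C0 : ℝ} {I : Cell} {w : ℝ × ℝ → ℂ} (hw : Admissible c0 C0 I w) (hC0 : 1 ≤ C0) (b0 : ℕ) (hb0 : 4 ≤ c0 * 2 ^ b0) (t : ℤ)
    (hI : I.depth < t) (Nall : Finset ℤ) (c : Fin 4 → ℤ → ℂ) (hc : ∀ j n, n ∉ Nall → c j n = 0) :
    ‖sbSamp (t + b0) I w c‖ ≤ 4096 * (‖form I w (fun j => sbBurst (t + b0) Nall (c j))‖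
      + sbB1 C0 * (sbDel (t + b0) / I.len) * sbAbs (t + b0) I (fun j n => ‖c j n‖)) := by
  have h1 := sb_burst_form hw hC0 b0 hb0 t hI Nall c hc
  have h2 := (sb_ar_bounds (t + b0)).1
  set X := form I w (fun j => sbBurst (t + b0) Nall (c j))
  set Y := sbSamp (t + b0) I w c
  set R := sbB1 C0 * (sbDel (t + b0) / I.len) * sbAbs (t + b0) I (fun j n => ‖c j n‖)
  have h3 : ‖(sbAr (t + b0) : ℂ) * Y‖ ≤ ‖X‖ + R := by
    have : ‖(sbAr (t + b0) : ℂ) * Y‖ ≤ ‖X‖ + ‖X - (sbAr (t + b0) : ℂ) * Y‖ := by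
      have := norm_sub_le X (X - (sbAr (t + b0) : ℂ) * Y)
      simpa using this
    linarith
  rw [norm_mul, Complex.norm_real, Real.norm_eq_abs, abs_of_pos (by linarith)] at h3
  have h4 : 0 ≤ ‖Y‖ := norm_nonneg _
  nlinarith

variable {M : ℕ} [NeZero M]

/-- one cell, deterministic. -/
theorem sb_disc_cell {c0 C0 : ℝ} {I : Cell} {w : ℝ × ℝ → ℂ} (hw : Admissible c0 C0 I w) (hC0 : 1 ≤ C0) (b0 : ℕ) (hb0 : 4 ≤ c0 * 2 ^ b0) (t : ℤ)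
    (hI : I.depth < t) (hp : M.Prime) (hM : 3 < M) (a : Fin 4) (A : ℝ) (hA : 0 < A) (Nall : Finset ℤ) (F : Fin 4 → ℤ → ZMod M → ℂ)
    (hF : ∀ j n, n ∉ Nall → F j n = 0) :
    ‖sbDisc (t + b0) M I w F‖ ≤ (M : ℝ)⁻¹ * ∑ γ : ZMod M,
      (4096 * (((M : ℝ) ^ 2)⁻¹ * ∑ u : ZMod M, ∑ v : ZMod M,
          ‖form I w (fun j => sbBurst (t + b0) Nall (fun n => sbG a A γ F j n (sbAp u v j)))‖)
        + 4096 * (sbB1 C0 * (sbDel (t + b0) / I.len) * ∏ j : Fin 4, Real.sqrt (sbLoc (t + b0) I (fun n => sbFp 2 (F j n))))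
        + sbB0 C0 / A * (sbLoc (t + b0) I (fun n => sbFp 2 (F a n)) *
          ∏ j ∈ Finset.univ.erase a, (sbLoc (t + b0) I (fun n => sbFp 4 (sbG0 γ F j n))) ^ (1 / 4 : ℝ))) := by
  have hM0 : (0 : ℝ) < M := by exact_mod_cast (NeZero.pos M)
  have hB1 : 0 ≤ sbB1 C0 := by linarith [sb_B1_one_le C0 hC0]
  have hdl : 0 ≤ sbDel (t + b0) / I.len := div_nonneg (sb_del_pos _).le (by unfold Cell.len; positivity)
  -- per `γ`
  have key : ∀ γ : ZMod M, ‖sbDisc (t + b0) M I w F‖ ≤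
      (4096 * (((M : ℝ) ^ 2)⁻¹ * ∑ u : ZMod M, ∑ v : ZMod M,
          ‖form I w (fun j => sbBurst (t + b0) Nall (fun n => sbG a A γ F j n (sbAp u v j)))‖)
        + 4096 * (sbB1 C0 * (sbDel (t + b0) / I.len) * ∏ j : Fin 4, Real.sqrt (sbLoc (t + b0) I (fun n => sbFp 2 (F j n))))
        + sbB0 C0 / A * (sbLoc (t + b0) I (fun n => sbFp 2 (F a n)) *
          ∏ j ∈ Finset.univ.erase a, (sbLoc (t + b0) I (fun n => sbFp 4 (sbG0 γ F j n))) ^ (1 / 4 : ℝ))) := by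
    intro γ
    have e1 := sb_disc_invariant hp hM (t + b0) I w γ F
    have e2 := sb_disc_clip hw hC0 b0 hb0 t hI hp hM a A hA γ F
    have e3 : ‖sbDisc (t + b0) M I w (sbG a A γ F)‖ ≤
        4096 * (((M : ℝ) ^ 2)⁻¹ * ∑ u : ZMod M, ∑ v : ZMod M,
          ‖form I w (fun j => sbBurst (t + b0) Nall (fun n => sbG a A γ F j n (sbAp u v j)))‖)
        + 4096 * (sbB1 C0 * (sbDel (t + b0) / I.len) * ∏ j : Fin 4, Real.sqrt (sbLoc (t + b0) I (fun n => sbFp 2 (F j n)))) := by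
      have s1 : ‖sbDisc (t + b0) M I w (sbG a A γ F)‖ ≤ ((M : ℝ) ^ 2)⁻¹ * ∑ u : ZMod M, ∑ v : ZMod M,
          ‖sbSamp (t + b0) I w (fun j n => sbG a A γ F j n (sbAp u v j))‖ := by
        unfold sbDisc
        rw [norm_mul, Complex.norm_real, Real.norm_eq_abs, abs_of_nonneg (by positivity)]
        refine mul_le_mul_of_nonneg_left ?_ (by positivity)
        refine (norm_sum_le _ _).trans (Finset.sum_le_sum fun u _ => norm_sum_le _ _)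
      have s2 : ∀ u v : ZMod M, ‖sbSamp (t + b0) I w (fun j n => sbG a A γ F j n (sbAp u v j))‖ ≤
          4096 * (‖form I w (fun j => sbBurst (t + b0) Nall (fun n => sbG a A γ F j n (sbAp u v j)))‖
            + sbB1 C0 * (sbDel (t + b0) / I.len) * sbAbs (t + b0) I (fun j n => ‖sbG a A γ F j n (sbAp u v j)‖)) := by
        intro u v
        exact sb_samp_le hw hC0 b0 hb0 t hI Nall (fun j n => sbG a A γ F j n (sbAp u v j))
          (fun j n hn => by rw [sb_G_supp a A γ F j n (hF j n hn)]; rfl)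
      have s3 := sb_abs_avg2 (t + b0) I (sbG a A γ F)
      have s4 : ∏ j : Fin 4, Real.sqrt (sbLoc (t + b0) I (fun n => sbFp 2 (sbG a A γ F j n)))
          ≤ ∏ j : Fin 4, Real.sqrt (sbLoc (t + b0) I (fun n => sbFp 2 (F j n))) := by
        refine Finset.prod_le_prod (fun j _ => Real.sqrt_nonneg _) (fun j _ => Real.sqrt_le_sqrt ?_)
        unfold sbLoc
        exact mul_le_mul_of_nonneg_left (Finset.sum_le_sum fun n _ => sb_G_fp2_le a A hA.le γ F j n) hdl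
      have s5 : ((M : ℝ) ^ 2)⁻¹ * ∑ u : ZMod M, ∑ v : ZMod M,
          ‖sbSamp (t + b0) I w (fun j n => sbG a A γ F j n (sbAp u v j))‖ ≤
          ((M : ℝ) ^ 2)⁻¹ * ∑ u : ZMod M, ∑ v : ZMod M,
          4096 * (‖form I w (fun j => sbBurst (t + b0) Nall (fun n => sbG a A γ F j n (sbAp u v j)))‖
            + sbB1 C0 * (sbDel (t + b0) / I.len) * sbAbs (t + b0) I (fun j n => ‖sbG a A γ F j n (sbAp u v j)‖)) :=
        mul_le_mul_of_nonneg_left (Finset.sum_le_sum fun u _ => Finset.sum_le_sum fun v _ => s2 u v) (by positivity)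
      have s6 : ((M : ℝ) ^ 2)⁻¹ * ∑ u : ZMod M, ∑ v : ZMod M,
          4096 * (‖form I w (fun j => sbBurst (t + b0) Nall (fun n => sbG a A γ F j n (sbAp u v j)))‖
            + sbB1 C0 * (sbDel (t + b0) / I.len) * sbAbs (t + b0) I (fun j n => ‖sbG a A γ F j n (sbAp u v j)‖))
          = 4096 * (((M : ℝ) ^ 2)⁻¹ * ∑ u : ZMod M, ∑ v : ZMod M,
              ‖form I w (fun j => sbBurst (t + b0) Nall (fun n => sbG a A γ F j n (sbAp u v j)))‖)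
            + 4096 * (sbB1 C0 * (sbDel (t + b0) / I.len) * (((M : ℝ) ^ 2)⁻¹ * ∑ u : ZMod M, ∑ v : ZMod M,
              sbAbs (t + b0) I (fun j n => ‖sbG a A γ F j n (sbAp u v j)‖))) := by
        simp only [mul_add, Finset.sum_add_distrib, Finset.mul_sum]
        congr 1
        · refine Finset.sum_congr rfl fun u _ => Finset.sum_congr rfl fun v _ => ?_
          ring
        · refine Finset.sum_congr rfl fun u _ => Finset.sum_congr rfl fun v _ => ?_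
          ring
      have s7 : sbB1 C0 * (sbDel (t + b0) / I.len) * (((M : ℝ) ^ 2)⁻¹ * ∑ u : ZMod M, ∑ v : ZMod M,
              sbAbs (t + b0) I (fun j n => ‖sbG a A γ F j n (sbAp u v j)‖))
          ≤ sbB1 C0 * (sbDel (t + b0) / I.len) * ∏ j : Fin 4, Real.sqrt (sbLoc (t + b0) I (fun n => sbFp 2 (F j n))) :=
        mul_le_mul_of_nonneg_left (s3.trans s4) (mul_nonneg hB1 hdl)
      linarith
    have e4 : ‖sbDisc (t + b0) M I w F‖ ≤ ‖sbDisc (t + b0) M I w (sbG a A γ F)‖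
        + ‖sbDisc (t + b0) M I w (sbG0 γ F) - sbDisc (t + b0) M I w (sbG a A γ F)‖ := by
      rw [← e1]
      have := norm_add_le (sbDisc (t + b0) M I w (sbG a A γ F))
        (sbDisc (t + b0) M I w (sbG0 γ F) - sbDisc (t + b0) M I w (sbG a A γ F))
      simpa using this
    linarith
  have hsum := Finset.sum_le_sum (s := (Finset.univ : Finset (ZMod M))) (fun γ _ => key γ)
  rw [Finset.sum_const, Finset.card_univ, ZMod.card, nsmul_eq_mul] at hsum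
  calc ‖sbDisc (t + b0) M I w F‖ = (M : ℝ)⁻¹ * ((M : ℝ) * ‖sbDisc (t + b0) M I w F‖) := by
        field_simp
    _ ≤ _ := mul_le_mul_of_nonneg_left hsum (by positivity)

theorem sb_ofReal_avg {Ω : Type} [Fintype Ω] (pr : Ω → ℝ) (hpr : ∀ σ, 0 ≤ pr σ) (L : Ω → ZMod M → ZMod M → ZMod M → ℝ)
    (hL : ∀ σ γ u v, 0 ≤ L σ γ u v) :
    ENNReal.ofReal (∑ σ, pr σ * ((M : ℝ)⁻¹ * ∑ γ : ZMod M, (((M : ℝ) ^ 2)⁻¹ * ∑ u : ZMod M, ∑ v : ZMod M, L σ γ u v)))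
      = ∑ ξ : Ω × ZMod M, sbWt pr M ξ * (((M : ℝ≥0∞) ^ 2)⁻¹ * ∑ u : ZMod M, ∑ v : ZMod M, ENNReal.ofReal (L ξ.1 ξ.2 u v)) := by
  have hM0 : (0 : ℝ) < M := by exact_mod_cast (NeZero.pos M)
  have i1 : ENNReal.ofReal ((M : ℝ)⁻¹) = (M : ℝ≥0∞)⁻¹ := by
    rw [ENNReal.ofReal_inv_of_pos hM0, ENNReal.ofReal_natCast]
  have i2 : ENNReal.ofReal (((M : ℝ) ^ 2)⁻¹) = ((M : ℝ≥0∞) ^ 2)⁻¹ := by
    rw [ENNReal.ofReal_inv_of_pos (by positivity), ENNReal.ofReal_pow hM0.le, ENNReal.ofReal_natCast]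
  have n1 : ∀ σ γ, 0 ≤ ∑ u : ZMod M, ∑ v : ZMod M, L σ γ u v :=
    fun σ γ => Finset.sum_nonneg fun u _ => Finset.sum_nonneg fun v _ => hL σ γ u v
  have n2 : ∀ σ γ, 0 ≤ ((M : ℝ) ^ 2)⁻¹ * ∑ u : ZMod M, ∑ v : ZMod M, L σ γ u v :=
    fun σ γ => mul_nonneg (by positivity) (n1 σ γ)
  rw [Fintype.sum_prod_type, ENNReal.ofReal_sum_of_nonneg
    (fun σ _ => mul_nonneg (hpr σ) (mul_nonneg (by positivity) (Finset.sum_nonneg fun γ _ => n2 σ γ)))]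
  refine Finset.sum_congr rfl fun σ _ => ?_
  rw [ENNReal.ofReal_mul (hpr σ), ENNReal.ofReal_mul (by positivity), i1,
    ENNReal.ofReal_sum_of_nonneg (fun γ _ => n2 σ γ), Finset.mul_sum, Finset.mul_sum]
  refine Finset.sum_congr rfl fun γ _ => ?_
  rw [ENNReal.ofReal_mul (by positivity), i2,
    ENNReal.ofReal_sum_of_nonneg (fun u _ => Finset.sum_nonneg fun v _ => hL σ γ u v)]
  unfold sbWt
  simp only
  rw [mul_assoc]
  congr 3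
  refine Finset.sum_congr rfl fun u _ => ?_
  rw [ENNReal.ofReal_sum_of_nonneg (fun v _ => hL σ γ u v)]

/-- the main term, through `LocalBound`. -/
theorem sb_T1 {c0 C0 q : ℝ} {N : ℕ} {CN : ℝ} {s0 : ℤ} (hCN : 0 ≤ CN) (hLB : LocalBound c0 C0 q N CN)
    {t : ℤ} {b0 : ℕ} {S : Finset Cell} {w : Cell → ℝ × ℝ → ℂ} {Ω : Type} [Fintype Ω] {pr : Ω → ℝ}
    {F : Ω → Fin 4 → ℤ → ZMod M → ℂ} {ms : Fin 4 → ℤ → ℝ} {a b : Fin 4} {Cm : ℝ} {Nall : Finset ℤ} {E : Fin 4 → ℝ}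
    (h : SbDiscHyp c0 C0 t b0 S w pr M F ms a b Cm Nall E) (hS : ∀ I ∈ S, s0 ≤ I.depth ∧ I.depth < s0 + N) (A X : ℝ) (hX : 0 ≤ X)
    (hmain : ∑ ξ : Ω × ZMod M, sbWt pr M ξ * (((M : ℝ≥0∞) ^ 2)⁻¹ * ∑ u : ZMod M, ∑ v : ZMod M,
          ∫⁻ y, ∏ j : Fin 4, Mq q (sbBurst (t + b0) Nall (fun n => sbG a A ξ.2 (F ξ.1) j n (sbAp u v j))) y) ≤ ENNReal.ofReal X) :
    ∑ σ, pr σ * ((M : ℝ)⁻¹ * ∑ γ : ZMod M, (((M : ℝ) ^ 2)⁻¹ * ∑ u : ZMod M, ∑ v : ZMod M,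
      ∑ I ∈ S, I.len * ‖form I (w I) (fun j => sbBurst (t + b0) Nall (fun n => sbG a A γ (F σ) j n (sbAp u v j)))‖)) ≤ CN * X := by
  rw [← ENNReal.ofReal_le_ofReal_iff (mul_nonneg hCN hX)]
  rw [sb_ofReal_avg pr h.pr_nonneg _ (fun σ γ u v => Finset.sum_nonneg fun I _ =>
    mul_nonneg (by unfold Cell.len; positivity) (norm_nonneg _))]
  rw [ENNReal.ofReal_mul hCN]
  refine le_trans ?_ (mul_le_mul_right hmain _)
  rw [Finset.mul_sum]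
  refine Finset.sum_le_sum fun ξ _ => ?_
  have key : ∀ u v : ZMod M, ENNReal.ofReal (∑ I ∈ S, I.len *
      ‖form I (w I) (fun j => sbBurst (t + b0) Nall (fun n => sbG a A ξ.2 (F ξ.1) j n (sbAp u v j)))‖)
      ≤ ENNReal.ofReal CN * ∫⁻ y, ∏ j : Fin 4, Mq q (sbBurst (t + b0) Nall (fun n => sbG a A ξ.2 (F ξ.1) j n (sbAp u v j))) y :=
    fun u v => hLB S s0 hS w h.adm _ (fun j => sb_burst_bddCS _ _ _)
  calc _ ≤ sbWt pr M ξ * (((M : ℝ≥0∞) ^ 2)⁻¹ * ∑ u : ZMod M, ∑ v : ZMod M, (ENNReal.ofReal CN *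
        ∫⁻ y, ∏ j : Fin 4, Mq q (sbBurst (t + b0) Nall (fun n => sbG a A ξ.2 (F ξ.1) j n (sbAp u v j))) y)) := by
        gcongr with u _ v _
        exact key u v
    _ = _ := by
        simp only [← Finset.mul_sum]
        ring

theorem sb_avg_split (P R : ZMod M → ℝ) (Q c : ℝ) :
    (M : ℝ)⁻¹ * ∑ γ : ZMod M, (4096 * P γ + 4096 * Q + c * R γ)
      = 4096 * ((M : ℝ)⁻¹ * ∑ γ : ZMod M, P γ) + 4096 * Q + c * ((M : ℝ)⁻¹ * ∑ γ : ZMod M, R γ) := by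
  have hM0 : (M : ℝ) ≠ 0 := by exact_mod_cast (NeZero.ne M)
  rw [Finset.sum_add_distrib, Finset.sum_add_distrib, Finset.sum_const, Finset.card_univ, ZMod.card, nsmul_eq_mul,
    ← Finset.mul_sum, ← Finset.mul_sum]
  field_simp

theorem sb_avg_swap (S : Finset Cell) (len : Cell → ℝ) (f : Cell → ZMod M → ZMod M → ZMod M → ℝ) :
    ∑ I ∈ S, len I * ((M : ℝ)⁻¹ * ∑ γ : ZMod M, (((M : ℝ) ^ 2)⁻¹ * ∑ u : ZMod M, ∑ v : ZMod M, f I γ u v))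
      = (M : ℝ)⁻¹ * ∑ γ : ZMod M, (((M : ℝ) ^ 2)⁻¹ * ∑ u : ZMod M, ∑ v : ZMod M, ∑ I ∈ S, len I * f I γ u v) := by
  have h1 : ∀ γ : ZMod M, ∑ u : ZMod M, ∑ v : ZMod M, ∑ I ∈ S, len I * f I γ u v
      = ∑ I ∈ S, len I * ∑ u : ZMod M, ∑ v : ZMod M, f I γ u v := by
    intro γ
    simp only [Finset.mul_sum]
    calc ∑ u : ZMod M, ∑ v : ZMod M, ∑ I ∈ S, len I * f I γ u v
        = ∑ u : ZMod M, ∑ I ∈ S, ∑ v : ZMod M, len I * f I γ u v :=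
          Finset.sum_congr rfl fun u _ => Finset.sum_comm
      _ = _ := Finset.sum_comm
  simp only [h1]
  simp only [Finset.mul_sum]
  rw [Finset.sum_comm]
  refine Finset.sum_congr rfl fun γ _ => Finset.sum_congr rfl fun I _ => Finset.sum_congr rfl fun u _ =>
    Finset.sum_congr rfl fun v _ => ?_
  ring

omit [NeZero M] in
/-- THE DISCRETE CORE. -/
theorem sb_disc (c0 C0 : ℝ) (hC0 : 1 ≤ C0) (b0 : ℕ) (hb0 : 4 ≤ c0 * 2 ^ b0) (q : ℝ) (hq : 2 < q) (hq3 : q < 3) (Cm : ℝ) (hCm : 1 ≤ Cm) :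
    ∃ Cq : ℝ, 0 < Cq ∧ ∀ (N : ℕ) (CN : ℝ) (s0 : ℤ), 0 ≤ CN → LocalBound c0 C0 q N CN →
    ∀ (t : ℤ) (S : Finset Cell) (w : Cell → ℝ × ℝ → ℂ) (Ω : Type) [Fintype Ω] (pr : Ω → ℝ) (M : ℕ) [NeZero M]
      (F : Ω → Fin 4 → ℤ → ZMod M → ℂ) (ms : Fin 4 → ℤ → ℝ) (a b : Fin 4) (Nall : Finset ℤ) (E : Fin 4 → ℝ),
      SbDiscHyp c0 C0 t b0 S w pr M F ms a b Cm Nall E → (∀ I ∈ S, s0 ≤ I.depth ∧ I.depth < s0 + N) →
    ∀ (A V : ℝ), 1 ≤ A → ∑ I ∈ S, I.len ≤ V → ∀ sgn : Ω → Cell → ℂ, (∀ σ I, ‖sgn σ I‖ ≤ 1) →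
      ∑ σ, pr σ * ‖∑ I ∈ S, (I.len : ℂ) * sgn σ I * sbDisc (t + b0) M I (w I) (F σ)‖ ≤ Cq * sbBd q CN A V a b E := by
  obtain ⟨C1, hC1, hmain⟩ := sb_main q hq hq3 Cm hCm b0
  have hB0 := sb_B0_one_le C0 hC0
  have hB1 := sb_B1_one_le C0 hC0
  have hCm0 : 0 ≤ Cm := by linarith
  refine ⟨4096 * C1 + 4096 * (sbB1 C0 * Cm ^ 4) + sbB0 C0 * (2 * 2 ^ b0 * Cm ^ 5), by positivity, ?_⟩
  intro N CN s0 hCN hLB t S w Ω _ pr M _ F ms a b Nall E hyp hS A V hA hV sgn hsgn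
  have hA0 : 0 < A := by linarith
  have hlen : ∀ I : Cell, 0 ≤ I.len := fun I => by unfold Cell.len; positivity
  have hE : ∀ j, 0 ≤ E j := fun j =>
    le_trans (mul_nonneg (sb_del_pos _).le (Finset.sum_nonneg fun n _ => hyp.ms_nonneg j n)) (hyp.tot j)
  set X : ℝ := A ^ (1 - 2 / sbP q) * ∏ j : Fin 4, E j ^ (1 / sbPj q a b j) with hXdef
  have hX : 0 ≤ X := mul_nonneg (Real.rpow_nonneg hA0.le _) (Finset.prod_nonneg fun j _ => Real.rpow_nonneg (hE j) _)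
  -- the three terms
  have T1 := sb_T1 hCN hLB hyp hS A (C1 * X) (mul_nonneg hC1.le hX) (hmain c0 C0 t S w Ω pr M F ms a b Nall E hyp A hA)
  have T2 := sb_err_sum_disc hyp hCm0
  have T3 : ∑ σ, pr σ * ∑ I ∈ S, I.len * ((M : ℝ)⁻¹ * ∑ γ : ZMod M, (sbLoc (t + b0) I (fun n => sbFp 2 (F σ a n)) *
        ∏ j ∈ Finset.univ.erase a, (sbLoc (t + b0) I (fun n => sbFp 4 (sbG0 γ (F σ) j n))) ^ (1 / 4 : ℝ)))
      ≤ V * (2 * 2 ^ b0 * Cm ^ 5) := by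
    simp only [Finset.mul_sum]
    rw [Finset.sum_comm]
    have : ∀ I ∈ S, ∑ σ, pr σ * (I.len * ∑ γ : ZMod M, (M : ℝ)⁻¹ * (sbLoc (t + b0) I (fun n => sbFp 2 (F σ a n)) *
        ∏ j ∈ Finset.univ.erase a, (sbLoc (t + b0) I (fun n => sbFp 4 (sbG0 γ (F σ) j n))) ^ (1 / 4 : ℝ)))
        ≤ I.len * (2 * 2 ^ b0 * Cm ^ 5) := by
      intro I hI
      have := sb_clip_avg hyp hCm0 I hI
      calc _ = I.len * ∑ σ, pr σ * ((M : ℝ)⁻¹ * ∑ γ : ZMod M, (sbLoc (t + b0) I (fun n => sbFp 2 (F σ a n)) *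
            ∏ j ∈ Finset.univ.erase a, (sbLoc (t + b0) I (fun n => sbFp 4 (sbG0 γ (F σ) j n))) ^ (1 / 4 : ℝ))) := by
            rw [Finset.mul_sum]
            refine Finset.sum_congr rfl fun σ _ => ?_
            rw [← Finset.mul_sum]
            ring
        _ ≤ _ := mul_le_mul_of_nonneg_left this (hlen I)
    have h2 : ∑ I ∈ S, I.len * (2 * 2 ^ b0 * Cm ^ 5) ≤ V * (2 * 2 ^ b0 * Cm ^ 5) := by
      rw [← Finset.sum_mul]
      exact mul_le_mul_of_nonneg_right hV (by positivity)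
    refine le_trans (Finset.sum_le_sum fun I hI => ?_) h2
    refine le_trans (le_of_eq ?_) (this I hI)
    refine Finset.sum_congr rfl fun σ _ => ?_
    rw [Finset.mul_sum, Finset.mul_sum]
  -- per `σ`
  have step : ∀ σ, ‖∑ I ∈ S, (I.len : ℂ) * sgn σ I * sbDisc (t + b0) M I (w I) (F σ)‖ ≤
      4096 * ((M : ℝ)⁻¹ * ∑ γ : ZMod M, (((M : ℝ) ^ 2)⁻¹ * ∑ u : ZMod M, ∑ v : ZMod M,
        ∑ I ∈ S, I.len * ‖form I (w I) (fun j => sbBurst (t + b0) Nall (fun n => sbG a A γ (F σ) j n (sbAp u v j)))‖))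
      + 4096 * (sbB1 C0 * ∑ I ∈ S, I.len * (sbDel (t + b0) / I.len * ∏ j : Fin 4, Real.sqrt (sbLoc (t + b0) I (fun n => sbFp 2 (F σ j n)))))
      + sbB0 C0 / A * ∑ I ∈ S, I.len * ((M : ℝ)⁻¹ * ∑ γ : ZMod M, (sbLoc (t + b0) I (fun n => sbFp 2 (F σ a n)) *
        ∏ j ∈ Finset.univ.erase a, (sbLoc (t + b0) I (fun n => sbFp 4 (sbG0 γ (F σ) j n))) ^ (1 / 4 : ℝ))) := by
    intro σ
    have s1 : ‖∑ I ∈ S, (I.len : ℂ) * sgn σ I * sbDisc (t + b0) M I (w I) (F σ)‖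
        ≤ ∑ I ∈ S, I.len * ‖sbDisc (t + b0) M I (w I) (F σ)‖ := by
      refine (norm_sum_le _ _).trans (Finset.sum_le_sum fun I _ => ?_)
      rw [norm_mul, norm_mul, Complex.norm_real, Real.norm_eq_abs, abs_of_nonneg (hlen I)]
      have := hsgn σ I
      have h0 : 0 ≤ ‖sbDisc (t + b0) M I (w I) (F σ)‖ := norm_nonneg _
      have h1 : I.len * ‖sgn σ I‖ ≤ I.len * 1 := mul_le_mul_of_nonneg_left this (hlen I)
      nlinarith
    have s2 : ∀ I ∈ S, I.len * ‖sbDisc (t + b0) M I (w I) (F σ)‖ ≤ I.len * (4096 * ((M : ℝ)⁻¹ * ∑ γ : ZMod M,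
          (((M : ℝ) ^ 2)⁻¹ * ∑ u : ZMod M, ∑ v : ZMod M,
          ‖form I (w I) (fun j => sbBurst (t + b0) Nall (fun n => sbG a A γ (F σ) j n (sbAp u v j)))‖))
        + 4096 * (sbB1 C0 * (sbDel (t + b0) / I.len) * ∏ j : Fin 4, Real.sqrt (sbLoc (t + b0) I (fun n => sbFp 2 (F σ j n))))
        + sbB0 C0 / A * ((M : ℝ)⁻¹ * ∑ γ : ZMod M, (sbLoc (t + b0) I (fun n => sbFp 2 (F σ a n)) *
          ∏ j ∈ Finset.univ.erase a, (sbLoc (t + b0) I (fun n => sbFp 4 (sbG0 γ (F σ) j n))) ^ (1 / 4 : ℝ)))) := by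
      intro I hI
      refine mul_le_mul_of_nonneg_left ?_ (hlen I)
      have := sb_disc_cell (hyp.adm I hI) hC0 b0 hb0 t (hyp.depth_lt I hI) hyp.prime hyp.M_gt a A hA0 Nall (F σ) (hyp.supp σ)
      rw [sb_avg_split] at this
      exact this
    refine s1.trans ((Finset.sum_le_sum s2).trans (le_of_eq ?_))
    rw [← sb_avg_swap]
    simp only [mul_add, Finset.sum_add_distrib, Finset.mul_sum]
    congr 1
    · congr 1
      · refine Finset.sum_congr rfl fun I _ => Finset.sum_congr rfl fun γ _ => Finset.sum_congr rfl fun u _ =>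
          Finset.sum_congr rfl fun v _ => ?_
        ring
      · refine Finset.sum_congr rfl fun I _ => ?_
        ring
    · refine Finset.sum_congr rfl fun I _ => Finset.sum_congr rfl fun γ _ => ?_
      ring
  have hV0 : 0 ≤ V := le_trans (Finset.sum_nonneg fun I _ => hlen I) hV
  calc ∑ σ, pr σ * ‖∑ I ∈ S, (I.len : ℂ) * sgn σ I * sbDisc (t + b0) M I (w I) (F σ)‖
      ≤ ∑ σ, pr σ * (4096 * ((M : ℝ)⁻¹ * ∑ γ : ZMod M, (((M : ℝ) ^ 2)⁻¹ * ∑ u : ZMod M, ∑ v : ZMod M,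
        ∑ I ∈ S, I.len * ‖form I (w I) (fun j => sbBurst (t + b0) Nall (fun n => sbG a A γ (F σ) j n (sbAp u v j)))‖))
      + 4096 * (sbB1 C0 * ∑ I ∈ S, I.len * (sbDel (t + b0) / I.len * ∏ j : Fin 4, Real.sqrt (sbLoc (t + b0) I (fun n => sbFp 2 (F σ j n)))))
      + sbB0 C0 / A * ∑ I ∈ S, I.len * ((M : ℝ)⁻¹ * ∑ γ : ZMod M, (sbLoc (t + b0) I (fun n => sbFp 2 (F σ a n)) *
        ∏ j ∈ Finset.univ.erase a, (sbLoc (t + b0) I (fun n => sbFp 4 (sbG0 γ (F σ) j n))) ^ (1 / 4 : ℝ)))) :=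
        Finset.sum_le_sum fun σ _ => mul_le_mul_of_nonneg_left (step σ) (hyp.pr_nonneg σ)
    _ = 4096 * (∑ σ, pr σ * ((M : ℝ)⁻¹ * ∑ γ : ZMod M, (((M : ℝ) ^ 2)⁻¹ * ∑ u : ZMod M, ∑ v : ZMod M,
        ∑ I ∈ S, I.len * ‖form I (w I) (fun j => sbBurst (t + b0) Nall (fun n => sbG a A γ (F σ) j n (sbAp u v j)))‖)))
      + 4096 * (sbB1 C0 * ∑ σ, pr σ * ∑ I ∈ S, I.len * (sbDel (t + b0) / I.len * ∏ j : Fin 4, Real.sqrt (sbLoc (t + b0) I (fun n => sbFp 2 (F σ j n)))))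
      + sbB0 C0 / A * ∑ σ, pr σ * ∑ I ∈ S, I.len * ((M : ℝ)⁻¹ * ∑ γ : ZMod M, (sbLoc (t + b0) I (fun n => sbFp 2 (F σ a n)) *
        ∏ j ∈ Finset.univ.erase a, (sbLoc (t + b0) I (fun n => sbFp 4 (sbG0 γ (F σ) j n))) ^ (1 / 4 : ℝ))) := by
        simp only [mul_add, Finset.sum_add_distrib]
        congr 1
        · congr 1
          · rw [Finset.mul_sum]
            refine Finset.sum_congr rfl fun σ _ => ?_
            ring
          · rw [Finset.mul_sum, Finset.mul_sum]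
            refine Finset.sum_congr rfl fun σ _ => ?_
            ring
        · rw [Finset.mul_sum]
          refine Finset.sum_congr rfl fun σ _ => ?_
          ring
    _ ≤ 4096 * (CN * (C1 * X)) + 4096 * (sbB1 C0 * (Cm ^ 4 * Real.sqrt (E a * E b))) + sbB0 C0 / A * (V * (2 * 2 ^ b0 * Cm ^ 5)) := by
        have hb : 0 ≤ sbB0 C0 / A := by positivity
        have hb1 : 0 ≤ sbB1 C0 := by linarith
        have := mul_le_mul_of_nonneg_left T2 hb1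
        have := mul_le_mul_of_nonneg_left T3 hb
        linarith
    _ ≤ _ := by
        unfold sbBd
        rw [← hXdef]
        have h1 : 0 ≤ Real.sqrt (E a * E b) := Real.sqrt_nonneg _
        have h2 : 0 ≤ V / A := by positivity
        have h3 : 0 ≤ CN * X := mul_nonneg hCN hX
        have e : sbB0 C0 / A * (V * (2 * 2 ^ b0 * Cm ^ 5)) = sbB0 C0 * (2 * 2 ^ b0 * Cm ^ 5) * (V / A) := by
          field_simp
        rw [e]
        have p1 : 0 ≤ 4096 * C1 := by positivity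
        have p2 : 0 ≤ 4096 * (sbB1 C0 * Cm ^ 4) := by positivity
        have p3 : 0 ≤ sbB0 C0 * (2 * 2 ^ b0 * Cm ^ 5) := by positivity
        nlinarith [mul_nonneg p1 h1, mul_nonneg p1 h2, mul_nonneg p2 h2, mul_nonneg p2 h3, mul_nonneg p3 h1, mul_nonneg p3 h3]

end Claimed.Agent.R258
end

/- ===== packed: Claimed.Agent.R258.U3.Lin.Ext2 ===== -/
section
/-
Row 258, U3/B2 (architect helper152), LEAF P-U3L-EXT2: pigeonhole, trivial bound of the energy, graphs.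
Mathlib only, no paper.
-/
set_option autoImplicit false

namespace Claimed.Agent.R258.U3

open Finset
open scoped Pointwise Combinatorics.Additive

/-- `#Γ #S = ∑_{t ∈ T} #{γ ∈ Γ | t - γ ∈ S}`; take the `t` with the largest term (`T = ∅`: `t = 0`). -/
theorem u3l_pigeon {G : Type*} [AddCommGroup G] [DecidableEq G] (Γ S T : Finset G)
    (hT : Γ + S ⊆ T) : ∃ t, #Γ * #S ≤ #T * #{γ ∈ Γ | t - γ ∈ S} := by
  have h1 : #Γ * #S = ∑ t ∈ T, #{γ ∈ Γ | t - γ ∈ S} := by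
    rw [← card_product, card_eq_sum_card_fiberwise (f := fun p : G × G => p.1 + p.2) (t := T)]
    · apply sum_congr rfl
      intro t _
      apply card_bij (fun p _ => p.1)
      · rintro ⟨γ, s⟩ hp
        obtain ⟨hp, e⟩ := mem_filter.1 hp
        obtain ⟨hγ, hs⟩ := mem_product.1 hp
        simp only at e hγ hs
        refine mem_filter.2 ⟨hγ, ?_⟩
        rw [← e]; simpa using hs
      · rintro ⟨γ, s⟩ hp ⟨γ', s'⟩ hp' e
        have e1 := (mem_filter.1 hp).2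
        have e2 := (mem_filter.1 hp').2
        simp only at e e1 e2
        subst e
        rw [← e2] at e1
        rw [add_left_cancel e1]
      · intro γ hγ
        obtain ⟨hγ, hs⟩ := mem_filter.1 hγ
        exact ⟨(γ, t - γ), mem_filter.2 ⟨mem_product.2 ⟨hγ, hs⟩, by simp⟩, rfl⟩
    · intro p hp
      obtain ⟨h1, h2⟩ := mem_product.1 (mem_coe.1 hp)
      exact hT (add_mem_add h1 h2)
  rcases T.eq_empty_or_nonempty with rfl | hne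
  · exact ⟨0, by rw [h1]; simp⟩
  obtain ⟨t, _, ht⟩ := exists_max_image T (fun t => #{γ ∈ Γ | t - γ ∈ S}) hne
  refine ⟨t, ?_⟩
  rw [h1]
  calc ∑ t ∈ T, #{γ ∈ Γ | t - γ ∈ S} ≤ ∑ _t' ∈ T, #{γ ∈ Γ | t - γ ∈ S} := sum_le_sum ht
    _ = _ := by rw [sum_const, smul_eq_mul]

/-- `((a₁, a₂), (b₁, b₂)) ↦ (a₁, a₂, b₁)` is injective on the quadruples. -/
theorem u3l_energy_le {G : Type*} [AddCommGroup G] [DecidableEq G] (A : Finset G) :
    E[A] ≤ #A ^ 3 := by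
  have : #((A ×ˢ A) ×ˢ A) = #A ^ 3 := by simp only [card_product]; ring
  rw [← this, addEnergy]
  apply card_le_card_of_injOn (fun x => (x.1, x.2.1))
  · intro x hx
    obtain ⟨hx, _⟩ := mem_filter.1 (mem_coe.1 hx)
    obtain ⟨h1, h2⟩ := mem_product.1 hx
    exact mem_coe.2 (mem_product.2 ⟨h1, (mem_product.1 h2).1⟩)
  · rintro ⟨⟨a, b⟩, ⟨c, d⟩⟩ hx ⟨⟨a', b'⟩, ⟨c', d'⟩⟩ hx' e
    have e1 := (mem_filter.1 (mem_coe.1 hx)).2
    have e2 := (mem_filter.1 (mem_coe.1 hx')).2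
    simp only [Prod.mk.injEq] at e e1 e2
    obtain ⟨⟨rfl, rfl⟩, rfl⟩ := e
    rw [e1] at e2
    rw [add_left_cancel e2]

/-- The graph of `φ` over `H`. -/
def u3lGraph {α β : Type*} [DecidableEq α] [DecidableEq β] (H : Finset α) (φ : α → β) :
    Finset (α × β) := H.image fun h => (h, φ h)

theorem u3l_card_graph {α β : Type*} [DecidableEq α] [DecidableEq β] (H : Finset α) (φ : α → β) :
    #(u3lGraph H φ) = #H :=
  card_image_of_injective _ fun _ _ h => (Prod.mk.inj h).1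

theorem u3l_mem_graph {α β : Type*} [DecidableEq α] [DecidableEq β] (H : Finset α) (φ : α → β)
    (p : α × β) : p ∈ u3lGraph H φ ↔ p.1 ∈ H ∧ p.2 = φ p.1 := by
  simp only [u3lGraph, mem_image]
  constructor
  · rintro ⟨h, hh, rfl⟩; exact ⟨hh, rfl⟩
  · rintro ⟨h1, h2⟩; exact ⟨p.1, h1, by rw [← h2]⟩

theorem u3l_graph_injOn {α β : Type*} [DecidableEq α] [DecidableEq β] (H : Finset α) (φ : α → β)
    (Γ : Finset (α × β)) (hΓ : Γ ⊆ u3lGraph H φ) : Set.InjOn Prod.fst (Γ : Set (α × β)) := by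
  intro p hp q hq h
  have h1 := ((u3l_mem_graph H φ p).1 (hΓ hp)).2
  have h2 := ((u3l_mem_graph H φ q).1 (hΓ hq)).2
  exact Prod.ext h (by rw [h1, h2, h])

/-- The energy of a graph = number of additive quadruples. (For the user, block B4.) -/
theorem u3l_energy_graph {G G₂ : Type*} [AddCommGroup G] [AddCommGroup G₂] [DecidableEq G]
    [DecidableEq G₂] (H : Finset G) (φ : G → G₂) :
    E[u3lGraph H φ] = #{q ∈ (H ×ˢ H) ×ˢ H ×ˢ H |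
      q.1.1 + q.2.1 = q.1.2 + q.2.2 ∧ φ q.1.1 + φ q.2.1 = φ q.1.2 + φ q.2.2} := by
  rw [addEnergy]
  symm
  apply card_bij (fun q _ => (((q.1.1, φ q.1.1), (q.1.2, φ q.1.2)), ((q.2.1, φ q.2.1), (q.2.2, φ q.2.2))))
  · rintro ⟨⟨a, b⟩, ⟨c, d⟩⟩ hq
    obtain ⟨hq, e1, e2⟩ := mem_filter.1 hq
    simp only [mem_product] at hq
    obtain ⟨⟨ha, hb⟩, hc, hd⟩ := hq
    simp only at e1 e2
    refine mem_filter.2 ⟨?_, ?_⟩
    · simp only [mem_product, u3l_mem_graph]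
      exact ⟨⟨⟨ha, trivial⟩, ⟨hb, trivial⟩⟩, ⟨hc, trivial⟩, ⟨hd, trivial⟩⟩
    · simp only [Prod.mk_add_mk, e1, e2]
  · rintro ⟨⟨a, b⟩, ⟨c, d⟩⟩ _ ⟨⟨a', b'⟩, ⟨c', d'⟩⟩ _ e
    simp only [Prod.mk.injEq] at e
    obtain ⟨⟨⟨rfl, _⟩, ⟨rfl, _⟩⟩, ⟨rfl, _⟩, ⟨rfl, _⟩⟩ := e
    rfl
  · rintro ⟨⟨⟨a, a2⟩, ⟨b, b2⟩⟩, ⟨⟨c, c2⟩, ⟨d, d2⟩⟩⟩ hx
    obtain ⟨hx, e⟩ := mem_filter.1 hx
    simp only [mem_product, u3l_mem_graph] at hx
    obtain ⟨⟨⟨ha, rfl⟩, ⟨hb, rfl⟩⟩, ⟨hc, rfl⟩, ⟨hd, rfl⟩⟩ := hx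
    simp only [Prod.mk_add_mk, Prod.mk.injEq] at e
    refine ⟨((a, b), (c, d)), mem_filter.2 ⟨?_, e.1, e.2⟩, rfl⟩
    simp only [mem_product]
    exact ⟨⟨ha, hb⟩, hc, hd⟩


end Claimed.Agent.R258.U3
end

/- ===== packed: Claimed.Agent.R258.U3.StepA ===== -/
section
/-
R258 / U3 / StepA : from a large `U^3` cube sum to many additive quadruples in the graph of the "derivative frequency" map (Gowers).
Blueprint owner: helper52.  Leaves: A1 `cube_eq_sum_sq2`+`sq2_le`, A2 `stepA_select`, A3 `gowers_quadruples`, A4 `u3_stepA` (assembly, short).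
Statements verbatim; helper lemmas prefix `stepA_`.  `N ≥ 1` arbitrary.  All sums unnormalised.

A1.  With `g_h x = f x * conj (f (x + h))`:  `cube f = ∑_h sq2 g_h` (rename `h₁ = h`; pure rearrangement: the 8 factors pair up as `g_h x`, `conj g_h (x + h₂)`, `conj g_h (x + h₃)`, `g_h (x + h₂ + h₃)`).
     `ft g_h ξ = conj (dcoef f f h (-ξ))`, so `‖ft g_h ξ‖ = ‖dcoef f f h (-ξ)‖`.   `N * sq2 g = ∑_ξ ‖ft g ξ‖^4 ≤ (max_ξ ‖ft g ξ‖^2) ∑_ξ ‖ft g ξ‖^2 = max * N ∑ ‖g‖^2 ≤ max * N^2` for 1-bounded `g`.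
A2.  So `η N^4 ≤ ∑_h N * m h`, `m h = max_ξ ‖dcoef f f h ξ‖^2 ≤ N^2`, attained at `ξ = φ h`.  `H = {h : m h ≥ η N^2 / 2}`:  `η N^3 ≤ #H N^2 + N * η N^2 / 2`, so `#H ≥ η N / 2`.
A3 (Gowers).  Hypothesis `γ N^3 ≤ ∑_{h ∈ H} ‖dcoef f f h (φ h)‖^2`.  Expand the square (`x`, `y = x + u`):
     `∑_{h ∈ H} ‖dcoef‖^2 = ∑_u ∑_{h ∈ H} e(φ h u) ∑_x conj (G_u (x + h)) G_u x`,   `G_u x = f (x + u) conj (f x)`  (check the conjugations when formalising; only absolute values matter below),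
     and `∑_x conj (G_u (x + h)) G_u x = N^(-1) ∑_ξ ‖ft G_u ξ‖^2 e(-ξ h)` (Parseval/inversion).  Hence `γ N^3 ≤ N^(-1) ∑_u ∑_ξ ‖ft G_u ξ‖^2 ‖S_u ξ‖`, `S_u ξ = ∑_{h ∈ H} e(φ h u - ξ h)`.
     With `a_ξ = ‖ft G_u ξ‖^2 / N^2 ∈ [0,1]`, `∑_ξ a_ξ ≤ 1`: two Cauchy-Schwarz give `∑ a_ξ ‖S ξ‖ ≤ (∑ a_ξ ‖S ξ‖^2)^(1/2) ≤ (∑ ‖S ξ‖^4)^(1/4)`  (`∑ a_ξ^2 ≤ 1`).
     So `γ N^2 ≤ ∑_u (∑_ξ ‖S_u ξ‖^4)^(1/4)`, by Hoelder (power mean) `γ^4 N^8 ≤ N^3 ∑_u ∑_ξ ‖S_u ξ‖^4`, and `∑_u ∑_ξ ‖S_u ξ‖^4 = N^2 * #{(a,b,c,d) ∈ H^4 : a + b = c + d, φ a + φ b = φ c + φ d} = N^2 E[graph]`.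
     (To avoid fractional powers: prove `(∑_ξ a_ξ ‖S ξ‖)^4 ≤ ∑_ξ ‖S ξ‖^4` and `(∑_u t_u)^4 ≤ N^3 ∑_u t_u^4`, `inner_le_nnorm_mul_nnorm` / `Finset.sum_mul_sq_le_sq_mul_sq` / `sq_sum_le_card_mul_sum_sq`.)
-/
set_option autoImplicit false

namespace Claimed.Agent.R258.U3

open Finset
open scoped ComplexConjugate Pointwise Combinatorics.Additive

variable {N : ℕ} [NeZero N]

/-- A1a. -/
theorem cube_eq_sum_sq2 (f : ZMod N → ℂ) : cube f = ∑ h, sq2 (fun x => f x * conj (f (x + h))) := by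
  unfold cube sq2
  rw [Finset.sum_comm]
  refine Finset.sum_congr rfl fun h _ => Finset.sum_congr rfl fun x _ =>
    Finset.sum_congr rfl fun a _ => Finset.sum_congr rfl fun b _ => ?_
  simp only [map_mul, Complex.conj_conj]
  have e1 : x + a + h = x + h + a := by ring
  have e2 : x + b + h = x + h + b := by ring
  have e3 : x + a + b + h = x + h + a + b := by ring
  rw [e1, e2, e3]
  ring

theorem stepA_card_real : ((Finset.univ : Finset (ZMod N)).card : ℝ) = N := by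
  rw [Finset.card_univ, ZMod.card]

/-- A1b. -/
theorem sq2_le (g : ZMod N → ℂ) (hg : ∀ x, ‖g x‖ ≤ 1) {m : ℝ} (hm : ∀ ξ, ‖ft g ξ‖ ^ 2 ≤ m) : (sq2 g).re ≤ N * m := by
  have hN := kit_Npos (N := N)
  have h1 : ∑ ξ, ‖ft g ξ‖ ^ 4 = N * (sq2 g).re := by
    have := congrArg Complex.re (ft_sq2 g)
    rw [Complex.ofReal_re] at this
    rw [this]
    simp
  have h2 : ∑ ξ, ‖ft g ξ‖ ^ 4 ≤ m * ∑ ξ, ‖ft g ξ‖ ^ 2 := by
    rw [Finset.mul_sum]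
    refine Finset.sum_le_sum fun ξ _ => ?_
    calc ‖ft g ξ‖ ^ 4 = ‖ft g ξ‖ ^ 2 * ‖ft g ξ‖ ^ 2 := by ring
      _ ≤ m * ‖ft g ξ‖ ^ 2 := mul_le_mul_of_nonneg_right (hm ξ) (by positivity)
  have hm0 : 0 ≤ m := le_trans (by positivity) (hm 0)
  have h3 : ∑ x, ‖g x‖ ^ 2 ≤ N := by
    calc ∑ x, ‖g x‖ ^ 2 ≤ ∑ _x : ZMod N, (1 : ℝ) :=
          Finset.sum_le_sum fun x _ => pow_le_one₀ (norm_nonneg _) (hg x)
      _ = N := by simp
  rw [ft_parseval, h1] at h2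
  have h4 : (N : ℝ) * (sq2 g).re ≤ N * (N * m) := by
    calc (N : ℝ) * (sq2 g).re ≤ m * (N * ∑ x, ‖g x‖ ^ 2) := h2
      _ ≤ m * (N * N) := by gcongr
      _ = N * (N * m) := by ring
  exact le_of_mul_le_mul_left h4 hN

/-- A1c. -/
theorem norm_ft_deriv (f : ZMod N → ℂ) (h ξ : ZMod N) :
    ‖ft (fun x => f x * conj (f (x + h))) ξ‖ = ‖dcoef f f h (-ξ)‖ := by
  have e : ft (fun x => f x * conj (f (x + h))) ξ = conj (dcoef f f h (-ξ)) := by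
    unfold ft dcoef
    rw [map_sum]
    refine Finset.sum_congr rfl fun x _ => ?_
    rw [map_mul, map_mul, Complex.conj_conj, ← eN_neg, neg_neg, neg_mul]
    ring
  rw [e, Complex.norm_conj]

theorem stepA_norm_dcoef_le (f g : ZMod N → ℂ) (hf : ∀ x, ‖f x‖ ≤ 1) (hg : ∀ x, ‖g x‖ ≤ 1) (h ξ : ZMod N) :
    ‖dcoef f g h ξ‖ ≤ N := by
  unfold dcoef
  refine (norm_sum_le _ _).trans ?_
  calc ∑ x, ‖f (x + h) * conj (g x) * eN (-(ξ * x))‖ ≤ ∑ _x : ZMod N, (1 : ℝ) := by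
        refine Finset.sum_le_sum fun x _ => ?_
        rw [norm_mul, norm_mul, norm_eN, mul_one, Complex.norm_conj]
        exact mul_le_one₀ (hf _) (norm_nonneg _) (hg _)
    _ = N := by simp

/-- A2. -/
theorem stepA_select (f : ZMod N → ℂ) (hf : ∀ x, ‖f x‖ ≤ 1) {η : ℝ} (hη : 0 < η) (h : η * (N : ℝ) ^ 4 ≤ (cube f).re) :
    ∃ (H : Finset (ZMod N)) (φ : ZMod N → ZMod N), η / 2 * N ≤ H.card ∧
      ∀ h ∈ H, η / 2 * (N : ℝ) ^ 2 ≤ ‖dcoef f f h (φ h)‖ ^ 2 := by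
  classical
  have hN := kit_Npos (N := N)
  have hex : ∀ k : ZMod N, ∃ ξ₀ : ZMod N, ∀ ξ, ‖dcoef f f k ξ‖ ^ 2 ≤ ‖dcoef f f k ξ₀‖ ^ 2 := by
    intro k
    obtain ⟨ξ₀, -, hξ₀⟩ := Finset.exists_max_image (Finset.univ : Finset (ZMod N))
      (fun ξ => ‖dcoef f f k ξ‖ ^ 2) Finset.univ_nonempty
    exact ⟨ξ₀, fun ξ => hξ₀ ξ (Finset.mem_univ _)⟩
  choose φ hφ using hex
  refine ⟨Finset.univ.filter fun k => η / 2 * (N : ℝ) ^ 2 ≤ ‖dcoef f f k (φ k)‖ ^ 2, φ, ?_,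
    fun k hk => (Finset.mem_filter.1 hk).2⟩
  set H := Finset.univ.filter fun k => η / 2 * (N : ℝ) ^ 2 ≤ ‖dcoef f f k (φ k)‖ ^ 2 with hH
  have h1 : (cube f).re ≤ ∑ k, (N : ℝ) * ‖dcoef f f k (φ k)‖ ^ 2 := by
    rw [cube_eq_sum_sq2, Complex.re_sum]
    refine Finset.sum_le_sum fun k _ => sq2_le _ (fun x => ?_) (fun ξ => ?_)
    · rw [norm_mul, Complex.norm_conj]
      exact mul_le_one₀ (hf _) (norm_nonneg _) (hf _)
    · rw [norm_ft_deriv]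
      exact hφ k _
  have h2 : ∑ k, ‖dcoef f f k (φ k)‖ ^ 2 ≤ H.card * (N : ℝ) ^ 2 + N * (η / 2 * (N : ℝ) ^ 2) := by
    rw [← Finset.sum_filter_add_sum_filter_not Finset.univ
      (fun k => η / 2 * (N : ℝ) ^ 2 ≤ ‖dcoef f f k (φ k)‖ ^ 2)]
    refine add_le_add ?_ ?_
    · calc ∑ k ∈ H, ‖dcoef f f k (φ k)‖ ^ 2 ≤ ∑ _k ∈ H, (N : ℝ) ^ 2 :=
            Finset.sum_le_sum fun k _ =>
              pow_le_pow_left₀ (norm_nonneg _) (stepA_norm_dcoef_le f f hf hf _ _) 2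
        _ = H.card * (N : ℝ) ^ 2 := by simp
    · calc ∑ k ∈ Finset.univ.filter (fun k => ¬ η / 2 * (N : ℝ) ^ 2 ≤ ‖dcoef f f k (φ k)‖ ^ 2),
            ‖dcoef f f k (φ k)‖ ^ 2
          ≤ ∑ _k ∈ Finset.univ.filter (fun k => ¬ η / 2 * (N : ℝ) ^ 2 ≤ ‖dcoef f f k (φ k)‖ ^ 2),
            (η / 2 * (N : ℝ) ^ 2) :=
            Finset.sum_le_sum fun k hk => (not_le.1 (Finset.mem_filter.1 hk).2).le
        _ = ((Finset.univ.filter
              (fun k => ¬ η / 2 * (N : ℝ) ^ 2 ≤ ‖dcoef f f k (φ k)‖ ^ 2)).card : ℝ)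
              * (η / 2 * (N : ℝ) ^ 2) := by simp
        _ ≤ N * (η / 2 * (N : ℝ) ^ 2) := by
            refine mul_le_mul_of_nonneg_right ?_ (by positivity)
            rw [← stepA_card_real (N := N)]
            exact_mod_cast Finset.card_le_card (Finset.filter_subset _ _)
  rw [← Finset.mul_sum] at h1
  have h3 : η * (N : ℝ) ^ 4 ≤ N * (H.card * (N : ℝ) ^ 2 + N * (η / 2 * (N : ℝ) ^ 2)) :=
    h.trans (h1.trans (mul_le_mul_of_nonneg_left h2 hN.le))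
  have h4 : (N : ℝ) ^ 3 * (η / 2 * N) ≤ (N : ℝ) ^ 3 * H.card := by nlinarith
  exact le_of_mul_le_mul_left h4 (by positivity)

/-- correlation identity: `N ∑_{x,h} k h G x conj (G (x + h)) = ∑_ξ ‖ft G ξ‖² ft k ξ` -/
theorem stepA_corr (G k : ZMod N → ℂ) :
    (N : ℂ) * ∑ x, ∑ h, k h * G x * conj (G (x + h)) = ∑ ξ, ((‖ft G ξ‖ : ℝ) : ℂ) ^ 2 * ft k ξ := by
  have h1 : ∀ ξ : ZMod N, ((‖ft G ξ‖ : ℝ) : ℂ) ^ 2 * ft k ξ
      = ∑ x, ∑ h, ∑ y, k h * G x * conj (G y) * eN (ξ * (y - (x + h))) := by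
    intro ξ
    rw [kit_norm_sq]
    have e : conj (ft G ξ) = ∑ y, conj (G y) * eN (ξ * y) := by
      unfold ft
      rw [map_sum]
      refine Finset.sum_congr rfl fun y _ => ?_
      rw [map_mul, ← eN_neg, neg_neg]
    rw [e]
    unfold ft
    calc (∑ x, G x * eN (-(ξ * x))) * (∑ y, conj (G y) * eN (ξ * y)) * (∑ h, k h * eN (-(ξ * h)))
        = (∑ x, G x * eN (-(ξ * x))) *
            ((∑ h, k h * eN (-(ξ * h))) * (∑ y, conj (G y) * eN (ξ * y))) := by ring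
      _ = ∑ x, ∑ h, ∑ y, (G x * eN (-(ξ * x))) *
            ((k h * eN (-(ξ * h))) * (conj (G y) * eN (ξ * y))) := by
          rw [Finset.sum_mul_sum, Finset.sum_mul]
          refine Finset.sum_congr rfl fun x _ => ?_
          rw [Finset.mul_sum]
          refine Finset.sum_congr rfl fun h _ => ?_
          rw [Finset.mul_sum]
      _ = _ := by
          refine Finset.sum_congr rfl fun x _ => Finset.sum_congr rfl fun h _ =>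
            Finset.sum_congr rfl fun y _ => ?_
          have : ξ * (y - (x + h)) = -(ξ * x) + (-(ξ * h) + ξ * y) := by ring
          rw [this, eN_add, eN_add]
          ring
  simp_rw [h1]
  have h2 : ∀ x h : ZMod N, (N : ℂ) * (k h * G x * conj (G (x + h)))
      = ∑ y, ∑ ξ, k h * G x * conj (G y) * eN (ξ * (y - (x + h))) := by
    intro x h
    simp_rw [← Finset.mul_sum, kit_sum_eN_sub]
    rw [Finset.sum_eq_single (x + h)]
    · rw [if_pos rfl]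
      ring
    · intro y _ hy
      rw [if_neg hy, mul_zero]
    · intro hh
      exact absurd (Finset.mem_univ _) hh
  simp_rw [Finset.mul_sum, h2]
  symm
  refine Finset.sum_comm.trans (Finset.sum_congr rfl fun x _ => ?_)
  refine Finset.sum_comm.trans (Finset.sum_congr rfl fun h _ => ?_)
  exact Finset.sum_comm

/-- expansion of the square of a derivative coefficient -/
theorem stepA_expand (f : ZMod N → ℂ) (h ζ : ZMod N) :
    ((‖dcoef f f h ζ‖ : ℝ) : ℂ) ^ 2 =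
      ∑ u, ∑ x, eN (ζ * u) * (f (x + u) * conj (f x)) * conj (f (x + h + u) * conj (f (x + h))) := by
  rw [kit_norm_sq]
  unfold dcoef
  rw [map_sum, Finset.sum_mul_sum, Finset.sum_comm]
  -- now `∑ y, ∑ x`; reindex
  calc ∑ y, ∑ x, f (x + h) * conj (f x) * eN (-(ζ * x)) * conj (f (y + h) * conj (f y) * eN (-(ζ * y)))
      = ∑ x, ∑ y, f (x + h) * conj (f x) * eN (-(ζ * x)) *
          conj (f (y + h) * conj (f y) * eN (-(ζ * y))) := Finset.sum_comm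
    _ = ∑ x, ∑ u, f (x + h) * conj (f x) * eN (-(ζ * x)) *
          conj (f (x + u + h) * conj (f (x + u)) * eN (-(ζ * (x + u)))) := by
        refine Finset.sum_congr rfl fun x _ => ?_
        exact (Equiv.sum_comp (Equiv.addLeft x) (fun y => f (x + h) * conj (f x) * eN (-(ζ * x)) *
          conj (f (y + h) * conj (f y) * eN (-(ζ * y))))).symm
    _ = ∑ u, ∑ x, f (x + h) * conj (f x) * eN (-(ζ * x)) *
          conj (f (x + u + h) * conj (f (x + u)) * eN (-(ζ * (x + u)))) := Finset.sum_comm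
    _ = _ := by
        refine Finset.sum_congr rfl fun u _ => Finset.sum_congr rfl fun x _ => ?_
        simp only [map_mul, Complex.conj_conj]
        rw [← eN_neg, neg_neg]
        have e1 : ζ * (x + u) = ζ * x + ζ * u := by ring
        have e2 : x + u + h = x + h + u := by ring
        rw [e1, eN_add, eN_neg, e2]
        have e3 := eN_mul_conj (ζ * x)
        linear_combination (f (x + h) * conj (f x) * conj (f (x + h + u)) * f (x + u) * eN (ζ * u)) * e3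

/-- two Cauchy-Schwarz inequalities -/
theorem stepA_cs {ι : Type*} (s : Finset ι) (A t : ι → ℝ) (hA : ∀ i ∈ s, 0 ≤ A i) :
    (∑ i ∈ s, A i * t i) ^ 4 ≤ (∑ i ∈ s, A i) ^ 4 * ∑ i ∈ s, t i ^ 4 := by
  have hS : 0 ≤ ∑ i ∈ s, A i := Finset.sum_nonneg hA
  have h1 : (∑ i ∈ s, A i * t i) ^ 2 ≤ (∑ i ∈ s, A i) * ∑ i ∈ s, A i * t i ^ 2 :=
    Finset.sum_sq_le_sum_mul_sum_of_sq_le_mul s hA
      (fun i hi => mul_nonneg (hA i hi) (by positivity)) (fun i _ => le_of_eq (by ring))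
  have h2 : (∑ i ∈ s, A i * t i ^ 2) ^ 2 ≤ (∑ i ∈ s, A i ^ 2) * ∑ i ∈ s, (t i ^ 2) ^ 2 :=
    Finset.sum_mul_sq_le_sq_mul_sq s _ _
  have h3 : ∑ i ∈ s, A i ^ 2 ≤ (∑ i ∈ s, A i) ^ 2 := by
    rw [sq (∑ i ∈ s, A i), Finset.mul_sum]
    refine Finset.sum_le_sum fun i hi => ?_
    rw [sq]
    exact mul_le_mul_of_nonneg_right (Finset.single_le_sum hA hi) (hA i hi)
  have h4 : 0 ≤ ∑ i ∈ s, (t i ^ 2) ^ 2 := Finset.sum_nonneg fun i _ => by positivity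
  have h5 : 0 ≤ ∑ i ∈ s, A i * t i ^ 2 :=
    Finset.sum_nonneg fun i hi => mul_nonneg (hA i hi) (by positivity)
  calc (∑ i ∈ s, A i * t i) ^ 4 = ((∑ i ∈ s, A i * t i) ^ 2) ^ 2 := by ring
    _ ≤ ((∑ i ∈ s, A i) * ∑ i ∈ s, A i * t i ^ 2) ^ 2 := pow_le_pow_left₀ (by positivity) h1 2
    _ = (∑ i ∈ s, A i) ^ 2 * (∑ i ∈ s, A i * t i ^ 2) ^ 2 := by ring
    _ ≤ (∑ i ∈ s, A i) ^ 2 * ((∑ i ∈ s, A i ^ 2) * ∑ i ∈ s, (t i ^ 2) ^ 2) := by gcongr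
    _ ≤ (∑ i ∈ s, A i) ^ 2 * ((∑ i ∈ s, A i) ^ 2 * ∑ i ∈ s, (t i ^ 2) ^ 2) := by gcongr
    _ = (∑ i ∈ s, A i) ^ 4 * ∑ i ∈ s, t i ^ 4 := by
        have : ∀ i, (t i ^ 2) ^ 2 = t i ^ 4 := fun i => by ring
        simp only [this]
        ring

/-- power mean -/
theorem stepA_pm {ι : Type*} (s : Finset ι) (t : ι → ℝ) :
    (∑ i ∈ s, t i) ^ 4 ≤ (s.card : ℝ) ^ 3 * ∑ i ∈ s, t i ^ 4 := by
  have h1 : (∑ i ∈ s, t i) ^ 2 ≤ s.card * ∑ i ∈ s, t i ^ 2 := sq_sum_le_card_mul_sum_sq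
  have h2 : (∑ i ∈ s, t i ^ 2) ^ 2 ≤ s.card * ∑ i ∈ s, (t i ^ 2) ^ 2 := sq_sum_le_card_mul_sum_sq
  have h3 : 0 ≤ ∑ i ∈ s, t i ^ 2 := Finset.sum_nonneg fun i _ => by positivity
  calc (∑ i ∈ s, t i) ^ 4 = ((∑ i ∈ s, t i) ^ 2) ^ 2 := by ring
    _ ≤ (s.card * ∑ i ∈ s, t i ^ 2) ^ 2 := pow_le_pow_left₀ (by positivity) h1 2
    _ = (s.card : ℝ) ^ 2 * (∑ i ∈ s, t i ^ 2) ^ 2 := by ring
    _ ≤ (s.card : ℝ) ^ 2 * (s.card * ∑ i ∈ s, (t i ^ 2) ^ 2) := by gcongr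
    _ = (s.card : ℝ) ^ 3 * ∑ i ∈ s, t i ^ 4 := by
        have : ∀ i, (t i ^ 2) ^ 2 = t i ^ 4 := fun i => by ring
        simp only [this]
        ring

/-- bound of one correlation by the fourth moment of the kernel -/
theorem stepA_T_le (G k : ZMod N → ℂ) (hG : ∀ x, ‖G x‖ ≤ 1) :
    ‖∑ x, ∑ h, k h * G x * conj (G (x + h))‖ ^ 4 ≤ (N : ℝ) ^ 4 * ∑ ξ, ‖ft k ξ‖ ^ 4 := by
  have hN := kit_Npos (N := N)
  have h1 : (N : ℝ) * ‖∑ x, ∑ h, k h * G x * conj (G (x + h))‖ ≤ ∑ ξ, ‖ft G ξ‖ ^ 2 * ‖ft k ξ‖ := by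
    have e : (N : ℝ) * ‖∑ x, ∑ h, k h * G x * conj (G (x + h))‖
        = ‖(N : ℂ) * ∑ x, ∑ h, k h * G x * conj (G (x + h))‖ := by
      rw [norm_mul, Complex.norm_natCast]
    rw [e, stepA_corr]
    refine (norm_sum_le _ _).trans (le_of_eq ?_)
    refine Finset.sum_congr rfl fun ξ _ => ?_
    rw [norm_mul, norm_pow, Complex.norm_real, norm_norm]
  have h2 := stepA_cs Finset.univ (fun ξ => ‖ft G ξ‖ ^ 2) (fun ξ => ‖ft k ξ‖)
    (fun _ _ => by positivity)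
  have h3 : ∑ ξ, ‖ft G ξ‖ ^ 2 ≤ (N : ℝ) ^ 2 := by
    rw [ft_parseval]
    calc (N : ℝ) * ∑ x, ‖G x‖ ^ 2 ≤ N * ∑ _x : ZMod N, (1 : ℝ) := by
          refine mul_le_mul_of_nonneg_left ?_ hN.le
          exact Finset.sum_le_sum fun x _ => pow_le_one₀ (norm_nonneg _) (hG x)
      _ = (N : ℝ) ^ 2 := by simp [sq]
  have h4 : 0 ≤ ∑ ξ, ‖ft k ξ‖ ^ 4 := Finset.sum_nonneg fun _ _ => by positivity
  have h5 : 0 ≤ ∑ ξ, ‖ft G ξ‖ ^ 2 := Finset.sum_nonneg fun _ _ => by positivity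
  have h6 : ((N : ℝ) * ‖∑ x, ∑ h, k h * G x * conj (G (x + h))‖) ^ 4
      ≤ ((N : ℝ) ^ 2) ^ 4 * ∑ ξ, ‖ft k ξ‖ ^ 4 :=
    calc ((N : ℝ) * ‖∑ x, ∑ h, k h * G x * conj (G (x + h))‖) ^ 4
        ≤ (∑ ξ, ‖ft G ξ‖ ^ 2 * ‖ft k ξ‖) ^ 4 := pow_le_pow_left₀ (by positivity) h1 4
      _ ≤ (∑ ξ, ‖ft G ξ‖ ^ 2) ^ 4 * ∑ ξ, ‖ft k ξ‖ ^ 4 := h2
      _ ≤ ((N : ℝ) ^ 2) ^ 4 * ∑ ξ, ‖ft k ξ‖ ^ 4 := by gcongr
  have h7 : (N : ℝ) ^ 4 * ‖∑ x, ∑ h, k h * G x * conj (G (x + h))‖ ^ 4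
      ≤ (N : ℝ) ^ 4 * ((N : ℝ) ^ 4 * ∑ ξ, ‖ft k ξ‖ ^ 4) := by
    calc (N : ℝ) ^ 4 * ‖∑ x, ∑ h, k h * G x * conj (G (x + h))‖ ^ 4
        = ((N : ℝ) * ‖∑ x, ∑ h, k h * G x * conj (G (x + h))‖) ^ 4 := by ring
      _ ≤ _ := h6
      _ = _ := by ring
  exact le_of_mul_le_mul_left h7 (by positivity)

/-- the energy of the graph as a sum of indicators -/
theorem stepA_energy (H : Finset (ZMod N)) (φ : ZMod N → ZMod N) :
    ((E[graph H φ] : ℕ) : ℂ) = ∑ a, ∑ b, ∑ c, ∑ d,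
      if (a + b = c + d ∧ φ a + φ b = φ c + φ d) ∧ (a ∈ H ∧ b ∈ H ∧ c ∈ H ∧ d ∈ H)
        then (1 : ℂ) else 0 := by
  have e : E[graph H φ] = E[u3lGraph H φ] := rfl
  rw [e, u3l_energy_graph]
  have e2 : ({q ∈ (H ×ˢ H) ×ˢ H ×ˢ H |
        q.1.1 + q.2.1 = q.1.2 + q.2.2 ∧ φ q.1.1 + φ q.2.1 = φ q.1.2 + φ q.2.2})
      = Finset.univ.filter (fun q : (ZMod N × ZMod N) × (ZMod N × ZMod N) =>
          (q.1.1 + q.2.1 = q.1.2 + q.2.2 ∧ φ q.1.1 + φ q.2.1 = φ q.1.2 + φ q.2.2) ∧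
            (q.1.1 ∈ H ∧ q.2.1 ∈ H ∧ q.1.2 ∈ H ∧ q.2.2 ∈ H)) := by
    ext q
    simp only [mem_filter, mem_product, mem_univ, true_and]
    tauto
  rw [e2, Finset.card_filter]
  push_cast
  rw [Fintype.sum_prod_type]
  simp_rw [Fintype.sum_prod_type]
  refine Finset.sum_congr rfl fun a _ => ?_
  exact Finset.sum_comm

/-- orthogonality in the `u` variable -/
theorem stepA_sum_u (H : Finset (ZMod N)) (φ : ZMod N → ZMod N) (a b c d : ZMod N) :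
    ∑ u, (if a + b = c + d then
        (if a ∈ H then eN (φ a * u) else 0) * (if b ∈ H then eN (φ b * u) else 0) *
          conj (if c ∈ H then eN (φ c * u) else 0) * conj (if d ∈ H then eN (φ d * u) else 0)
        else 0)
      = (N : ℂ) * (if (a + b = c + d ∧ φ a + φ b = φ c + φ d) ∧ (a ∈ H ∧ b ∈ H ∧ c ∈ H ∧ d ∈ H)
        then (1 : ℂ) else 0) := by
  by_cases h0 : a + b = c + d
  swap
  · simp [h0]
  by_cases ha : a ∈ H
  swap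
  · simp [ha]
  by_cases hb : b ∈ H
  swap
  · simp [hb]
  by_cases hc : c ∈ H
  swap
  · simp [hc]
  by_cases hd : d ∈ H
  swap
  · simp [hd]
  simp only [h0, ha, hb, hc, hd, if_true, true_and, and_true, and_self]
  have e : ∀ u : ZMod N, eN (φ a * u) * eN (φ b * u) * conj (eN (φ c * u)) * conj (eN (φ d * u))
      = eN ((φ a + φ b - (φ c + φ d)) * u) := by
    intro u
    rw [← eN_neg, ← eN_neg, ← eN_add, ← eN_add, ← eN_add]
    congr 1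
    ring
  simp_rw [e]
  rw [sum_eN_mul]
  by_cases h1 : φ a + φ b = φ c + φ d
  · rw [if_pos (sub_eq_zero.2 h1), if_pos h1, mul_one]
  · rw [if_neg (fun h => h1 (sub_eq_zero.1 h)), if_neg h1, mul_zero]

/-- the total fourth moment counts additive quadruples -/
theorem stepA_fourth_sum (H : Finset (ZMod N)) (φ : ZMod N → ZMod N) :
    ∑ u, ∑ ξ, ‖ft (fun h => if h ∈ H then eN (φ h * u) else 0) ξ‖ ^ 4
      = (N : ℝ) ^ 2 * (E[graph H φ] : ℝ) := by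
  have key : ((∑ u, ∑ ξ, ‖ft (fun h => if h ∈ H then eN (φ h * u) else 0) ξ‖ ^ 4 : ℝ) : ℂ)
      = (((N : ℝ) ^ 2 * (E[graph H φ] : ℝ) : ℝ) : ℂ) := by
    rw [Complex.ofReal_sum]
    simp_rw [ft_fourth]
    rw [← Finset.mul_sum]
    have e1 : ∑ u, ∑ a, ∑ b, ∑ c, ∑ d, (if a + b = c + d then
        (if a ∈ H then eN (φ a * u) else 0) * (if b ∈ H then eN (φ b * u) else 0) *
          conj (if c ∈ H then eN (φ c * u) else 0) * conj (if d ∈ H then eN (φ d * u) else 0)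
        else 0) = ∑ a, ∑ b, ∑ c, ∑ d, ∑ u, (if a + b = c + d then
        (if a ∈ H then eN (φ a * u) else 0) * (if b ∈ H then eN (φ b * u) else 0) *
          conj (if c ∈ H then eN (φ c * u) else 0) * conj (if d ∈ H then eN (φ d * u) else 0)
        else 0) := by
      refine Finset.sum_comm.trans (Finset.sum_congr rfl fun a _ => ?_)
      refine Finset.sum_comm.trans (Finset.sum_congr rfl fun b _ => ?_)
      refine Finset.sum_comm.trans (Finset.sum_congr rfl fun c _ => ?_)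
      exact Finset.sum_comm
    rw [e1]
    simp_rw [stepA_sum_u, ← Finset.mul_sum]
    rw [← stepA_energy]
    push_cast
    ring
  exact_mod_cast key

/-- A3: **Gowers' lemma**. -/
theorem gowers_quadruples (f : ZMod N → ℂ) (hf : ∀ x, ‖f x‖ ≤ 1) (H : Finset (ZMod N)) (φ : ZMod N → ZMod N) {γ : ℝ} (hγ : 0 ≤ γ)
    (h : γ * (N : ℝ) ^ 3 ≤ ∑ h ∈ H, ‖dcoef f f h (φ h)‖ ^ 2) :
    γ ^ 4 * (N : ℝ) ^ 3 ≤ (E[graph H φ] : ℝ) := by
  have hN := kit_Npos (N := N)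
  obtain ⟨K, hK⟩ : ∃ K : ZMod N → ZMod N → ℂ, ∀ u, K u = fun h => if h ∈ H then eN (φ h * u) else 0 :=
    ⟨fun u h => if h ∈ H then eN (φ h * u) else 0, fun _ => rfl⟩
  obtain ⟨G, hG⟩ : ∃ G : ZMod N → ZMod N → ℂ, ∀ u x, G u x = f (x + u) * conj (f x) :=
    ⟨fun u x => f (x + u) * conj (f x), fun _ _ => rfl⟩
  obtain ⟨T, hT⟩ : ∃ T : ZMod N → ℂ, ∀ u, T u = ∑ x, ∑ h, K u h * G u x * conj (G u (x + h)) :=
    ⟨fun u => ∑ x, ∑ h, K u h * G u x * conj (G u (x + h)), fun _ => rfl⟩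
  have hG1 : ∀ u x, ‖G u x‖ ≤ 1 := by
    intro u x
    rw [hG, norm_mul, Complex.norm_conj]
    exact mul_le_one₀ (hf _) (norm_nonneg _) (hf _)
  have h1 : ((∑ h ∈ H, ‖dcoef f f h (φ h)‖ ^ 2 : ℝ) : ℂ) = ∑ u, T u := by
    push_cast
    simp_rw [stepA_expand]
    refine Finset.sum_comm.trans (Finset.sum_congr rfl fun u _ => ?_)
    rw [hT]
    refine Finset.sum_comm.trans (Finset.sum_congr rfl fun x _ => ?_)
    have e : ∀ h, K u h * G u x * conj (G u (x + h)) = if h ∈ H then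
        eN (φ h * u) * (f (x + u) * conj (f x)) * conj (f (x + h + u) * conj (f (x + h))) else 0 := by
      intro h
      rw [hK, hG, hG]
      by_cases hh : h ∈ H
      · simp only [hh, if_true]
      · simp only [hh, if_false, zero_mul]
    simp_rw [e]
    rw [Finset.sum_ite_mem, Finset.univ_inter]
  have h2 : ∑ h ∈ H, ‖dcoef f f h (φ h)‖ ^ 2 ≤ ∑ u, ‖T u‖ := by
    calc ∑ h ∈ H, ‖dcoef f f h (φ h)‖ ^ 2 ≤ |∑ h ∈ H, ‖dcoef f f h (φ h)‖ ^ 2| := le_abs_self _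
      _ = ‖((∑ h ∈ H, ‖dcoef f f h (φ h)‖ ^ 2 : ℝ) : ℂ)‖ := by
          rw [Complex.norm_real, Real.norm_eq_abs]
      _ = ‖∑ u, T u‖ := by rw [h1]
      _ ≤ _ := norm_sum_le _ _
  have h3 : ∀ u, ‖T u‖ ^ 4 ≤ (N : ℝ) ^ 4 * ∑ ξ, ‖ft (K u) ξ‖ ^ 4 := by
    intro u
    rw [hT]
    exact stepA_T_le (G u) (K u) (hG1 u)
  have h4 : (∑ u, ‖T u‖) ^ 4 ≤ (N : ℝ) ^ 3 * ∑ u, ‖T u‖ ^ 4 := by
    have := stepA_pm Finset.univ (fun u => ‖T u‖)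
    rwa [Finset.card_univ, ZMod.card] at this
  have h5 : ∑ u, ∑ ξ, ‖ft (K u) ξ‖ ^ 4 = (N : ℝ) ^ 2 * (E[graph H φ] : ℝ) := by
    simp_rw [hK]
    exact stepA_fourth_sum H φ
  have h6 : (N : ℝ) ^ 9 * (γ ^ 4 * (N : ℝ) ^ 3) ≤ (N : ℝ) ^ 9 * (E[graph H φ] : ℝ) := by
    calc (N : ℝ) ^ 9 * (γ ^ 4 * (N : ℝ) ^ 3) = (γ * (N : ℝ) ^ 3) ^ 4 := by ring
      _ ≤ (∑ u, ‖T u‖) ^ 4 := pow_le_pow_left₀ (by positivity) (h.trans h2) 4
      _ ≤ (N : ℝ) ^ 3 * ∑ u, ‖T u‖ ^ 4 := h4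
      _ ≤ (N : ℝ) ^ 3 * ∑ u, ((N : ℝ) ^ 4 * ∑ ξ, ‖ft (K u) ξ‖ ^ 4) := by
          refine mul_le_mul_of_nonneg_left (Finset.sum_le_sum fun u _ => h3 u) (by positivity)
      _ = (N : ℝ) ^ 9 * (E[graph H φ] : ℝ) := by
          rw [← Finset.mul_sum, h5]
          ring
  exact le_of_mul_le_mul_left h6 (by positivity)

/-- **Step A.** -/
theorem u3_stepA (f : ZMod N → ℂ) (hf : ∀ x, ‖f x‖ ≤ 1) {η : ℝ} (hη : 0 < η) (h : η * (N : ℝ) ^ 4 ≤ (cube f).re) :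
    ∃ (H : Finset (ZMod N)) (φ : ZMod N → ZMod N),
      (∀ h ∈ H, η / 2 * (N : ℝ) ^ 2 ≤ ‖dcoef f f h (φ h)‖ ^ 2) ∧
      η ^ 8 / 256 * (N : ℝ) ^ 3 ≤ (E[graph H φ] : ℝ) := by
  obtain ⟨H, φ, hH, hφ⟩ := stepA_select f hf hη h
  refine ⟨H, φ, hφ, ?_⟩
  have hN : (0 : ℝ) < N := by exact_mod_cast Nat.pos_of_ne_zero (NeZero.ne N)
  have h1 : (η ^ 2 / 4) * (N : ℝ) ^ 3 ≤ ∑ h ∈ H, ‖dcoef f f h (φ h)‖ ^ 2 := by
    calc (η ^ 2 / 4) * (N : ℝ) ^ 3 = (η / 2 * N) * (η / 2 * (N : ℝ) ^ 2) := by ring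
      _ ≤ (H.card : ℝ) * (η / 2 * (N : ℝ) ^ 2) := by
          apply mul_le_mul_of_nonneg_right hH; positivity
      _ = ∑ h ∈ H, (η / 2 * (N : ℝ) ^ 2) := by simp
      _ ≤ _ := Finset.sum_le_sum hφ
  have h2 := gowers_quadruples f hf H φ (by positivity) h1
  calc η ^ 8 / 256 * (N : ℝ) ^ 3 = (η ^ 2 / 4) ^ 4 * (N : ℝ) ^ 3 := by ring
    _ ≤ _ := h2

end Claimed.Agent.R258.U3
end

/- ===== packed: Claimed.Agent.R258.U3.Lin.Ext1 ===== -/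
section
/-
Row 258, U3/B2 (architect helper152), LEAF P-U3L-EXT1.  Mathlib only, no paper.
`u3l_ext` : `Γ ⊆ G × G₂`, `π : G × G₂ → G × G₃` keeps the first coordinate and REFLECTS sums of 8 elements of `Γ`.
If `(x, 0) ∈ 2π(Γ) - 2π(Γ)` for all `x ∈ B`, then there is `M : G → G₂` with `(x, M x) ∈ 2Γ - 2Γ` on `B` which is a
Freiman homomorphism of order 2 on `B`.  (Choose `g₁ … g₄` for every `x ∈ B` (`Classical.choose` / `choose`),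
`M x = (g₁ + g₂ - g₃ - g₄).2`; the first coordinate is `x` by `hπ`; `x₁ + x₂ = x₃ + x₄` gives an identity between
two sums of 8 values of `π`: apply `hP` to `![…]`, `Fin.sum_univ_eight`, finish with `abel`-type rearrangements.)
-/
set_option autoImplicit false

namespace Claimed.Agent.R258.U3

open Finset
open scoped Pointwise Combinatorics.Additive

theorem u3l_ext {G G₂ G₃ : Type*} [AddCommGroup G] [AddCommGroup G₂] [AddCommGroup G₃]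
    (Γ : Finset (G × G₂)) (π : G × G₂ → G × G₃) (hπ : ∀ p, (π p).1 = p.1)
    (hP : ∀ a b : Fin 8 → G × G₂, (∀ i, a i ∈ Γ) → (∀ i, b i ∈ Γ) →
      ∑ i, π (a i) = ∑ i, π (b i) → ∑ i, a i = ∑ i, b i)
    (B : Set G)
    (hB : ∀ x ∈ B, ∃ g₁ ∈ Γ, ∃ g₂ ∈ Γ, ∃ g₃ ∈ Γ, ∃ g₄ ∈ Γ,
      ((x, 0) : G × G₃) = π g₁ + π g₂ - π g₃ - π g₄) :
    ∃ M : G → G₂,
      (∀ x ∈ B, ∃ g₁ ∈ Γ, ∃ g₂ ∈ Γ, ∃ g₃ ∈ Γ, ∃ g₄ ∈ Γ, (x, M x) = g₁ + g₂ - g₃ - g₄) ∧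
      ∀ x₁ ∈ B, ∀ x₂ ∈ B, ∀ x₃ ∈ B, ∀ x₄ ∈ B, x₁ + x₂ = x₃ + x₄ → M x₁ + M x₂ = M x₃ + M x₄ := by
  classical
  choose! g₁ h₁ g₂ h₂ g₃ h₃ g₄ h₄ e using hB
  refine ⟨fun x => (g₁ x + g₂ x - g₃ x - g₄ x).2, ?_, ?_⟩
  · intro x hx
    refine ⟨g₁ x, h₁ x hx, g₂ x, h₂ x hx, g₃ x, h₃ x hx, g₄ x, h₄ x hx, ?_⟩
    refine Prod.ext ?_ rfl
    have := congrArg Prod.fst (e x hx)
    simp only [Prod.fst_add, Prod.fst_sub, hπ] at this
    simpa using this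
  · intro x₁ b₁ x₂ b₂ x₃ b₃ x₄ b₄ hx
    have key := hP ![g₁ x₁, g₂ x₁, g₁ x₂, g₂ x₂, g₃ x₃, g₄ x₃, g₃ x₄, g₄ x₄]
      ![g₃ x₁, g₄ x₁, g₃ x₂, g₄ x₂, g₁ x₃, g₂ x₃, g₁ x₄, g₂ x₄]
      (by
        intro i; fin_cases i
        · exact h₁ _ b₁
        · exact h₂ _ b₁
        · exact h₁ _ b₂
        · exact h₂ _ b₂
        · exact h₃ _ b₃
        · exact h₄ _ b₃
        · exact h₃ _ b₄
        · exact h₄ _ b₄)
      (by
        intro i; fin_cases i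
        · exact h₃ _ b₁
        · exact h₄ _ b₁
        · exact h₃ _ b₂
        · exact h₄ _ b₂
        · exact h₁ _ b₃
        · exact h₂ _ b₃
        · exact h₁ _ b₄
        · exact h₂ _ b₄)
      (by
        simp only [Fin.sum_univ_eight, Matrix.cons_val]
        have E : ((x₁, 0) : G × G₃) + (x₂, 0) = (x₃, 0) + (x₄, 0) := by
          simp [hx]
        rw [e x₁ b₁, e x₂ b₂, e x₃ b₃, e x₄ b₄] at E
        rw [← sub_eq_zero] at E ⊢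
        rw [← E]
        abel)
    simp only [Fin.sum_univ_eight, Matrix.cons_val] at key
    have key2 : (g₁ x₁ + g₂ x₁ - g₃ x₁ - g₄ x₁) + (g₁ x₂ + g₂ x₂ - g₃ x₂ - g₄ x₂) =
        (g₁ x₃ + g₂ x₃ - g₃ x₃ - g₄ x₃) + (g₁ x₄ + g₂ x₄ - g₃ x₄ - g₄ x₄) := by
      rw [← sub_eq_zero] at key ⊢
      rw [← key]
      abel
    exact congrArg Prod.snd key2

/-- `π` is injective on `Γ`. (Pad with 7 copies of `p`.) -/
theorem u3l_refl_injOn {G G' : Type*} [AddCommGroup G] [AddCommGroup G']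
    (Γ : Finset G) (π : G → G')
    (hP : ∀ a b : Fin 8 → G, (∀ i, a i ∈ Γ) → (∀ i, b i ∈ Γ) →
      ∑ i, π (a i) = ∑ i, π (b i) → ∑ i, a i = ∑ i, b i) :
    Set.InjOn π (Γ : Set G) := by
  intro p hp q hq h
  have key := hP (Fin.cons p fun _ => p) (Fin.cons q fun _ => p)
    (by intro i; refine Fin.cases ?_ (fun j => ?_) i <;> simpa using hp)
    (by
      intro i; refine Fin.cases ?_ (fun j => ?_) i
      · simpa using hq
      · simpa using hp)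
    (by simp [Fin.sum_univ_succ, h])
  simpa [Fin.sum_univ_succ] using key

end Claimed.Agent.R258.U3
end

/- ===== packed: Claimed.Agent.R258.U3.Lin.Main ===== -/
section
/-
Row 258 (S0498), block U3, part B2 = LINEARISATION (architect helper152).  ASSEMBLY.

INPUT: `φ : ZMod N → ZMod N` (`N` prime), `H ⊆ ZMod N`, at least `η N^3` additive quadruples
(`η N^3 ≤ E[u3lGraph H φ]`, see `u3l_energy_graph`), and the dense Bogolyubov-Ruzsa lemma `U3LBR C₀` (block B1).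
OUTPUT (`u3l_linearisation`): a Bohr set `B = Bohr(Λ, ρ)` of `ZMod N` of rank `≤ C₀ (200 (1 + log (1/η)))^4` and radius
`≥ 1 / (C₀ (200 (1 + log (1/η)))^4)`, a Freiman homomorphism `M` of order 2 on `B` with `M 0 = 0`, such that for EVERY
finite `B' ⊆ B` there are `h₀, c` with `φ h = c - M (h₀ - h)` for at least `η^20 / 2^73 * #B'` elements `h ∈ H ∩ (h₀ - B')`.

CHAIN: `Γ` = graph; BSG (`K = 1/η`): `Γ₁ ⊆ Γ`, `#(Γ₁ - Γ₁) ≤ K₁ #Γ₁`, `K₁ = 2^14 / η^4`; fibre `F` of `8Γ₁ - 8Γ₁`: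
`#F ≤ K₁^17`; `m = 2 #F + 1`; model lemma: `Γ₂ ⊆ Γ₁`, `π = u3lPi lam m`; `A = π(Γ₂) ⊆ ZMod N × ZMod m` has density
`≥ η^70 / 2^246`; `U3LBR`: `Bohr(Λ', ρ) ⊆ 2A - 2A`; `Λ` = restrictions of `Λ'` to `ZMod N × {0}`; `u3l_ext`: `M`;
`u3l_pigeon` with `S = graph (M | B') ⊆ 2Γ₂ - 2Γ₂`, `T = 3Γ₁ - 2Γ₁`, `#T ≤ K₁^5 #Γ₁ ≤ 8 K₁^5 #Γ₂`.
-/
set_option autoImplicit false

namespace Claimed.Agent.R258.U3

open Finset
open scoped Pointwise Combinatorics.Additive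

/-- The dense Bogolyubov-Ruzsa lemma with constant `C` (block B1). -/
def U3LBR (C : ℝ) : Prop :=
  ∀ (G : Type) [AddCommGroup G] [Fintype G] [DecidableEq G] (A : Finset G) (α : ℝ), 0 < α → α ≤ 1 →
    α * Fintype.card G ≤ #A →
    ∃ (Λ : Finset (AddChar G ℂ)) (ρ : ℝ), (#Λ : ℝ) ≤ C * Real.log (2 / α) ^ 4 ∧ 0 < ρ ∧
      1 ≤ ρ * (C * Real.log (2 / α) ^ 4) ∧
      ∀ x : G, (∀ χ ∈ Λ, ‖χ x - 1‖ ≤ ρ) →
        ∃ a₁ ∈ A, ∃ a₂ ∈ A, ∃ a₃ ∈ A, ∃ a₄ ∈ A, x = a₁ + a₂ - a₃ - a₄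

variable {N : ℕ} [Fact N.Prime]

/-- Step 1: BSG, fibre bound, model lemma. -/
theorem u3l_prep (η : ℝ) (hη : 0 < η) (hη1 : η ≤ 1) (H : Finset (ZMod N)) (φ : ZMod N → ZMod N)
    (hE : η * (N : ℝ) ^ 3 ≤ E[u3lGraph H φ]) :
    ∃ (m : ℕ) (lam : ZMod N) (Γ₁ Γ₂ : Finset (ZMod N × ZMod N)),
      0 < m ∧ (m : ℝ) ≤ 3 * (2 ^ 14 / η ^ 4) ^ 17 ∧ Γ₁ ⊆ u3lGraph H φ ∧ Γ₂ ⊆ Γ₁ ∧ #Γ₁ ≤ 8 * #Γ₂ ∧
      η ^ 2 * N ≤ 8 * #Γ₁ ∧ (#(Γ₁ - Γ₁) : ℝ) ≤ 2 ^ 14 / η ^ 4 * #Γ₁ ∧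
      ∀ a b : Fin 8 → ZMod N × ZMod N, (∀ i, a i ∈ Γ₂) → (∀ i, b i ∈ Γ₂) →
        ∑ i, u3lPi lam m (a i) = ∑ i, u3lPi lam m (b i) → ∑ i, a i = ∑ i, b i := by
  have hN : (0 : ℝ) < N := by exact_mod_cast (Fact.out : N.Prime).pos
  set Γ := u3lGraph H φ with hΓ
  have hn : (#Γ : ℝ) ≤ N := by
    have h1 : #Γ ≤ N := by
      rw [hΓ, u3l_card_graph]
      calc #H ≤ Fintype.card (ZMod N) := card_le_univ _
        _ = N := ZMod.card N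
    exact_mod_cast h1
  have hn0 : (0 : ℝ) ≤ #Γ := by positivity
  have hEle : (E[Γ] : ℝ) ≤ (#Γ : ℝ) ^ 3 := by exact_mod_cast u3l_energy_le Γ
  -- `η N ≤ #Γ`
  have ha : η * N ≤ #Γ := by
    have h1 : η * (N : ℝ) ^ 3 ≤ (#Γ : ℝ) * (N : ℝ) ^ 2 := by
      calc η * (N : ℝ) ^ 3 ≤ (#Γ : ℝ) ^ 3 := hE.trans hEle
        _ = (#Γ : ℝ) * (#Γ : ℝ) ^ 2 := by ring
        _ ≤ (#Γ : ℝ) * (N : ℝ) ^ 2 := by gcongr
    have h2 : (η * N) * (N : ℝ) ^ 2 ≤ (#Γ : ℝ) * (N : ℝ) ^ 2 := by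
      calc (η * N) * (N : ℝ) ^ 2 = η * (N : ℝ) ^ 3 := by ring
        _ ≤ _ := h1
    exact le_of_mul_le_mul_right h2 (by positivity)
  have hb : (#Γ : ℝ) ^ 3 ≤ 1 / η * E[Γ] := by
    rw [div_mul_eq_mul_div, one_mul, le_div_iff₀ hη]
    calc (#Γ : ℝ) ^ 3 * η ≤ (N : ℝ) ^ 3 * η := by gcongr
      _ = η * (N : ℝ) ^ 3 := by ring
      _ ≤ _ := hE
  obtain ⟨Γ₁, hΓ₁, hc1, hc2⟩ := u3l_bsg Γ (1 / η) (by positivity) hb
  have hd1 : η * #Γ ≤ 8 * #Γ₁ := by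
    have : η * (#Γ : ℝ) ≤ η * (8 * (1 / η) * #Γ₁) := by gcongr
    calc η * (#Γ : ℝ) ≤ η * (8 * (1 / η) * #Γ₁) := this
      _ = 8 * #Γ₁ := by field_simp
  have hd2 : η ^ 2 * N ≤ 8 * #Γ₁ := by
    calc η ^ 2 * N = η * (η * N) := by ring
      _ ≤ η * #Γ := by gcongr
      _ ≤ _ := hd1
  have hd3 : (#(Γ₁ - Γ₁) : ℝ) ≤ 2 ^ 14 / η ^ 4 * #Γ₁ := by
    calc (#(Γ₁ - Γ₁) : ℝ) ≤ 2 ^ 11 * (1 / η) ^ 3 * #Γ := hc2
      _ ≤ 2 ^ 11 * (1 / η) ^ 3 * (8 * (1 / η) * #Γ₁) := by gcongr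
      _ = 2 ^ 14 / η ^ 4 * #Γ₁ := by field_simp; ring
  have hne : Γ₁.Nonempty := by
    rw [← card_pos]
    have : (0 : ℝ) < 8 * #Γ₁ := lt_of_lt_of_le (by positivity) hd2
    have h2 : (0 : ℝ) < #Γ₁ := by linarith
    exact_mod_cast h2
  have hF := u3l_fib_card Γ₁ (u3l_graph_injOn H φ Γ₁ hΓ₁) _ hd3 hne
  obtain ⟨lam, Γ₂, hΓ₂, he1, he2⟩ := u3l_model Γ₁ (2 * #(u3lFib Γ₁) + 1) (Nat.lt_succ_self _)
  refine ⟨2 * #(u3lFib Γ₁) + 1, lam, Γ₁, Γ₂, Nat.succ_pos _, ?_, hΓ₁, hΓ₂, he1, hd2, hd3, he2⟩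
  have hK1 : (1 : ℝ) ≤ (2 ^ 14 / η ^ 4) ^ 17 := by
    apply one_le_pow₀
    rw [le_div_iff₀ (by positivity)]
    have : η ^ 4 ≤ 1 := pow_le_one₀ hη.le hη1
    linarith
  push_cast
  linarith

/-- Step 2: extension and pigeonhole. -/
theorem u3l_core (H : Finset (ZMod N)) (φ : ZMod N → ZMod N) (K₁ : ℝ) (m : ℕ) (lam : ZMod N)
    (Γ₁ Γ₂ : Finset (ZMod N × ZMod N)) (hΓ₁ : Γ₁ ⊆ u3lGraph H φ) (hΓ₂ : Γ₂ ⊆ Γ₁)
    (h8 : #Γ₁ ≤ 8 * #Γ₂) (hne : Γ₂.Nonempty) (hd : (#(Γ₁ - Γ₁) : ℝ) ≤ K₁ * #Γ₁)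
    (hP : ∀ a b : Fin 8 → ZMod N × ZMod N, (∀ i, a i ∈ Γ₂) → (∀ i, b i ∈ Γ₂) →
        ∑ i, u3lPi lam m (a i) = ∑ i, u3lPi lam m (b i) → ∑ i, a i = ∑ i, b i)
    (B : Set (ZMod N))
    (hB : ∀ x ∈ B, ∃ a₁ ∈ Γ₂.image (u3lPi lam m), ∃ a₂ ∈ Γ₂.image (u3lPi lam m),
      ∃ a₃ ∈ Γ₂.image (u3lPi lam m), ∃ a₄ ∈ Γ₂.image (u3lPi lam m),
      ((x, 0) : ZMod N × ZMod m) = a₁ + a₂ - a₃ - a₄) :
    ∃ M : ZMod N → ZMod N, M 0 = 0 ∧
      (∀ x₁ ∈ B, ∀ x₂ ∈ B, ∀ x₃ ∈ B, ∀ x₄ ∈ B, x₁ + x₂ = x₃ + x₄ → M x₁ + M x₂ = M x₃ + M x₄) ∧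
      ∀ B' : Finset (ZMod N), (∀ x ∈ B', x ∈ B) → ∃ h₀ c : ZMod N,
        (#B' : ℝ) ≤ 8 * K₁ ^ 5 * #{h ∈ H | h₀ - h ∈ B' ∧ φ h = c - M (h₀ - h)} := by
  obtain ⟨M₀, hM1, hM2⟩ := u3l_ext Γ₂ (u3lPi lam m) (fun _ => rfl) hP B (by
    intro x hx
    obtain ⟨a₁, h1, a₂, h2, a₃, h3, a₄, h4, e⟩ := hB x hx
    obtain ⟨g₁, hg1, rfl⟩ := mem_image.1 h1
    obtain ⟨g₂, hg2, rfl⟩ := mem_image.1 h2
    obtain ⟨g₃, hg3, rfl⟩ := mem_image.1 h3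
    obtain ⟨g₄, hg4, rfl⟩ := mem_image.1 h4
    exact ⟨g₁, hg1, g₂, hg2, g₃, hg3, g₄, hg4, e⟩)
  refine ⟨fun x => M₀ x - M₀ 0, sub_self _, ?_, ?_⟩
  · intro x₁ h1 x₂ h2 x₃ h3 x₄ h4 e
    have := hM2 x₁ h1 x₂ h2 x₃ h3 x₄ h4 e
    show M₀ x₁ - M₀ 0 + (M₀ x₂ - M₀ 0) = M₀ x₃ - M₀ 0 + (M₀ x₄ - M₀ 0)
    calc M₀ x₁ - M₀ 0 + (M₀ x₂ - M₀ 0) = (M₀ x₁ + M₀ x₂) - M₀ 0 - M₀ 0 := by abel
      _ = (M₀ x₃ + M₀ x₄) - M₀ 0 - M₀ 0 := by rw [this]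
      _ = _ := by abel
  intro B' hB'
  have hne₁ : Γ₁.Nonempty := hne.mono hΓ₂
  set S : Finset (ZMod N × ZMod N) := B'.image fun x => (x, M₀ x) with hS
  have hScard : #S = #B' := card_image_of_injective _ fun _ _ h => (Prod.mk.inj h).1
  have hT : Γ₂ + S ⊆ 3 • Γ₁ - 2 • Γ₁ := by
    intro z hz
    obtain ⟨γ, hγ, s, hs, rfl⟩ := mem_add.1 hz
    obtain ⟨x, hx, rfl⟩ := mem_image.1 hs
    obtain ⟨g₁, hg1, g₂, hg2, g₃, hg3, g₄, hg4, e⟩ := hM1 x (hB' x hx)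
    have e1 : γ + g₁ + g₂ ∈ 3 • Γ₁ := by
      have := u3l_sum_mem_nsmul Γ₁ 3 ![γ, g₁, g₂] (by
        intro i; fin_cases i
        · exact hΓ₂ hγ
        · exact hΓ₂ hg1
        · exact hΓ₂ hg2)
      simpa [Fin.sum_univ_three] using this
    have e2 : g₃ + g₄ ∈ 2 • Γ₁ := by
      have := u3l_sum_mem_nsmul Γ₁ 2 ![g₃, g₄] (by
        intro i; fin_cases i
        · exact hΓ₂ hg3
        · exact hΓ₂ hg4)
      simpa [Fin.sum_univ_two] using this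
    have e3 : γ + (x, M₀ x) = (γ + g₁ + g₂) - (g₃ + g₄) := by rw [e]; abel
    rw [e3]
    exact sub_mem_sub e1 e2
  obtain ⟨t, ht⟩ := u3l_pigeon Γ₂ S _ hT
  refine ⟨t.1, t.2 - M₀ 0, ?_⟩
  have hTc := u3l_plun Γ₁ hne₁ K₁ hd 3 2
  have hcnt : #{γ ∈ Γ₂ | t - γ ∈ S} ≤
      #{h ∈ H | t.1 - h ∈ B' ∧ φ h = t.2 - M₀ 0 - (M₀ (t.1 - h) - M₀ 0)} := by
    apply card_le_card_of_injOn Prod.fst
    · intro γ hγ
      rw [mem_coe, mem_filter] at hγ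
      obtain ⟨hγ2, hγS⟩ := hγ
      obtain ⟨x, hx, e⟩ := mem_image.1 hγS
      obtain ⟨hH, hφ⟩ := (u3l_mem_graph H φ γ).1 (hΓ₁ (hΓ₂ hγ2))
      have e1 : x = t.1 - γ.1 := congrArg Prod.fst e
      have e2 : M₀ x = t.2 - γ.2 := congrArg Prod.snd e
      rw [mem_coe, mem_filter]
      refine ⟨hH, e1 ▸ hx, ?_⟩
      rw [← e1, e2, ← hφ]
      abel
    · intro p hp q hq h
      rw [mem_coe, mem_filter] at hp hq
      exact u3l_graph_injOn H φ Γ₂ (hΓ₂.trans hΓ₁) hp.1 hq.1 h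
  have hK : 0 ≤ K₁ := by
    by_contra hneg
    have hneg := not_le.1 hneg
    have h1 : (0 : ℝ) < #Γ₁ := by exact_mod_cast hne₁.card_pos
    have h2 : (0 : ℝ) ≤ #(Γ₁ - Γ₁) := by positivity
    nlinarith
  have hpos : (0 : ℝ) < #Γ₂ := by exact_mod_cast hne.card_pos
  have h8' : (#Γ₁ : ℝ) ≤ 8 * #Γ₂ := by exact_mod_cast h8
  have ht' : (#Γ₂ : ℝ) * #B' ≤ #(3 • Γ₁ - 2 • Γ₁) * #{γ ∈ Γ₂ | t - γ ∈ S} := by
    rw [← hScard]; exact_mod_cast ht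
  have hcnt' : (#{γ ∈ Γ₂ | t - γ ∈ S} : ℝ) ≤
      #{h ∈ H | t.1 - h ∈ B' ∧ φ h = t.2 - M₀ 0 - (M₀ (t.1 - h) - M₀ 0)} := by exact_mod_cast hcnt
  have key : (#Γ₂ : ℝ) * #B' ≤ #Γ₂ * (8 * K₁ ^ 5 *
      #{h ∈ H | t.1 - h ∈ B' ∧ φ h = t.2 - M₀ 0 - (M₀ (t.1 - h) - M₀ 0)}) := by
    calc (#Γ₂ : ℝ) * #B' ≤ #(3 • Γ₁ - 2 • Γ₁) * #{γ ∈ Γ₂ | t - γ ∈ S} := ht'
      _ ≤ (K₁ ^ (3 + 2) * #Γ₁) * #{γ ∈ Γ₂ | t - γ ∈ S} := by gcongr
      _ ≤ (K₁ ^ (3 + 2) * (8 * #Γ₂)) *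
          #{h ∈ H | t.1 - h ∈ B' ∧ φ h = t.2 - M₀ 0 - (M₀ (t.1 - h) - M₀ 0)} := by gcongr
      _ = _ := by ring
  exact le_of_mul_le_mul_left key hpos

/-- the logarithm of the density -/
theorem u3l_log_bound (η : ℝ) (hη : 0 < η) (hη1 : η ≤ 1) :
    0 ≤ Real.log (2 / (η ^ 70 / 2 ^ 246)) ∧
      Real.log (2 / (η ^ 70 / 2 ^ 246)) ≤ 200 * (1 + Real.log (1 / η)) := by
  have h0 : 0 ≤ Real.log (1 / η) := Real.log_nonneg (by rw [le_div_iff₀ hη]; linarith)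
  have e : Real.log (2 / (η ^ 70 / 2 ^ 246)) = 247 * Real.log 2 + 70 * Real.log (1 / η) := by
    have : (2 : ℝ) / (η ^ 70 / 2 ^ 246) = 2 ^ 247 * (1 / η) ^ 70 := by field_simp
    rw [this, Real.log_mul (by positivity) (by positivity), Real.log_pow, Real.log_pow]
    norm_num
  have h2 := Real.log_two_lt_d9
  have h3 : 0 < Real.log 2 := Real.log_pos (by norm_num)
  rw [e]
  constructor
  · positivity
  · nlinarith

/-- **Linearisation.** -/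
theorem u3l_linearisation (C₀ : ℝ) (hBR : U3LBR C₀) (η : ℝ) (hη : 0 < η) (hη1 : η ≤ 1)
    (H : Finset (ZMod N)) (φ : ZMod N → ZMod N) (hE : η * (N : ℝ) ^ 3 ≤ E[u3lGraph H φ]) :
    ∃ (Λ : Finset (AddChar (ZMod N) ℂ)) (ρ : ℝ) (M : ZMod N → ZMod N),
      (#Λ : ℝ) ≤ C₀ * (200 * (1 + Real.log (1 / η))) ^ 4 ∧ 0 < ρ ∧
      1 ≤ ρ * (C₀ * (200 * (1 + Real.log (1 / η))) ^ 4) ∧ M 0 = 0 ∧
      (∀ x₁ x₂ x₃ x₄ : ZMod N, (∀ χ ∈ Λ, ‖χ x₁ - 1‖ ≤ ρ) → (∀ χ ∈ Λ, ‖χ x₂ - 1‖ ≤ ρ) →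
        (∀ χ ∈ Λ, ‖χ x₃ - 1‖ ≤ ρ) → (∀ χ ∈ Λ, ‖χ x₄ - 1‖ ≤ ρ) → x₁ + x₂ = x₃ + x₄ →
        M x₁ + M x₂ = M x₃ + M x₄) ∧
      ∀ B' : Finset (ZMod N), (∀ x ∈ B', ∀ χ ∈ Λ, ‖χ x - 1‖ ≤ ρ) → ∃ h₀ c : ZMod N,
        η ^ 20 / 2 ^ 73 * #B' ≤ #{h ∈ H | h₀ - h ∈ B' ∧ φ h = c - M (h₀ - h)} := by
  classical
  obtain ⟨m, lam, Γ₁, Γ₂, hm, hm', hΓ₁, hΓ₂, h8, hbig, hd, hP⟩ := u3l_prep η hη hη1 H φ hE
  have : NeZero m := ⟨hm.ne'⟩
  have hN : (0 : ℝ) < N := by exact_mod_cast (Fact.out : N.Prime).pos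
  have h8' : (#Γ₁ : ℝ) ≤ 8 * #Γ₂ := by exact_mod_cast h8
  have hne : Γ₂.Nonempty := by
    rw [← card_pos]
    have h1 : (0 : ℝ) < η ^ 2 * N := by positivity
    have h2 : (0 : ℝ) < #Γ₂ := by linarith
    exact_mod_cast h2
  have hcardA : #(Γ₂.image (u3lPi lam m)) = #Γ₂ :=
    card_image_of_injOn (u3l_refl_injOn Γ₂ _ hP)
  have hα0 : 0 < η ^ 70 / 2 ^ 246 := by positivity
  have hα1 : η ^ 70 / 2 ^ 246 ≤ 1 := by
    rw [div_le_one (by positivity)]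
    calc η ^ 70 ≤ 1 := pow_le_one₀ hη.le hη1
      _ ≤ 2 ^ 246 := one_le_pow₀ (by norm_num)
  have hdens : η ^ 70 / 2 ^ 246 * (Fintype.card (ZMod N × ZMod m) : ℝ) ≤
      #(Γ₂.image (u3lPi lam m)) := by
    rw [hcardA, Fintype.card_prod, ZMod.card, ZMod.card]
    push_cast
    calc η ^ 70 / 2 ^ 246 * ((N : ℝ) * m) ≤ η ^ 70 / 2 ^ 246 * ((N : ℝ) * (3 * (2 ^ 14 / η ^ 4) ^ 17)) := by
          gcongr
      _ = 3 / 256 * (η ^ 2 * N) := by field_simp; norm_num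
      _ ≤ #Γ₂ := by nlinarith
  obtain ⟨Λ', ρ, hΛ, hρ, hρ', hsub⟩ := hBR (ZMod N × ZMod m) (Γ₂.image (u3lPi lam m)) _ hα0 hα1 hdens
  obtain ⟨hL0, hL⟩ := u3l_log_bound η hη hη1
  set L := Real.log (2 / (η ^ 70 / 2 ^ 246)) with hLdef
  have hC₀ : 0 < C₀ := by
    by_contra hneg
    have hneg := not_lt.1 hneg
    have : ρ * (C₀ * L ^ 4) ≤ 0 :=
      mul_nonpos_of_nonneg_of_nonpos hρ.le (mul_nonpos_of_nonpos_of_nonneg hneg (by positivity))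
    linarith
  have hL4 : C₀ * L ^ 4 ≤ C₀ * (200 * (1 + Real.log (1 / η))) ^ 4 := by gcongr
  set Λ : Finset (AddChar (ZMod N) ℂ) :=
    Λ'.image fun χ => χ.compAddMonoidHom (AddMonoidHom.inl (ZMod N) (ZMod m)) with hΛdef
  obtain ⟨M, hM0, hM1, hM2⟩ := u3l_core H φ (2 ^ 14 / η ^ 4) m lam Γ₁ Γ₂ hΓ₁ hΓ₂ h8 hne hd hP
    {x | ∀ χ ∈ Λ, ‖χ x - 1‖ ≤ ρ} (by
      intro x hx
      apply hsub
      intro χ hχ
      have := hx (χ.compAddMonoidHom (AddMonoidHom.inl (ZMod N) (ZMod m)))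
        (mem_image_of_mem _ hχ)
      simpa using this)
  refine ⟨Λ, ρ, M, ?_, hρ, ?_, hM0, ?_, ?_⟩
  · have : (#Λ : ℝ) ≤ #Λ' := by exact_mod_cast card_image_le
    linarith
  · calc 1 ≤ ρ * (C₀ * L ^ 4) := hρ'
      _ ≤ _ := by gcongr
  · intro x₁ x₂ x₃ x₄ h1 h2 h3 h4 e
    exact hM1 x₁ h1 x₂ h2 x₃ h3 x₄ h4 e
  · intro B' hB'
    obtain ⟨h₀, c, hc⟩ := hM2 B' hB'
    refine ⟨h₀, c, ?_⟩
    have e : (8 : ℝ) * (2 ^ 14 / η ^ 4) ^ 5 = 2 ^ 73 / η ^ 20 := by field_simp; norm_num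
    rw [e] at hc
    rw [div_mul_eq_mul_div, div_le_iff₀ (by positivity)]
    rw [div_mul_eq_mul_div, le_div_iff₀ (by positivity)] at hc
    linarith

end Claimed.Agent.R258.U3
end

/- ===== packed: Claimed.Agent.R258.U3.Fin ===== -/
section
/-
R258 / U3 / Fin : transfer between `ℤ` and `ZMod N`, the annulus pigeonhole (all cutoffs), conversion of the `ZMod N` phase into bracket form.
Blueprint owner: helper52.  Leaves: F1 `cube_transfer`, F2 `fin_annulus`, F3 `fin_cutoff`, F4 `fin_convert`.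
Statements verbatim; helper lemmas prefix `fin_`.  This file is sorry-free.

F1.  The cast `(x, h₁, h₂, h₃) ∈ [0,L) × (-L,L)^3 → (ZMod N)^4` is injective (`N ≥ 2L`).  Termwise equality: an integer `z = x + ω·h ∈ (-3L, 4L)`: if `0 ≤ z < L` then `(z : ZMod N).val = z`; if `L ≤ z < 4L ≤ N` again `val = z` and `f z = 0`;
     if `-3L < z < 0` then `val = z + N ≥ N - 3L ≥ L`, both sides vanish.  A quadruple of `(ZMod N)^4` outside the image contributes `0`: either `x.val ≥ L`, or some `(x + h_i).val ≥ L` (otherwise `h_i` is the cast of `(x + h_i).val - x.val ∈ (-L, L)`).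
F2.  `J = ⌈2 / c⌉₊ ≤ 3 / c`, `ρ_i = 2ρ/3 + i ρ / (3J)`, `0 ≤ i ≤ J`.  The `J` annuli `B(ρ_i) \ B(ρ_{i-1})` are disjoint, so one of them has `≤ N / J ≤ c N / 2` points; `ρ_i (1 - c/9) ≥ ρ_i - ρ / (3J) = ρ_{i-1}`.
F3.  `∑_x F(xs + x) χ' x Ψ x - ∑_{x ∈ B(ρ₁)} F(xs + x) Ψ x` is supported on the annulus, each term has norm `≤ 1`.
F4.  `σ` = an enumeration of `S` (`S.equivFin`), `θ j = (σ j).val / N`, `a j = α (σ j)`, `y = xs.val`.  Reindex `x = n - y` with `n = (xs + x).val ∈ [0, N)`; `per N f (xs + x) = f n` vanishes unless `n < L`.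
     For `x = ((n - y : ℤ) : ZMod N)`:  `fr (σ j * x) = fr (((σ j).val * (n - y) : ℤ) : ZMod N) = sfr (θ j * (n - y))` (`fr_intCast_eq_sfr`).
     If `χ (..) ≠ 0` then `x ∈ zbohr S ρ₁ ⊆ zbohr S ρ₂`, and `eN (Mp x * x) = eR ((n - y) * fr (Mp x))` (`eN_mul_intCast`) `= eR (∑_j a j (n - y) sfr (θ j (n-y)))` (the integer `(n - y) m` drops out),
     `eN (ξ x) = eR (ξ.val (n - y) / N)`.   So `β = ξ.val / N`, and the remaining constant phase `e(ξ.val y / N)` is unimodular and factors out of the sum.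
-/
set_option autoImplicit false

namespace Claimed.Agent.R258.U3

open Finset
open scoped ComplexConjugate Pointwise

/-- periodisation of a function on `ℤ` supported on `[0, N)`. -/
noncomputable def per (N : ℕ) (f : ℤ → ℂ) (a : ZMod N) : ℂ := f (a.val : ℤ)


theorem fin_per_intCast (L N : ℕ) [NeZero N] (f : ℤ → ℂ) (hsupp : ∀ n, f n ≠ 0 → 0 ≤ n ∧ n < L)
    (z : ℤ) (h1 : -(N : ℤ) + L ≤ z) (h2 : z < N) : per N f (z : ZMod N) = f z := by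
  unfold per
  rw [ZMod.val_intCast]
  rcases le_or_gt 0 z with h0 | h0
  · rw [Int.emod_eq_of_lt h0 h2]
  · have e1 : z % (N : ℤ) = z + N := by
      rw [← Int.add_emod_right, Int.emod_eq_of_lt (by linarith) (by linarith)]
    rw [e1]
    have a1 : f (z + N) = 0 := by
      by_contra h
      have := (hsupp _ h).2
      linarith
    have a2 : f z = 0 := by
      by_contra h
      have := (hsupp _ h).1
      linarith
    rw [a1, a2]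

theorem fin_cast_inj (N : ℕ) (a b : ℤ) (h : |a - b| < N) (hab : (a : ZMod N) = (b : ZMod N)) : a = b := by
  rw [ZMod.intCast_eq_intCast_iff_dvd_sub] at hab
  have h' : |b - a| < N := by rw [abs_sub_comm]; exact h
  have := Int.eq_zero_of_abs_lt_dvd hab h'
  linarith

/-- the cube term. -/
noncomputable def finT {A : Type*} [Add A] (g : A → ℂ) (x h₁ h₂ h₃ : A) : ℂ :=
  g x * conj (g (x + h₁)) * conj (g (x + h₂)) * conj (g (x + h₃)) *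
      g (x + h₁ + h₂) * g (x + h₁ + h₃) * g (x + h₂ + h₃) * conj (g (x + h₁ + h₂ + h₃))

theorem cube_transfer (L N : ℕ) [NeZero N] (hN : 8 * L ≤ N) (f : ℤ → ℂ) (hsupp : ∀ n, f n ≠ 0 → 0 ≤ n ∧ n < L) :
    cube (per N f) = cubeZ L f := by
  classical
  have hN' : (8 : ℤ) * L ≤ N := by exact_mod_cast hN
  have hL0 : (0 : ℤ) ≤ L := Int.natCast_nonneg L
  have e1 : cube (per N f) = ∑ q : ZMod N × ZMod N × ZMod N × ZMod N, finT (per N f) q.1 q.2.1 q.2.2.1 q.2.2.2 := by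
    simp only [Fintype.sum_prod_type]; rfl
  have e2 : cubeZ L f = ∑ p ∈ Finset.Ico (0 : ℤ) L ×ˢ (Finset.Ioo (-(L : ℤ)) L ×ˢ (Finset.Ioo (-(L : ℤ)) L ×ˢ Finset.Ioo (-(L : ℤ)) L)),
      finT f p.1 p.2.1 p.2.2.1 p.2.2.2 := by
    simp only [Finset.sum_product]; rfl
  rw [e1, e2]
  set P := Finset.Ico (0 : ℤ) L ×ˢ (Finset.Ioo (-(L : ℤ)) L ×ˢ (Finset.Ioo (-(L : ℤ)) L ×ˢ Finset.Ioo (-(L : ℤ)) L)) with hP
  set ι : ℤ × ℤ × ℤ × ℤ → ZMod N × ZMod N × ZMod N × ZMod N :=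
    fun p => ((p.1 : ZMod N), (p.2.1 : ZMod N), (p.2.2.1 : ZMod N), (p.2.2.2 : ZMod N)) with hι
  have hmem : ∀ p : ℤ × ℤ × ℤ × ℤ, p ∈ P ↔ (0 ≤ p.1 ∧ p.1 < L) ∧ (-(L : ℤ) < p.2.1 ∧ p.2.1 < L) ∧
      (-(L : ℤ) < p.2.2.1 ∧ p.2.2.1 < L) ∧ (-(L : ℤ) < p.2.2.2 ∧ p.2.2.2 < L) := by
    intro p
    simp only [hP, Finset.mem_product, Finset.mem_Ico, Finset.mem_Ioo]
  have hinj : Set.InjOn ι (P : Set (ℤ × ℤ × ℤ × ℤ)) := by
    intro p hp p' hp' h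
    rw [Finset.mem_coe, hmem] at hp hp'
    obtain ⟨⟨a1, a2⟩, ⟨a3, a4⟩, ⟨a5, a6⟩, a7, a8⟩ := hp
    obtain ⟨⟨b1, b2⟩, ⟨b3, b4⟩, ⟨b5, b6⟩, b7, b8⟩ := hp'
    simp only [hι, Prod.mk.injEq] at h
    obtain ⟨h1, h2, h3, h4⟩ := h
    have c1 := fin_cast_inj N _ _ (by rw [abs_lt]; constructor <;> linarith) h1
    have c2 := fin_cast_inj N _ _ (by rw [abs_lt]; constructor <;> linarith) h2
    have c3 := fin_cast_inj N _ _ (by rw [abs_lt]; constructor <;> linarith) h3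
    have c4 := fin_cast_inj N _ _ (by rw [abs_lt]; constructor <;> linarith) h4
    ext <;> assumption
  have hterm : ∀ p ∈ P, finT f p.1 p.2.1 p.2.2.1 p.2.2.2 = finT (per N f) (ι p).1 (ι p).2.1 (ι p).2.2.1 (ι p).2.2.2 := by
    intro p hp
    rw [hmem] at hp
    obtain ⟨⟨a1, a2⟩, ⟨a3, a4⟩, ⟨a5, a6⟩, a7, a8⟩ := hp
    simp only [hι, finT]
    simp only [← Int.cast_add]
    rw [fin_per_intCast L N f hsupp _ (by linarith) (by linarith), fin_per_intCast L N f hsupp _ (by linarith) (by linarith),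
      fin_per_intCast L N f hsupp _ (by linarith) (by linarith), fin_per_intCast L N f hsupp _ (by linarith) (by linarith),
      fin_per_intCast L N f hsupp _ (by linarith) (by linarith), fin_per_intCast L N f hsupp _ (by linarith) (by linarith),
      fin_per_intCast L N f hsupp _ (by linarith) (by linarith), fin_per_intCast L N f hsupp _ (by linarith) (by linarith)]
  rw [Finset.sum_congr rfl hterm, ← Finset.sum_image (f := fun q : ZMod N × ZMod N × ZMod N × ZMod N => finT (per N f) q.1 q.2.1 q.2.2.1 q.2.2.2) hinj]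
  symm
  apply Finset.sum_subset (Finset.subset_univ _)
  intro q _ hq
  by_contra hne
  apply hq
  obtain ⟨x, h₁, h₂, h₃⟩ := q
  simp only [finT] at hne
  have n0 : per N f x ≠ 0 := by
    intro h; apply hne; rw [h]; simp
  have n1 : per N f (x + h₁) ≠ 0 := by
    intro h; apply hne; rw [h]; simp
  have n2 : per N f (x + h₂) ≠ 0 := by
    intro h; apply hne; rw [h]; simp
  have n3 : per N f (x + h₃) ≠ 0 := by
    intro h; apply hne; rw [h]; simp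
  have m0 := hsupp _ n0
  have m1 := hsupp _ n1
  have m2 := hsupp _ n2
  have m3 := hsupp _ n3
  rw [Finset.mem_image]
  refine ⟨((x.val : ℤ), ((x + h₁).val : ℤ) - x.val, ((x + h₂).val : ℤ) - x.val, ((x + h₃).val : ℤ) - x.val), ?_, ?_⟩
  · rw [hmem]
    refine ⟨m0, ⟨?_, ?_⟩, ⟨?_, ?_⟩, ?_, ?_⟩ <;> simp only <;> linarith [m0.1, m0.2, m1.1, m1.2, m2.1, m2.2, m3.1, m3.2]
  · simp only [hι]
    push_cast
    simp only [ZMod.natCast_zmod_val, add_sub_cancel_left]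

theorem fin_annulus {N : ℕ} [NeZero N] (S : Finset (ZMod N)) {ρ c : ℝ} (hρ : 0 < ρ) (hc : 0 < c) (hc1 : c ≤ 1) :
    ∃ ρ₁ : ℝ, 2 * ρ / 3 ≤ ρ₁ ∧ ρ₁ ≤ ρ ∧ ((zbohr S ρ₁ \ zbohr S (ρ₁ * (1 - c / 9))).card : ℝ) ≤ c / 2 * N := by
  classical
  set J : ℕ := ⌈2 / c⌉₊ with hJ
  have hJ1 : 2 / c ≤ (J : ℝ) := Nat.le_ceil _
  have h2c : 2 ≤ 2 / c := by rw [le_div_iff₀ hc]; linarith
  have hJ2 : (J : ℝ) ≤ 3 / c := by
    have h1 : (J : ℝ) < 2 / c + 1 := Nat.ceil_lt_add_one (by positivity)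
    have h3 : 1 ≤ 1 / c := by rw [le_div_iff₀ hc]; linarith
    have : 3 / c = 2 / c + 1 / c := by ring
    linarith
  have hJpos : (0 : ℝ) < J := by linarith
  have hJne : J ≠ 0 := by
    intro h; rw [h] at hJpos; simp at hJpos
  have hNpos : (0 : ℝ) < N := kit_Npos
  set r : ℕ → ℝ := fun i => 2 * ρ / 3 + i * (ρ / (3 * J)) with hr
  have hrmono : ∀ i, r i ≤ r (i + 1) := by
    intro i
    simp only [hr]
    have : 0 < ρ / (3 * J) := by positivity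
    push_cast
    nlinarith
  set b : ℕ → ℝ := fun i => ((zbohr S (r i)).card : ℝ) with hb
  have hsum : ∑ i ∈ range J, (b (i + 1) - b i) ≤ ∑ i ∈ range J, ((N : ℝ) / J) := by
    rw [Finset.sum_range_sub, Finset.sum_const, card_range, nsmul_eq_mul, mul_div_cancel₀ _ hJpos.ne']
    have h1 : b J ≤ N := by
      simp only [hb]
      have := Finset.card_le_univ (zbohr S (r J))
      rw [ZMod.card] at this
      exact_mod_cast this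
    have h2 : 0 ≤ b 0 := by simp only [hb]; positivity
    linarith
  obtain ⟨i, hi, hle⟩ := Finset.exists_le_of_sum_le (by simpa using hJne) hsum
  rw [Finset.mem_range] at hi
  have hiJ : ((i : ℝ) + 1) ≤ J := by exact_mod_cast hi
  have hδ : 0 < ρ / (3 * J) := by positivity
  have hJδ : (J : ℝ) * (ρ / (3 * J)) = ρ / 3 := by field_simp
  refine ⟨r (i + 1), ?_, ?_, ?_⟩
  · simp only [hr]
    have : 0 ≤ ((i + 1 : ℕ) : ℝ) * (ρ / (3 * J)) := by positivity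
    linarith
  · simp only [hr]
    push_cast
    have : ((i : ℝ) + 1) * (ρ / (3 * J)) ≤ J * (ρ / (3 * J)) := mul_le_mul_of_nonneg_right hiJ hδ.le
    linarith
  · have hρ1 : r (i + 1) ≤ ρ := by
      simp only [hr]
      push_cast
      have : ((i : ℝ) + 1) * (ρ / (3 * J)) ≤ J * (ρ / (3 * J)) := mul_le_mul_of_nonneg_right hiJ hδ.le
      linarith
    have hρ0 : 0 ≤ r (i + 1) := by
      simp only [hr]; positivity
    have hkey : r i ≤ r (i + 1) * (1 - c / 9) := by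
      have h1 : r (i + 1) = r i + ρ / (3 * J) := by
        simp only [hr]; push_cast; ring
      have h2 : r (i + 1) * (c / 9) ≤ ρ / (3 * J) := by
        have h3 : c / 9 ≤ 1 / (3 * J) := by
          rw [div_le_div_iff₀ (by norm_num) (by positivity)]
          have : (J : ℝ) * c ≤ 3 := by
            rw [le_div_iff₀ hc] at hJ2; exact hJ2
          nlinarith
        calc r (i + 1) * (c / 9) ≤ ρ * (1 / (3 * J)) := mul_le_mul hρ1 h3 (by positivity) hρ.le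
          _ = ρ / (3 * J) := by ring
      nlinarith
    have hsub : zbohr S (r (i + 1)) \ zbohr S (r (i + 1) * (1 - c / 9)) ⊆ zbohr S (r (i + 1)) \ zbohr S (r i) :=
      Finset.sdiff_subset_sdiff (Finset.Subset.refl _) (zbohr_mono S hkey)
    have hcard : ((zbohr S (r (i + 1)) \ zbohr S (r i)).card : ℝ) = b (i + 1) - b i := by
      simp only [hb]
      rw [Finset.card_sdiff_of_subset (zbohr_mono S (hrmono i)), Nat.cast_sub (Finset.card_le_card (zbohr_mono S (hrmono i)))]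
    calc ((zbohr S (r (i + 1)) \ zbohr S (r (i + 1) * (1 - c / 9))).card : ℝ)
        ≤ ((zbohr S (r (i + 1)) \ zbohr S (r i)).card : ℝ) := by exact_mod_cast Finset.card_le_card hsub
      _ = b (i + 1) - b i := hcard
      _ ≤ N / J := hle
      _ ≤ c / 2 * N := by
          rw [div_le_iff₀ hJpos]
          have : 1 ≤ c / 2 * J := by
            rw [div_le_iff₀ hc] at hJ1
            linarith
          nlinarith

theorem fin_cutoff {N : ℕ} [NeZero N] (S : Finset (ZMod N)) {ρ₁ κ c : ℝ}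
    (hann : ((zbohr S ρ₁ \ zbohr S (ρ₁ * (1 - κ))).card : ℝ) ≤ c / 2 * N) (Φ : ZMod N → ℂ) (hΦ : ∀ x, ‖Φ x‖ ≤ 1)
    (hc : c * N ≤ ‖∑ x ∈ zbohr S ρ₁, Φ x‖) (χ' : ZMod N → ℝ) (h01 : ∀ x, 0 ≤ χ' x ∧ χ' x ≤ 1)
    (h1 : ∀ x ∈ zbohr S (ρ₁ * (1 - κ)), χ' x = 1) (h0 : ∀ x, x ∉ zbohr S ρ₁ → χ' x = 0) :
    c / 2 * N ≤ ‖∑ x, Φ x * (χ' x : ℂ)‖ := by
  classical
  have e1 : ∑ x, Φ x * (χ' x : ℂ) = ∑ x ∈ zbohr S ρ₁, Φ x * (χ' x : ℂ) := by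
    symm
    apply Finset.sum_subset (Finset.subset_univ _)
    intro x _ hx
    rw [h0 x hx]; simp
  have e2 : ∑ x ∈ zbohr S ρ₁, Φ x - ∑ x ∈ zbohr S ρ₁, Φ x * (χ' x : ℂ)
      = ∑ x ∈ zbohr S ρ₁ \ zbohr S (ρ₁ * (1 - κ)), Φ x * (1 - (χ' x : ℂ)) := by
    rw [← Finset.sum_sub_distrib]
    symm
    have : ∀ x, Φ x - Φ x * (χ' x : ℂ) = Φ x * (1 - (χ' x : ℂ)) := fun x => by ring
    simp_rw [this]
    apply Finset.sum_subset Finset.sdiff_subset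
    intro x hx hx'
    have : x ∈ zbohr S (ρ₁ * (1 - κ)) := by
      by_contra hh
      exact hx' (Finset.mem_sdiff.2 ⟨hx, hh⟩)
    rw [h1 x this]; simp
  have e3 : ‖∑ x ∈ zbohr S ρ₁ \ zbohr S (ρ₁ * (1 - κ)), Φ x * (1 - (χ' x : ℂ))‖ ≤ c / 2 * N := by
    refine le_trans (norm_sum_le _ _) (le_trans ?_ hann)
    have : ∀ x ∈ zbohr S ρ₁ \ zbohr S (ρ₁ * (1 - κ)), ‖Φ x * (1 - (χ' x : ℂ))‖ ≤ 1 := by
      intro x _
      rw [norm_mul]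
      have h2 : ‖(1 - (χ' x : ℂ))‖ ≤ 1 := by
        have : (1 - (χ' x : ℂ)) = ((1 - χ' x : ℝ) : ℂ) := by push_cast; ring
        rw [this, Complex.norm_real, Real.norm_eq_abs, abs_le]
        constructor <;> linarith [(h01 x).1, (h01 x).2]
      calc ‖Φ x‖ * ‖(1 - (χ' x : ℂ))‖ ≤ 1 * 1 := mul_le_mul (hΦ x) h2 (norm_nonneg _) zero_le_one
        _ = 1 := one_mul 1
    calc ∑ x ∈ zbohr S ρ₁ \ zbohr S (ρ₁ * (1 - κ)), ‖Φ x * (1 - (χ' x : ℂ))‖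
        ≤ ∑ x ∈ zbohr S ρ₁ \ zbohr S (ρ₁ * (1 - κ)), (1 : ℝ) := Finset.sum_le_sum this
      _ = _ := by simp
  rw [e1]
  have e4 : ‖∑ x ∈ zbohr S ρ₁, Φ x‖ ≤ ‖∑ x ∈ zbohr S ρ₁, Φ x * (χ' x : ℂ)‖ +
      ‖∑ x ∈ zbohr S ρ₁ \ zbohr S (ρ₁ * (1 - κ)), Φ x * (1 - (χ' x : ℂ))‖ := by
    rw [← e2]
    have := norm_add_le (∑ x ∈ zbohr S ρ₁, Φ x * (χ' x : ℂ)) (∑ x ∈ zbohr S ρ₁, Φ x - ∑ x ∈ zbohr S ρ₁, Φ x * (χ' x : ℂ))
    simpa using this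
  linarith

theorem fin_eR_neg (t : ℝ) : eR (-t) = conj (eR t) := by
  have h1 : eR (-t) * eR t = 1 := by
    rw [← eR_add]
    have : -t + t = ((0 : ℤ) : ℝ) := by simp
    rw [this, eR_intCast]
  have h2 : conj (eR t) * eR t = 1 := by
    rw [mul_comm, Complex.mul_conj, Complex.normSq_eq_norm_sq, norm_eR]; simp
  have h3 : eR t ≠ 0 := by
    intro h; rw [h] at h1; simp at h1
  exact mul_right_cancel₀ h3 (h1.trans h2.symm)

theorem fin_convert {N : ℕ} [NeZero N] (hodd : Odd N) (L : ℕ) (hL : L ≤ N) (f : ℤ → ℂ) (hsupp : ∀ n, f n ≠ 0 → 0 ≤ n ∧ n < L)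
    (S : Finset (ZMod N)) (ρ₂ : ℝ) (Mp : ZMod N → ZMod N) (α : ZMod N → ℝ)
    (hbr : ∀ h ∈ zbohr S ρ₂, ∃ m : ℤ, fr (Mp h) = ∑ s ∈ S, α s * fr (s * h) + m) (xs ξ : ZMod N) :
    ∃ (σ : Fin S.card → ZMod N) (θ a : Fin S.card → ℝ) (y : ℤ) (β : ℝ),
      (∀ x : ZMod N, ∀ t : ℝ, x ∈ zbohr S t ↔ ∀ j, |fr (σ j * x)| ≤ t) ∧
      ∀ ρ₁ ≤ ρ₂, ∀ χ : (Fin S.card → ℝ) → ℝ, (∀ v, (∃ j, ρ₁ < |v j|) → χ v = 0) →
        ‖∑ n ∈ Finset.Ico (0 : ℤ) L, f n * (χ (fun j => sfr (θ j * ((n : ℝ) - y))) : ℂ) *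
            eR (-(∑ j, a j * ((n : ℝ) - y) * sfr (θ j * ((n : ℝ) - y)) + β * n))‖ =
        ‖∑ x : ZMod N, (per N f (xs + x) * eN (-(Mp x * x + ξ * x))) * (χ (fun j => fr (σ j * x)) : ℂ)‖ := by
  classical
  have hNp : (0 : ℝ) < N := kit_Npos
  have hL' : (L : ℤ) ≤ N := by exact_mod_cast hL
  set σ : Fin S.card → ZMod N := fun j => ((S.equivFin.symm j : S) : ZMod N) with hσ
  have hσS : ∀ j, σ j ∈ S := fun j => (S.equivFin.symm j).2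
  have hσsum : ∀ F : ZMod N → ℝ, ∑ s ∈ S, F s = ∑ j, F (σ j) := by
    intro F
    rw [← Finset.sum_coe_sort S F, ← Equiv.sum_comp S.equivFin.symm]
  have hboh : ∀ x : ZMod N, ∀ t : ℝ, x ∈ zbohr S t ↔ ∀ j, |fr (σ j * x)| ≤ t := by
    intro x t
    rw [mem_zbohr]
    constructor
    · intro h j
      exact h _ (hσS j)
    · intro h s hs
      have := h (S.equivFin ⟨s, hs⟩)
      simp only [hσ, Equiv.symm_apply_apply] at this
      exact this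
  refine ⟨σ, fun j => ((σ j).val : ℝ) / N, fun j => α (σ j), (xs.val : ℤ), (ξ.val : ℝ) / N, hboh, ?_⟩
  intro ρ₁ hρ χ hχ
  set y : ℤ := (xs.val : ℤ) with hy
  set β : ℝ := (ξ.val : ℝ) / N with hβ
  set G : ZMod N → ℂ := fun x => (per N f (xs + x) * eN (-(Mp x * x + ξ * x))) * (χ (fun j => fr (σ j * x)) : ℂ) with hG
  set A : ℤ → ℂ := fun n => f n * (χ (fun j => sfr (((σ j).val : ℝ) / N * ((n : ℝ) - y))) : ℂ) *
            eR (-(∑ j, α (σ j) * ((n : ℝ) - y) * sfr (((σ j).val : ℝ) / N * ((n : ℝ) - y)) + β * n)) with hA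
  set ι : ℤ → ZMod N := fun n => ((n - y : ℤ) : ZMod N) with hι
  set c : ℂ := conj (eR (-(β * y))) with hc
  have hcn : ‖c‖ = 1 := by rw [hc, RCLike.norm_conj, norm_eR]
  have hycast : ((y : ℤ) : ZMod N) = xs := by
    rw [hy]; simp
  have hterm : ∀ n ∈ Finset.Ico (0 : ℤ) L, G (ι n) = c * A n := by
    intro n hn
    rw [Finset.mem_Ico] at hn
    have hper : per N f (xs + ι n) = f n := by
      have : xs + ι n = ((n : ℤ) : ZMod N) := by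
        simp only [hι]; push_cast; rw [hycast]; ring
      rw [this]
      exact fin_per_intCast L N f hsupp n (by linarith [hn.1]) (by linarith [hn.2])
    have hfr : ∀ j, fr (σ j * ι n) = sfr (((σ j).val : ℝ) / N * ((n : ℝ) - y)) := by
      intro j
      have e1 : σ j * ι n = ((((σ j).val : ℤ) * (n - y) : ℤ) : ZMod N) := by
        simp only [hι]; push_cast; simp
      rw [e1, fr_intCast_eq_sfr hodd]
      congr 1
      push_cast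
      ring
    have hχeq : χ (fun j => fr (σ j * ι n)) = χ (fun j => sfr (((σ j).val : ℝ) / N * ((n : ℝ) - y))) := by
      congr 1
      funext j
      exact hfr j
    simp only [hG, hA]
    rw [hper, hχeq]
    by_cases h0 : χ (fun j => sfr (((σ j).val : ℝ) / N * ((n : ℝ) - y))) = 0
    · rw [h0]; simp
    · have hmem : ι n ∈ zbohr S ρ₂ := by
        apply zbohr_mono S hρ
        rw [hboh]
        intro j
        by_contra hlt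
        push Not at hlt
        apply h0
        apply hχ
        exact ⟨j, by rw [← hfr j]; exact hlt⟩
      obtain ⟨m, hm⟩ := hbr _ hmem
      have hph1 : eN (Mp (ι n) * ι n) = eR (∑ j, α (σ j) * ((n : ℝ) - y) * sfr (((σ j).val : ℝ) / N * ((n : ℝ) - y))) := by
        have : eN (Mp (ι n) * ι n) = eR (((n - y : ℤ) : ℝ) * fr (Mp (ι n))) := eN_mul_intCast _ _
        rw [this, hm, hσsum]
        have e2 : ((n - y : ℤ) : ℝ) * (∑ j, α (σ j) * fr (σ j * ι n) + m)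
            = (∑ j, α (σ j) * ((n : ℝ) - y) * sfr (((σ j).val : ℝ) / N * ((n : ℝ) - y))) + (((n - y) * m : ℤ) : ℝ) := by
          push_cast
          rw [mul_add, Finset.mul_sum]
          congr 1
          apply Finset.sum_congr rfl
          intro j _
          rw [hfr j]; ring
        rw [e2, eR_add, eR_intCast, mul_one]
      have hph2 : eN (ξ * ι n) = eR (β * n) * eR (-(β * y)) := by
        have e1 : ξ * ι n = (((ξ.val : ℤ) * (n - y) : ℤ) : ZMod N) := by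
          simp only [hι]; push_cast; simp
        rw [e1, eN_intCast, ← eR_add]
        congr 1
        rw [hβ]
        push_cast
        ring
      rw [eN_neg, eN_add, hph1, hph2, hc]
      simp only [fin_eR_neg, eR_add, map_mul]
      ring
  have hinj : Set.InjOn ι (Finset.Ico (0 : ℤ) L : Set ℤ) := by
    intro n hn n' hn' h
    rw [Finset.mem_coe, Finset.mem_Ico] at hn hn'
    simp only [hι] at h
    have := fin_cast_inj N _ _ (by rw [abs_lt]; constructor <;> linarith [hn.1, hn.2, hn'.1, hn'.2]) h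
    linarith
  have hsum : ∑ x : ZMod N, G x = c * ∑ n ∈ Finset.Ico (0 : ℤ) L, A n := by
    rw [Finset.mul_sum, ← Finset.sum_congr rfl hterm, ← Finset.sum_image (f := G) hinj]
    symm
    apply Finset.sum_subset (Finset.subset_univ _)
    intro x _ hx
    by_contra hne
    apply hx
    have n0 : per N f (xs + x) ≠ 0 := by
      intro h; apply hne; simp only [hG]; rw [h]; simp
    have m0 := hsupp _ n0
    rw [Finset.mem_image]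
    refine ⟨((xs + x).val : ℤ), Finset.mem_Ico.2 m0, ?_⟩
    simp only [hι]
    push_cast
    rw [hycast]
    simp
  rw [hsum, norm_mul, hcn, one_mul]

end Claimed.Agent.R258.U3
end
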