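/- Packed by merge_tool.py (helper293): 5 modules of Claimed.Agent.R258 in one file, same declarations.
   Old modules, in this order: S7b.Top, U3.BSG, U3.Lin, U3.Main, U3.Bridge -/
import Claimed.Agent.R258.S7b.Sum
import Claimed.Agent.R258.S7b.Approx
import Claimed.Agent.R258.Pack018
import Claimed.Agent.R258.Pack020
import Claimed.Agent.R258.Pack024
import Claimed.Agent.R258.Pack021
import Claimed.Agent.R258.Pack023
import Claimed.Agent.R258.Pack012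

/- ===== packed: Claimed.Agent.R258.S7b.Top ===== -/
section
/-
Row 258, block [S7b] (architect: helper243).  FILE Top: LEMMA 7.2 = `sb_shortBlock : ShortBlockGoal c0 C0` (for `0 < c0`, `1 ≤ C0`).  Assembly only (no leaves in this file).
 (1) `sb_clean_of_step`: step inputs -> clean inputs (`L²` limit of the averages on fine cells);   (2) `sb_short_of_clean`: normalisation `s_j = 1` (sizes `s_j + ε`, `ε → 0`), removal of the `σ` of probability zero,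
 restriction of `m` to the root.
-/
set_option autoImplicit false
open MeasureTheory Filter Topology
open scoped ENNReal

namespace Claimed.Agent.R258

/-- Lemma 7.2 for clean data: sizes one, `m` supported on the root and square integrable, no input at the `σ` of probability zero. -/
def SbCleanGoal (c0 C0 : ℝ) : Prop :=
  ∀ q : ℝ, 2 < q → q < 3 → ∀ Cm : ℝ, 1 ≤ Cm → ∃ Cq : ℝ, 0 < Cq ∧
  ∀ (N : ℕ) (CN : ℝ) (s0 : ℤ), 0 ≤ CN → LocalBound c0 C0 q N CN →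
  ∀ (R : Cell) (int leaves : Finset Cell) (s1 : ℤ) (K : ℕ), TreePiece R int leaves s1 K →
    (∀ I ∈ int, s0 ≤ I.depth ∧ I.depth < s0 + N) →
  ∀ (w : Cell → ℝ × ℝ → ℂ), (∀ I ∈ int, Admissible c0 C0 I (w I)) →
  ∀ (Ω : Type) [Fintype Ω] (pr : Ω → ℝ), (∀ σ, 0 ≤ pr σ) → ∑ σ, pr σ = 1 →
  ∀ (z : Ω → Fin 4 → ℝ → ℂ) (m : Fin 4 → ℝ → ℝ),
    (∀ σ j, Measurable (z σ j)) → (∀ j, Measurable (m j)) → (∀ j y, 0 ≤ m j y) →
    (∀ σ j y, y ∉ R.set → z σ j y = 0) → (∀ j y, y ∉ R.set → m j y = 0) → (∀ σ j, pr σ = 0 → z σ j = 0) →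
    (∀ j, Integrable (fun y => m j y ^ 2)) →
    (∀ j, ∀ L ∈ leaves, ∫ y in L.set, m j y ^ 2 ≤ L.len) →
    (∀ j y, ∑ σ, pr σ * ‖z σ j y‖ ^ 8 ≤ (Cm * m j y) ^ 8) →
  ∀ (sgn : Ω → Cell → ℂ), (∀ σ I, ‖sgn σ I‖ ≤ 1) →
    ∑ σ, pr σ * ‖∑ I ∈ int, (I.len : ℂ) * sgn σ I * form I (w I) (z σ)‖ ≤
      (1 + CN) * Cq * (1 + Real.log ((K : ℝ) + 2)) ^ (11 : ℝ) * ((K : ℝ) + 2) ^ (11 * (q - 2)) * R.len

theorem sb_clean_of_step (c0 C0 : ℝ) (b0 : ℕ) (h : SbStepGoal c0 C0 b0) : SbCleanGoal c0 C0 := by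
  intro q hq hq3 Cm hCm
  obtain ⟨Cq, hCq, hs⟩ := h q hq hq3 Cm hCm
  refine ⟨Cq, hCq, ?_⟩
  intro N CN s0 hCN hLB R int leaves s1 K hT hrange w hw Ω _ pr hpr hpr1 z m hzm hmm hm0 hzs hms hz0 hint hleaf hmom sgn hsgn
  have hCm0 : 0 ≤ Cm := by linarith
  -- the inputs are in `L²`
  have hL2 : ∀ σ j, MemLp (z σ j) 2 volume := by
    intro σ j
    by_cases hσ : pr σ = 0
    · rw [hz0 σ j hσ]
      exact MemLp.zero
    · refine sb_z_memLp (pr σ) (lt_of_le_of_ne (hpr σ) (Ne.symm hσ)) (z σ j) (m j) Cm hCm0 (hzm σ j) (hm0 j) (hint j) fun y => ?_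
      refine le_trans ?_ (hmom j y)
      exact Finset.single_le_sum (f := fun σ => pr σ * ‖z σ j y‖ ^ 8) (fun σ _ => mul_nonneg (hpr σ) (by positivity)) (Finset.mem_univ σ)
  -- a starting depth
  obtain ⟨L0, hL0, -⟩ := hT.leaf_cover R.left (cell_left_mem R)
  have hRd : R.depth ≤ s1 + K := le_trans (cell_depth_le_of_le (hT.leaf_le L0 hL0)) (hT.leaf_depth L0 hL0).2
  set n0 : ℕ := (s1 + 4 * ((K : ℤ) + 1) ^ 2 + b0).toNat with hn0
  have hn : ∀ n : ℕ, s1 + 4 * ((K : ℤ) + 1) ^ 2 + b0 ≤ ((n + n0 : ℕ) : ℤ) := by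
    intro n
    have := Int.self_le_toNat (s1 + 4 * ((K : ℤ) + 1) ^ 2 + b0)
    push_cast
    omega
  have hnK : ∀ n : ℕ, s1 + K ≤ ((n + n0 : ℕ) : ℤ) := by
    intro n
    have := hn n
    nlinarith
  -- the bound for the averages
  have bound : ∀ n : ℕ, ∑ σ, pr σ * ‖∑ I ∈ int, (I.len : ℂ) * sgn σ I *
      form I (w I) (fun j => sbStep ((n + n0 : ℕ) : ℤ) (sbAvg ((n + n0 : ℕ) : ℤ) (z σ j)))‖ ≤
      (1 + CN) * Cq * (1 + Real.log ((K : ℝ) + 2)) ^ (11 : ℝ) * ((K : ℝ) + 2) ^ (11 * (q - 2)) * R.len := by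
    intro n
    refine hs N CN s0 hCN hLB R int leaves s1 K hT hrange w hw Ω pr hpr hpr1 _ (hn n)
      (fun σ j => sbAvg ((n + n0 : ℕ) : ℤ) (z σ j)) (fun j => sbMass ((n + n0 : ℕ) : ℤ) (fun y => m j y ^ 2)) ?_ ?_ ?_ ?_ ?_ sgn hsgn
    · exact fun j k => sb_mass_nonneg _ _ (fun y => by positivity) k
    · exact fun σ j k hk => sb_avg_supp _ R (hRd.trans (hnK n)) _ (hzs σ j) k hk
    · exact fun j k hk => sb_mass_supp _ R (hRd.trans (hnK n)) _ (fun y hy => by rw [hms j y hy]; norm_num) k hk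
    · intro j L hL
      rw [sb_mass_sum _ L ((hT.leaf_depth L hL).2.trans (hnK n)) _ (hint j).integrableOn]
      exact hleaf j L hL
    · exact fun j k => sb_avg_mom pr hpr (fun σ => z σ j) (m j) Cm hCm0 (fun σ => hzm σ j) (hmm j) (hm0 j) (hint j) (hmom j) _ k
  -- the limit
  have lim : Tendsto (fun n : ℕ => ∑ σ, pr σ * ‖∑ I ∈ int, (I.len : ℂ) * sgn σ I *
      form I (w I) (fun j => sbStep ((n + n0 : ℕ) : ℤ) (sbAvg ((n + n0 : ℕ) : ℤ) (z σ j)))‖) atTop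
      (𝓝 (∑ σ, pr σ * ‖∑ I ∈ int, (I.len : ℂ) * sgn σ I * form I (w I) (z σ)‖)) := by
    refine tendsto_finsetSum _ fun σ _ => Tendsto.const_mul _ (Tendsto.norm (tendsto_finsetSum _ fun I hI => Tendsto.const_mul _ ?_))
    refine sb_form_tendsto (hw I hI) (z σ) (fun n j => sbStep ((n + n0 : ℕ) : ℤ) (sbAvg ((n + n0 : ℕ) : ℤ) (z σ j))) (hzm σ)
      (fun n j => sb_step_measurable _ _) (hL2 σ) (fun n j => sb_avg_memLp R _ (hzm σ j) (hL2 σ j) (hzs σ j) _ (hRd.trans (hnK n))) fun j => ?_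
    exact (tendsto_add_atTop_iff_nat n0).2 (sb_avg_tendsto R (z σ j) (hzm σ j) (hL2 σ j) (hzs σ j))
  exact le_of_tendsto' lim bound

/-- homogeneity of the form. -/
theorem sb_form_smul (I : Cell) (w : ℝ × ℝ → ℂ) (c : Fin 4 → ℂ) (z : Fin 4 → ℝ → ℂ) :
    form I w (fun j y => c j * z j y) = (∏ j, c j) * form I w z := by
  unfold form
  simp only [Finset.prod_mul_distrib]
  rw [show (fun p : ℝ × ℝ => w p * ((∏ j, c j) * ∏ j : Fin 4, z j (p.1 + ((j : ℕ) : ℝ) * p.2)))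
    = fun p : ℝ × ℝ => (∏ j, c j) * (w p * ∏ j : Fin 4, z j (p.1 + ((j : ℕ) : ℝ) * p.2)) from by
      funext p; ring, integral_const_mul]
  ring

theorem sb_short_of_clean (c0 C0 : ℝ) (h : SbCleanGoal c0 C0) : ShortBlockGoal c0 C0 := by
  refine ⟨11, by norm_num, fun q hq hq3 Cm hCm => ?_⟩
  obtain ⟨Cq, hCq, hc⟩ := h q hq hq3 Cm hCm
  refine ⟨Cq, hCq, ?_⟩
  intro N CN s0 hCN hLB R int leaves s1 K hT hrange w hw Ω _ pr hpr hpr1 z m s hzm hmm hm0 hs0 hzs hint hleaf hmom sgn hsgn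
  set B : ℝ := (1 + CN) * Cq * (1 + Real.log ((K : ℝ) + 2)) ^ (11 : ℝ) * ((K : ℝ) + 2) ^ (11 * (q - 2)) * R.len with hB
  have hlen : ∀ I : Cell, 0 ≤ I.len := fun I => by unfold Cell.len; positivity
  -- positive sizes
  have pos : ∀ s' : Fin 4 → ℝ, (∀ j, 0 < s' j) → (∀ j, s j ≤ s' j) →
      ∑ σ, pr σ * ‖∑ I ∈ int, (I.len : ℂ) * sgn σ I * form I (w I) (z σ)‖ ≤ B * ∏ j, s' j := by
    intro s' hs' hss'
    classical
    set z' : Ω → Fin 4 → ℝ → ℂ := fun σ j y => if pr σ = 0 then 0 else (((s' j)⁻¹ : ℝ) : ℂ) * z σ j y with hz'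
    set m' : Fin 4 → ℝ → ℝ := fun j => R.set.indicator (fun y => (s' j)⁻¹ * m j y) with hm'
    have hsq : ∀ j, (fun y => m' j y ^ 2) = R.set.indicator (fun y => ((s' j)⁻¹) ^ 2 * m j y ^ 2) := by
      intro j
      funext y
      by_cases hy : y ∈ R.set
      · simp only [hm', Set.indicator_of_mem hy]
        ring
      · simp only [hm', Set.indicator_of_notMem hy]
        norm_num
    have key := hc N CN s0 hCN hLB R int leaves s1 K hT hrange w hw Ω pr hpr hpr1 z' m' ?_ ?_ ?_ ?_ ?_ ?_ ?_ ?_ ?_ sgn hsgn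
    · have rel : ∀ σ, pr σ * ‖∑ I ∈ int, (I.len : ℂ) * sgn σ I * form I (w I) (z σ)‖
          = (∏ j, s' j) * (pr σ * ‖∑ I ∈ int, (I.len : ℂ) * sgn σ I * form I (w I) (z' σ)‖) := by
        intro σ
        by_cases hσ : pr σ = 0
        · simp [hσ]
        · have e1 : z' σ = fun j y => (((s' j)⁻¹ : ℝ) : ℂ) * z σ j y := by
            funext j y
            simp only [hz', if_neg hσ]
          have e2 : ∑ I ∈ int, (I.len : ℂ) * sgn σ I * form I (w I) (z' σ)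
              = (∏ j, (((s' j)⁻¹ : ℝ) : ℂ)) * ∑ I ∈ int, (I.len : ℂ) * sgn σ I * form I (w I) (z σ) := by
            rw [Finset.mul_sum]
            refine Finset.sum_congr rfl fun I _ => ?_
            rw [e1, sb_form_smul]
            ring
          rw [e2, norm_mul, norm_prod]
          have e3 : ∏ j, ‖(((s' j)⁻¹ : ℝ) : ℂ)‖ = (∏ j, s' j)⁻¹ := by
            rw [← Finset.prod_inv_distrib]
            refine Finset.prod_congr rfl fun j _ => ?_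
            rw [Complex.norm_real, Real.norm_eq_abs, abs_of_pos (inv_pos.2 (hs' j))]
          rw [e3]
          have hne : (∏ j, s' j) ≠ 0 := (Finset.prod_pos fun j _ => hs' j).ne'
          field_simp
      rw [Finset.sum_congr rfl fun σ _ => rel σ, ← Finset.mul_sum, mul_comm]
      exact mul_le_mul_of_nonneg_right key (Finset.prod_pos fun j _ => hs' j).le
    · intro σ j
      by_cases hσ : pr σ = 0
      · simp only [hz', if_pos hσ]
        exact measurable_const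
      · simp only [hz', if_neg hσ]
        exact measurable_const.mul (hzm σ j)
    · exact fun j => (measurable_const.mul (hmm j)).indicator (cell_measurableSet R)
    · exact fun j y => Set.indicator_nonneg (fun y _ => mul_nonneg (inv_pos.2 (hs' j)).le (hm0 j y)) y
    · intro σ j y hy
      simp only [hz', hzs σ j y hy, mul_zero, ite_self]
    · exact fun j y hy => Set.indicator_of_notMem hy _
    · intro σ j hσ
      funext y
      simp only [hz', if_pos hσ, Pi.zero_apply]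
    · intro j
      rw [hsq j, integrable_indicator_iff (cell_measurableSet R)]
      exact (hint j).const_mul _
    · intro j L hL
      have hsub : L.set ⊆ R.set := cell_set_subset (hT.leaf_le L hL)
      have e1 : ∫ y in L.set, m' j y ^ 2 = ((s' j)⁻¹) ^ 2 * ∫ y in L.set, m j y ^ 2 := by
        rw [← integral_const_mul]
        refine setIntegral_congr_fun (cell_measurableSet L) fun y hy => ?_
        have : m' j y ^ 2 = R.set.indicator (fun y => ((s' j)⁻¹) ^ 2 * m j y ^ 2) y := congrFun (hsq j) y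
        rw [this, Set.indicator_of_mem (hsub hy)]
      rw [e1]
      have h1 := hleaf j L hL
      have h2 : s j ^ 2 ≤ s' j ^ 2 := pow_le_pow_left₀ (hs0 j) (hss' j) 2
      have h3 : ∫ y in L.set, m j y ^ 2 ≤ s' j ^ 2 * L.len := h1.trans (mul_le_mul_of_nonneg_right h2 (hlen L))
      calc ((s' j)⁻¹) ^ 2 * ∫ y in L.set, m j y ^ 2 ≤ ((s' j)⁻¹) ^ 2 * (s' j ^ 2 * L.len) :=
            mul_le_mul_of_nonneg_left h3 (by positivity)
        _ = L.len := by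
            have := (hs' j).ne'
            field_simp
    · intro j y
      by_cases hy : y ∈ R.set
      · have e1 : ∀ σ, pr σ * ‖z' σ j y‖ ^ 8 = ((s' j)⁻¹) ^ 8 * (pr σ * ‖z σ j y‖ ^ 8) := by
          intro σ
          by_cases hσ : pr σ = 0
          · simp [hσ]
          · simp only [hz', if_neg hσ]
            rw [norm_mul, Complex.norm_real, Real.norm_eq_abs, abs_of_pos (inv_pos.2 (hs' j))]
            ring
        rw [Finset.sum_congr rfl fun σ _ => e1 σ, ← Finset.mul_sum]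
        simp only [hm', Set.indicator_of_mem hy]
        calc ((s' j)⁻¹) ^ 8 * ∑ σ, pr σ * ‖z σ j y‖ ^ 8 ≤ ((s' j)⁻¹) ^ 8 * (Cm * m j y) ^ 8 :=
              mul_le_mul_of_nonneg_left (hmom j y) (by positivity)
          _ = _ := by ring
      · have e1 : ∀ σ, pr σ * ‖z' σ j y‖ ^ 8 = 0 := by
          intro σ
          simp only [hz', hzs σ j y hy, mul_zero, ite_self]
          simp
        rw [Finset.sum_congr rfl fun σ _ => e1 σ]
        simp only [hm', Set.indicator_of_notMem hy]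
        simp
  -- `ε → 0`
  have lim : Tendsto (fun ε : ℝ => B * ∏ j, (s j + ε)) (𝓝[>] 0) (𝓝 (B * ∏ j, (s j + 0))) := by
    refine Tendsto.mono_left ?_ nhdsWithin_le_nhds
    exact (Continuous.tendsto (by fun_prop) 0)
  simp only [add_zero] at lim
  refine ge_of_tendsto lim ?_
  filter_upwards [self_mem_nhdsWithin] with ε hε
  exact pos (fun j => s j + ε) (fun j => add_pos_of_nonneg_of_pos (hs0 j) hε) (fun j => by have : (0 : ℝ) < ε := hε; linarith)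

/-- **LEMMA 7.2** (short-block comparison). -/
theorem sb_shortBlock (c0 C0 : ℝ) (hc0 : 0 < c0) (hC0 : 1 ≤ C0) : ShortBlockGoal c0 C0 := by
  have hb0 : 4 ≤ c0 * 2 ^ (⌈4 / c0⌉₊ + 3) := by
    have h1 : 4 / c0 ≤ (⌈4 / c0⌉₊ : ℝ) := Nat.le_ceil _
    have h2 : ((⌈4 / c0⌉₊ + 3 : ℕ) : ℝ) < 2 ^ (⌈4 / c0⌉₊ + 3) := by exact_mod_cast Nat.lt_two_pow_self
    have h3 : 4 / c0 ≤ 2 ^ (⌈4 / c0⌉₊ + 3) := by
      push_cast at h2
      linarith
    rw [div_le_iff₀ hc0] at h3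
    linarith
  exact sb_short_of_clean c0 C0 (sb_clean_of_step c0 C0 _ (sb_step_goal c0 C0 hc0 hC0 (⌈4 / c0⌉₊ + 3) hb0 (by omega)))

end Claimed.Agent.R258
end

/- ===== packed: Claimed.Agent.R258.U3.BSG ===== -/
section
/-
R258 / U3 / BSG : the Balog-Szemeredi-Gowers theorem in an arbitrary abelian group (polynomial bounds).
Blueprint owner: helper52.  PROVED (helper152): `u3_bsg` is a corollary of `u3l_bsg` (`U3/Lin/BSG.lean`:
`#A^3 ≤ K E[A] ⟹ ∃ A' ⊆ A, #A ≤ 8 K #A' ∧ #(A' - A') ≤ 2^11 K^3 #A`, dependent random choice on the slices `A ∩ (A + s)`),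
with `C = 2^14 = 16384`.  The graph-theoretic leaves G1-G3 of the first blueprint are not needed and were removed.
-/
set_option autoImplicit false

namespace Claimed.Agent.R258.U3

open Finset
open scoped Pointwise Combinatorics.Additive

/-- **Balog-Szemeredi-Gowers.** -/
theorem u3_bsg : ∃ C : ℕ, ∀ {G : Type} [AddCommGroup G] [DecidableEq G] (A : Finset G) (K : ℝ), 1 ≤ K →
    (A.card : ℝ) ^ 3 ≤ K * E[A] →
    ∃ A' ⊆ A, (A.card : ℝ) ≤ C * K ^ C * A'.card ∧ ((A' - A').card : ℝ) ≤ C * K ^ C * A'.card := by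
  refine ⟨16384, ?_⟩
  intro G _ _ A K hK hE
  obtain ⟨A', hsub, h1, h2⟩ := u3l_bsg A K (by linarith) hE
  have hA' : (0 : ℝ) ≤ A'.card := by positivity
  have hK4 : K ^ 4 ≤ K ^ 16384 := pow_le_pow_right₀ hK (by norm_num)
  have hK1 : K ≤ K ^ 4 := by
    calc K = K ^ 1 := (pow_one K).symm
      _ ≤ K ^ 4 := pow_le_pow_right₀ hK (by norm_num)
  have hK0 : (0 : ℝ) ≤ K := by linarith
  refine ⟨A', hsub, ?_, ?_⟩
  · calc (A.card : ℝ) ≤ 8 * K * A'.card := h1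
      _ ≤ ((16384 : ℕ) : ℝ) * K ^ 16384 * A'.card := by
          have : 8 * K ≤ ((16384 : ℕ) : ℝ) * K ^ 16384 := by push_cast; nlinarith
          exact mul_le_mul_of_nonneg_right this hA'
  · calc ((A' - A').card : ℝ) ≤ 2 ^ 11 * K ^ 3 * A.card := h2
      _ ≤ 2 ^ 11 * K ^ 3 * (8 * K * A'.card) := by gcongr
      _ = 16384 * K ^ 4 * A'.card := by ring
      _ ≤ ((16384 : ℕ) : ℝ) * K ^ 16384 * A'.card := by
          have : (16384 : ℝ) * K ^ 4 ≤ ((16384 : ℕ) : ℝ) * K ^ 16384 := by push_cast; nlinarith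
          exact mul_le_mul_of_nonneg_right this hA'

end Claimed.Agent.R258.U3
end

/- ===== packed: Claimed.Agent.R258.U3.Lin ===== -/
section
/-
R258 / U3 / Lin : from many additive quadruples to the state (★) = a LOCALLY LINEAR derivative frequency on a Bohr set of polylogarithmic rank.
Blueprint owner: helper52.  ALL LEAVES PROVED (helper152, on top of `U3/Lin/*.lean`; uses the statements of Kit, Bohr, BR, StepA).  Leaves: L1 `model_fibre`, L2 `model_dilate`, L3 `model_iso`, L4 `u3_lin`, L5 `lin_pigeon`, L6 `u3_toStar`.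
Statements verbatim; helper lemmas prefix `lin_` / `model_`.

IDEA (replaces Freiman's theorem / general Sanders).  `Γ ⊆ ZMod N × ZMod N` is (part of) a graph with small doubling `K`, `#Γ ≥ N / K`, `N` prime.  It is NOT dense in `ZMod N × ZMod N`, but only the second coordinate has to be compressed:
L1.  `F = {d : (0, d) ∈ 6Γ - 6Γ}` has `#F ≤ K^13`:  `(g, d) ↦ g + (0, d)` is injective on `Γ × F` (the first coordinate determines `g` as `Γ` is a graph) with values in `7Γ - 6Γ`, and `#(7Γ - 6Γ) ≤ K^13 #Γ`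
     (`Finset.pluennecke_ruzsa_inequality_nsmul_sub_nsmul_sub` with `A = B = Γ`).
L2.  (Ruzsa's dilation trick.)  If `N₂ ≥ 24 #F` there is `λ ≠ 0` in `ZMod N` such that for no `d ∈ F \ {0}` the residue `λ d` has an integer representative `D`, `|D| < 6N`, divisible by `N₂`.
     Count: such a `D` is `≠ 0` (else `λ d = 0`); there are at most `(12 N - 2) / N₂` nonzero multiples of `N₂` in `(-6N, 6N)`; for fixed `d ≠ 0`, `λ = D d⁻¹` is determined by `D`.  So at most `#F (12N - 2) / N₂ ≤ N/2 - 1/12 < N - 1` nonzero `λ` are bad.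
L3.  With `ψ y = ((λ y).val : ZMod N₂)`: if `a, b ∈ Γ^6`, `∑ (a i).1 = ∑ (b i).1` and `∑ ψ (a i).2 = ∑ ψ (b i).2` then `∑ (a i).2 = ∑ (b i).2`.   [`d = ∑ (a i).2 - ∑ (b i).2 ∈ F`; `D = ∑ (λ (a i).2).val - ∑ (λ (b i).2).val`, `|D| < 6N`, `D ≡ λ d (N)`, `N₂ ∣ D`.]
     Only this direction of "Freiman isomorphism" is needed.
L4.  `A* = {(x, ψ y) : (x, y) ∈ Γ} ⊆ ZMod N × ZMod N₂`, `#A* = #Γ`, density `α ≥ 1 / (K (24 K^13 + 1)) ≥ 1 / (25 K^14)`.  `u3_br` gives `Λ`, `cbohr Λ (α^2 / C) ⊆ 2A* - 2A*`.  For `χ ∈ Λ`, `x ↦ χ (x, 0)` is a character of `ZMod N`, `= eN (s_χ x)` (`exists_eN_of_addChar`);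
     `S = {s_χ}`.  If `x ∈ zbohr S (2 r)` with `4 π r ≤ α^2 / C` then `(x, 0) ∈ cbohr Λ ..` (`norm_eN_sub_one_le`), so `(x, 0) = a₁* + a₂* - a₃* - a₄*`, `a_i* = (x_i, ψ y_i)`, `(x_i, y_i) ∈ Γ`: CHOOSE such a representation and put `M x = y₁ + y₂ - y₃ - y₄` (`M x = 0` outside).
     Then `(x, M x) ∈ 2Γ - 2Γ`; for `x, x' ∈ zbohr S r` the three points `x, x', x + x'` have representations, and L3 applied to the two 6-tuples (positive terms of `x`, `x'`, negative terms of `x + x'`) / (the others) gives `M x + M x' = M (x + x')`.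
L5.  `∑_{v ∈ Γ - P} #{p ∈ P : v + p ∈ Γ} = #Γ #P` and `Γ - P ⊆ 3Γ - 2Γ` has `≤ K^5 #Γ` elements.
L6.  Assembly: `u3_stepA` (`H, φ`), `Γ₀ = graph H φ`, `#Γ₀ ≤ N`, `K_A = 256 / η^8`: `#Γ₀^3 ≤ N^3 ≤ K_A E[Γ₀]`, and `E[Γ₀] ≤ #Γ₀^3` gives `N ≤ K_A #Γ₀`.  `u3_bsg`: `Γ' ⊆ Γ₀`.  `K = C K_A^(C+1)`.  `u3_lin`: `S, r, M`.  `lin_pigeon` with `P = {(b, M b) : b ∈ zbohr S (r/2)}`: `v = (x₀, ξ₀)`.
     If `(x₀ + b, ξ₀ + M b) ∈ Γ'` then `x₀ + b ∈ H`, `φ (x₀ + b) = ξ₀ + M b`, and `dcoef f f (x₀ + b) (ξ₀ + M b) = dcoef (f (· + x₀)) f₂ b (M b)` with `f₂ x = f x * eN (ξ₀ x)`.  So `Star f S (r/2) (η / (2 K^5)) M`.  Numerics by `Kit.lean` K4.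
-/
set_option autoImplicit false

namespace Claimed.Agent.R258.U3

open Finset
open scoped ComplexConjugate Pointwise Combinatorics.Additive

/-- L1: the fibre over `0` of `6Γ - 6Γ` is small. -/
theorem model_fibre {N : ℕ} [NeZero N] (Γ : Finset (ZMod N × ZMod N)) (hinj : Set.InjOn Prod.fst (Γ : Set (ZMod N × ZMod N)))
    (hne : Γ.Nonempty) {K : ℝ} (hK : ((Γ - Γ).card : ℝ) ≤ K * Γ.card) :
    (((univ : Finset (ZMod N)).filter fun d => ((0 : ZMod N), d) ∈ 6 • Γ - 6 • Γ).card : ℝ) ≤ K ^ 13 := by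
  set F := (univ : Finset (ZMod N)).filter fun d => ((0 : ZMod N), d) ∈ 6 • Γ - 6 • Γ with hF
  have hpos : (0 : ℝ) < #Γ := by exact_mod_cast hne.card_pos
  have hcard : #(Γ ×ˢ F) ≤ #(7 • Γ - 6 • Γ) := by
    apply card_le_card_of_injOn (fun x => x.1 + ((0 : ZMod N), x.2))
    · rintro ⟨γ, f⟩ hx
      obtain ⟨hγ, hf⟩ := mem_product.1 (mem_coe.1 hx)
      obtain ⟨u, hu, v, hv, e⟩ := mem_sub.1 (mem_filter.1 hf).2
      simp only at hγ
      show γ + ((0 : ZMod N), f) ∈ ((7 • Γ - 6 • Γ : Finset (ZMod N × ZMod N)) : Set (ZMod N × ZMod N))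
      rw [mem_coe, ← e, ← add_sub_assoc]
      refine sub_mem_sub ?_ hv
      rw [show (7 : ℕ) = 6 + 1 from rfl, succ_nsmul']
      exact add_mem_add hγ hu
    · rintro ⟨γ, f⟩ hx ⟨γ', f'⟩ hx' e
      obtain ⟨hγ, _⟩ := mem_product.1 (mem_coe.1 hx)
      obtain ⟨hγ', _⟩ := mem_product.1 (mem_coe.1 hx')
      simp only at hγ hγ' e
      have e1 : γ.1 = γ'.1 := by simpa using congrArg Prod.fst e
      have e2 : γ = γ' := hinj hγ hγ' e1
      subst e2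
      have e3 : ((0 : ZMod N), f) = ((0 : ZMod N), f') := add_left_cancel e
      rw [(Prod.mk.inj e3).2]
  have h2 := u3l_plun Γ hne K hK 7 6
  rw [card_product] at hcard
  have h3 : (#Γ : ℝ) * #F ≤ #Γ * K ^ 13 := by
    calc (#Γ : ℝ) * #F ≤ #(7 • Γ - 6 • Γ) := by exact_mod_cast hcard
      _ ≤ K ^ (7 + 6) * #Γ := h2
      _ = #Γ * K ^ 13 := by ring
  exact le_of_mul_le_mul_left h3 hpos

/-- L2: Ruzsa's dilation. -/
theorem model_dilate {N : ℕ} [Fact N.Prime] (F : Finset (ZMod N)) (N₂ : ℕ) (hpos : 0 < N₂) (hN₂ : 24 * F.card ≤ N₂) :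
    ∃ lam : ZMod N, lam ≠ 0 ∧ ∀ d ∈ F, d ≠ 0 → ∀ D : ℤ, |D| < 6 * N → (D : ZMod N) = lam * d → ¬ ((N₂ : ℤ) ∣ D) := by
  classical
  have hN2 : 2 ≤ N := (Fact.out : N.Prime).two_le
  set q : ℕ := (6 * N - 1) / N₂ with hq
  set J : Finset ℤ := (Icc (-(q : ℤ)) q).erase 0 with hJ
  have hJcard : #J = 2 * q := by
    rw [hJ, card_erase_of_mem (by simp), Int.card_Icc]
    omega
  set Bad : Finset (ZMod N) :=
    insert 0 ((F ×ˢ J).image fun x => (((N₂ : ℤ) * x.2 : ℤ) : ZMod N) * x.1⁻¹) with hBad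
  have hcard : #Bad < N := by
    have h1 : #Bad ≤ #F * (2 * q) + 1 := by
      calc #Bad ≤ #((F ×ˢ J).image fun x => (((N₂ : ℤ) * x.2 : ℤ) : ZMod N) * x.1⁻¹) + 1 :=
            card_insert_le _ _
        _ ≤ #(F ×ˢ J) + 1 := Nat.add_le_add_right card_image_le _
        _ = #F * (2 * q) + 1 := by rw [card_product, hJcard]
    have h2 : N₂ * q ≤ 6 * N - 1 := Nat.mul_div_le _ _
    have h3 : N₂ * (12 * (#F * (2 * q))) ≤ N₂ * (6 * N - 1) := by
      calc N₂ * (12 * (#F * (2 * q))) = (24 * #F) * (N₂ * q) := by ring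
        _ ≤ N₂ * (6 * N - 1) := Nat.mul_le_mul hN₂ h2
    have h4 : 12 * (#F * (2 * q)) ≤ 6 * N - 1 := le_of_mul_le_mul_left h3 hpos
    omega
  obtain ⟨lam, hlam⟩ : ∃ lam : ZMod N, lam ∉ Bad := by
    by_contra hall
    have hall : ∀ x : ZMod N, x ∈ Bad := by
      intro x
      by_contra hx
      exact hall ⟨x, hx⟩
    have : Bad = univ := eq_univ_iff_forall.2 hall
    rw [this, card_univ, ZMod.card] at hcard
    exact lt_irrefl _ hcard
  have hlam0 : lam ≠ 0 := by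
    rintro rfl
    exact hlam (mem_insert_self _ _)
  refine ⟨lam, hlam0, ?_⟩
  intro f hf hf0 t ht heq hdvd
  obtain ⟨j, rfl⟩ := hdvd
  apply hlam
  rw [hBad, mem_insert]
  by_cases hj : j = 0
  · left
    subst hj
    simp only [mul_zero, Int.cast_zero] at heq
    rcases mul_eq_zero.1 heq.symm with h | h
    · exact h
    · exact absurd h hf0
  · right
    refine mem_image.2 ⟨(f, j), mem_product.2 ⟨hf, ?_⟩, ?_⟩
    · rw [hJ, mem_erase, mem_Icc]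
      refine ⟨hj, ?_⟩
      have h1 : (N₂ : ℤ) * |j| < 6 * N := by
        rw [abs_mul, abs_of_nonneg (by positivity : (0 : ℤ) ≤ N₂)] at ht
        exact ht
      have h2 : N₂ * j.natAbs ≤ 6 * N - 1 := by
        have : ((N₂ * j.natAbs : ℕ) : ℤ) < ((6 * N : ℕ) : ℤ) := by
          push_cast
          exact h1
        have : N₂ * j.natAbs < 6 * N := by exact_mod_cast this
        omega
      have h3 : j.natAbs ≤ q := by
        rw [hq, Nat.le_div_iff_mul_le hpos, mul_comm]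
        exact h2
      have h4 : |j| ≤ (q : ℤ) := by
        rw [Int.abs_eq_natAbs]
        exact_mod_cast h3
      exact abs_le.1 h4
    · simp only
      rw [heq, mul_assoc, mul_inv_cancel₀ hf0, mul_one]

/-- L3: the model map for the second coordinate. -/
theorem model_iso {N : ℕ} [Fact N.Prime] (Γ : Finset (ZMod N × ZMod N)) (hinj : Set.InjOn Prod.fst (Γ : Set (ZMod N × ZMod N)))
    (hne : Γ.Nonempty) {K : ℝ} (hK : ((Γ - Γ).card : ℝ) ≤ K * Γ.card) :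
    ∃ (N₂ : ℕ) (lam : ZMod N), 0 < N₂ ∧ (N₂ : ℝ) ≤ 24 * K ^ 13 + 1 ∧
      ∀ a b : Fin 6 → ZMod N × ZMod N, (∀ i, a i ∈ Γ) → (∀ i, b i ∈ Γ) → ∑ i, (a i).1 = ∑ i, (b i).1 →
        ∑ i, (((lam * (a i).2).val : ℕ) : ZMod N₂) = ∑ i, (((lam * (b i).2).val : ℕ) : ZMod N₂) →
        ∑ i, (a i).2 = ∑ i, (b i).2 := by
  have hNpos : 0 < N := (Fact.out : N.Prime).pos
  set F := (univ : Finset (ZMod N)).filter fun d => ((0 : ZMod N), d) ∈ 6 • Γ - 6 • Γ with hF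
  have hFc : (#F : ℝ) ≤ K ^ 13 := model_fibre Γ hinj hne hK
  obtain ⟨lam, _, hlam⟩ := model_dilate F (24 * #F + 1) (Nat.succ_pos _) (Nat.le_succ _)
  refine ⟨24 * #F + 1, lam, Nat.succ_pos _, by push_cast; linarith, ?_⟩
  intro a b ha hb h1 h2
  set t : ℤ := ∑ i, (((lam * (a i).2).val : ℤ) - ((lam * (b i).2).val : ℤ)) with ht
  have ht1 : |t| < 6 * N := by
    have e1 : |t| ≤ ∑ i : Fin 6, |((lam * (a i).2).val : ℤ) - ((lam * (b i).2).val : ℤ)| :=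
      abs_sum_le_sum_abs _ _
    have e2 : ∑ i : Fin 6, |((lam * (a i).2).val : ℤ) - ((lam * (b i).2).val : ℤ)| <
        ∑ _i : Fin 6, (N : ℤ) := by
      apply sum_lt_sum_of_nonempty univ_nonempty
      intro i _
      have x1 : (lam * (a i).2).val < N := ZMod.val_lt _
      have x2 : (lam * (b i).2).val < N := ZMod.val_lt _
      rw [abs_lt]
      constructor <;> omega
    rw [sum_const, card_univ, Fintype.card_fin, nsmul_eq_mul] at e2
    push_cast at e2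
    linarith
  have ht2 : ((24 * #F + 1 : ℕ) : ℤ) ∣ t := by
    rw [← ZMod.intCast_zmod_eq_zero_iff_dvd, ht]
    push_cast
    rw [sum_sub_distrib, sub_eq_zero]
    simpa using h2
  set f : ZMod N := ∑ i, (a i).2 - ∑ i, (b i).2 with hf
  have ht3 : (t : ZMod N) = lam * f := by
    rw [ht, hf]
    push_cast
    simp only [ZMod.natCast_zmod_val, sum_sub_distrib, mul_sub, mul_sum]
  have hfF : f ∈ F := by
    rw [hF, mem_filter]
    refine ⟨mem_univ _, ?_⟩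
    have e : ((0 : ZMod N), f) = ∑ i, a i - ∑ i, b i := by
      refine Prod.ext ?_ ?_
      · simp only [Prod.fst_sub, Prod.fst_sum, h1, sub_self]
      · simp only [Prod.snd_sub, Prod.snd_sum, hf]
    rw [e]
    exact sub_mem_sub (u3l_sum_mem_nsmul Γ 6 a ha) (u3l_sum_mem_nsmul Γ 6 b hb)
  have hf0 : f = 0 := by
    by_contra hne'
    exact hlam f hfF hne' t ht1 ht3 ht2
  exact sub_eq_zero.1 hf0

/-! ### numerics -/

theorem lin_qs_le {C : ℕ} {Y r : ℝ} (hr : 0 < r) (h : Real.log (1 / r) ≤ pl C Y) : qs C Y ≤ r := by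
  unfold qs
  rw [← Real.exp_log hr]
  apply Real.exp_le_exp.2
  rw [one_div, Real.log_inv] at h
  linarith

theorem lin_le_pl {C k : ℕ} {Y c : ℝ} (hY : 1 ≤ Y) (hk : k ≤ C) (hc : c ≤ C) : c * Y ^ k ≤ pl C Y := by
  unfold pl
  have h1 : Y ^ k ≤ Y ^ C := pow_le_pow_right₀ hY hk
  have h2 : (0 : ℝ) ≤ Y ^ k := by positivity
  calc c * Y ^ k ≤ C * Y ^ k := mul_le_mul_of_nonneg_right hc h2
    _ ≤ C * Y ^ C := mul_le_mul_of_nonneg_left h1 (by positivity)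

/-- enlarging the constant in the radius of `u3_br` -/
theorem lin_cbohr_succ {G : Type*} [AddCommGroup G] [Fintype G] (Λ : Finset (AddChar G ℂ)) (C : ℕ) {a L : ℝ}
    (ha : 0 ≤ a) (hΛ : (Λ.card : ℝ) ≤ C * L) : cbohr Λ (a / (C + 1 : ℕ)) ⊆ cbohr Λ (a / C) := by
  intro x hx
  rw [mem_cbohr] at hx ⊢
  rcases Nat.eq_zero_or_pos C with rfl | hC
  · have : Λ = ∅ := by
      rw [← card_eq_zero]
      have : (Λ.card : ℝ) ≤ 0 := by simpa using hΛ
      exact_mod_cast le_antisymm this (by positivity)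
    subst this
    intro ψ hψ
    simp at hψ
  · intro ψ hψ
    refine (hx ψ hψ).trans ?_
    have : (0 : ℝ) < C := by exact_mod_cast hC
    push_cast
    gcongr
    linarith

/-- L4: **linearisation**. -/
theorem u3_lin : ∃ C : ℕ, ∀ (N : ℕ) [Fact N.Prime] (Γ : Finset (ZMod N × ZMod N)) (K : ℝ), 1 ≤ K →
    Set.InjOn Prod.fst (Γ : Set (ZMod N × ZMod N)) → (N : ℝ) ≤ K * Γ.card → ((Γ - Γ).card : ℝ) ≤ K * Γ.card →
    ∃ (S : Finset (ZMod N)) (r : ℝ) (M : ZMod N → ZMod N),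
      (S.card : ℝ) ≤ pl C (1 + Real.log K) ∧ qs C (1 + Real.log K) ≤ r ∧ r ≤ 1 / 16 ∧
      LocLin S r M ∧ ∀ x ∈ zbohr S r, (x, M x) ∈ Γ + Γ - Γ - Γ := by
  classical
  obtain ⟨Cb, hbr⟩ := u3_br
  refine ⟨10000000 * (Cb + 1), ?_⟩
  intro N _ Γ K hK hinj hN hd
  have hNpos : (0 : ℝ) < N := by exact_mod_cast (Fact.out : N.Prime).pos
  have hK0 : (0 : ℝ) < K := by linarith
  have hne : Γ.Nonempty := by
    rw [← card_pos]
    have : (0 : ℝ) < K * Γ.card := lt_of_lt_of_le hNpos hN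
    have h2 : (0 : ℝ) < Γ.card := by
      by_contra h
      have h := not_lt.1 h
      nlinarith
    exact_mod_cast h2
  obtain ⟨N₂, lam, hN₂, hN₂le, hiso⟩ := model_iso Γ hinj hne hd
  have : NeZero N₂ := ⟨hN₂.ne'⟩
  -- the dense model
  have hcardA : #(Γ.image (u3lPi lam N₂)) = #Γ := by
    apply card_image_of_injOn
    intro p hp q hq h
    have h' : (u3lPi lam N₂ p).1 = (u3lPi lam N₂ q).1 := congrArg Prod.fst h
    exact hinj hp hq h'
  set α : ℝ := 1 / (25 * K ^ 14) with hα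
  have hα0 : 0 < α := by positivity
  have hK14 : (1 : ℝ) ≤ K ^ 14 := one_le_pow₀ hK
  have hα1 : α ≤ 1 := by
    rw [hα, div_le_one (by positivity)]
    linarith
  have hdens : α * (Fintype.card (ZMod N × ZMod N₂) : ℝ) ≤ #(Γ.image (u3lPi lam N₂)) := by
    rw [hcardA, Fintype.card_prod, ZMod.card, ZMod.card, hα, div_mul_eq_mul_div, one_mul,
      div_le_iff₀ (by positivity)]
    push_cast
    have hK13 : (1 : ℝ) ≤ K ^ 13 := one_le_pow₀ hK
    calc (N : ℝ) * N₂ ≤ (K * #Γ) * (24 * K ^ 13 + 1) := by gcongr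
      _ ≤ (K * #Γ) * (25 * K ^ 13) := by gcongr; linarith
      _ = #Γ * (25 * K ^ 14) := by ring
  obtain ⟨Λ, hΛ, hsub⟩ := hbr (Γ.image (u3lPi lam N₂)) α hα0 hα1 hdens
  have hsub' := (lin_cbohr_succ Λ Cb (sq_nonneg α) hΛ).trans hsub
  -- frequencies
  have hs : ∀ χ : AddChar (ZMod N × ZMod N₂) ℂ, ∃ s : ZMod N, ∀ x, χ (x, 0) = eN (s * x) := by
    intro χ
    obtain ⟨s, hs⟩ := exists_eN_of_addChar (χ.compAddMonoidHom (AddMonoidHom.inl (ZMod N) (ZMod N₂)))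
    exact ⟨s, fun x => by simpa using hs x⟩
  choose sf hsf using hs
  set S : Finset (ZMod N) := Λ.image sf with hS
  set ρ : ℝ := α ^ 2 / (Cb + 1 : ℕ) with hρ
  have hρ0 : 0 < ρ := by positivity
  have hρ1 : ρ ≤ 1 := by
    rw [hρ, div_le_one (by positivity)]
    have : α ^ 2 ≤ 1 := pow_le_one₀ hα0.le hα1
    have h2 : (1 : ℝ) ≤ ((Cb + 1 : ℕ) : ℝ) := by push_cast; linarith [(Nat.cast_nonneg Cb : (0 : ℝ) ≤ Cb)]
    linarith
  set r : ℝ := ρ / 16 with hr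
  have hr0 : 0 < r := by positivity
  -- representations on the Bohr set of radius `2 r`
  have hrep : ∀ x ∈ zbohr S (2 * r), ∃ g₁ ∈ Γ, ∃ g₂ ∈ Γ, ∃ g₃ ∈ Γ, ∃ g₄ ∈ Γ,
      ((x, 0) : ZMod N × ZMod N₂) = u3lPi lam N₂ g₁ + u3lPi lam N₂ g₂ - u3lPi lam N₂ g₃ - u3lPi lam N₂ g₄ := by
    intro x hx
    rw [mem_zbohr] at hx
    have hmem : ((x, 0) : ZMod N × ZMod N₂) ∈ cbohr Λ ρ := by
      rw [mem_cbohr]
      intro χ hχ
      rw [hsf χ x]
      have h1 := norm_eN_sub_one_le (sf χ * x)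
      have h2 := hx (sf χ) (mem_image_of_mem _ hχ)
      have h3 := Real.pi_le_four
      have h4 := Real.pi_pos
      calc ‖eN (sf χ * x) - 1‖ ≤ 2 * Real.pi * nrm (sf χ * x) := h1
        _ ≤ 2 * Real.pi * (2 * r) := by gcongr
        _ = Real.pi * (ρ / 4) := by rw [hr]; ring
        _ ≤ 4 * (ρ / 4) := by gcongr
        _ = ρ := by ring
    obtain ⟨u, hu, a₄, h4, e⟩ := mem_sub.1 (hsub' hmem)
    obtain ⟨v, hv, a₃, h3, rfl⟩ := mem_sub.1 hu
    obtain ⟨a₁, h1, a₂, h2, rfl⟩ := mem_add.1 hv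
    obtain ⟨g₁, hg1, rfl⟩ := mem_image.1 h1
    obtain ⟨g₂, hg2, rfl⟩ := mem_image.1 h2
    obtain ⟨g₃, hg3, rfl⟩ := mem_image.1 h3
    obtain ⟨g₄, hg4, rfl⟩ := mem_image.1 h4
    exact ⟨g₁, hg1, g₂, hg2, g₃, hg3, g₄, hg4, e.symm⟩
  choose! g₁ h₁ g₂ h₂ g₃ h₃ g₄ h₄ e using hrep
  have hmono : zbohr S r ⊆ zbohr S (2 * r) := zbohr_mono S (by linarith)
  have hfst : ∀ x ∈ zbohr S (2 * r), (g₁ x).1 + (g₂ x).1 - (g₃ x).1 - (g₄ x).1 = x := by
    intro x hx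
    have := congrArg Prod.fst (e x hx)
    simpa [u3lPi] using this.symm
  have hsnd : ∀ x ∈ zbohr S (2 * r),
      (((lam * (g₁ x).2).val : ℕ) : ZMod N₂) + (((lam * (g₂ x).2).val : ℕ) : ZMod N₂) -
        (((lam * (g₃ x).2).val : ℕ) : ZMod N₂) - (((lam * (g₄ x).2).val : ℕ) : ZMod N₂) = 0 := by
    intro x hx
    have := congrArg Prod.snd (e x hx)
    simpa [u3lPi] using this.symm
  refine ⟨S, r, fun x => (g₁ x).2 + (g₂ x).2 - (g₃ x).2 - (g₄ x).2, ?_, ?_, ?_, ?_, ?_⟩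
  · -- rank
    have hlogK : 0 ≤ Real.log K := Real.log_nonneg hK
    have hL : Real.log (2 / α) ≤ 49 * (1 + Real.log K) := by
      have e1 : 2 / α = 50 * K ^ 14 := by rw [hα]; field_simp; norm_num
      rw [e1, Real.log_mul (by norm_num) (by positivity), Real.log_pow]
      have := Real.log_le_sub_one_of_pos (by norm_num : (0 : ℝ) < 50)
      push_cast
      linarith
    have hL0 : 0 ≤ Real.log (2 / α) := by
      apply Real.log_nonneg
      rw [le_div_iff₀ hα0]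
      linarith
    calc (S.card : ℝ) ≤ Λ.card := by exact_mod_cast card_image_le
      _ ≤ Cb * Real.log (2 / α) ^ 4 := hΛ
      _ ≤ Cb * (49 * (1 + Real.log K)) ^ 4 := by gcongr
      _ = (Cb * 5764801 : ℝ) * (1 + Real.log K) ^ 4 := by ring
      _ ≤ pl (10000000 * (Cb + 1)) (1 + Real.log K) := by
          apply lin_le_pl (by linarith) (by omega)
          push_cast
          have : (0 : ℝ) ≤ Cb := Nat.cast_nonneg _
          linarith
  · -- radius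
    have hlogK : 0 ≤ Real.log K := Real.log_nonneg hK
    apply lin_qs_le hr0
    have hCb : (0 : ℝ) ≤ Cb := Nat.cast_nonneg _
    have e1 : 1 / r = (10000 * (Cb + 1)) * K ^ 28 := by
      rw [hr, hρ, hα]; push_cast; field_simp; norm_num
    rw [e1, Real.log_mul (by positivity) (by positivity), Real.log_pow]
    have h1 := Real.log_le_sub_one_of_pos (by positivity : (0 : ℝ) < 10000 * (Cb + 1))
    calc Real.log (10000 * (Cb + 1)) + (28 : ℕ) * Real.log K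
        ≤ (10000 * (Cb + 1) + 28 : ℝ) * (1 + Real.log K) ^ 1 := by
          push_cast
          nlinarith
      _ ≤ pl (10000000 * (Cb + 1)) (1 + Real.log K) := by
          apply lin_le_pl (by linarith) (by omega)
          push_cast
          linarith
  · rw [hr]; linarith
  · -- local linearity
    intro x hx y hy
    have hxy : x + y ∈ zbohr S (2 * r) := by
      have := add_mem_zbohr hx hy
      rwa [← two_mul] at this
    have hx' := hmono hx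
    have hy' := hmono hy
    have key := hiso ![g₁ x, g₂ x, g₁ y, g₂ y, g₃ (x + y), g₄ (x + y)]
      ![g₃ x, g₄ x, g₃ y, g₄ y, g₁ (x + y), g₂ (x + y)]
      (by
        intro i; fin_cases i
        · exact h₁ _ hx'
        · exact h₂ _ hx'
        · exact h₁ _ hy'
        · exact h₂ _ hy'
        · exact h₃ _ hxy
        · exact h₄ _ hxy)
      (by
        intro i; fin_cases i
        · exact h₃ _ hx'
        · exact h₄ _ hx'
        · exact h₃ _ hy'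
        · exact h₄ _ hy'
        · exact h₁ _ hxy
        · exact h₂ _ hxy)
      (by
        simp only [Fin.sum_univ_six, Matrix.cons_val]
        have E := hfst (x + y) hxy
        nth_rewrite 5 [← hfst x hx'] at E
        nth_rewrite 5 [← hfst y hy'] at E
        rw [← sub_eq_zero] at E ⊢
        rw [← neg_eq_zero, ← E]
        ring)
      (by
        simp only [Fin.sum_univ_six, Matrix.cons_val]
        have E1 := hsnd x hx'
        have E2 := hsnd y hy'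
        have E3 := hsnd (x + y) hxy
        rw [← sub_eq_zero]
        have : ∀ p q s : ZMod N₂, p = 0 → q = 0 → s = 0 → p + q - s = 0 := by
          intro p q s hp hq hs; rw [hp, hq, hs]; ring
        rw [← this _ _ _ E1 E2 E3]
        ring)
    simp only [Fin.sum_univ_six, Matrix.cons_val] at key
    show (g₁ (x + y)).2 + (g₂ (x + y)).2 - (g₃ (x + y)).2 - (g₄ (x + y)).2 =
      (g₁ x).2 + (g₂ x).2 - (g₃ x).2 - (g₄ x).2 + ((g₁ y).2 + (g₂ y).2 - (g₃ y).2 - (g₄ y).2)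
    rw [← sub_eq_zero] at key ⊢
    rw [← neg_eq_zero, ← key]
    ring
  · intro x hx
    have hx' := hmono hx
    have : (x, (g₁ x).2 + (g₂ x).2 - (g₃ x).2 - (g₄ x).2) = g₁ x + g₂ x - g₃ x - g₄ x := by
      refine Prod.ext ?_ rfl
      simpa using (hfst x hx').symm
    rw [this]
    exact sub_mem_sub (sub_mem_sub (add_mem_add (h₁ _ hx') (h₂ _ hx')) (h₃ _ hx')) (h₄ _ hx')

/-- L5: pigeonhole. -/
theorem lin_pigeon {G : Type*} [AddCommGroup G] [DecidableEq G] (Γ P : Finset G) (hne : Γ.Nonempty) {K : ℝ}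
    (hK : ((Γ - Γ).card : ℝ) ≤ K * Γ.card) (hP : P ⊆ Γ + Γ - Γ - Γ) :
    ∃ v : G, (P.card : ℝ) ≤ K ^ 5 * (P.filter fun p => v + p ∈ Γ).card := by
  have hpos : (0 : ℝ) < #Γ := by exact_mod_cast hne.card_pos
  have hT : P + (-Γ) ⊆ 2 • Γ - 3 • Γ := by
    intro z hz
    obtain ⟨p, hp, s, hs, rfl⟩ := mem_add.1 hz
    obtain ⟨γ, hγ, rfl⟩ := mem_neg.1 hs
    obtain ⟨x, hx, g₄, h4, rfl⟩ := mem_sub.1 (hP hp)
    obtain ⟨y, hy, g₃, h3, rfl⟩ := mem_sub.1 hx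
    obtain ⟨g₁, h1, g₂, h2, rfl⟩ := mem_add.1 hy
    have e1 : g₁ + g₂ ∈ 2 • Γ := by
      have := u3l_sum_mem_nsmul Γ 2 ![g₁, g₂] (by
        intro i; fin_cases i
        · exact h1
        · exact h2)
      simpa [Fin.sum_univ_two] using this
    have e2 : g₃ + g₄ + γ ∈ 3 • Γ := by
      have := u3l_sum_mem_nsmul Γ 3 ![g₃, g₄, γ] (by
        intro i; fin_cases i
        · exact h3
        · exact h4
        · exact hγ)
      simpa [Fin.sum_univ_three] using this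
    have e3 : g₁ + g₂ - g₃ - g₄ + -γ = (g₁ + g₂) - (g₃ + g₄ + γ) := by abel
    rw [e3]
    exact sub_mem_sub e1 e2
  obtain ⟨t, ht⟩ := u3l_pigeon P (-Γ) _ hT
  refine ⟨-t, ?_⟩
  have hTc := u3l_plun Γ hne K hK 2 3
  have hfil : #{γ ∈ P | t - γ ∈ -Γ} = #(P.filter fun p => -t + p ∈ Γ) := by
    congr 1
    ext p
    simp only [mem_filter, mem_neg]
    constructor
    · rintro ⟨hp, γ, hγ, e⟩
      refine ⟨hp, ?_⟩
      have : -t + p = γ := by
        have : γ = -(t - p) := by rw [← e]; simp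
        rw [this]; abel
      rw [this]; exact hγ
    · rintro ⟨hp, h⟩
      exact ⟨hp, -t + p, h, by abel⟩
  rw [card_neg, hfil] at ht
  have ht' : (#P : ℝ) * #Γ ≤ #(2 • Γ - 3 • Γ) * #(P.filter fun p => -t + p ∈ Γ) := by exact_mod_cast ht
  have key : (#Γ : ℝ) * #P ≤ #Γ * (K ^ 5 * #(P.filter fun p => -t + p ∈ Γ)) := by
    calc (#Γ : ℝ) * #P = #P * #Γ := mul_comm _ _
      _ ≤ #(2 • Γ - 3 • Γ) * #(P.filter fun p => -t + p ∈ Γ) := ht'
      _ ≤ (K ^ (2 + 3) * #Γ) * #(P.filter fun p => -t + p ∈ Γ) := by gcongr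
      _ = _ := by ring
  exact le_of_mul_le_mul_left key hpos

theorem lin_pl_mono_right (C : ℕ) {Y Y' : ℝ} (h0 : 0 ≤ Y) (h : Y ≤ Y') : pl C Y ≤ pl C Y' := by
  unfold pl
  gcongr

theorem lin_graph_eq {N : ℕ} [NeZero N] (H : Finset (ZMod N)) (φ : ZMod N → ZMod N) :
    graph H φ = u3lGraph H φ := rfl

/-- translation and modulation of the derivative coefficient -/
theorem lin_dcoef_shift {N : ℕ} [NeZero N] (f : ZMod N → ℂ) (x₀ ξ₀ b m : ZMod N) :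
    dcoef f f (x₀ + b) (ξ₀ + m) = dcoef (fun x => f (x + x₀)) (fun x => f x * eN (ξ₀ * x)) b m := by
  unfold dcoef
  apply sum_congr rfl
  intro x _
  have e1 : x + (x₀ + b) = x + b + x₀ := by ring
  have e2 : -((ξ₀ + m) * x) = -(ξ₀ * x) + -(m * x) := by ring
  rw [e1, e2, eN_add, map_mul, eN_neg]
  ring

/-- the structural part of L6 -/
theorem lin_star_of {N : ℕ} [Fact N.Prime] (f : ZMod N → ℂ) (hf : ∀ x, ‖f x‖ ≤ 1) (H : Finset (ZMod N))
    (φ : ZMod N → ZMod N) {η K r : ℝ} (hη : 0 < η) (hK : 0 < K)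
    (hφ : ∀ h ∈ H, η / 2 * (N : ℝ) ^ 2 ≤ ‖dcoef f f h (φ h)‖ ^ 2)
    (Γ : Finset (ZMod N × ZMod N)) (hΓ : Γ ⊆ graph H φ) (hne : Γ.Nonempty)
    (hd : ((Γ - Γ).card : ℝ) ≤ K * Γ.card) (S : Finset (ZMod N)) (hr : 0 ≤ r) (M : ZMod N → ZMod N)
    (hlin : LocLin S r M) (hM : ∀ x ∈ zbohr S r, (x, M x) ∈ Γ + Γ - Γ - Γ) :
    Star f S (r / 2) (η / (2 * K ^ 5)) M := by
  classical
  refine ⟨by rwa [mul_div_cancel₀ r (by norm_num : (2 : ℝ) ≠ 0)], ?_⟩
  set B := zbohr S (r / 2) with hB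
  have hBsub : B ⊆ zbohr S r := zbohr_mono S (by linarith)
  set P : Finset (ZMod N × ZMod N) := B.image fun b => (b, M b) with hP
  have hPcard : #P = #B := card_image_of_injective _ fun _ _ h => (Prod.mk.inj h).1
  have hPsub : P ⊆ Γ + Γ - Γ - Γ := by
    intro p hp
    obtain ⟨b, hb, rfl⟩ := mem_image.1 hp
    exact hM b (hBsub hb)
  obtain ⟨v, hv⟩ := lin_pigeon Γ P hne hd hPsub
  refine ⟨v.1, fun x => f x * eN (v.2 * x), ?_, ?_⟩
  · intro x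
    rw [norm_mul, norm_eN, mul_one]
    exact hf x
  have hcnt : #(P.filter fun p => v + p ∈ Γ) = #(B.filter fun b => v + (b, M b) ∈ Γ) := by
    rw [hP, filter_image, card_image_of_injective _ fun _ _ h => (Prod.mk.inj h).1]
  rw [hPcard, hcnt] at hv
  have hterm : ∀ b ∈ B.filter (fun b => v + (b, M b) ∈ Γ), η / 2 * (N : ℝ) ^ 2 ≤
      ‖dcoef (fun x => f (x + v.1)) (fun x => f x * eN (v.2 * x)) b (M b)‖ ^ 2 := by
    intro b hb
    have hmem := hΓ (mem_filter.1 hb).2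
    rw [lin_graph_eq, u3l_mem_graph] at hmem
    obtain ⟨h1, h2⟩ := hmem
    have h3 := hφ _ h1
    rw [← h2] at h3
    rw [← lin_dcoef_shift]
    exact h3
  have hN : (0 : ℝ) < N := by exact_mod_cast (Fact.out : N.Prime).pos
  calc η / (2 * K ^ 5) * (#B : ℝ) * (N : ℝ) ^ 2
      ≤ η / (2 * K ^ 5) * (K ^ 5 * #(B.filter fun b => v + (b, M b) ∈ Γ)) * (N : ℝ) ^ 2 := by gcongr
    _ = #(B.filter fun b => v + (b, M b) ∈ Γ) * (η / 2 * (N : ℝ) ^ 2) := by field_simp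
    _ = ∑ _b ∈ B.filter (fun b => v + (b, M b) ∈ Γ), η / 2 * (N : ℝ) ^ 2 := by
        rw [sum_const, nsmul_eq_mul]
    _ ≤ ∑ b ∈ B.filter (fun b => v + (b, M b) ∈ Γ),
          ‖dcoef (fun x => f (x + v.1)) (fun x => f x * eN (v.2 * x)) b (M b)‖ ^ 2 := sum_le_sum hterm
    _ ≤ ∑ b ∈ B, ‖dcoef (fun x => f (x + v.1)) (fun x => f x * eN (v.2 * x)) b (M b)‖ ^ 2 :=
        sum_le_sum_of_subset_of_nonneg (filter_subset _ _) fun _ _ _ => by positivity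

/-- L6: **from the cube sum to the state (★)**, quasipolynomial form. -/
theorem u3_toStar : ∀ C₁ : ℕ, ∃ C₂ : ℕ, ∀ (X : ℝ), 1 ≤ X → ∀ (N : ℕ) [Fact N.Prime] (f : ZMod N → ℂ) (η : ℝ),
    (∀ x, ‖f x‖ ≤ 1) → qs C₁ X ≤ η → η * (N : ℝ) ^ 4 ≤ (cube f).re →
    ∃ (S : Finset (ZMod N)) (r η' : ℝ) (M : ZMod N → ZMod N),
      (S.card : ℝ) ≤ pl C₂ X ∧ qs C₂ X ≤ r ∧ r ≤ 1 / 32 ∧ qs C₂ X ≤ η' ∧ Star f S r η' M := by
  intro C₁
  obtain ⟨Cb, hbsg⟩ := u3_bsg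
  obtain ⟨Cl, hlin⟩ := u3_lin
  set C₃ : ℕ := 264 * (Cb + 1) * (C₁ + 1) with hC₃
  set C₄ : ℕ := Cl * C₃ ^ Cl + Cl * C₃ with hC₄
  refine ⟨C₄ + 1 + 7 * C₃, ?_⟩
  intro X hX N _ f η hf hη hcube
  have hN : (0 : ℝ) < N := by exact_mod_cast (Fact.out : N.Prime).pos
  -- reduce to `η ≤ 1`
  set η₀ : ℝ := min η 1 with hη₀
  have hη₀q : qs C₁ X ≤ η₀ := le_min hη (qs_le_one C₁ hX)
  have hη₀pos : 0 < η₀ := lt_of_lt_of_le (qs_pos _ _) hη₀q
  have hη₀1 : η₀ ≤ 1 := min_le_right _ _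
  have hcube₀ : η₀ * (N : ℝ) ^ 4 ≤ (cube f).re :=
    (mul_le_mul_of_nonneg_right (min_le_left _ _) (by positivity)).trans hcube
  obtain ⟨H, φ, hφ, hE⟩ := u3_stepA f hf hη₀pos hcube₀
  set Γ₀ := graph H φ with hΓ₀
  have hn : (#Γ₀ : ℝ) ≤ N := by
    have h1 : #Γ₀ ≤ N := by
      rw [hΓ₀, lin_graph_eq, u3l_card_graph]
      calc #H ≤ Fintype.card (ZMod N) := card_le_univ _
        _ = N := ZMod.card N
    exact_mod_cast h1
  have hEle : (E[Γ₀] : ℝ) ≤ (#Γ₀ : ℝ) ^ 3 := by exact_mod_cast u3l_energy_le Γ₀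
  set KA : ℝ := 256 / η₀ ^ 8 with hKA
  have hη8 : η₀ ^ 8 ≤ 1 := pow_le_one₀ hη₀pos.le hη₀1
  have hKA1 : 1 ≤ KA := by
    rw [hKA, le_div_iff₀ (by positivity)]; linarith
  have hKA0 : 0 < KA := by linarith
  have hE' : (N : ℝ) ^ 3 ≤ KA * E[Γ₀] := by
    rw [hKA, div_mul_eq_mul_div, le_div_iff₀ (by positivity)]
    have : η₀ ^ 8 / 256 * (N : ℝ) ^ 3 ≤ E[Γ₀] := hE
    rw [div_mul_eq_mul_div, div_le_iff₀ (by norm_num)] at this
    linarith
  have h1 : (#Γ₀ : ℝ) ^ 3 ≤ KA * E[Γ₀] := by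
    calc (#Γ₀ : ℝ) ^ 3 ≤ (N : ℝ) ^ 3 := by gcongr
      _ ≤ _ := hE'
  have h2 : (N : ℝ) ≤ KA * #Γ₀ := by
    have a1 : (N : ℝ) * (N : ℝ) ^ 2 ≤ (KA * #Γ₀) * (N : ℝ) ^ 2 := by
      calc (N : ℝ) * (N : ℝ) ^ 2 = (N : ℝ) ^ 3 := by ring
        _ ≤ KA * E[Γ₀] := hE'
        _ ≤ KA * (#Γ₀ : ℝ) ^ 3 := by gcongr
        _ = KA * (#Γ₀ * (#Γ₀ : ℝ) ^ 2) := by ring
        _ ≤ KA * (#Γ₀ * (N : ℝ) ^ 2) := by gcongr
        _ = _ := by ring
    exact le_of_mul_le_mul_right a1 (by positivity)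
  obtain ⟨Γ', hΓ', hb1, hb2⟩ := hbsg Γ₀ KA hKA1 h1
  set K : ℝ := (Cb + 1) * KA ^ (Cb + 1) with hK
  have hCb0 : (0 : ℝ) ≤ Cb := Nat.cast_nonneg _
  have hKApow : (1 : ℝ) ≤ KA ^ (Cb + 1) := one_le_pow₀ hKA1
  have hK1 : 1 ≤ K := by
    rw [hK]
    exact one_le_mul_of_one_le_of_one_le (by linarith) hKApow
  have hK0 : 0 < K := by linarith
  have hc0 : (0 : ℝ) ≤ #Γ' := by positivity
  have hle : (Cb : ℝ) * KA ^ Cb ≤ K := by
    rw [hK, pow_succ]
    have hw : (0 : ℝ) ≤ KA ^ Cb := by positivity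
    calc (Cb : ℝ) * KA ^ Cb ≤ ((Cb : ℝ) + 1) * KA ^ Cb := mul_le_mul_of_nonneg_right (by linarith) hw
      _ ≤ ((Cb : ℝ) + 1) * (KA ^ Cb * KA) :=
          mul_le_mul_of_nonneg_left (le_mul_of_one_le_right hw hKA1) (by linarith)
  have hle2 : KA * ((Cb : ℝ) * KA ^ Cb) ≤ K := by
    rw [hK, pow_succ]
    have hw : (0 : ℝ) ≤ KA ^ Cb * KA := by positivity
    calc KA * ((Cb : ℝ) * KA ^ Cb) = (Cb : ℝ) * (KA ^ Cb * KA) := by ring
      _ ≤ ((Cb : ℝ) + 1) * (KA ^ Cb * KA) := mul_le_mul_of_nonneg_right (by linarith) hw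
  have h3 : (N : ℝ) ≤ K * #Γ' := by
    calc (N : ℝ) ≤ KA * #Γ₀ := h2
      _ ≤ KA * (Cb * KA ^ Cb * #Γ') := by gcongr
      _ = KA * ((Cb : ℝ) * KA ^ Cb) * #Γ' := by ring
      _ ≤ K * #Γ' := by gcongr
  have h4 : ((Γ' - Γ').card : ℝ) ≤ K * #Γ' := hb2.trans (by gcongr)
  have hne : Γ'.Nonempty := by
    rw [← card_pos]
    have a1 : (0 : ℝ) < K * #Γ' := lt_of_lt_of_le hN h3
    have a2 : (0 : ℝ) < #Γ' := (mul_pos_iff_of_pos_left hK0).1 a1
    exact_mod_cast a2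
  have hinj : Set.InjOn Prod.fst (Γ' : Set (ZMod N × ZMod N)) :=
    u3l_graph_injOn H φ Γ' (by rw [← lin_graph_eq]; exact hΓ')
  obtain ⟨S, r, M, hS, hr, hr16, hLL, hM⟩ := hlin N Γ' K hK1 hinj h3 h4
  have hr0 : 0 < r := lt_of_lt_of_le (qs_pos _ _) hr
  have hstar := lin_star_of f hf H φ hη₀pos hK0 hφ Γ' hΓ' hne h4 S hr0.le M hLL hM
  -- numerics
  have hL : Real.log (1 / η₀) ≤ pl C₁ X := log_inv_le_pl C₁ hη₀q
  have hL0 : 0 ≤ Real.log (1 / η₀) := Real.log_nonneg (by rw [le_div_iff₀ hη₀pos]; linarith)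
  have hlogK0 : 0 ≤ Real.log K := Real.log_nonneg hK1
  have hP1 : pl C₁ X ≤ pl (C₁ + 1) X := pl_mono (Nat.le_succ _) hX
  have hP2 : (1 : ℝ) ≤ pl (C₁ + 1) X := by
    have := natCast_le_pl (C₁ + 1) hX
    push_cast at this
    have h0 : (0 : ℝ) ≤ C₁ := Nat.cast_nonneg _
    linarith
  have hlogK : Real.log K ≤ Cb + (Cb + 1) * (255 + 8 * pl C₁ X) := by
    have e1 : KA = 256 * (1 / η₀) ^ 8 := by rw [hKA]; field_simp
    rw [hK, Real.log_mul (by positivity) (by positivity), Real.log_pow, e1,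
      Real.log_mul (by norm_num) (by positivity), Real.log_pow]
    have a1 := Real.log_le_sub_one_of_pos (by positivity : (0 : ℝ) < (Cb : ℝ) + 1)
    have a2 := Real.log_le_sub_one_of_pos (by norm_num : (0 : ℝ) < 256)
    push_cast
    have a3 : Real.log 256 + 8 * Real.log (1 / η₀) ≤ 255 + 8 * pl C₁ X := by linarith
    have a4 : ((Cb : ℝ) + 1) * (Real.log 256 + 8 * Real.log (1 / η₀)) ≤
        ((Cb : ℝ) + 1) * (255 + 8 * pl C₁ X) := mul_le_mul_of_nonneg_left a3 (by positivity)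
    linarith
  have hY : 1 + Real.log K ≤ pl C₃ X := by
    have a1 : 1 + Real.log K ≤ (264 * ((Cb : ℝ) + 1)) * pl (C₁ + 1) X := by
      have b1 : (255 : ℝ) + 8 * pl C₁ X ≤ 263 * pl (C₁ + 1) X := by linarith
      have b2 : ((Cb : ℝ) + 1) * (255 + 8 * pl C₁ X) ≤ ((Cb : ℝ) + 1) * (263 * pl (C₁ + 1) X) :=
        mul_le_mul_of_nonneg_left b1 (by linarith)
      have b3 : ((Cb : ℝ) + 1) * 1 ≤ ((Cb : ℝ) + 1) * pl (C₁ + 1) X :=
        mul_le_mul_of_nonneg_left hP2 (by linarith)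
      calc 1 + Real.log K ≤ ((Cb : ℝ) + 1) * 1 + ((Cb : ℝ) + 1) * (263 * pl (C₁ + 1) X) := by linarith
        _ ≤ ((Cb : ℝ) + 1) * pl (C₁ + 1) X + ((Cb : ℝ) + 1) * (263 * pl (C₁ + 1) X) := by linarith
        _ = _ := by ring
    refine a1.trans ?_
    have a2 : (264 * ((Cb : ℝ) + 1)) * pl (C₁ + 1) X =
        (264 * ((Cb : ℝ) + 1) * ((C₁ : ℝ) + 1)) * X ^ (C₁ + 1) := by
      unfold pl; push_cast; ring
    rw [a2]
    apply lin_le_pl hX
    · rw [hC₃]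
      have : 1 ≤ 264 * (Cb + 1) := by omega
      calc C₁ + 1 = 1 * (C₁ + 1) := (one_mul _).symm
        _ ≤ 264 * (Cb + 1) * (C₁ + 1) := Nat.mul_le_mul_right _ this
    · rw [hC₃]; push_cast; exact le_rfl
  have hplY : pl Cl (1 + Real.log K) ≤ pl C₄ X :=
    (lin_pl_mono_right Cl (by linarith) hY).trans (pl_comp_le Cl C₃ hX)
  have hC₃1 : (1 : ℝ) ≤ pl C₃ X := by
    have := natCast_le_pl C₃ hX
    have h1 : 1 ≤ C₃ := by rw [hC₃]; exact Nat.mul_pos (by omega) (by omega)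
    have h2 : (1 : ℝ) ≤ C₃ := by exact_mod_cast h1
    linarith
  refine ⟨S, r / 2, η₀ / (2 * K ^ 5), M, ?_, ?_, by linarith, ?_, hstar⟩
  · exact hS.trans (hplY.trans (pl_mono (by omega) hX))
  · -- radius
    have a1 : qs C₄ X ≤ r := by
      refine le_trans ?_ hr
      unfold qs
      exact Real.exp_le_exp.2 (by linarith)
    have a2 : qs 1 X ≤ 1 / 2 := by
      unfold qs pl
      have : Real.exp (-(((1 : ℕ) : ℝ) * X ^ 1)) ≤ Real.exp (-1) := by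
        apply Real.exp_le_exp.2; push_cast; linarith
      refine this.trans ?_
      rw [Real.exp_neg, one_div]
      apply inv_anti₀ (by norm_num)
      have := Real.add_one_le_exp (1 : ℝ)
      linarith
    calc qs (C₄ + 1 + 7 * C₃) X ≤ qs (C₄ + 1) X := qs_anti (by omega) hX
      _ ≤ qs C₄ X * qs 1 X := qs_mul_ge C₄ 1 hX
      _ ≤ r * (1 / 2) := mul_le_mul a1 a2 (qs_pos _ _).le hr0.le
      _ = r / 2 := by ring
  · -- density
    refine le_trans (qs_anti (by omega : 7 * C₃ ≤ C₄ + 1 + 7 * C₃) hX) ?_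
    apply lin_qs_le (by positivity)
    have e1 : 1 / (η₀ / (2 * K ^ 5)) = 2 * K ^ 5 * (1 / η₀) := by field_simp
    rw [e1, Real.log_mul (by positivity) (by positivity), Real.log_mul (by norm_num) (by positivity),
      Real.log_pow]
    have a1 := Real.log_le_sub_one_of_pos (by norm_num : (0 : ℝ) < 2)
    have a2 : pl C₁ X ≤ pl C₃ X := by
      apply pl_mono _ hX
      rw [hC₃]
      have : 1 ≤ 264 * (Cb + 1) := by omega
      calc C₁ ≤ 1 * (C₁ + 1) := by omega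
        _ ≤ 264 * (Cb + 1) * (C₁ + 1) := Nat.mul_le_mul_right _ this
    have a3 : Real.log 2 + ((5 : ℕ) : ℝ) * Real.log K + Real.log (1 / η₀) ≤ 7 * pl C₃ X := by
      push_cast; linarith
    refine a3.trans ?_
    have a4 : 7 * pl C₃ X = (7 * (C₃ : ℝ)) * X ^ C₃ := by unfold pl; ring
    rw [a4]
    apply lin_le_pl hX (by omega)
    push_cast; exact le_rfl

end Claimed.Agent.R258.U3
end

/- ===== packed: Claimed.Agent.R258.U3.Main ===== -/
section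
/-
R258 / U3 / Main : TOP ASSEMBLY of the quasipolynomial inverse theorem for the `U^3` norm.
Owner: helper52.

CHAIN (all files in this folder):
  StepA  `u3_stepA`   : large cube sum ⟹ `H, φ` with large derivative coefficients and many additive quadruples in the graph of `φ`.
  Lin/*  (helper152)  : Balog-Szemeredi-Gowers, model lemma, linearisation.          BR/* (helper197) : dense Bogolyubov-Ruzsa (Croot-Sisask + Chang).
  Lin    `u3_toStar`  : the state (★) `Star f S r η M` (locally linear derivative frequency on a Bohr set).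
  Sym    `u3_sym`     : `2⁻¹ (M x y - M y x)` is small on a smaller Bohr set of polylogarithmic rank.
  Brk    `u3_brk`     : a locally linear map is a bracket-linear form (Steinitz).
  Int    `u3_int`     : correlation with `e(-(2⁻¹ M x x + ξ x)/N)` on a Bohr set.
  Fin    `cube_transfer`, `fin_annulus`, `fin_cutoff`, `fin_convert`.
  Main   `u3_zmod_main`, `u3_main`.       Bridge.lean : `s4b_U3Target` (the form consumed by block S4b).
This file is sorry-free.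
-/
set_option autoImplicit false

namespace Claimed.Agent.R258.U3

open Finset
open scoped ComplexConjugate Pointwise

/-- `qs k X ≤ c` as soon as `e^(-k) ≤ c`. -/
theorem qs_le_of_exp (k : ℕ) {X c : ℝ} (hX : 1 ≤ X) (h : Real.exp (-(k : ℝ)) ≤ c) : qs k X ≤ c := by
  refine le_trans ?_ h
  unfold qs
  exact Real.exp_le_exp.2 (neg_le_neg (natCast_le_pl k hX))

theorem main_exp2 : Real.exp (-((2 : ℕ) : ℝ)) ≤ 1 / 6 := by
  have h4 : (2.7 : ℝ) ≤ Real.exp 1 := by have := Real.exp_one_gt_d9; linarith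
  have h3 : Real.exp ((2 : ℕ) : ℝ) = Real.exp 1 ^ 2 := by rw [← Real.exp_nat_mul]; norm_num
  have h1 : (6 : ℝ) ≤ Real.exp ((2 : ℕ) : ℝ) := by
    rw [h3]
    calc (6 : ℝ) ≤ 2.7 ^ 2 := by norm_num
      _ ≤ Real.exp 1 ^ 2 := pow_le_pow_left₀ (by norm_num) h4 2
  rw [Real.exp_neg, one_div]
  exact inv_anti₀ (by norm_num) h1

theorem main_exp3 : Real.exp (-((3 : ℕ) : ℝ)) ≤ 1 / 13 := by
  have h4 : (2.7 : ℝ) ≤ Real.exp 1 := by have := Real.exp_one_gt_d9; linarith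
  have h3 : Real.exp ((3 : ℕ) : ℝ) = Real.exp 1 ^ 3 := by rw [← Real.exp_nat_mul]; norm_num
  have h1 : (13 : ℝ) ≤ Real.exp ((3 : ℕ) : ℝ) := by
    rw [h3]
    calc (13 : ℝ) ≤ 2.7 ^ 3 := by norm_num
      _ ≤ Real.exp 1 ^ 3 := pow_le_pow_left₀ (by norm_num) h4 3
  rw [Real.exp_neg, one_div]
  exact inv_anti₀ (by norm_num) h1

/-- `(1/4)^d` is quasipolynomially not small. -/
theorem main_four (C : ℕ) {X : ℝ} (hX : 1 ≤ X) {d : ℕ} (hd : (d : ℝ) ≤ pl C X) : qs (2 * C + 2 + C) X ≤ (1 / 4 : ℝ) ^ d :=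
  qs_pow_ge 2 C hX (qs_le_of_exp 2 hX (le_trans main_exp2 (by norm_num))) hd

/-- numerics 1: `η / 4^d / 13` is quasipolynomially not small. -/
theorem main_num1 (C : ℕ) : ∃ C' : ℕ, ∀ (X : ℝ), 1 ≤ X → ∀ (η : ℝ) (d : ℕ), qs C X ≤ η → (d : ℝ) ≤ pl C X →
    qs C' X ≤ η / 4 ^ d / 13 := by
  refine ⟨C + (2 * C + 2 + C) + 3, fun X hX η d hη hd => ?_⟩
  have h1 := main_four C hX hd
  have h2 : qs 3 X ≤ 1 / 13 := qs_le_of_exp 3 hX main_exp3
  calc qs (C + (2 * C + 2 + C) + 3) X ≤ qs (C + (2 * C + 2 + C)) X * qs 3 X := qs_mul_ge _ _ hX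
    _ ≤ (qs C X * qs (2 * C + 2 + C) X) * qs 3 X :=
        mul_le_mul_of_nonneg_right (qs_mul_ge _ _ hX) (qs_pos _ _).le
    _ ≤ (η * (1 / 4 : ℝ) ^ d) * (1 / 13) := by
        apply mul_le_mul (mul_le_mul hη h1 (qs_pos _ _).le (le_trans (qs_pos _ _).le hη)) h2 (qs_pos _ _).le
        exact mul_nonneg (le_trans (qs_pos _ _).le hη) (by positivity)
    _ = η / 4 ^ d / 13 := by rw [one_div, inv_pow]; ring

/-- numerics 2: the final correlation constant. -/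
theorem main_num2 (C C' : ℕ) : ∃ C'' : ℕ, ∀ (X : ℝ), 1 ≤ X → ∀ (η ρ : ℝ) (d d' : ℕ), qs C X ≤ η → (d : ℝ) ≤ pl C X →
    qs C' X ≤ ρ → (d' : ℝ) ≤ pl C' X → qs C'' X ≤ η / 4 ^ d / 4 * ((ρ / 6) ^ d') ^ 2 := by
  set A : ℕ := (C' + 2) * C' + (C' + 2) + C' with hA
  refine ⟨C + (2 * C + 2 + C) + 2 + (A + A), fun X hX η ρ d d' hη hd hρ hd' => ?_⟩
  have h1 := main_four C hX hd
  have h2 : qs 2 X ≤ 1 / 4 := qs_le_of_exp 2 hX (le_trans main_exp2 (by norm_num))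
  have h6 : qs 2 X ≤ 1 / 6 := qs_le_of_exp 2 hX main_exp2
  have hη0 : 0 ≤ η := le_trans (qs_pos _ _).le hη
  have hρ0 : 0 ≤ ρ := le_trans (qs_pos _ _).le hρ
  have h3 : qs (C' + 2) X ≤ ρ / 6 := by
    calc qs (C' + 2) X ≤ qs C' X * qs 2 X := qs_mul_ge _ _ hX
      _ ≤ ρ * (1 / 6) := mul_le_mul hρ h6 (qs_pos _ _).le hρ0
      _ = ρ / 6 := by ring
  have h4 : qs A X ≤ (ρ / 6) ^ d' := qs_pow_ge (C' + 2) C' hX h3 hd'
  have h5 : qs (A + A) X ≤ ((ρ / 6) ^ d') ^ 2 := by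
    calc qs (A + A) X ≤ qs A X * qs A X := qs_mul_ge _ _ hX
      _ ≤ (ρ / 6) ^ d' * (ρ / 6) ^ d' := mul_le_mul h4 h4 (qs_pos _ _).le (by positivity)
      _ = ((ρ / 6) ^ d') ^ 2 := by ring
  have h7 : qs (C + (2 * C + 2 + C) + 2) X ≤ η / 4 ^ d / 4 := by
    calc qs (C + (2 * C + 2 + C) + 2) X ≤ qs (C + (2 * C + 2 + C)) X * qs 2 X := qs_mul_ge _ _ hX
      _ ≤ (qs C X * qs (2 * C + 2 + C) X) * qs 2 X :=
          mul_le_mul_of_nonneg_right (qs_mul_ge _ _ hX) (qs_pos _ _).le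
      _ ≤ (η * (1 / 4 : ℝ) ^ d) * (1 / 4) := by
          apply mul_le_mul (mul_le_mul hη h1 (qs_pos _ _).le hη0) h2 (qs_pos _ _).le
          exact mul_nonneg hη0 (by positivity)
      _ = η / 4 ^ d / 4 := by rw [one_div, inv_pow]; ring
  calc qs (C + (2 * C + 2 + C) + 2 + (A + A)) X ≤ qs (C + (2 * C + 2 + C) + 2) X * qs (A + A) X := qs_mul_ge _ _ hX
    _ ≤ η / 4 ^ d / 4 * ((ρ / 6) ^ d') ^ 2 := mul_le_mul h7 h5 (qs_pos _ _).le (by positivity)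

/-- the cube sum is a nonnegative real number (`cube_eq_sum_sq2`, `ft_sq2`). -/
theorem cube_re_eq_norm {N : ℕ} [NeZero N] (F : ZMod N → ℂ) : (cube F).re = ‖cube F‖ := by
  have hNR : (0 : ℝ) < N := by exact_mod_cast Nat.pos_of_ne_zero (NeZero.ne N)
  have h1 : ∀ g : ZMod N → ℂ, sq2 g = (((∑ ξ, ‖ft g ξ‖ ^ 4) / N : ℝ) : ℂ) := by
    intro g
    have := ft_sq2 g
    have hN0 : (N : ℂ) ≠ 0 := by exact_mod_cast hNR.ne'
    rw [Complex.ofReal_div, this]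
    push_cast
    field_simp
  have h2 : cube F = ((∑ h, (∑ ξ, ‖ft (fun x => F x * conj (F (x + h))) ξ‖ ^ 4) / N : ℝ) : ℂ) := by
    rw [cube_eq_sum_sq2, Complex.ofReal_sum]
    exact Finset.sum_congr rfl fun h _ => h1 _
  rw [h2, Complex.ofReal_re, Complex.norm_real, Real.norm_eq_abs, abs_of_nonneg]
  exact Finset.sum_nonneg fun h _ => div_nonneg (Finset.sum_nonneg fun ξ _ => by positivity) hNR.le

/-- **The inverse theorem in `ZMod N`**: correlation with a locally quadratic phase in bracket form, on all Bohr sets with radius in `[2ρ/3, ρ]`. -/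
theorem u3_zmod_main : ∀ C₀ : ℕ, ∃ C : ℕ, ∀ (X : ℝ), 1 ≤ X → ∀ (N : ℕ) [Fact N.Prime], N ≠ 2 → ∀ (F : ZMod N → ℂ) (η : ℝ),
    (∀ x, ‖F x‖ ≤ 1) → qs C₀ X ≤ η → η * (N : ℝ) ^ 4 ≤ (cube F).re →
    ∃ (S : Finset (ZMod N)) (ρ c : ℝ) (Mp : ZMod N → ZMod N) (α : ZMod N → ℝ),
      (S.card : ℝ) ≤ pl C X ∧ qs C X ≤ ρ ∧ ρ ≤ 1 / 32 ∧ qs C X ≤ c ∧ c ≤ 1 ∧
      (∀ h ∈ zbohr S ρ, ∃ m : ℤ, fr (Mp h) = ∑ s ∈ S, α s * fr (s * h) + m) ∧
      ∀ ρ₁ : ℝ, 2 * ρ / 3 ≤ ρ₁ → ρ₁ ≤ ρ → ∃ xs ξ : ZMod N,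
        c * N ≤ ‖∑ x ∈ zbohr S ρ₁, F (xs + x) * eN (-(Mp x * x + ξ * x))‖ := by
  intro C₀
  obtain ⟨C₁, h1⟩ := u3_toStar C₀
  obtain ⟨C₂, hnum1⟩ := main_num1 C₁
  obtain ⟨C₄, hsym⟩ := u3_sym (max C₁ C₂)
  obtain ⟨C₅, hbrk⟩ := u3_brk (C₄ + 1)
  obtain ⟨C₆, hnum2⟩ := main_num2 C₁ (max C₅ (C₄ + 1))
  refine ⟨max (C₄ + 1) (max C₅ C₆), ?_⟩
  intro X hX N _ hN2 F η hF hη hcube
  classical
  obtain ⟨S₀, r₀, η₁, M, hS₀, hr₀, hr₀', hη₁, hStar⟩ := h1 X hX N F η hF hη hcube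
  obtain ⟨x₀, f₂, hf₂, hcorr⟩ := hStar.corr
  have hNpos : (0 : ℝ) < N := by exact_mod_cast (Fact.out : N.Prime).pos
  have hr₀pos : 0 < r₀ := lt_of_lt_of_le (qs_pos _ _) hr₀
  -- normalise `η₁ ≤ 1`
  set η₂ : ℝ := min η₁ 1 with hη₂
  have hη₂1 : η₂ ≤ 1 := min_le_right _ _
  have hη₂q : qs C₁ X ≤ η₂ := le_min hη₁ (qs_le_one _ hX)
  have hη₂pos : 0 < η₂ := lt_of_lt_of_le (qs_pos _ _) hη₂q
  set f₁ : ZMod N → ℂ := fun x => F (x + x₀) with hf₁def
  have hf₁ : ∀ x, ‖f₁ x‖ ≤ 1 := fun x => hF _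
  have hcorr₂ : η₂ * (zbohr S₀ r₀).card * (N : ℝ) ^ 2 ≤ ∑ h ∈ zbohr S₀ r₀, ‖dcoef f₁ f₂ h (M h)‖ ^ 2 := by
    refine le_trans ?_ hcorr
    have : η₂ ≤ η₁ := min_le_left _ _
    gcongr
  -- the parameter `t = η₂ / 4^d`
  set t : ℝ := η₂ / 4 ^ S₀.card with ht
  have ht0 : 0 < t := by positivity
  have ht1 : t ≤ 1 := by
    rw [ht, div_le_one (by positivity)]
    exact le_trans hη₂1 (one_le_pow₀ (by norm_num))
  set ε : ℝ := t / 13 with hεdef
  have hεq : qs C₂ X ≤ ε := hnum1 X hX η₂ S₀.card hη₂q hS₀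
  have hε : (2 * Real.pi * ε) ^ 2 ≤ t / 4 := by
    have hpi : Real.pi < 3.15 := Real.pi_lt_d2
    have hpi0 : 0 < Real.pi := Real.pi_pos
    have h2 : (2 * Real.pi * ε) ^ 2 = (4 * Real.pi ^ 2 / 169) * t ^ 2 := by rw [hεdef]; ring
    have h3 : Real.pi ^ 2 ≤ 3.15 ^ 2 := pow_le_pow_left₀ hpi0.le hpi.le 2
    have h4 : t ^ 2 ≤ t := by
      calc t ^ 2 = t * t := sq t
        _ ≤ t * 1 := mul_le_mul_of_nonneg_left ht1 ht0.le
        _ = t := mul_one t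
    rw [h2]
    have h5 : 4 * Real.pi ^ 2 / 169 ≤ 1 / 4 := by norm_num at h3 ⊢; linarith
    calc 4 * Real.pi ^ 2 / 169 * t ^ 2 ≤ 1 / 4 * t := mul_le_mul h5 h4 (by positivity) (by norm_num)
      _ = t / 4 := by ring
  -- symmetry
  obtain ⟨S₁, r₁, hS₀₁, hcard₁, hr₁, hr₁r₀, hsm⟩ := hsym X hX N hN2 S₀ r₀ η₂ ε M f₁ f₂
    (le_trans hS₀ (pl_mono (le_max_left _ _) hX)) (le_trans (qs_anti (le_max_left _ _) hX) hr₀) (by linarith)
    (le_trans (qs_anti (le_max_left _ _) hX) hη₂q) (le_trans (qs_anti (le_max_right _ _) hX) hεq)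
    hStar.lin hf₁ hf₂ hcorr₂
  have hr₁pos : 0 < r₁ := lt_of_lt_of_le (qs_pos _ _) hr₁
  set S : Finset (ZMod N) := insert 1 S₁ with hSdef
  have hS₁S : S₁ ⊆ S := Finset.subset_insert _ _
  have hS₀S : S₀ ⊆ S := hS₀₁.trans hS₁S
  have hcardS : (S.card : ℝ) ≤ pl (C₄ + 1) X := by
    have h1 : (S.card : ℝ) ≤ S₁.card + 1 := by exact_mod_cast Finset.card_insert_le _ _
    have h2 : (1 : ℝ) ≤ pl 1 X := by simpa using natCast_le_pl 1 hX
    have h3 := pl_add_le C₄ 1 hX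
    linarith
  set Mp : ZMod N → ZMod N := fun x => (2 : ZMod N)⁻¹ * M x with hMp
  have hLin : LocLin S r₁ Mp := (hStar.lin.mono hS₀S (by linarith)).const_mul _
  obtain ⟨ρ, α, hρq, hρr₁, hbr⟩ := hbrk X hX N S r₁ Mp (Finset.mem_insert_self _ _) hcardS
    (le_trans (qs_anti (Nat.le_succ _) hX) hr₁) (by linarith) hLin
  have hρpos : 0 < ρ := lt_of_lt_of_le (qs_pos _ _) hρq
  set c : ℝ := t / 4 * ((ρ / 6) ^ S.card) ^ 2 with hc
  have hcq : qs C₆ X ≤ c := hnum2 X hX η₂ ρ S₀.card S.card hη₂q hS₀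
    (le_trans (qs_anti (le_max_left _ _) hX) hρq) (le_trans hcardS (pl_mono (le_max_right _ _) hX))
  have hc0 : 0 < c := lt_of_lt_of_le (qs_pos _ _) hcq
  have hρ6 : (ρ / 6) ^ S.card ≤ 1 := pow_le_one₀ (by positivity) (by linarith)
  have hc1 : c ≤ 1 := by
    have h5 : ((ρ / 6) ^ S.card) ^ 2 ≤ 1 := pow_le_one₀ (by positivity) hρ6
    have h6 : 0 ≤ ((ρ / 6) ^ S.card) ^ 2 := by positivity
    rw [hc]
    calc t / 4 * ((ρ / 6) ^ S.card) ^ 2 ≤ 1 * 1 := mul_le_mul (by linarith) h5 h6 (by norm_num)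
      _ = 1 := one_mul 1
  refine ⟨S, ρ, c, Mp, α, le_trans hcardS (pl_mono (le_max_left _ _) hX),
    le_trans (qs_anti (le_trans (le_max_left _ _) (le_max_right _ _)) hX) hρq, by linarith,
    le_trans (qs_anti (le_trans (le_max_right _ _) (le_max_right _ _)) hX) hcq, hc1, hbr, ?_⟩
  intro ρ₁ hρ₁l hρ₁u
  obtain ⟨xs, ξ, hint⟩ := u3_int hN2 S₀ S hS₀S (r := r₀) (ρ := r₁) (r' := ρ / 3) (r'' := ρ₁ - ρ / 3) (η := η₂) (ε := ε)
    hr₁r₀ (by positivity) (by linarith) (by linarith) M hStar.lin f₁ f₂ hf₁ hf₂ hcorr₂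
    (fun x hx y hy => hsm x (zbohr_anti hS₁S _ hx) y (zbohr_anti hS₁S _ hy)) hε
  refine ⟨xs + x₀, ξ, ?_⟩
  have hB1 : (ρ / 6) ^ S.card * N ≤ ((zbohr S (ρ / 3)).card : ℝ) := by
    have := card_zbohr_ge S (r := ρ / 3) (by positivity) (by linarith)
    have e : ρ / 3 / 2 = ρ / 6 := by ring
    rwa [e] at this
  have hB2 : (ρ / 6) ^ S.card * N ≤ ((zbohr S (ρ₁ - ρ / 3)).card : ℝ) := by
    refine le_trans hB1 ?_
    exact_mod_cast Finset.card_le_card (zbohr_mono S (by linarith))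
  have hsum : ∑ x ∈ zbohr S (ρ / 3 + (ρ₁ - ρ / 3)), f₁ (xs + x) * eN (-((2 : ZMod N)⁻¹ * M x * x + ξ * x)) =
      ∑ x ∈ zbohr S ρ₁, F (xs + x₀ + x) * eN (-(Mp x * x + ξ * x)) := by
    have e : ρ / 3 + (ρ₁ - ρ / 3) = ρ₁ := by ring
    rw [e]
    refine Finset.sum_congr rfl fun x _ => ?_
    have : xs + x + x₀ = xs + x₀ + x := by ring
    simp only [hf₁def, hMp, this]
  rw [hsum] at hint
  set Sg := ‖∑ x ∈ zbohr S ρ₁, F (xs + x₀ + x) * eN (-(Mp x * x + ξ * x))‖ with hSg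
  have hP : 0 ≤ (ρ / 6) ^ S.card * N := by positivity
  have hlow : c * (N : ℝ) ^ 2 ≤ Sg ^ 2 := by
    refine le_trans ?_ hint
    calc c * (N : ℝ) ^ 2 = t / 4 * ((ρ / 6) ^ S.card * N) * ((ρ / 6) ^ S.card * N) := by rw [hc]; ring
      _ ≤ t / 4 * (zbohr S (ρ / 3)).card * (zbohr S (ρ₁ - ρ / 3)).card := by
          gcongr
  have hsq : (c * N) ^ 2 ≤ Sg ^ 2 := by
    refine le_trans ?_ hlow
    have : c ^ 2 ≤ c := by
      calc c ^ 2 = c * c := sq c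
        _ ≤ c * 1 := mul_le_mul_of_nonneg_left hc1 hc0.le
        _ = c := mul_one c
    calc (c * N) ^ 2 = c ^ 2 * (N : ℝ) ^ 2 := by ring
      _ ≤ c * (N : ℝ) ^ 2 := by gcongr
  exact (pow_le_pow_iff_left₀ (by positivity) (norm_nonneg _) (by norm_num)).1 hsq

/-- numerics 3. -/
theorem main_num3 {δ : ℝ} (hδ : 0 < δ) (hδ1 : δ ≤ 1) : qs 20 (1 + Real.log (1 / δ)) ≤ δ ^ 8 / 65536 := by
  set X : ℝ := 1 + Real.log (1 / δ) with hXdef
  have hlog : 0 ≤ Real.log (1 / δ) := Real.log_nonneg (by rw [le_div_iff₀ hδ]; linarith)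
  have hX : 1 ≤ X := by linarith
  have h1 : (20 : ℝ) * X ≤ pl 20 X := by
    unfold pl
    have : X ≤ X ^ 20 := by
      calc X = X ^ 1 := (pow_one X).symm
        _ ≤ X ^ 20 := pow_le_pow_right₀ hX (by norm_num)
    push_cast
    linarith
  have h2 : qs 20 X ≤ Real.exp (-(20 * X)) := by
    unfold qs
    exact Real.exp_le_exp.2 (neg_le_neg h1)
  have h3 : Real.exp (-(20 * X)) = Real.exp (-((20 : ℕ) : ℝ)) * δ ^ 20 := by
    have e : -(20 * X) = -((20 : ℕ) : ℝ) + ((20 : ℕ) : ℝ) * Real.log δ := by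
      rw [hXdef, one_div, Real.log_inv]; push_cast; ring
    rw [e, Real.exp_add, Real.exp_nat_mul, Real.exp_log hδ]
  have h4 : Real.exp (-((20 : ℕ) : ℝ)) ≤ 1 / 65536 := by
    have h5 : (2 : ℝ) ≤ Real.exp 1 := by have := Real.add_one_le_exp (1 : ℝ); linarith
    have h6 : Real.exp ((20 : ℕ) : ℝ) = Real.exp 1 ^ 20 := by rw [← Real.exp_nat_mul]; norm_num
    have h7 : (65536 : ℝ) ≤ Real.exp ((20 : ℕ) : ℝ) := by
      rw [h6]
      calc (65536 : ℝ) ≤ 2 ^ 20 := by norm_num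
        _ ≤ Real.exp 1 ^ 20 := pow_le_pow_left₀ (by norm_num) h5 20
    rw [Real.exp_neg, one_div]
    exact inv_anti₀ (by norm_num) h7
  have h8 : δ ^ 20 ≤ δ ^ 8 := pow_le_pow_of_le_one hδ.le hδ1 (by norm_num)
  calc qs 20 X ≤ Real.exp (-((20 : ℕ) : ℝ)) * δ ^ 20 := by rw [← h3]; exact h2
    _ ≤ 1 / 65536 * δ ^ 8 := mul_le_mul h4 h8 (by positivity) (by norm_num)
    _ = δ ^ 8 / 65536 := by ring

/-- numerics 4: `qs (C + k) X ≤ e^(-k) qs C X`. -/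
theorem qs_add_le (C k : ℕ) {X : ℝ} (hX : 1 ≤ X) : qs (C + k) X ≤ Real.exp (-(k : ℝ)) * qs C X := by
  have h1 := qs_mul_ge C k hX
  have h2 : qs k X ≤ Real.exp (-(k : ℝ)) := by
    unfold qs
    exact Real.exp_le_exp.2 (neg_le_neg (natCast_le_pl k hX))
  calc qs (C + k) X ≤ qs C X * qs k X := h1
    _ ≤ qs C X * Real.exp (-(k : ℝ)) := mul_le_mul_of_nonneg_left h2 (qs_pos _ _).le
    _ = _ := mul_comm _ _

/-- **THE QUASIPOLYNOMIAL INVERSE THEOREM FOR `U^3` ON INTERVALS, BRACKET FORM** (interface to Section 4 of the paper). -/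
theorem u3_main : ∃ C : ℕ, ∀ (L : ℕ) (δ : ℝ) (f : ℤ → ℂ), 1 ≤ L → 0 < δ → δ ≤ 1 →
    (∀ n, ‖f n‖ ≤ 1) → (∀ n, f n ≠ 0 → 0 ≤ n ∧ n < L) → δ ^ 8 * (L : ℝ) ^ 4 ≤ ‖cubeZ L f‖ →
    ∃ (d : ℕ) (θ a : Fin d → ℝ) (y : ℤ) (β ρ κ : ℝ),
      (d : ℝ) ≤ pl C (1 + Real.log (1 / δ)) ∧ qs C (1 + Real.log (1 / δ)) ≤ ρ ∧ ρ ≤ 1 / 32 ∧
      qs C (1 + Real.log (1 / δ)) ≤ κ ∧ κ ≤ 1 / 2 ∧
      ∀ χ : (Fin d → ℝ) → ℝ, (∀ v, 0 ≤ χ v ∧ χ v ≤ 1) → (∀ v, (∀ j, |v j| ≤ ρ * (1 - κ)) → χ v = 1) →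
        (∀ v, (∃ j, ρ < |v j|) → χ v = 0) →
        qs C (1 + Real.log (1 / δ)) * L ≤
          ‖∑ n ∈ Finset.Ico (0 : ℤ) L, f n * (χ (fun j => sfr (θ j * ((n : ℝ) - y))) : ℂ) *
            eR (-(∑ j, a j * ((n : ℝ) - y) * sfr (θ j * ((n : ℝ) - y)) + β * n))‖ := by
  obtain ⟨C₁, hz⟩ := u3_zmod_main 20
  refine ⟨C₁ + 3, ?_⟩
  intro L δ f hL hδ hδ1 hf hsupp hcube
  set X : ℝ := 1 + Real.log (1 / δ) with hXdef
  have hX : 1 ≤ X := by
    have : 0 ≤ Real.log (1 / δ) := Real.log_nonneg (by rw [le_div_iff₀ hδ]; linarith)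
    linarith
  obtain ⟨N, hNp, hN1, hN2⟩ := Nat.exists_prime_lt_and_le_two_mul (8 * L) (by omega)
  haveI : Fact N.Prime := ⟨hNp⟩
  have hNne2 : N ≠ 2 := by omega
  have hodd : Odd N := hNp.odd_of_ne_two hNne2
  have hLpos : (0 : ℝ) < L := by exact_mod_cast hL
  have hNpos : (0 : ℝ) < N := by exact_mod_cast hNp.pos
  have hNL : (N : ℝ) ≤ 16 * L := by exact_mod_cast (by omega : N ≤ 16 * L)
  have hLN : (L : ℝ) ≤ N := by exact_mod_cast (by omega : L ≤ N)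
  have hF : ∀ x, ‖per N f x‖ ≤ 1 := fun x => hf _
  have hcube' : δ ^ 8 / 65536 * (N : ℝ) ^ 4 ≤ (cube (per N f)).re := by
    rw [cube_re_eq_norm, cube_transfer L N (by omega) f hsupp]
    refine le_trans ?_ hcube
    have h4 : (N : ℝ) ^ 4 ≤ (16 * L) ^ 4 := pow_le_pow_left₀ hNpos.le hNL 4
    calc δ ^ 8 / 65536 * (N : ℝ) ^ 4 ≤ δ ^ 8 / 65536 * (16 * L) ^ 4 := by gcongr
      _ = δ ^ 8 * (L : ℝ) ^ 4 := by ring
  obtain ⟨S, ρ, c, Mp, α, hScard, hρq, hρ32, hcq, hc1, hbr, hcorr⟩ :=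
    hz X hX N hNne2 (per N f) (δ ^ 8 / 65536) hF (main_num3 hδ hδ1) hcube'
  have hρpos : 0 < ρ := lt_of_lt_of_le (qs_pos _ _) hρq
  have hc0 : 0 < c := lt_of_lt_of_le (qs_pos _ _) hcq
  obtain ⟨ρ₁, hρ₁l, hρ₁u, hann⟩ := fin_annulus S hρpos hc0 hc1
  obtain ⟨xs, ξ, hxs⟩ := hcorr ρ₁ hρ₁l hρ₁u
  obtain ⟨σ, θ, a, y, β, hmem, hconv⟩ := fin_convert hodd L (by omega) f hsupp S ρ Mp α hbr xs ξ
  have he3 : Real.exp (-((3 : ℕ) : ℝ)) ≤ 1 / 9 := by
    have h1 : (9 : ℝ) ≤ Real.exp ((3 : ℕ) : ℝ) := by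
      have h2 : (2 : ℝ) ≤ Real.exp 1 := by
        have := Real.add_one_le_exp (1 : ℝ); linarith
      have h3 : Real.exp ((3 : ℕ) : ℝ) = Real.exp 1 ^ 3 := by
        rw [← Real.exp_nat_mul]; norm_num
      have h4 : (2.7 : ℝ) ≤ Real.exp 1 := by
        have := Real.exp_one_gt_d9; linarith
      rw [h3]
      calc (9 : ℝ) ≤ 2.7 ^ 3 := by norm_num
        _ ≤ Real.exp 1 ^ 3 := pow_le_pow_left₀ (by norm_num) h4 3
    rw [Real.exp_neg, one_div]
    exact inv_anti₀ (by norm_num) h1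
  have hq3 : qs (C₁ + 3) X ≤ 1 / 9 * qs C₁ X :=
    le_trans (qs_add_le C₁ 3 hX) (mul_le_mul_of_nonneg_right he3 (qs_pos _ _).le)
  have hqpos := qs_pos C₁ X
  refine ⟨S.card, θ, a, y, β, ρ₁, c / 9, le_trans hScard (pl_mono (Nat.le_add_right _ _) hX), ?_, by linarith, ?_,
    by linarith, ?_⟩
  · linarith
  · linarith
  intro χ h01 h1 h0
  have hcut := fin_cutoff S (ρ₁ := ρ₁) (κ := c / 9) (c := c) hann
    (fun x => per N f (xs + x) * eN (-(Mp x * x + ξ * x)))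
    (fun x => by rw [norm_mul, norm_eN, mul_one]; exact hF _) hxs
    (fun x => χ (fun j => fr (σ j * x))) (fun x => h01 _)
    (fun x hx => h1 _ ((hmem x _).1 hx))
    (fun x hx => h0 _ (by
      by_contra hcon
      push_neg at hcon
      exact hx ((hmem x _).2 hcon)))
  rw [hconv ρ₁ hρ₁u χ h0]
  refine le_trans ?_ hcut
  calc qs (C₁ + 3) X * L ≤ (c / 2) * L := by
        apply mul_le_mul_of_nonneg_right _ hLpos.le
        linarith
    _ ≤ c / 2 * N := by gcongr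

end Claimed.Agent.R258.U3
end

/- ===== packed: Claimed.Agent.R258.U3.Bridge ===== -/
section
/-
R258 / U3 / Bridge : the interface `s4b_U3Target` of block [S4b] (helper99) follows from `u3_main`.   Owner: helper52.  PROVED (no open leaf here).
-/
set_option autoImplicit false

namespace Claimed.Agent.R258.U3

open Finset
open scoped ComplexConjugate

theorem bridge_cube (L : ℕ) (f : ℤ → ℂ) : s4b_cubeSum L f = cubeZ L f := by
  unfold s4b_cubeSum cubeZ s4b_cubeProd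
  rfl

theorem bridge_qp (C : ℕ) (x : ℝ) : (s4b_qp C x)⁻¹ = qs C (1 + x) := by
  unfold s4b_qp qs pl
  rw [Real.exp_neg]

theorem bridge_ee (t : ℝ) : ee t = eR t := by
  unfold ee eR
  congr 1
  ring

/-- **The `U^3` interface of block S4b.** -/
theorem u3_target : s4b_U3Target := by
  obtain ⟨C, h⟩ := u3_main
  refine ⟨C, ?_⟩
  intro L δ f hδ hδ1 hL hf hsupp hcube
  rw [bridge_cube] at hcube
  obtain ⟨d, θ, a, y, β, ρ, κ, hd, hρ, hρ', hκ, hκ', hχ⟩ := h L δ f hL hδ (by linarith) hf hsupp (hcube.trans (Complex.re_le_norm _))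
  refine ⟨d, θ, a, y, 0, β, ρ, κ, hd, ?_, by linarith, ?_, ?_⟩
  · rw [bridge_qp]; exact hρ
  · rw [bridge_qp]; exact hκ
  intro χ h01 h1 h0
  have := hχ χ h01 h1 h0
  rw [bridge_qp, mul_comm]
  refine le_trans this (le_of_eq ?_)
  congr 1
  refine Finset.sum_congr rfl fun n _ => ?_
  rw [bridge_ee]
  unfold s4b_brPhase s4b_fr sfr
  congr 3
  ring

end Claimed.Agent.R258.U3
end
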