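/-
Row 258 (S0498).  THE TOP OF THE CHAIN (captain: helper244).  Everything below is glue (proved).  `r258_top` has NO hypotheses: the row is complete as soon
as all files of its import closure are sorry-free; then `Claimed/Agent/S0498.lean` is `exact r258_top`.

  Sec. 2 `s2_main`;  Secs. 3, 5, 10.4 `s5_baseGoal'`, `s5_restrictOk`, `s5_baseExtra`;  Sec. 4 `u3_target`, `s4a_pair_detect`, `wy_Weyl1`;
  Sec. 3 `att_comprGoal`;  Sec. 6 `loc_mainGoal2`, `loc_helperGoal`;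
  Sec. 7 `sb_shortBlock`, `nearBandGoal_of_shortBlock`, `nearGoal_of`, `leafGoal_of`, `s7_powerGoal`, `adpGoal_of`;
  Sec. 8 `s8_goal`;  Sec. 9 `s9_goal`;  Sec. 10 `attemptGoal_of`, `coreGoal_of_attempt`.
-/
import Claimed.Agent.R258.S2.Main
import Claimed.Agent.R258.Pack015
import Claimed.Agent.R258.S10.AttProof
import Claimed.Agent.R258.S5.DetAdapt
import Claimed.Agent.R258.S5.Restrict
import Claimed.Agent.R258.S7.Power
import Claimed.Agent.R258.S7.Nb2Main
import Claimed.Agent.R258.Pack025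
import Claimed.Agent.R258.S4a.Pair
import Claimed.Agent.R258.Weyl.Adapt1
import Claimed.Agent.R258.Loc.Main
import Claimed.Agent.R258.S7.Adapt
import Claimed.Agent.R258.S8.Goal
import Claimed.Agent.R258.S9.AdMain

set_option autoImplicit false
open MeasureTheory

namespace Claimed.Agent.R258

theorem r258_top :
    ∃ C : ℝ, ∀ f₁ f₂ f₃ : SchwartzMap ℝ ℂ,
      eLpNorm (Claims.C0426.trilinearHilbert f₁ f₂ f₃) 1 volume ≤
        ENNReal.ofReal C * (eLpNorm (f₁ : ℝ → ℂ) 3 volume * eLpNorm (f₂ : ℝ → ℂ) 3 volume *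
          eLpNorm (f₃ : ℝ → ℂ) 3 volume) := by
  refine s2_main fun c0 C0 hc0 hC0 => normalizedGoal_of c0 C0
    (s5_baseGoal' c0 C0 hc0 hC0 U3.u3_target (s4a_pair_detect wy_Weyl1 c0 C0 hc0 hC0)) ?_
  have hPower : PowerGoal := s7_powerGoal
  have hNB : NearBandGoal c0 C0 := nearBandGoal_of_shortBlock hc0 (sb_shortBlock c0 C0 hc0 hC0)
  have hN : NearGoal c0 C0 := nearGoal_of c0 C0 hc0 hC0 hNB hPower
  have hL : LeafGoal c0 C0 := leafGoal_of c0 C0 hc0 hC0 hN hPower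
  have hA : AttemptGoal c0 C0 := attemptGoal_of (fun _ M p => M.S9Kit p) c0 C0 (loc_mainGoal2 c0 C0 hc0 hC0)
    (loc_helperGoal c0 C0 hc0) (s8_goal c0 C0 hc0 hC0) (s9_goal c0 C0 hc0 hC0) (adpGoal_of c0 C0 hc0 hC0) att_comprGoal
    (s5_baseExtra c0 C0)
  exact coreGoal_of_attempt c0 C0 hA hL (fun q θ Cb => s5_restrictOk c0 C0 q θ Cb)

end Claimed.Agent.R258
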